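import Vale.Agent.P239.Full.FDef2

/-! Task FEnv: basic facts on random equivalence relations.
`ae_all`: a.e. statements are preserved by the measure preserving maps `sh g`, `G` is countable. `ae_locfin`: `ae_finite_setOf_mem` (Borel-Cantelli) with `fin`.
`mtp`: `∫ F ξ (1,j) (y,i) = ∫ F (sh y⁻¹ ξ) (y⁻¹, j) (1, i) = ∫ F ξ (y⁻¹, j) (1, i)`, reindex `y ↦ y⁻¹`. `ae_m_iff`: `ae_restrict_iff'`, `Measure.ae_ae_of_ae_prod`, and for the converse a countable union of null sets `N p ×ˢ {p}`.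
`ae_pi_two`, `ae_pi_three`: `measurePreserving_piFinTwo`, `measurePreserving_piFinSuccAbove` or direct: the map `(a, b, c) ↦ ![a, b, c]` is measure preserving from the product measure. `ae_pi_pair`: the map `ξ ↦ (ξ a, ξ b)` is measure preserving for `a ≠ b`.
-/

noncomputable section

open Classical MeasureTheory Filter Topology Set
open scoped Pointwise ENNReal

namespace Vale.Agent.P239

universe u
variable {G : Type u} [Group G] {S : Finset G} {l : ℕ} {Q : Cones S} {B : Bdry S}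
  {X : Type u} [MeasurableSpace X]

theorem cfD_sh (g : G) (ω : Cf G) : cfD (cfSh g ω) = g • cfD ω := by
  ext x
  rw [Set.mem_smul_set_iff_inv_smul_mem]
  rfl

theorem cfY_sh (g : G) (ω : Cf G) : cfY (cfSh g ω) = g • cfY ω := by
  ext x
  rw [Set.mem_smul_set_iff_inv_smul_mem]
  rfl

theorem cfZ_sh (g : G) (ω : Cf G) (σ q : ℕ) : cfZ (cfSh g ω) σ q = g • cfZ ω σ q := by
  ext x
  rw [Set.mem_smul_set_iff_inv_smul_mem]
  rfl

theorem cfSh_mul (g h : G) (ω : Cf G) : cfSh (g * h) ω = cfSh g (cfSh h ω) := by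
  funext x
  simp only [cfSh, mul_inv_rev, mul_assoc]

theorem cfSh_one (ω : Cf G) : cfSh 1 ω = ω := by
  funext x
  simp only [cfSh, inv_one, one_mul]

theorem WD.mono {T : Finset G} {C C' : Set G} (h : WD S T C) (h' : C' ⊆ C) : WD S T C' :=   fun u hu f hf hs hd => h u hu f hf (fun x b hx => ⟨h' (hs x b hx).1, h' (hs x b hx).2⟩) hd

theorem WD.smul {T : Finset G} {C : Set G} (h : WD S T C) (g : G) : WD S T (g • C) := by
  intro u hu f hf hs hd
  have h1 := h (fun x => u (g * x)) (hu.translate g).1 (fun x b => f (g * x) b)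
    (fun b hb => (Equiv.mulLeft g).summable_iff.2 (hf b hb))
    (fun x b hx => by
      have h2 := hs _ _ hx
      rw [mul_assoc] at h2
      exact ⟨Set.smul_mem_smul_set_iff.1 h2.1, Set.smul_mem_smul_set_iff.1 h2.2⟩)
    (fun y => by simpa only [mul_assoc] using hd (g * y))
  rw [← h1, pairE, pairE, ← (Equiv.mulLeft g).tsum_eq]
  simp only [Equiv.coe_mulLeft, mul_assoc]

theorem Tail.smul {D : Set G} (h : Tail S D) (g : G) : Tail S (g • D) := by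
  intro x
  have h1 := h (g⁻¹ * x)
  simp only [← Pk_ind_smul _ D g (g⁻¹ * x), mul_inv_cancel_left] at h1
  exact h1

theorem CfOK.sh {ω : Cf G} (h : CfOK S ω) (g : G) : CfOK S (cfSh g ω) := by
  refine ⟨?_, fun σ q x hx y hy hb => ?_, fun σ x => h.cov σ (g⁻¹ * x), ?_, fun ρ => ?_⟩
  · rw [cfD_sh, cfY_sh, wallV_smul, h.wall]
  · refine mul_left_cancel (h.sep σ q (g⁻¹ * x) hx (g⁻¹ * y) hy ?_)
    change (g⁻¹ * x)⁻¹ * (g⁻¹ * y) ∈ ball S σ
    rw [mul_inv_rev, inv_inv, mul_assoc, mul_inv_cancel_left]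
    exact hb
  · rw [cfD_sh]
    exact h.tl.smul g
  · rw [cfD_sh]
    exact (h.wd ρ).smul g

theorem EqvOK.refl_left {r : G × ℕ → G × ℕ → Prop} (h : EqvOK r) {p q : G × ℕ} (hr : r p q) :
    r p p := h.trans _ _ _ hr (h.symm _ _ hr)

theorem EqvOK.fibR_eq {r : G × ℕ → G × ℕ → Prop} (h : EqvOK r) {p q : G × ℕ} (hr : r p q) :
    fibR r p = fibR r q := Set.ext fun _ => exists_congr fun _ =>
      ⟨h.trans _ _ _ (h.symm _ _ hr), h.trans _ _ _ hr⟩

theorem ClsC.tendsto {r : G × ℕ → G × ℕ → Prop} (h : EqvOK r) {u : G → ℝ} {ψ : G × ℕ → ℝ}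
    (hu : ClsC r u ψ) (p : G × ℕ) :
    Tendsto u (cofinite ⊓ 𝓟 (fibR r p)) (𝓝 (u p.1 - ψ p)) := by
  refine Metric.tendsto_nhds.2 fun ε hε => eventually_inf_principal.2 (eventually_cofinite.2 ?_)
  have h1 := eventually_cofinite.1
    (hu.1.tendsto_cofinite_zero.eventually (gt_mem_nhds (pow_pos hε 2)))
  refine (h1.image Prod.fst).subset fun x hx => ?_
  by_contra hc
  refine hx fun ⟨j, hj⟩ => ?_
  have h2 : ψ (x, j) ^ 2 < ε ^ 2 := not_not.1 fun h3 => hc ⟨(x, j), h3, rfl⟩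
  rw [Real.dist_eq, hu.2 _ _ hj, sub_sub_cancel]
  exact abs_lt_of_sq_lt_sq h2 hε.le

theorem PAct.ae_all [Countable G] (A : PAct G X) {Φ : X → Prop} (h : ∀ᵐ ξ ∂A.P, Φ ξ) :
    ∀ᵐ ξ ∂A.P, ∀ g, Φ (A.sh g ξ) := ae_all_iff.2 fun g => (A.mp g).quasiMeasurePreserving.ae h

theorem PAct.ae_pi (A : PAct G X) (L : Type) [Fintype L] {Φ : X → Prop} (h : ∀ᵐ ξ ∂A.P, Φ ξ) :
    ∀ᵐ ξ ∂(A.pi L).P, ∀ a, Φ (ξ a) :=   eventually_all.2 fun _ => (Measure.tendsto_eval_ae_ae (μ := fun _ : L => A.P)).eventually h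

theorem PAct.ae_pi_pair (A : PAct G X) (L : Type) [Fintype L] {Φ : X → X → Prop}
    (hm : MeasurableSet {z : X × X | Φ z.1 z.2}) (h : ∀ᵐ ξ ∂A.P, ∀ᵐ ξ' ∂A.P, Φ ξ ξ') :
    ∀ᵐ ξ ∂(A.pi L).P, ∀ a b, a ≠ b → Φ (ξ a) (ξ b) := by
  refine eventually_all.2 fun a => eventually_all.2 fun b => ?_
  by_cases hab : a = b
  · exact Eventually.of_forall fun _ h => absurd hab h
  have h1 := ((ProbabilityTheory.iIndepFun_pi (μ := fun _ : L => A.P) (X := fun _ => id)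
    fun _ => aemeasurable_id).indepFun hab).map_prod_eq_prod_map_map
    (measurable_pi_apply a).aemeasurable (measurable_pi_apply b).aemeasurable
  have h2 : MeasurePreserving (fun ξ : L → X => (ξ a, ξ b)) (Measure.pi fun _ => A.P)
      (A.P.prod A.P) := ⟨by fun_prop, h1.trans (congrArg₂ Measure.prod
        (measurePreserving_eval (fun _ : L => A.P) a).map_eq
        (measurePreserving_eval (fun _ : L => A.P) b).map_eq)⟩
  exact (h2.quasiMeasurePreserving.ae ((Measure.ae_prod_iff_ae_ae hm).2 h)).mono fun _ h _ => h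

theorem PAct.ae_pi_three (A : PAct G X) {Φ : (Fin 3 → X) → Prop}
    (h : ∀ᵐ ξ ∂(A.pi (Fin 3)).P, Φ ξ) : ∀ᵐ a ∂A.P, ∀ᵐ b ∂A.P, ∀ᵐ c ∂A.P, Φ ![a, b, c] := by
  have h1 := Measure.ae_ae_of_ae_prod
    ((measurePreserving_piFinSuccAbove (fun _ : Fin 3 => A.P) 0).symm.quasiMeasurePreserving.ae h)
  filter_upwards [h1] with a ha
  have h2 := Measure.ae_ae_of_ae_prod
    ((measurePreserving_finTwoArrow A.P).symm.quasiMeasurePreserving.ae ha)
  filter_upwards [h2] with b hb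
  filter_upwards [hb] with c hc
  refine (congrArg Φ (funext fun i => ?_)).mp hc
  fin_cases i <;> rfl

namespace REnv
variable [Countable G] (E : REnv G X)

theorem fibR_sh (g : G) (ξ : X) (p : G × ℕ) :
    fibR (E.r (E.A.sh g ξ)) (g * p.1, p.2) = g • fibR (E.r ξ) p := by
  ext x
  rw [Set.mem_smul_set_iff_inv_smul_mem]
  refine exists_congr fun j => ?_
  have h := E.equi g ξ p (g⁻¹ * x, j)
  rw [mul_inv_cancel_left] at h
  exact h

theorem ae_root {Φ : X → G × ℕ → Prop}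
    (he : ∀ g ξ p, Φ ξ p → Φ (E.A.sh g ξ) (g * p.1, p.2))
    (h : ∀ᵐ ξ ∂E.A.P, ∀ j, E.r ξ (1, j) (1, j) → Φ ξ (1, j)) :
    ∀ᵐ ξ ∂E.A.P, ∀ p, E.r ξ p p → Φ ξ p := by
  filter_upwards [E.A.ae_all h] with ξ hξ p hp
  have h1 := (E.equi p.1⁻¹ ξ p p).2 hp
  rw [inv_mul_cancel] at h1
  have h2 := he p.1 _ _ (hξ p.1⁻¹ p.2 h1)
  rwa [← E.A.sh_mul, mul_inv_cancel, E.A.sh_one, mul_one] at h2

theorem ae_locfin : ∀ᵐ ξ ∂E.A.P, ∀ x, {j | E.r ξ (x, j) (x, j)}.Finite := by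
  filter_upwards [E.A.ae_all (ae_finite_setOfPred_mem E.fin)] with ξ hξ x
  refine (hξ x⁻¹).subset fun j hj => ?_
  have h1 := (E.equi x⁻¹ ξ (x, j) (x, j)).2 hj
  rw [inv_mul_cancel] at h1
  exact h1

theorem mtp {F : X → G × ℕ → G × ℕ → ℝ≥0∞} (hm : ∀ p q, Measurable fun ξ => F ξ p q)
    (he : ∀ g ξ p q, F (E.A.sh g ξ) (g * p.1, p.2) (g * q.1, q.2) = F ξ p q) :
    ∑' j : ℕ, ∑' q : G × ℕ, ∫⁻ ξ, F ξ (1, j) q ∂E.A.P =
      ∑' j : ℕ, ∑' q : G × ℕ, ∫⁻ ξ, F ξ q (1, j) ∂E.A.P := by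
  have h1 : ∀ (j : ℕ) (y : G) (i : ℕ), ∫⁻ ξ, F ξ (1, j) (y, i) ∂E.A.P =
      ∫⁻ ξ, F ξ (y⁻¹, j) (1, i) ∂E.A.P := fun j y i => by
    rw [← (E.A.mp y⁻¹).lintegral_comp (hm (y⁻¹, j) (1, i))]
    refine lintegral_congr fun ξ => ?_
    have h := he y⁻¹ ξ (1, j) (y, i)
    rw [mul_one, inv_mul_cancel] at h
    exact h.symm
  simp only [ENNReal.tsum_prod', h1]
  calc ∑' (j : ℕ) (y : G) (i : ℕ), ∫⁻ ξ, F ξ (y⁻¹, j) (1, i) ∂E.A.P
      = ∑' (j : ℕ) (y : G) (i : ℕ), ∫⁻ ξ, F ξ (y, j) (1, i) ∂E.A.P :=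
        tsum_congr fun j => (Equiv.inv G).tsum_eq fun y => ∑' i : ℕ, ∫⁻ ξ, F ξ (y, j) (1, i) ∂E.A.P
    _ = ∑' (y : G) (j : ℕ) (i : ℕ), ∫⁻ ξ, F ξ (y, j) (1, i) ∂E.A.P := ENNReal.tsum_comm
    _ = ∑' (y : G) (i : ℕ) (j : ℕ), ∫⁻ ξ, F ξ (y, j) (1, i) ∂E.A.P :=
        tsum_congr fun y => ENNReal.tsum_comm
    _ = _ := ENNReal.tsum_comm

instance : Countable (Pt G) := inferInstanceAs (Countable (G × ℕ))

theorem measurableSet_ex : MeasurableSet {z : X × Pt G | E.r z.1 z.2 z.2} := by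
  have e : {z : X × Pt G | E.r z.1 z.2 z.2} = ⋃ p : Pt G, {ξ | E.r ξ p p} ×ˢ {p} := by
    ext z
    simp
  rw [e]
  exact MeasurableSet.iUnion fun p => (E.meas p p).prod (MeasurableSet.of_discrete)

theorem ae_m_iff {Φ : X × Pt G → Prop} :
    (∀ᵐ z ∂E.m, Φ z) ↔ ∀ᵐ ξ ∂E.A.P, ∀ p : G × ℕ, E.r ξ p p → Φ (ξ, p) := by
  rw [m, ae_restrict_iff' E.measurableSet_ex]
  refine ⟨fun h => (Measure.ae_ae_of_ae_prod h).mono fun ξ hξ =>
      (Measure.ae_count_iff (α := Pt G)).1 hξ,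
    fun h => (Measure.quasiMeasurePreserving_fst.ae h).mono fun z hz => hz z.2⟩

theorem sigmaFinite_m : SigmaFinite E.m := by
  unfold m
  infer_instance

theorem act_one (z : X × Pt G) : E.act 1 z = z :=   Prod.ext (E.A.sh_one _) (Prod.ext (one_mul _) rfl)

theorem act_mul (g h : G) (z : X × Pt G) : E.act (g * h) z = E.act g (E.act h z) :=   Prod.ext (E.A.sh_mul _ _ _) (Prod.ext (mul_assoc _ _ _) rfl)

theorem mp_act (g : G) : MeasurePreserving (E.act g) E.m E.m := by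
  let e : Pt G ≃ Pt G := (Equiv.mulLeft g).prodCongr (Equiv.refl ℕ)
  have h1 : MeasurePreserving e Measure.count Measure.count :=
    ⟨Measurable.of_discrete, Measure.ext_of_singleton fun p => by
      rw [Measure.map_apply Measurable.of_discrete MeasurableSet.of_discrete,
        ← e.image_symm_eq_preimage, Set.image_singleton, Measure.count_singleton,
        Measure.count_singleton]⟩
  have h2 := ((E.A.mp g).prod h1).restrict_preimage E.measurableSet_ex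
  have h3 : Prod.map (E.A.sh g) e ⁻¹' {z : X × Pt G | E.r z.1 z.2 z.2} =
      {z : X × Pt G | E.r z.1 z.2 z.2} := Set.ext fun z => E.equi g z.1 z.2 z.2
  rw [h3] at h2
  exact h2

end REnv

end Vale.Agent.P239
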