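import Vale.Agent.P239.Full.FDimA

/-! Task FDimB: abstract von Neumann dimension, part 2.
`le_dim_iInf`: the projections onto a decreasing sequence of closed subspaces converge strongly to the projection onto the intersection (`‖P_n x‖` decreases, Cauchy), dominated convergence.
`dim_le_ker`: with `W = closure (Dg V)`: `dim W ≤ dim V`, `dim W = dim (W ⊓ ker R) + dim (R W)`, `dim (R W) = dim (R Dg V)` (same closure), `dim V = dim (V ⊓ ker (R Dg)) + dim (R Dg V)`; cancel the finite term; `J N ≤ W ⊓ ker R`.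
`gd`: `𝒢 n = (W ⊔ V) ⊓ ker (Ao n - Dg n)`; `rn` gives `dim W + dim V = dim (𝒢 n) + dim range` and the range lies in the closure of `Dg n V`, of dimension `≤ dim V`; so `dim W ≤ dim (𝒢 n)`, hence `dim W ≤ dim (⨅ 𝒢 n)`.
The projection onto `W` is injective on `⨅ 𝒢 n`, so its image has dimension `≥ dim W`; `le_closure`.
-/

noncomputable section

open Classical MeasureTheory Filter Topology Set
open scoped Pointwise ENNReal

namespace Vale.Agent.P239

variable {H : Type*} [NormedAddCommGroup H] [InnerProductSpace ℝ H] [CompleteSpace H] {I : Type*}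
  (τ : TS H I)

namespace TS

theorem fdb_proj_eq (W : Submodule ℝ H) (x : H) :
    W.topologicalClosure.starProjection x = x - Wᗮ.starProjection x := by
  refine Submodule.eq_starProjection_of_mem_orthogonal ?_ ?_
  · rw [← Submodule.orthogonal_orthogonal_eq_closure]
    exact Submodule.sub_starProjection_mem_orthogonal _
  · rw [sub_sub_cancel, Submodule.orthogonal_closure]
    exact Submodule.starProjection_apply_mem _ _

omit [CompleteSpace H] in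
theorem fdb_proj_congr {A B : Submodule ℝ H} [A.HasOrthogonalProjection]
    [B.HasOrthogonalProjection] (h : A = B) (x : H) : A.starProjection x = B.starProjection x := by
  subst h
  rfl

omit [CompleteSpace H] in
theorem fdb_norm_mono {A B : Submodule ℝ H} [A.HasOrthogonalProjection]
    [B.HasOrthogonalProjection] (h : A ≤ B) (x : H) :
    ‖A.starProjection x‖ ≤ ‖B.starProjection x‖ := by
  have e := DFunLike.congr_fun (Submodule.starProjection_comp_starProjection_of_le h) x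
  rw [← e]
  exact A.norm_starProjection_apply_le _

theorem fdb_tendsto {W : ℕ → Submodule ℝ H} (h : ∀ n, IsClosed (W n : Set H)) (ha : Antitone W)
    (x : H) : Tendsto (fun n => (W n).topologicalClosure.starProjection x) atTop
      (𝓝 ((⨅ n, W n).topologicalClosure.starProjection x)) := by
  have hm : Monotone fun n => (W n)ᗮ := fun a b hab => Submodule.orthogonal_le (ha hab)
  have h1 := Submodule.starProjection_tendsto_closure_iSup (fun n => (W n)ᗮ) hm x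
  have h2 : (⨆ n, (W n)ᗮ).topologicalClosure = (⨅ n, W n)ᗮ := by
    rw [← Submodule.orthogonal_orthogonal_eq_closure, ← Submodule.iInf_orthogonal]
    congr 2
    funext n
    rw [Submodule.orthogonal_orthogonal_eq_closure, (h n).submodule_topologicalClosure_eq]
  rw [fdb_proj_congr h2] at h1
  simp_rw [fdb_proj_eq]
  exact tendsto_const_nhds.sub h1

theorem fdb_dim_bot : τ.dim (⊥ : Submodule ℝ H) = 0 := by
  unfold dim
  refine ENNReal.tsum_eq_zero.2 fun i => ?_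
  have e : (⊥ : Submodule ℝ H).topologicalClosure = ⊥ :=
    IsClosed.submodule_topologicalClosure_eq (by simp)
  rw [fdb_proj_congr e]
  simp

theorem le_dim_iInf {W : ℕ → Submodule ℝ H} (h : ∀ n, τ.Inv (W n)) (ha : Antitone W)
    (hf : τ.dim (W 0) ≠ ⊤) {c : ℝ≥0∞} (hc : ∀ n, c ≤ τ.dim (W n)) : c ≤ τ.dim (⨅ n, W n) := by
  let _ : MeasurableSpace I := ⊤
  have h1 : Tendsto (fun n => τ.dim (W n)) atTop (𝓝 (τ.dim (⨅ n, W n))) := by
    unfold dim at hf ⊢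
    simp_rw [← lintegral_count] at hf ⊢
    refine tendsto_lintegral_of_dominated_convergence _ (fun n => measurable_from_top)
      (fun n => Eventually.of_forall fun i => ?_) hf (Eventually.of_forall fun i => ?_)
    · refine pow_le_pow_left' ?_ 2
      rw [enorm_le_iff_norm_le]
      exact fdb_norm_mono (Submodule.topologicalClosure_mono (ha (Nat.zero_le n))) _
    · exact ENNReal.Tendsto.pow (fdb_tendsto (fun n => (h n).1) ha (τ.δ i)).enorm
  exact ge_of_tendsto' h1 hc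

theorem dim_map_le {W : Submodule ℝ H} (h : τ.Inv W) (hf : τ.dim W ≠ ⊤) {T : H →L[ℝ] H}
    (hT : τ.Comm T) : τ.dim (W.map (T : H →ₗ[ℝ] H)) ≤ τ.dim W := by
  rw [τ.rn h hf hT]
  exact le_add_self

theorem dim_le_of_inj {W V : Submodule ℝ H} (h : τ.Inv W) (hf : τ.dim W ≠ ⊤) {T : H →L[ℝ] H}
    (hT : τ.Comm T) (hi : ∀ w ∈ W, T w = 0 → w = 0) (hV : ∀ w ∈ W, T w ∈ V.topologicalClosure) :
    τ.dim W ≤ τ.dim V := by
  have e : W ⊓ LinearMap.ker (T : H →ₗ[ℝ] H) = ⊥ :=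
    (Submodule.eq_bot_iff _).2 fun w hw => hi w hw.1 hw.2
  rw [τ.rn h hf hT, e, fdb_dim_bot, zero_add, ← τ.dim_closure V]
  refine τ.dim_mono ?_
  rintro _ ⟨w, hw, rfl⟩
  exact hV w hw

theorem dim_le_of_inner {W : Submodule ℝ H} {c : I → ℝ≥0∞}
    (h : ∀ i, ∀ w ∈ W, ENNReal.ofReal (inner ℝ w (τ.δ i)) ^ 2 ≤ c i * ‖w‖ₑ ^ 2) :
    τ.dim W ≤ ∑' i, c i := by
  unfold dim
  refine ENNReal.tsum_le_tsum fun i => ?_
  by_cases hc : c i = ⊤
  · rw [hc]; exact le_top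
  have hcl : IsClosed {w : H | ENNReal.ofReal (inner ℝ w (τ.δ i)) ^ 2 ≤ c i * ‖w‖ₑ ^ 2} := by
    refine isClosed_le ?_ ?_
    · exact (ENNReal.continuous_pow 2).comp (ENNReal.continuous_ofReal.comp (by fun_prop))
    · exact (ENNReal.continuous_const_mul hc).comp
        ((ENNReal.continuous_pow 2).comp continuous_enorm)
  set p := W.topologicalClosure.starProjection (τ.δ i) with hp
  have hpm : p ∈ W.topologicalClosure := W.topologicalClosure.starProjection_apply_mem _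
  have h1 : ENNReal.ofReal (inner ℝ p (τ.δ i)) ^ 2 ≤ c i * ‖p‖ₑ ^ 2 :=
    closure_minimal (fun w hw => h i w hw) hcl hpm
  have h2 : inner ℝ p (τ.δ i) = ‖p‖ ^ 2 := by
    have := W.topologicalClosure.starProjection_inner_eq_zero (τ.δ i) p hpm
    rw [← hp, inner_sub_left, real_inner_self_eq_norm_sq, real_inner_comm] at this
    linarith
  rw [h2, ENNReal.ofReal_pow (norm_nonneg _), ofReal_norm, sq (‖p‖ₑ ^ 2)] at h1
  by_cases h0 : ‖p‖ₑ ^ 2 = 0
  · rw [h0]; exact zero_le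
  · exact (ENNReal.mul_le_mul_iff_left h0 (by finiteness)).1 h1

theorem le_dim_of_mem {W : Submodule ℝ H} {w : H} (hw : w ∈ W) (i : I)
    (h : inner ℝ w (τ.δ i) = ‖w‖ ^ 2) : ‖w‖ₑ ^ 2 ≤ τ.dim W := by
  unfold dim
  refine le_trans ?_ (ENNReal.le_tsum i)
  refine pow_le_pow_left' ?_ 2
  rw [enorm_le_iff_norm_le]
  have h1 := W.topologicalClosure.starProjection_inner_eq_zero (τ.δ i) w
    (W.le_topologicalClosure hw)
  rw [inner_sub_left, real_inner_comm, h] at h1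
  have h2 := real_inner_le_norm (W.topologicalClosure.starProjection (τ.δ i)) w
  by_cases h0 : ‖w‖ = 0
  · rw [h0]; exact norm_nonneg _
  · have h3 : 0 < ‖w‖ := lt_of_le_of_ne (norm_nonneg _) (Ne.symm h0)
    nlinarith

theorem dim_le_ker {V N : Submodule ℝ H} (hV : τ.Inv V) (hN : τ.Inv N) (fV : τ.dim V ≠ ⊤)
    (fN : τ.dim N ≠ ⊤) {Dg R J : H →L[ℝ] H} (h1 : τ.Comm Dg) (h2 : τ.Comm R) (h3 : τ.Comm J)
    (hJ : ∀ a ∈ N, J a ∈ (V.map (Dg : H →ₗ[ℝ] H)).topologicalClosure)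
    (hR : ∀ a ∈ N, R (J a) = 0) (hi : ∀ a ∈ N, J a = 0 → a = 0) :
    τ.dim N ≤ τ.dim (V ⊓ LinearMap.ker ((R ∘L Dg : H →L[ℝ] H) : H →ₗ[ℝ] H)) := by
  set W := (V.map (Dg : H →ₗ[ℝ] H)).topologicalClosure with hWd
  have hW : τ.Inv W := Stab.closure τ (Stab.map τ hV.2 h1)
  have hle : τ.dim W ≤ τ.dim V := by
    rw [hWd, τ.dim_closure]
    exact τ.dim_map_le hV fV h1
  have fW : τ.dim W ≠ ⊤ := ne_top_of_le_ne_top fV hle
  have fR : τ.dim (W.map (R : H →ₗ[ℝ] H)) ≠ ⊤ := ne_top_of_le_ne_top fW (τ.dim_map_le hW fW h2)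
  have e1 := τ.rn hW fW h2
  have e2 := τ.rn hV fV (Comm.comp τ h2 h1)
  have e3 : τ.dim (V.map ((R ∘L Dg : H →L[ℝ] H) : H →ₗ[ℝ] H)) ≤
      τ.dim (W.map (R : H →ₗ[ℝ] H)) := by
    refine τ.dim_mono ?_
    rintro _ ⟨v, hv, rfl⟩
    exact ⟨Dg v, Submodule.le_topologicalClosure _ ⟨v, hv, rfl⟩, rfl⟩
  have e4 : τ.dim (W ⊓ LinearMap.ker (R : H →ₗ[ℝ] H)) ≤
      τ.dim (V ⊓ LinearMap.ker ((R ∘L Dg : H →L[ℝ] H) : H →ₗ[ℝ] H)) := by
    refine (ENNReal.add_le_add_iff_right fR).1 ?_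
    rw [← e1]
    refine hle.trans ?_
    rw [e2]
    exact add_le_add le_rfl e3
  refine le_trans ?_ e4
  exact τ.dim_le_of_inj hN fN h3 hi fun a ha =>
    Submodule.le_topologicalClosure _ ⟨hJ a ha, hR a ha⟩

theorem gd {W V : Submodule ℝ H} (hW : τ.Inv W) (hV : τ.Inv V) (ho : W ⟂ V) (fW : τ.dim W ≠ ⊤)
    (fV : τ.dim V ≠ ⊤) {Ao Dg : ℕ → H →L[ℝ] H} (h1 : ∀ n, τ.Comm (Ao n)) (h2 : ∀ n, τ.Comm (Dg n))
    (h3 : ∀ n, ∀ v ∈ V, Ao n v = 0) (h4 : ∀ n, ∀ w ∈ W, Dg n w = 0)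
    (h5 : ∀ n, ∀ w ∈ W, Ao n w ∈ (V.map (Dg n : H →ₗ[ℝ] H)).topologicalClosure)
    (h6 : ∀ n, ∀ w ∈ W, ∀ v ∈ V, Ao (n + 1) w = Dg (n + 1) v → Ao n w = Dg n v)
    (h7 : ∀ v ∈ V, (∀ n, Dg n v = 0) → v = 0) :
    ∀ w ∈ W, ∀ ε : ℝ, 0 < ε → ∃ w' ∈ W, ∃ v ∈ V, (∀ n, Ao n w' = Dg n v) ∧ ‖w - w'‖ < ε := by
  set 𝒢 : ℕ → Submodule ℝ H := fun n =>
    (W ⊔ V) ⊓ LinearMap.ker ((Ao n - Dg n : H →L[ℝ] H) : H →ₗ[ℝ] H) with h𝒢
  have hap : ∀ n, ∀ w ∈ W, ∀ v ∈ V, (Ao n - Dg n) (w + v) = Ao n w - Dg n v := by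
    intro n w hw v hv
    rw [_root_.sub_apply, map_add, map_add, h3 n v hv, h4 n w hw, add_zero, zero_add]
  have hmem : ∀ n, ∀ w ∈ W, ∀ v ∈ V, w + v ∈ 𝒢 n ↔ Ao n w = Dg n v := by
    intro n w hw v hv
    rw [← sub_eq_zero, ← hap n w hw v hv]
    exact ⟨fun h => h.2, fun h => ⟨Submodule.add_mem_sup hw hv, h⟩⟩
  have hS : τ.Inv (W ⊔ V) := Inv.sup τ hW hV ho
  have eS : τ.dim (W ⊔ V) = τ.dim W + τ.dim V := τ.dim_sup ho
  have fS : τ.dim (W ⊔ V) ≠ ⊤ := by rw [eS]; exact ENNReal.add_ne_top.2 ⟨fW, fV⟩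
  have hI : ∀ n, τ.Inv (𝒢 n) := fun n => Inv.inf τ hS (Comm.ker τ (Comm.sub τ (h1 n) (h2 n)))
  have hA : Antitone 𝒢 := by
    refine antitone_nat_of_succ_le fun n x hx => ?_
    obtain ⟨w, hw, v, hv, rfl⟩ := Submodule.mem_sup.1 hx.1
    exact (hmem n w hw v hv).2 (h6 n w hw v hv ((hmem (n + 1) w hw v hv).1 hx))
  have hd : ∀ n, τ.dim W ≤ τ.dim (𝒢 n) := by
    intro n
    refine (ENNReal.add_le_add_iff_right fV).1 ?_
    rw [← eS, τ.rn hS fS (Comm.sub τ (h1 n) (h2 n))]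
    refine add_le_add le_rfl ?_
    refine le_trans ?_ (τ.dim_map_le hV fV (h2 n))
    rw [← τ.dim_closure (V.map _)]
    refine τ.dim_mono ?_
    rintro _ ⟨x, hx, rfl⟩
    obtain ⟨w, hw, v, hv, rfl⟩ := Submodule.mem_sup.1 hx
    change (Ao n - Dg n) (w + v) ∈ _
    rw [hap n w hw v hv]
    exact Submodule.sub_mem _ (h5 n w hw) (Submodule.le_topologicalClosure _ ⟨v, hv, rfl⟩)
  have hG : τ.Inv (⨅ n, 𝒢 n) := by
    refine ⟨?_, fun m hm w hw => ?_⟩
    · rw [Submodule.coe_iInf]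
      exact isClosed_iInter fun n => (hI n).1
    · exact (Submodule.mem_iInf _).2 fun n => (hI n).2 m hm w ((Submodule.mem_iInf _).1 hw n)
  have f0 : τ.dim (𝒢 0) ≠ ⊤ := ne_top_of_le_ne_top fS (τ.dim_mono inf_le_left)
  have fG : τ.dim (⨅ n, 𝒢 n) ≠ ⊤ := ne_top_of_le_ne_top f0 (τ.dim_mono (iInf_le _ 0))
  have hdG : τ.dim W ≤ τ.dim (⨅ n, 𝒢 n) := τ.le_dim_iInf hI hA f0 hd
  have hP := τ.comm_proj hW.2
  have hPa : ∀ w ∈ W, ∀ v ∈ V, W.topologicalClosure.starProjection (w + v) = w := by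
    intro w hw v hv
    refine Submodule.eq_starProjection_of_mem_orthogonal' (W.le_topologicalClosure hw) ?_ rfl
    rw [Submodule.orthogonal_closure]
    exact ho.symm hv
  have hdec : ∀ x ∈ ⨅ n, 𝒢 n, ∃ w ∈ W, ∃ v ∈ V, w + v = x ∧ ∀ n, Ao n w = Dg n v := by
    intro x hx
    obtain ⟨w, hw, v, hv, rfl⟩ := Submodule.mem_sup.1 ((Submodule.mem_iInf _).1 hx 0).1
    exact ⟨w, hw, v, hv, rfl, fun n => (hmem n w hw v hv).1 ((Submodule.mem_iInf _).1 hx n)⟩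
  have hinj : τ.dim (⨅ n, 𝒢 n) ≤ τ.dim ((⨅ n, 𝒢 n).map
      (W.topologicalClosure.starProjection : H →ₗ[ℝ] H)) := by
    refine τ.dim_le_of_inj hG fG hP (fun x hx h0 => ?_)
      fun x hx => Submodule.le_topologicalClosure _ ⟨x, hx, rfl⟩
    obtain ⟨w, hw, v, hv, rfl, hh⟩ := hdec x hx
    rw [hPa w hw v hv] at h0
    subst h0
    rw [zero_add]
    exact h7 v hv fun n => by rw [← hh n, map_zero]
  have hle : (⨅ n, 𝒢 n).map (W.topologicalClosure.starProjection : H →ₗ[ℝ] H) ≤ W := by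
    rintro _ ⟨x, hx, rfl⟩
    obtain ⟨w, hw, v, hv, rfl, -⟩ := hdec x hx
    change W.topologicalClosure.starProjection (w + v) ∈ W
    rw [hPa w hw v hv]
    exact hw
  have hcl := τ.le_closure (Stab.map τ hG.2 hP) hW.2 hle (hdG.trans hinj)
    (ne_top_of_le_ne_top fW (τ.dim_mono hle))
  intro w hw ε hε
  obtain ⟨_, ⟨x, hx, rfl⟩, hdist⟩ := Metric.mem_closure_iff.1 (hcl hw) ε hε
  obtain ⟨w', hw', v, hv, rfl, hh⟩ := hdec x hx
  refine ⟨w', hw', v, hv, hh, ?_⟩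
  rw [← dist_eq_norm, ← hPa w' hw' v hv]
  exact hdist

end TS

end Vale.Agent.P239
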