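import Vale.Agent.P239.Full.FFib

/-! Task FDimM: the trace structure on fields exists.
Build the operators `mulI E` (coordinatewise multiplication by the indicator, self-adjoint) and `U g` (`(U g f) p = (f (g⁻¹ p.1, p.2)) ∘ sh g⁻¹`, `Lp.compMeasurePreserving`, adjoint `U g⁻¹`) as continuous linear maps on `lp`
(for instance `LinearMap.mkContinuous`, using `exists_field`, `enorm_sq_eq`, `fh_ext` to define and check everything on fibres). `δ i = lp.single (1, i) 1`. The vectors `mulI E (U g (δ i))` (indicator of `E` at the coordinate `(g, i)`) span a dense subspace, which gives `faith`.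
`tr`: for `T` commuting, `∫_E fibv (T (δ j)) ξ (g, i) = ⟨T δ j, mulI E U g δ i⟩ = ⟨δ j, mulI E U g T* δ i⟩ = ∫_E fibv (T* δ i) (sh g⁻¹ ξ) (g⁻¹, j)` for all `E`, so the two integrands agree a.e.;
square, integrate (`sh g⁻¹` is measure preserving), sum over `g, i, j` (`ENNReal.tsum_comm`, `Equiv.inv`).
-/

noncomputable section

open Classical MeasureTheory Filter Topology Set
open scoped Pointwise ENNReal

namespace Vale.Agent.P239

universe u
variable {G : Type u} [Group G] [Countable G] {X : Type u} [MeasurableSpace X] {A : PAct G X}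
  {I : Type u} [Countable I]

omit [Countable G] in
theorem fdm_emb (A : PAct G X) (g : G) : MeasurableEmbedding (A.sh g) :=
  MeasurableEquiv.measurableEmbedding
    { toFun := A.sh g
      invFun := A.sh g⁻¹
      left_inv := fun ξ => by rw [← A.sh_mul, inv_mul_cancel, A.sh_one]
      right_inv := fun ξ => by rw [← A.sh_mul, mul_inv_cancel, A.sh_one]
      measurable_toFun := (A.mp g).measurable
      measurable_invFun := (A.mp g⁻¹).measurable }

omit [Countable G] in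
theorem fdm_ae (g : G) {P : X → Prop} (h : ∀ᵐ ξ ∂A.P, P ξ) : ∀ᵐ ξ ∂A.P, P (A.sh g ξ) :=
  (A.mp g).quasiMeasurePreserving.ae h

theorem fdm_op (A : PAct G X) (I : Type u) [Countable I] {E : Set X} (hE : MeasurableSet E)
    (g : G) : ∃ m : FH A I →L[ℝ] FH A I, ∀ f, ∀ᵐ ξ ∂A.P, ∀ p,
      fibv (m f) ξ p = if ξ ∈ E then fibv f (A.sh g ξ) (g * p.1, p.2) else 0 := by
  have h1 : ∀ f : FH A I, ∫⁻ ξ, ∑' p : G × I, ENNReal.ofReal
      ((if ξ ∈ E then fibv f (A.sh g ξ) (g * p.1, p.2) else 0) ^ 2) ∂A.P ≤ ‖f‖ₑ ^ 2 := by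
    intro f
    rw [enorm_sq_eq, ← (A.mp g).lintegral_comp_emb (fdm_emb A g)
      fun ξ => ∑' p, ENNReal.ofReal (fibv f ξ p ^ 2)]
    refine lintegral_mono fun ξ => ?_
    beta_reduce
    rw [← ((Equiv.mulLeft g).prodCongr (Equiv.refl I)).tsum_eq
      fun p => ENNReal.ofReal (fibv f (A.sh g ξ) p ^ 2)]
    refine ENNReal.tsum_le_tsum fun p => ?_
    split_ifs
    · exact le_rfl
    · simp
  choose T hT using fun f : FH A I => exists_field (A := A)
    (F := fun ξ (p : G × I) => if ξ ∈ E then fibv f (A.sh g ξ) (g * p.1, p.2) else 0)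
    (fun p => Measurable.ite hE ((measurable_fibv f _).comp (A.mp g).measurable) measurable_const)
    (ne_top_of_le_ne_top (ENNReal.pow_ne_top enorm_ne_top) (h1 f))
  have ha : ∀ f f', T (f + f') = T f + T f' := fun f f' => fh_ext <| by
    filter_upwards [hT (f + f'), hT f, hT f', fibv_add (T f) (T f'), fdm_ae g (fibv_add f f')]
      with ξ a1 a2 a3 a4 a5 p
    rw [a1, a4, a2, a3, a5]
    split_ifs <;> simp
  have hs : ∀ (c : ℝ) f, T (c • f) = c • T f := fun c f => fh_ext <| by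
    filter_upwards [hT (c • f), hT f, fibv_smul c (T f), fdm_ae g (fibv_smul c f)]
      with ξ a1 a2 a4 a5 p
    rw [a1, a4, a2, a5]
    split_ifs <;> simp
  refine ⟨LinearMap.mkContinuous ⟨⟨T, ha⟩, hs⟩ 1 fun f => ?_, hT⟩
  have h2 : ‖T f‖ₑ ^ 2 ≤ ‖f‖ₑ ^ 2 := by
    refine le_of_eq_of_le ?_ (h1 f)
    rw [enorm_sq_eq]
    refine lintegral_congr_ae ?_
    filter_upwards [hT f] with ξ a
    exact tsum_congr fun p => by rw [a]
  rw [one_mul]
  exact enorm_le_iff_norm_le.1 ((ENNReal.pow_le_pow_left_iff two_ne_zero).1 h2)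

/-- Multiplication by an indicator. -/
def fdmE (E : Set X) (m : FH A I →L[ℝ] FH A I) : Prop :=
  ∀ f, ∀ᵐ ξ ∂A.P, ∀ p, fibv (m f) ξ p = if ξ ∈ E then fibv f ξ p else 0

/-- Translation. -/
def fdmU (g : G) (m : FH A I →L[ℝ] FH A I) : Prop :=
  ∀ f, ∀ᵐ ξ ∂A.P, ∀ p, fibv (m f) ξ p = fibv f (A.sh g⁻¹ ξ) (g⁻¹ * p.1, p.2)

theorem fdm_exE {E : Set X} (hE : MeasurableSet E) : ∃ m : FH A I →L[ℝ] FH A I, fdmE E m := by
  obtain ⟨m, hm⟩ := fdm_op A I hE 1
  refine ⟨m, fun f => ?_⟩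
  filter_upwards [hm f] with ξ a p
  rw [a, A.sh_one, one_mul]

theorem fdm_exU (g : G) : ∃ m : FH A I →L[ℝ] FH A I, fdmU g m := by
  obtain ⟨m, hm⟩ := fdm_op A I MeasurableSet.univ g⁻¹
  refine ⟨m, fun f => ?_⟩
  filter_upwards [hm f] with ξ a p
  rw [a, if_pos (mem_univ ξ)]

theorem fdm_adjE {E : Set X} {m : FH A I →L[ℝ] FH A I} (h : fdmE E m) :
    ContinuousLinearMap.adjoint m = m := by
  refine ((ContinuousLinearMap.eq_adjoint_iff m m).2 fun f f' => ?_).symm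
  rw [inner_eq_integral, inner_eq_integral]
  refine integral_congr_ae ?_
  filter_upwards [h f, h f'] with ξ a1 a2
  refine tsum_congr fun p => ?_
  rw [a1, a2]
  split_ifs <;> simp

theorem fdm_adjU {g : G} {m m' : FH A I →L[ℝ] FH A I} (h : fdmU g m) (h' : fdmU g⁻¹ m') :
    ContinuousLinearMap.adjoint m = m' := by
  refine ((ContinuousLinearMap.eq_adjoint_iff m' m).2 fun f f' => ?_).symm
  rw [inner_eq_integral, inner_eq_integral,
    ← (A.mp g).integral_comp (fdm_emb A g) fun ξ => ∑' p, fibv f ξ p * fibv (m f') ξ p]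
  refine integral_congr_ae ?_
  filter_upwards [h' f, fdm_ae g (h f')] with ξ a1 a2
  rw [← ((Equiv.mulLeft g).prodCongr (Equiv.refl I)).tsum_eq
    fun p => fibv f (A.sh g ξ) p * fibv (m f') (A.sh g ξ) p]
  refine tsum_congr fun p => ?_
  rw [a1, a2, inv_inv, ← A.sh_mul, inv_mul_cancel, A.sh_one]
  congr 2
  ext
  · simp
  · rfl

theorem fdm_delta (A : PAct G X) (i : I) :
    ∃ f : FH A I, ∀ᵐ ξ ∂A.P, ∀ p, fibv f ξ p = if p = (1, i) then 1 else 0 := by
  refine exists_field (F := fun _ p => if p = (1, i) then 1 else 0) (fun p => measurable_const) ?_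
  rw [tsum_eq_single (1, i) fun p hp => by simp [hp]]
  simp

theorem fdm_inner {d : FH A I} {q : G × I} {E : Set X} (hE : MeasurableSet E)
    (hd : ∀ᵐ ξ ∂A.P, ∀ p, fibv d ξ p = if ξ ∈ E then (if p = q then 1 else 0) else 0)
    (f : FH A I) : inner ℝ f d = ∫ ξ in E, fibv f ξ q ∂A.P := by
  rw [inner_eq_integral, ← integral_indicator hE]
  refine integral_congr_ae ?_
  filter_upwards [hd] with ξ a
  rw [tsum_eq_single q fun p hp => by simp [a, hp], a, if_pos rfl]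
  by_cases h : ξ ∈ E <;> simp [h]

omit [Countable G] [Countable I] in
theorem fdm_EU {E : Set X} {g : G} {m u : FH A I →L[ℝ] FH A I} (hm : fdmE E m) (hu : fdmU g u)
    (f : FH A I) : ∀ᵐ ξ ∂A.P, ∀ p,
      fibv (m (u f)) ξ p = if ξ ∈ E then fibv f (A.sh g⁻¹ ξ) (g⁻¹ * p.1, p.2) else 0 := by
  filter_upwards [hm (u f), hu f] with ξ a1 a2 p
  rw [a1, a2]

theorem fdm_key {E : Set X} (hE : MeasurableSet E) {g : G} {m u : FH A I →L[ℝ] FH A I}
    (hm : fdmE E m) (hu : fdmU g u) {d : FH A I} {i : I}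
    (hd : ∀ᵐ ξ ∂A.P, ∀ p, fibv d ξ p = if p = (1, i) then 1 else 0) (f : FH A I) :
    inner ℝ f (m (u d)) = ∫ ξ in E, fibv f ξ (g, i) ∂A.P := by
  refine fdm_inner hE ?_ f
  filter_upwards [fdm_EU hm hu d, fdm_ae g⁻¹ hd] with ξ a1 a2 p
  have e : (g⁻¹ * p.1, p.2) = (1, i) ↔ p = (g, i) := by
    rw [Prod.ext_iff, Prod.ext_iff, inv_mul_eq_one, eq_comm]
  rw [a1, a2, if_congr e rfl rfl]

omit [Countable G] [Countable I] in
theorem fdm_int (f : FH A I) (p : G × I) : Integrable (fun ξ => fibv f ξ p) A.P :=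
  (Lp.memLp (f p)).integrable one_le_two

omit [Countable G] [Countable I] in
theorem fdm_swap (a : I → G → I → ℝ≥0∞) :
    ∑' j, ∑' g, ∑' i, a i g⁻¹ j = ∑' i, ∑' g, ∑' j, a i g j := by
  rw [ENNReal.tsum_comm, ENNReal.tsum_comm (f := fun i g => ∑' j, a i g j),
    ← (Equiv.inv G).tsum_eq fun g => ∑' i, ∑' j, a i g j]
  exact tsum_congr fun g => ENNReal.tsum_comm

theorem fdm_zero {H : Type*} [NormedAddCommGroup H] [InnerProductSpace ℝ H] [CompleteSpace H]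
    (T : H →L[ℝ] H) (h : ∀ f, ContinuousLinearMap.adjoint T f = 0) : T = 0 := by
  refine ContinuousLinearMap.ext fun f => ext_inner_left ℝ fun y => ?_
  rw [← ContinuousLinearMap.adjoint_inner_left, h, inner_zero_left]
  exact (inner_zero_right y).symm

theorem fdm_comm {H : Type*} [NormedAddCommGroup H] [InnerProductSpace ℝ H] [CompleteSpace H]
    {T m : H →L[ℝ] H} (h : ∀ x, T (ContinuousLinearMap.adjoint m x) =
      ContinuousLinearMap.adjoint m (T x)) (x : H) :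
    ContinuousLinearMap.adjoint T (m x) = m (ContinuousLinearMap.adjoint T x) := by
  refine ext_inner_left ℝ fun y => ?_
  rw [ContinuousLinearMap.adjoint_inner_right, ← ContinuousLinearMap.adjoint_inner_left m,
    ← h, ← ContinuousLinearMap.adjoint_inner_right T, ContinuousLinearMap.adjoint_inner_left m]

/-- The symmetries. -/
def fdmM (A : PAct G X) (I : Type u) : Set (FH A I →L[ℝ] FH A I) :=
  {m | (∃ E, MeasurableSet E ∧ fdmE E m) ∨ ∃ g, fdmU g m}

theorem fdm_adj : ∀ m ∈ fdmM A I, ContinuousLinearMap.adjoint m ∈ fdmM A I := by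
  rintro m (⟨E, hE, h⟩ | ⟨g, h⟩)
  · rw [fdm_adjE h]
    exact Or.inl ⟨E, hE, h⟩
  · obtain ⟨m', h'⟩ := fdm_exU (A := A) (I := I) g⁻¹
    rw [fdm_adjU h h']
    exact Or.inr ⟨_, h'⟩

theorem fdm_entry {δ : I → FH A I}
    (hδ : ∀ i, ∀ᵐ ξ ∂A.P, ∀ p, fibv (δ i) ξ p = if p = (1, i) then 1 else 0)
    {T : FH A I →L[ℝ] FH A I} (hT : ∀ m ∈ fdmM A I, ∀ x, T (m x) = m (T x)) (j : I) (g : G)
    (i : I) : (fun ξ => fibv (T (δ j)) ξ (g, i)) =ᵐ[A.P]
      fun ξ => fibv (ContinuousLinearMap.adjoint T (δ i)) (A.sh g⁻¹ ξ) (g⁻¹, j) := by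
  refine Integrable.ae_eq_of_forall_setIntegral_eq _ _ (fdm_int _ _)
    ((A.mp g⁻¹).integrable_comp_of_integrable (fdm_int _ _)) fun E hE _ => ?_
  obtain ⟨m, hm⟩ := fdm_exE (A := A) (I := I) hE
  obtain ⟨u, hu⟩ := fdm_exU (A := A) (I := I) g
  rw [← fdm_key hE hm hu (hδ i), ← ContinuousLinearMap.adjoint_inner_right T,
    fdm_comm (hT _ (fdm_adj m (Or.inl ⟨E, hE, hm⟩))), fdm_comm (hT _ (fdm_adj u (Or.inr ⟨g, hu⟩))),
    real_inner_comm, fdm_inner (q := (1, j)) MeasurableSet.univ ((hδ j).mono fun ξ a p => by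
      rw [a, if_pos (mem_univ ξ)]), Measure.restrict_univ, ← integral_indicator hE]
  refine integral_congr_ae ?_
  filter_upwards [fdm_EU hm hu (ContinuousLinearMap.adjoint T (δ i))] with ξ a
  rw [a, mul_one, indicator_apply]

theorem fdm_norm (f : FH A I) :
    ‖f‖ₑ ^ 2 = ∑' g, ∑' i, ∫⁻ ξ, ENNReal.ofReal (fibv f ξ (g, i) ^ 2) ∂A.P := by
  rw [enorm_sq_eq, lintegral_tsum fun p =>
    ((measurable_fibv f p).pow_const 2).ennreal_ofReal.aemeasurable, ENNReal.tsum_prod']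

theorem fdm_tr {δ : I → FH A I}
    (hδ : ∀ i, ∀ᵐ ξ ∂A.P, ∀ p, fibv (δ i) ξ p = if p = (1, i) then 1 else 0)
    (T : FH A I →L[ℝ] FH A I) (hT : ∀ m ∈ fdmM A I, ∀ x, T (m x) = m (T x)) :
    ∑' i, ‖T (δ i)‖ₑ ^ 2 = ∑' i, ‖ContinuousLinearMap.adjoint T (δ i)‖ₑ ^ 2 := by
  have h4 : ∀ j g i, ∫⁻ ξ, ENNReal.ofReal (fibv (T (δ j)) ξ (g, i) ^ 2) ∂A.P =
      ∫⁻ ξ, ENNReal.ofReal (fibv (ContinuousLinearMap.adjoint T (δ i)) ξ (g⁻¹, j) ^ 2) ∂A.P := by
    intro j g i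
    rw [← (A.mp g⁻¹).lintegral_comp_emb (fdm_emb A g⁻¹) fun ξ =>
      ENNReal.ofReal (fibv (ContinuousLinearMap.adjoint T (δ i)) ξ (g⁻¹, j) ^ 2)]
    refine lintegral_congr_ae ?_
    filter_upwards [fdm_entry hδ hT j g i] with ξ a
    rw [a]
  simp only [fdm_norm, h4]
  exact fdm_swap fun i g j => ∫⁻ ξ, ENNReal.ofReal
    (fibv (ContinuousLinearMap.adjoint T (δ i)) ξ (g, j) ^ 2) ∂A.P

theorem fdm_faith {δ : I → FH A I}
    (hδ : ∀ i, ∀ᵐ ξ ∂A.P, ∀ p, fibv (δ i) ξ p = if p = (1, i) then 1 else 0)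
    (T : FH A I →L[ℝ] FH A I) (hT : ∀ m ∈ fdmM A I, ∀ x, T (m x) = m (T x))
    (h0 : ∀ i, T (δ i) = 0) : T = 0 := by
  refine fdm_zero T fun f => fh_ext ?_
  have h2 : ∀ p : G × I, (fun ξ => fibv (ContinuousLinearMap.adjoint T f) ξ p) =ᵐ[A.P] 0 := by
    rintro ⟨g, i⟩
    refine (fdm_int _ _).ae_eq_zero_of_forall_setIntegral_eq_zero fun E hE _ => ?_
    obtain ⟨m, hm⟩ := fdm_exE (A := A) (I := I) hE
    obtain ⟨u, hu⟩ := fdm_exU (A := A) (I := I) g
    rw [← fdm_key hE hm hu (hδ i), ContinuousLinearMap.adjoint_inner_left,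
      hT m (Or.inl ⟨E, hE, hm⟩), hT u (Or.inr ⟨g, hu⟩), h0, map_zero, map_zero,
      inner_zero_right]
  filter_upwards [ae_all_iff.2 h2, fibv_zero (A := A) (I := I)] with ξ a1 a2 p
  exact (a1 p).trans (a2 p).symm

theorem exists_isTS (A : PAct G X) (I : Type u) [Countable I] :
    ∃ τ : TS (FH A I) I, IsTS A τ := by
  choose δ hδ using fun i : I => fdm_delta A i
  refine ⟨⟨fdmM A I, fdm_adj, δ, fdm_tr hδ, fdm_faith hδ⟩, hδ, fun m hm => hm, fun E hE => ?_⟩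
  obtain ⟨m, hm⟩ := fdm_exE (A := A) (I := I) hE
  exact ⟨m, Or.inl ⟨E, hE, hm⟩, hm⟩

end Vale.Agent.P239
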