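import Vale.Agent.P239.Full.FOp
import Vale.Agent.P239.Full.FDimM
import Vale.Agent.P239.Full.FDimB

/-! Task FFib2: from global to fibrewise density; vanishing of a module avoiding sparse random sets.
`mem_closure_span`: Hilbert space fact in `lp`: `(span K)ᗮᗮ = closure (span K)`, rational coefficients suffice.
`fib_dense`: let `Vg` be the closed subspace of fields with fibres in `V ξ`; it is the orthogonal complement of the span `N` of the fields `1_(E ∩ Ek k) b k` (`E` measurable). For a point `q` let `F q` be the projection of the point field `δ q` onto `Vg`;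
`δ q - F q` is in the closure of `N`, so by `tendsto_fib` its fibre is a.e. a limit of elements of `span {b k | ξ ∈ Ek k}`, hence orthogonal to `V ξ`. So `fibv (F q) ξ` is the projection of `δ q` onto `V ξ`, and these span a dense subspace of `V ξ`.
Each `F q` is a limit of fields with fibres in `Φ`, use `tendsto_fib` again.
`wk_of_env`: in `lp (G × G)` let `Z` be the set of divergence free `f` supported on labels in `T` that are orthogonal to all divergence free `f'` with `pairE T f' u = 0` for all `KF` functions `u`. `Z` is closed and translation invariant; it suffices to show `Z = 0`,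
i.e. `z b = P_Z δ (1, b) = 0`. For an environment, `Zg = fibSub (fun _ => Z)` has finite dimension (`≤ |T|`), multiplication by the indicator of the bad edges is injective on it, so `dim Zg ≤ 2 δ |T|` (`dim_le_of_inj`, `dim_supp`); the constant field `z b` gives `‖z b‖² ≤ dim Zg` (`le_dim_of_mem`).
-/

noncomputable section

open Classical MeasureTheory Filter Topology Set
open scoped Pointwise ENNReal

namespace Vale.Agent.P239

universe u
variable {G : Type u} [Group G] [Countable G] {X : Type u} [MeasurableSpace X] {A : PAct G X}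
  {I : Type u} [Countable I]

/-- Real square summable functions. -/
abbrev F2L (α : Type*) := lp (fun _ : α => ℝ) 2

def f2to {α : Type*} (v : α → ℝ) (hv : SqSum v) : F2L α := ⟨v, ry_mem.2 hv⟩

theorem f2to_apply {α : Type*} (v : α → ℝ) (hv : SqSum v) (p : α) : f2to v hv p = v p := rfl

theorem f2_sq {α : Type*} (a : F2L α) : SqSum (a : α → ℝ) := ry_mem.1 (lp.memℓp a)

theorem f2_fin {α : Type*} (b : α →₀ ℝ) : SqSum (b : α → ℝ) :=
  summable_of_ne_finset_zero (s := b.support) fun p hp => by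
    rw [Finsupp.notMem_support_iff.1 hp]; simp

def f2fs {α : Type*} : (α →₀ ℝ) →ₗ[ℝ] F2L α where
  toFun b := f2to b (f2_fin b)
  map_add' _ _ := rfl
  map_smul' _ _ := rfl

theorem f2fs_apply {α : Type*} (b : α →₀ ℝ) (p : α) : f2fs b p = b p := rfl

def f2coe {α : Type*} : F2L α →ₗ[ℝ] (α → ℝ) where
  toFun a := a
  map_add' _ _ := rfl
  map_smul' _ _ := rfl

theorem f2coe_apply {α : Type*} (a : F2L α) (p : α) : f2coe a p = a p := rfl

theorem f2_tsum {α : Type*} (b : α →₀ ℝ) (v : α → ℝ) : ∑' p, b p * v p = prF b v := by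
  rw [tsum_eq_sum (s := b.support)]
  · rfl
  · intro p hp
    rw [Finsupp.notMem_support_iff.1 hp, zero_mul]

theorem f2fs_inner {α : Type*} (b : α →₀ ℝ) (a : F2L α) : inner ℝ (f2fs b) a = prF b a := by
  rw [ry_inner]
  exact f2_tsum b a

theorem f2fs_norm {α : Type*} (b : α →₀ ℝ) : ‖f2fs b‖ ^ 2 = b.sum fun _ a => a ^ 2 := by
  rw [ry_norm, tsum_eq_sum (s := b.support)]
  · rfl
  · intro p hp
    rw [f2fs_apply, Finsupp.notMem_support_iff.1 hp]; simp

theorem f2_orth_span {H : Type*} [NormedAddCommGroup H] [InnerProductSpace ℝ H] (B : Set H)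
    (a : H) : a ∈ (Submodule.span ℝ B)ᗮ ↔ ∀ s ∈ B, inner ℝ s a = 0 := by
  constructor
  · intro h s hs
    exact (Submodule.mem_orthogonal _ _).1 h s (Submodule.subset_span hs)
  · intro h
    rw [Submodule.mem_orthogonal]
    intro s hs
    induction hs using Submodule.span_induction with
    | mem x hx => exact h x hx
    | zero => simp
    | add x y _ _ hx hy => rw [inner_add_left, hx, hy, add_zero]
    | smul c x _ hx => rw [real_inner_smul_left, hx, mul_zero]

theorem f2_dist {α : Type*} (a b : F2L α) : ∑' p, (a p - b p) ^ 2 = ‖a - b‖ ^ 2 := by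
  rw [ry_norm]; rfl

theorem f2_rat {H : Type*} [NormedAddCommGroup H] [NormedSpace ℝ H] (b : ℕ → H) (K : Set ℕ) :
    (Submodule.span ℝ (b '' K) : Set H) ⊆
      closure {y | ∃ c : ℕ →₀ ℚ, (∀ k, c k ≠ 0 → k ∈ K) ∧ y = c.sum fun k a => (a : ℝ) • b k} := by
  set D := {y | ∃ c : ℕ →₀ ℚ, (∀ k, c k ≠ 0 → k ∈ K) ∧ y = c.sum fun k a => (a : ℝ) • b k} with hD
  intro y hy
  induction hy using Submodule.span_induction with
  | mem x hx =>
    obtain ⟨k, hk, rfl⟩ := hx
    refine subset_closure ⟨Finsupp.single k 1, fun j hj => ?_, ?_⟩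
    · by_cases e : j = k
      · rwa [e]
      · exact absurd (Finsupp.single_eq_of_ne e) hj
    · rw [Finsupp.sum_single_index] <;> simp
  | zero => exact subset_closure ⟨0, fun k hk => absurd rfl hk, by simp⟩
  | add x y _ _ hx hy =>
    refine map_mem_closure₂ (f := fun a b : H => a + b) continuous_add hx hy ?_
    rintro _ ⟨c, hc, rfl⟩ _ ⟨d, hd, rfl⟩
    refine ⟨c + d, fun k hk => ?_, ?_⟩
    · by_cases e : c k = 0
      · refine hd k fun e' => hk ?_
        simp [e, e']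
      · exact hc k e
    · rw [Finsupp.sum_add_index']
      · intro a; simp
      · intro a b₁ b₂; push_cast; rw [add_smul]
  | smul t x _ hx =>
    have ht : t ∈ closure (range ((↑) : ℚ → ℝ)) := Rat.denseRange_cast t
    refine map_mem_closure₂ (f := fun (a : ℝ) (b : H) => a • b) continuous_smul ht hx ?_
    rintro _ ⟨q, rfl⟩ _ ⟨c, hc, rfl⟩
    refine ⟨q • c, fun k hk => hc k fun e => hk ?_, ?_⟩
    · simp [e]
    · rw [Finsupp.sum_smul_index']
      · rw [Finsupp.smul_sum]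
        refine Finsupp.sum_congr fun k _ => ?_
        rw [smul_smul, smul_eq_mul]; push_cast; rfl
      · intro a; simp

theorem mem_closure_span {α : Type*} (b : ℕ → α →₀ ℝ) (K : Set ℕ) (e : α →₀ ℝ) :
    (∀ v : α → ℝ, SqSum v → (∀ k ∈ K, prF (b k) v = 0) → prF e v = 0) ↔
      ∀ m : ℕ, ∃ c : ℕ →₀ ℚ, (∀ k, c k ≠ 0 → k ∈ K) ∧
        (e - c.sum fun k a => (a : ℝ) • b k).sum (fun _ a => a ^ 2) < 1 / ((m : ℝ) + 1) := by
  have hΛ : ∀ c : ℕ →₀ ℚ, f2fs (c.sum fun k a => (a : ℝ) • b k) =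
      c.sum fun k a => (a : ℝ) • f2fs (b k) := fun c => by
    rw [map_finsuppSum]
    exact Finsupp.sum_congr fun k _ => map_smul _ _ _
  set B : Set (F2L α) := (fun k => f2fs (b k)) '' K with hB
  constructor
  · intro h m
    have h1 : f2fs e ∈ (Submodule.span ℝ B)ᗮᗮ := by
      rw [Submodule.mem_orthogonal]
      intro a ha
      rw [real_inner_comm, f2fs_inner]
      refine h a (f2_sq a) fun k hk => ?_
      rw [← f2fs_inner]
      exact (f2_orth_span B a).1 ha _ ⟨k, hk, rfl⟩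
    rw [Submodule.orthogonal_orthogonal_eq_closure] at h1
    have h2 := closure_minimal (f2_rat (fun k => f2fs (b k)) K) isClosed_closure h1
    have hm : (0 : ℝ) < 1 / ((m : ℝ) + 1) := by positivity
    obtain ⟨_, ⟨c, hc, rfl⟩, hd⟩ := Metric.mem_closure_iff.1 h2 _ hm
    refine ⟨c, hc, ?_⟩
    rw [← f2fs_norm, map_sub, hΛ, ← dist_eq_norm]
    have h3 : 1 / ((m : ℝ) + 1) ≤ 1 := by
      rw [div_le_one (by positivity)]
      have : (0 : ℝ) ≤ m := Nat.cast_nonneg m
      linarith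
    have h4 := dist_nonneg (x := f2fs e) (y := c.sum fun k a => (a : ℝ) • f2fs (b k))
    nlinarith
  · intro h v hv hk
    have h1 : f2fs e ∈ (Submodule.span ℝ B).topologicalClosure := by
      refine Metric.mem_closure_iff.2 fun ε hε => ?_
      obtain ⟨m, hm⟩ := exists_nat_one_div_lt (pow_pos hε 2)
      obtain ⟨c, hc, hd⟩ := h m
      refine ⟨c.sum fun k a => (a : ℝ) • f2fs (b k), ?_, ?_⟩
      · refine Submodule.finsuppSum_mem ℝ _ c _ fun k hk => ?_
        exact Submodule.smul_mem _ _ (Submodule.subset_span ⟨k, hc k hk, rfl⟩)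
      · rw [← f2fs_norm, map_sub, hΛ, ← dist_eq_norm] at hd
        exact lt_of_pow_lt_pow_left₀ 2 hε.le (hd.trans hm)
    rw [← Submodule.orthogonal_orthogonal_eq_closure] at h1
    have h2 : f2to v hv ∈ (Submodule.span ℝ B)ᗮ := by
      rw [f2_orth_span]
      rintro _ ⟨k, hk', rfl⟩
      rw [f2fs_inner]
      exact hk k hk'
    have h3 := (Submodule.mem_orthogonal _ _).1 h1 _ h2
    rw [real_inner_comm, f2fs_inner] at h3
    exact h3

theorem f2_const (A : PAct G X) {w : G × I → ℝ} (hw : SqSum w) {E : Set X} (hE : MeasurableSet E) :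
    ∃ f : FH A I, ∀ᵐ ξ ∂A.P, ∀ p, fibv f ξ p = if ξ ∈ E then w p else 0 := by
  refine exists_field (F := fun ξ p => if ξ ∈ E then w p else 0)
    (fun p => Measurable.ite hE measurable_const measurable_const) ?_
  refine ne_top_of_le_ne_top (b := ∫⁻ _ξ, ENNReal.ofReal (∑' p, w p ^ 2) ∂A.P) ?_
    (lintegral_mono fun ξ => ?_)
  · rw [lintegral_const]
    exact ENNReal.mul_ne_top ENNReal.ofReal_ne_top (measure_ne_top _ _)
  · rw [ENNReal.ofReal_tsum_of_nonneg (fun p => sq_nonneg _) hw]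
    refine ENNReal.tsum_le_tsum fun p => ?_
    split_ifs
    · exact le_rfl
    · simp

theorem f2_tendsto {α : Type*} {v : ℕ → F2L α} {w : F2L α}
    (h : Tendsto (fun n => ∑' p, (v n p - w p) ^ 2) atTop (𝓝 0)) : Tendsto v atTop (𝓝 w) := by
  rw [tendsto_iff_norm_sub_tendsto_zero]
  have h1 := (Real.continuous_sqrt.tendsto 0).comp h
  rw [Real.sqrt_zero] at h1
  refine h1.congr fun n => ?_
  simp only [Function.comp]
  rw [f2_dist, Real.sqrt_sq (norm_nonneg _)]

theorem f2_clos {Ψ : X → Submodule ℝ (G × I → ℝ)} {g : FH A I}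
    (hg : g ∈ (fibSub A Ψ).topologicalClosure) :
    ∀ᵐ ξ ∂A.P, ∀ a : F2L (G × I), (∀ p, a p = fibv g ξ p) →
      a ∈ ((Ψ ξ).comap f2coe).topologicalClosure := by
  obtain ⟨f, hf, hlim⟩ := mem_closure_iff_seq_limit.1 hg
  obtain ⟨φ, -, hφ⟩ := tendsto_fib hlim
  have h1 : ∀ᵐ ξ ∂A.P, ∀ n, fibv (f n) ξ ∈ Ψ ξ := ae_all_iff.2 hf
  have h2 : ∀ᵐ ξ ∂A.P, ∀ n, SqSum (fibv (f n) ξ) := ae_all_iff.2 fun n => ae_sqSum_fibv _
  filter_upwards [hφ, h1, h2] with ξ k0 k1 k2 a ha
  refine mem_closure_iff_seq_limit.2 ⟨fun n => f2to _ (k2 (φ n)), fun n => k1 (φ n), ?_⟩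
  refine f2_tendsto ?_
  simpa only [f2to_apply, ha] using k0

theorem f2_orth_const {F : FH A I} {w : G × I → ℝ} (hw : SqSum w) {E : Set X}
    (hE : MeasurableSet E)
    (h : ∀ (s : Set X) (g : FH A I), s ⊆ E →
      (∀ᵐ ξ ∂A.P, ∀ p, fibv g ξ p = if ξ ∈ s then w p else 0) → inner ℝ F g = 0) :
    ∀ᵐ ξ ∂A.P, ξ ∈ E → ∑' p, fibv F ξ p * w p = 0 := by
  obtain ⟨g, hg⟩ := f2_const A hw hE
  have h1 : (fun ξ => ∑' p, fibv F ξ p * fibv g ξ p) =ᵐ[A.P] 0 := by
    refine (integrable_fibv_mul F g).ae_eq_zero_of_forall_setIntegral_eq_zero fun s hs _ => ?_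
    obtain ⟨g', hg'⟩ := f2_const A hw (hs.inter hE)
    rw [← h (s ∩ E) g' inter_subset_right hg', inner_eq_integral, ← integral_indicator hs]
    refine integral_congr_ae ?_
    filter_upwards [hg, hg'] with ξ k k'
    by_cases e : ξ ∈ s
    · rw [indicator_of_mem e]
      refine tsum_congr fun p => ?_
      rw [k, k']
      simp [e]
    · rw [indicator_of_notMem e]
      simp [k', e]
  filter_upwards [h1, hg] with ξ k k' e
  simpa [k', e] using k

theorem f2_hilb {α : Type*} [DecidableEq α] (U V : Submodule ℝ (F2L α))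
    (h : ∀ q, ∃ n ∈ U.topologicalClosure, ∃ F ∈ V.topologicalClosure, F ∈ Uᗮ ∧
      ∀ p, n p + F p = if p = q then 1 else 0) : Uᗮ ≤ V.topologicalClosure := by
  intro v hv
  have hc : IsClosed ((V.topologicalClosure ⊓ Uᗮ : Submodule ℝ (F2L α)) : Set (F2L α)) :=
    V.isClosed_topologicalClosure.inter U.isClosed_orthogonal
  have : CompleteSpace (V.topologicalClosure ⊓ Uᗮ : Submodule ℝ (F2L α)) := hc.completeSpace_coe
  obtain ⟨c, hc1, w, hw, rfl⟩ :=
    Submodule.exists_add_mem_mem_orthogonal (K := V.topologicalClosure ⊓ Uᗮ) v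
  have hw2 : w ∈ Uᗮ := by
    have := Uᗮ.sub_mem hv hc1.2
    rwa [add_sub_cancel_left] at this
  have hw0 : w = 0 := by
    refine lp.ext (funext fun q => ?_)
    obtain ⟨n, hn, F, hF, hF', e⟩ := h q
    have e1 : inner ℝ F w = 0 := (Submodule.mem_orthogonal _ _).1 hw F ⟨hF, hF'⟩
    have e2 : inner ℝ n w = 0 := by
      rw [← Submodule.orthogonal_closure] at hw2
      exact (Submodule.mem_orthogonal _ _).1 hw2 n hn
    have e3 : inner ℝ (n + F) w = w q := by
      rw [ry_inner, tsum_eq_single q]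
      · change (n q + F q) * w q = w q
        rw [e]; simp
      · intro p hp
        change (n p + F p) * w p = 0
        rw [e]; simp [hp]
    rw [inner_add_left, e1, e2, add_zero] at e3
    exact e3.symm
  rw [hw0, add_zero]
  exact hc1.1

theorem fib_dense (b : ℕ → G × I →₀ ℝ) {Ek : ℕ → Set X} (hE : ∀ k, MeasurableSet (Ek k))
    (Φ : X → Submodule ℝ (G × I → ℝ))
    (h : ∀ f : FH A I, (∀ᵐ ξ ∂A.P, ∀ k, ξ ∈ Ek k → prF (b k) (fibv f ξ) = 0) → ∀ ε : ℝ, 0 < ε →
      ∃ f' : FH A I, (∀ᵐ ξ ∂A.P, fibv f' ξ ∈ Φ ξ) ∧ ‖f - f'‖ < ε) :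
    ∀ᵐ ξ ∂A.P, ∀ v : G × I → ℝ, SqSum v → (∀ k, ξ ∈ Ek k → prF (b k) v = 0) → ∀ ε : ℝ, 0 < ε →
      ∃ v' ∈ Φ ξ, SqSum v' ∧ ∑' p, (v p - v' p) ^ 2 < ε := by
  set U : X → Submodule ℝ (F2L (G × I)) :=
    fun ξ => Submodule.span ℝ ((fun k => f2fs (b k)) '' {k | ξ ∈ Ek k}) with hU
  have hUo : ∀ ξ (a : F2L (G × I)), (∀ k, ξ ∈ Ek k → prF (b k) a = 0) → a ∈ (U ξ)ᗮ := by
    intro ξ a ha
    rw [hU, f2_orth_span]
    rintro _ ⟨k, hk, rfl⟩
    rw [f2fs_inner]
    exact ha k hk
  set N := fibSub A fun ξ => (U ξ).map f2coe with hN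
  have inj : Function.Injective (f2coe : F2L (G × I) →ₗ[ℝ] (G × I → ℝ)) := fun a c e => lp.ext e
  have key : ∀ q : G × I, ∀ᵐ ξ ∂A.P, ∃ n ∈ (U ξ).topologicalClosure,
      ∃ F ∈ ((Φ ξ).comap f2coe).topologicalClosure, F ∈ (U ξ)ᗮ ∧
        ∀ p, n p + F p = if p = q then 1 else 0 := by
    intro q
    obtain ⟨d, hd⟩ := exists_point A q MeasurableSet.univ
    obtain ⟨n, hn, F, hF, e⟩ :=
      Submodule.exists_add_mem_mem_orthogonal (K := N.topologicalClosure) d
    rw [Submodule.orthogonal_closure] at hF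
    have h1 : ∀ᵐ ξ ∂A.P, ∀ k, ξ ∈ Ek k → prF (b k) (fibv F ξ) = 0 := by
      refine ae_all_iff.2 fun k => ?_
      have h2 := f2_orth_const (F := F) (f2_fin (b k)) (hE k) fun s g hs hg => by
        refine (Submodule.mem_orthogonal' _ _).1 hF g ?_
        change ∀ᵐ ξ ∂A.P, fibv g ξ ∈ (U ξ).map f2coe
        filter_upwards [hg] with ξ hξ
        by_cases e : ξ ∈ s
        · refine ⟨f2fs (b k), Submodule.subset_span ⟨k, hs e, rfl⟩, funext fun p => ?_⟩
          rw [hξ, if_pos e]; rfl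
        · refine ⟨0, (U ξ).zero_mem, funext fun p => ?_⟩
          rw [hξ, if_neg e]; rfl
      filter_upwards [h2] with ξ hξ hk
      rw [← f2_tsum, ← hξ hk]
      exact tsum_congr fun p => mul_comm _ _
    have h3 : F ∈ (fibSub A Φ).topologicalClosure := by
      refine Metric.mem_closure_iff.2 fun ε hε => ?_
      obtain ⟨f', k1, k2⟩ := h F h1 ε hε
      exact ⟨f', k1, by rwa [dist_eq_norm]⟩
    filter_upwards [hd, h1, f2_clos h3, f2_clos hn, ae_sqSum_fibv n, ae_sqSum_fibv F,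
      fibv_add n F] with ξ k0 k1 k2 k3 k4 k5 k6
    refine ⟨f2to _ k4, ?_, f2to _ k5, k2 _ fun p => rfl, hUo ξ _ k1, fun p => ?_⟩
    · have := k3 (f2to _ k4) fun p => rfl
      rwa [Submodule.comap_map_eq_of_injective inj] at this
    · rw [f2to_apply, f2to_apply, ← k6, ← e, k0]
      simp
  filter_upwards [ae_all_iff.2 key] with ξ hξ v hv hk ε hε
  have h4 := f2_hilb _ _ hξ (hUo ξ (f2to v hv) hk)
  obtain ⟨v', k1, k2⟩ := Metric.mem_closure_iff.1 h4 _ (Real.sqrt_pos.2 hε)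
  refine ⟨v', k1, f2_sq v', ?_⟩
  have h5 := f2_dist (f2to v hv) v'
  simp only [f2to_apply] at h5
  rw [h5, ← dist_eq_norm]
  exact (Real.lt_sqrt dist_nonneg).1 k2

def f2e (I : Type u) (g : G) : G × I ≃ G × I := (Equiv.mulLeft g⁻¹).prodCongr (Equiv.refl I)

def f2tr (g : G) (a : F2L (G × I)) : F2L (G × I) :=
  f2to (fun p => a (g⁻¹ * p.1, p.2)) ((f2e I g).summable_iff.2 (f2_sq a))

omit [Countable G] [Countable I] in
theorem f2tr_apply (g : G) (a : F2L (G × I)) (p : G × I) : f2tr g a p = a (g⁻¹ * p.1, p.2) := rfl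

omit [Countable G] [Countable I] in
theorem f2tr_inner (g : G) (a b : F2L (G × I)) :
    inner ℝ a (f2tr g b) = inner ℝ (f2tr g⁻¹ a) b := by
  rw [ry_inner, ry_inner, ← (f2e I g).tsum_eq fun p => f2tr g⁻¹ a p * b p]
  refine tsum_congr fun p => ?_
  change a p * b (g⁻¹ * p.1, p.2) = a (g⁻¹⁻¹ * (g⁻¹ * p.1), p.2) * b (g⁻¹ * p.1, p.2)
  rw [inv_inv, mul_inv_cancel_left]

/-- Translation invariant sets. -/
def f2TI (W : Set (F2L (G × I))) : Prop := ∀ g : G, ∀ a ∈ W, f2tr g a ∈ W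

omit [Countable G] [Countable I] in
theorem f2TI.orth {W : Submodule ℝ (F2L (G × I))} (h : f2TI (W : Set (F2L (G × I)))) :
    f2TI (Wᗮ : Set (F2L (G × I))) := fun g a ha => by
  refine (Submodule.mem_orthogonal _ _).2 fun s hs => ?_
  rw [f2tr_inner]
  exact (Submodule.mem_orthogonal _ _).1 ha _ (h _ s hs)

omit [Countable G] [Countable I] in
theorem f2TI.orth_span {B : Set (F2L (G × I))} (h : f2TI B) :
    f2TI ((Submodule.span ℝ B)ᗮ : Set (F2L (G × I))) := fun g a ha => by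
  refine (f2_orth_span _ _).2 fun s hs => ?_
  rw [f2tr_inner]
  exact (f2_orth_span _ _).1 ha _ (h _ s hs)

omit [Countable G] [Countable I] in
theorem f2_bot {Z : Submodule ℝ (F2L (G × I))} (hc : IsClosed (Z : Set (F2L (G × I))))
    (hT : f2TI (Z : Set (F2L (G × I)))) (h : ∀ z ∈ Z, ∀ i, z (1, i) = ‖z‖ ^ 2 → z = 0) :
    ∀ a ∈ Z, a = 0 := by
  have : CompleteSpace Z := hc.completeSpace_coe
  have h1 : ∀ a ∈ Z, ∀ i, a (1, i) = 0 := by
    intro a ha i
    have he : ∀ c : F2L (G × I), inner ℝ (f2fs (Finsupp.single (1, i) 1)) c = c (1, i) := by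
      intro c
      rw [f2fs_inner, prF, Finsupp.sum_single_index] <;> simp
    obtain ⟨z, hz, w, hw, e⟩ :=
      Submodule.exists_add_mem_mem_orthogonal (K := Z) (f2fs (Finsupp.single (1, i) 1))
    have h2 : ∀ c ∈ Z, c (1, i) = inner ℝ z c := fun c hc => by
      rw [← he, e, inner_add_left, (Submodule.mem_orthogonal' _ _).1 hw c hc, add_zero]
    have h3 : z = 0 := h z hz i (by rw [h2 z hz, real_inner_self_eq_norm_sq])
    rw [h2 a ha, h3, inner_zero_left]
  intro a ha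
  refine lp.ext (funext fun p => ?_)
  have h4 := h1 _ (hT p.1⁻¹ a ha) p.2
  rw [f2tr_apply, inv_inv, mul_one] at h4
  exact h4

theorem f2_inv {τ : TS (FH A I) I} (hτ : IsTS A τ) {Z : Submodule ℝ (F2L (G × I))}
    (hc : IsClosed (Z : Set (F2L (G × I)))) (hT : f2TI (Z : Set (F2L (G × I)))) :
    τ.Inv (fibSub A fun _ => Z.map f2coe) := by
  refine hτ.inv_fibSub (Eventually.of_forall fun _ v w hv _ hw hl => ?_) ?_
  · choose a ha e using hv
    refine ⟨f2to w hw, hc.mem_of_tendsto (f2_tendsto (v := a) ?_) (Eventually.of_forall ha), rfl⟩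
    refine hl.congr fun n => ?_
    rw [← e n]
    rfl
  · rintro g ξ _ ⟨a, ha, rfl⟩
    exact ⟨f2tr g a, hT g a ha, rfl⟩

theorem f2_le_dim {τ : TS (FH A I) I} (hτ : IsTS A τ) {Z : Submodule ℝ (F2L (G × I))}
    {z : F2L (G × I)} (hz : z ∈ Z) (i : I) (h : z (1, i) = ‖z‖ ^ 2) :
    ‖z‖ₑ ^ 2 ≤ τ.dim (fibSub A fun _ => Z.map f2coe) := by
  obtain ⟨c, hc⟩ := f2_const A (f2_sq z) MeasurableSet.univ
  simp only [mem_univ, if_true] at hc
  have h1 : ‖c‖ ^ 2 = ‖z‖ ^ 2 := by
    rw [← real_inner_self_eq_norm_sq c, inner_eq_integral,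
      integral_congr_ae (g := fun _ => ‖z‖ ^ 2)]
    · simp
    · filter_upwards [hc] with ξ k
      rw [ry_norm]
      refine tsum_congr fun p => ?_
      rw [k, sq]
  have h2 : inner ℝ c (τ.δ i) = ‖c‖ ^ 2 := by
    rw [hτ.inner_δ, h1, integral_congr_ae (g := fun _ => ‖z‖ ^ 2)]
    · simp
    · filter_upwards [hc] with ξ k
      rw [k, h]
  have h3 : c ∈ fibSub A fun _ => Z.map f2coe := by
    change ∀ᵐ ξ ∂A.P, fibv c ξ ∈ Z.map f2coe
    filter_upwards [hc] with ξ k
    exact ⟨z, hz, funext fun p => (k p).symm⟩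
  have h4 : ‖c‖ = ‖z‖ := (pow_left_inj₀ (norm_nonneg _) (norm_nonneg _) two_ne_zero).1 h1
  have h5 := τ.le_dim_of_mem h3 i h2
  rwa [← ofReal_norm, h4, ofReal_norm] at h5

theorem f2_inj {τ : TS (FH A I) I} (hτ : IsTS A τ) {Z : Submodule ℝ (F2L (G × I))}
    (hc : IsClosed (Z : Set (F2L (G × I)))) (hT : f2TI (Z : Set (F2L (G × I))))
    (T : Finset I) (hs : ∀ a ∈ Z, ∀ p : G × I, p.2 ∉ T → a p = 0) {E : X → G × I → Prop}
    (hm : ∀ p, MeasurableSet {ξ | E ξ p})
    (he : ∀ g ξ p, E (A.sh g ξ) (g * p.1, p.2) ↔ E ξ p)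
    (hi : ∀ᵐ ξ ∂A.P, ∀ a ∈ Z, (∀ p, E ξ p → a p = 0) → a = 0) :
    τ.dim (fibSub A fun _ => Z.map f2coe) ≤ ∑' i, A.P {ξ | E ξ (1, i)} := by
  have h1 : τ.dim (fibSub A fun _ => Z.map f2coe) ≠ ⊤ := by
    have h2 : (fibSub A fun _ => Z.map f2coe) ≤
        fibSub A fun ξ => suppM ((fun (_ : X) (p : G × I) => p.2 ∈ T) ξ) := by
      intro f hf
      change ∀ᵐ ξ ∂A.P, fibv f ξ ∈ Z.map f2coe at hf
      change ∀ᵐ ξ ∂A.P, fibv f ξ ∈ suppM fun p : G × I => p.2 ∈ T
      filter_upwards [hf] with ξ ⟨a, ha, e⟩ p hp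
      rw [← e]
      exact hs a ha p hp
    refine ne_top_of_le_ne_top ?_ (τ.dim_mono h2)
    rw [hτ.dim_supp (E := fun (_ : X) (p : G × I) => p.2 ∈ T) fun p => MeasurableSet.const _,
      tsum_eq_sum (s := T)]
    · exact ENNReal.sum_ne_top.2 fun i _ => measure_ne_top _ _
    · intro i hi
      simp [hi]
  have hW := hτ.inv_supp he
  rw [← hτ.dim_supp hm]
  refine τ.dim_le_of_inj (f2_inv hτ hc hT) h1 (τ.comm_proj hW.2) (fun w hw h0 => ?_)
    fun w _ => Submodule.starProjection_apply_mem _ _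
  rw [Submodule.starProjection_apply_eq_zero_iff, Submodule.orthogonal_closure] at h0
  have h3 : ∀ q, ∀ᵐ ξ ∂A.P, E ξ q → fibv w ξ q = 0 := by
    intro q
    obtain ⟨d, hd⟩ := exists_point A q (hm q)
    have h4 : d ∈ fibSub A fun ξ => suppM (E ξ) := by
      change ∀ᵐ ξ ∂A.P, fibv d ξ ∈ suppM (E ξ)
      filter_upwards [hd] with ξ k p hp
      rw [k, if_neg]
      rintro ⟨rfl, k2⟩
      exact hp k2
    filter_upwards [hτ.orth_fib hW.2 h0 h4, hd] with ξ k k' hq
    rw [tsum_eq_single q] at k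
    · rwa [k', if_pos ⟨rfl, hq⟩, mul_one] at k
    · intro p hp
      rw [k', if_neg fun e => hp e.1, mul_zero]
  refine fh_ext ?_
  change ∀ᵐ ξ ∂A.P, fibv w ξ ∈ Z.map f2coe at hw
  filter_upwards [ae_all_iff.2 h3, hi, hw, fibv_zero (A := A) (I := I)] with ξ k1 k2 ⟨a, ha, e⟩ k3 p
  rw [k3, ← e, k2 a ha fun q hq => by rw [← k1 q hq, ← e]; rfl]
  rfl

def f2unc (T : Finset G) (f : G → G → ℝ) (p : G × G) : ℝ := if p.2 ∈ T then f p.1 p.2 else 0

omit [Countable G] [Group G] in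
theorem f2_unc_sum (T : Finset G) {f : G → G → ℝ} (hf : ∀ b ∈ T, Summable fun x => f x b) :
    Summable (f2unc T f) ∧ ∑' p, f2unc T f p = ∑' x, ∑ b ∈ T, f x b := by
  have e : f2unc T f = fun p => ∑ b ∈ T, if p.2 = b then f p.1 b else 0 := by
    funext p
    rw [Finset.sum_ite_eq]
    rfl
  have h1 : Summable (f2unc T f) := by
    rw [e]
    refine summable_sum fun b hb => ?_
    have inj : Function.Injective fun x : G => (x, b) := fun x y h => (Prod.ext_iff.1 h).1
    refine (inj.summable_iff ?_).1 ?_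
    · intro p hp
      rw [if_neg]
      rintro rfl
      exact hp ⟨p.1, rfl⟩
    · simpa [Function.comp_def] using hf b hb
  refine ⟨h1, ?_⟩
  rw [h1.tsum_prod]
  refine tsum_congr fun x => ?_
  rw [tsum_eq_sum (s := T)]
  · exact Finset.sum_congr rfl fun b hb => if_pos hb
  · exact fun b hb => if_neg hb

omit [Countable G] [Group G] in
theorem f2_unc_sq {T : Finset G} {f : G → G → ℝ} (hf : SqE T f) : SqSum (f2unc T f) := by
  refine (f2_unc_sum T (f := fun x b => f x b ^ 2) hf).1.congr fun p => ?_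
  unfold f2unc
  split_ifs <;> simp

omit [Countable G] [Group G] in
theorem f2_unc_mul {T : Finset G} {f g : G → G → ℝ} (hf : SqE T f) (hg : SqE T g) :
    ∑' p, f2unc T g p * f2unc T f p = ∑' x, ∑ b ∈ T, f x b * g x b := by
  rw [← (f2_unc_sum T (f := fun x b => f x b * g x b) fun b hb => ry_mul (hf b hb) (hg b hb)).2]
  refine tsum_congr fun p => ?_
  unfold f2unc
  split_ifs
  · ring
  · simp

omit [Countable G] in
theorem f2_grad {S : Finset G} (hS : Cay S) (T : Finset G) {u : G → ℝ} (hu : FinEn S u) :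
    SqE T fun x b => u (x * b) - u x := by
  intro b _
  obtain ⟨r, hr⟩ := hS.finite_subset_bl (finite_singleton b) 1
  have hb : b ∈ ball S r := by simpa [bl] using hr (mem_singleton b)
  obtain ⟨C, -, hC⟩ := ball_shift S r
  exact summable_of_sum_le (fun _ => sq_nonneg _) (hC u hu b hb)

/-- Divergence free square summable edge functions. -/
def f2D (T : Finset G) : Submodule ℝ (F2L (G × G)) where
  carrier := {a | (∀ p : G × G, p.2 ∉ T → a p = 0) ∧ DivFree T fun x b => a (x, b)}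
  zero_mem' := ⟨fun _ _ => rfl, fun y => by simp⟩
  add_mem' := fun {a c} ha hc => ⟨fun p hp => by
      change a p + c p = 0
      rw [ha.1 p hp, hc.1 p hp, add_zero], fun y => by
      have h := congrArg₂ (· + ·) (ha.2 y) (hc.2 y)
      simp only [← Finset.sum_add_distrib, add_zero] at h
      rw [← h]
      refine Finset.sum_congr rfl fun b _ => ?_
      change a _ + c _ - (a _ + c _) = _
      ring⟩
  smul_mem' := fun t {a} ha => ⟨fun p hp => by
      change t * a p = 0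
      rw [ha.1 p hp, mul_zero], fun y => by
      have h := congrArg (t * ·) (ha.2 y)
      simp only [Finset.mul_sum, mul_zero] at h
      rw [← h]
      refine Finset.sum_congr rfl fun b _ => ?_
      change t * a _ - t * a _ = _
      ring⟩

omit [Countable G] in
theorem f2D_closed (T : Finset G) : IsClosed (f2D T : Set (F2L (G × G))) := by
  have hc : ∀ p : G × G, Continuous fun a : F2L (G × G) => a p := fun p =>
    (continuous_apply p).comp lp.uniformContinuous_coe.continuous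
  have e : (f2D T : Set (F2L (G × G))) = (⋂ p : G × G, ⋂ _ : p.2 ∉ T, {a | a p = 0}) ∩
      ⋂ y, {a | ∑ b ∈ T, (a (y * b⁻¹, b) - a (y, b)) = 0} := by
    ext a
    simp only [mem_inter_iff, mem_iInter]
    rfl
  rw [e]
  refine (isClosed_iInter fun p => isClosed_iInter fun _ => isClosed_eq (hc p) continuous_const).inter
    (isClosed_iInter fun y => isClosed_eq ?_ continuous_const)
  exact continuous_finsetSum _ fun b _ => (hc _).sub (hc _)

omit [Countable G] in
theorem f2D_TI (T : Finset G) : f2TI (f2D T : Set (F2L (G × G))) := fun g a ha =>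
  ⟨fun p hp => ha.1 (g⁻¹ * p.1, p.2) hp, fun y => by
    have h := ha.2 (g⁻¹ * y)
    simp only [mul_assoc] at h
    exact h⟩

theorem wk_of_env {S : Finset G} (hS : Cay S) (Q : Cones S) (T : Finset G)
    (h : ∀ δ : ℝ≥0∞, δ ≠ 0 → ∃ (Y : Type u) (_ : MeasurableSpace Y) (A : PAct G Y)
      (Bad : Y → G → Prop), (∀ x, MeasurableSet {ξ | Bad ξ x}) ∧
      (∀ g ξ x, Bad (A.sh g ξ) (g * x) ↔ Bad ξ x) ∧ A.P {ξ | Bad ξ 1} ≤ δ ∧
      ∀ᵐ ξ ∂A.P, ∀ f, SqE T f → DivFree T f →
        (∀ x, ∀ b ∈ T, Bad ξ x ∨ Bad ξ (x * b) → f x b = 0) →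
        ∀ u φ, Q.KF u φ → pairE T f u = 0) : Q.WK T := by
  set B : Set (F2L (G × G)) :=
    {s | ∃ u φ, Q.KF u φ ∧ ∀ p, s p = f2unc T (fun x b => u (x * b) - u x) p} with hB
  have hBT : f2TI B := by
    rintro g s ⟨u, φ, hu, e⟩
    refine ⟨fun x => u (g⁻¹ * x), fun i x => φ i (g⁻¹ * x), ⟨(hu.1.translate g⁻¹).1, fun i =>
      ⟨(Equiv.mulLeft g⁻¹).summable_iff.2 (hu.2 i).1, fun x t ht => ?_⟩⟩, fun p => ?_⟩
    · simpa only [mul_assoc] using (hu.2 i).2 (g⁻¹ * x) t ht
    · rw [f2tr_apply, e]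
      simp only [f2unc, mul_assoc]
  have hp : ∀ {u φ} (hu : Q.KF u φ) {f} (hf : SqE T f) (s a : F2L (G × G)),
      (∀ p, s p = f2unc T (fun x b => u (x * b) - u x) p) → (∀ p, a p = f2unc T f p) →
      inner ℝ s a = pairE T f u := by
    intro u φ hu f hf s a hs ha
    rw [ry_inner, pairE, ← f2_unc_mul hf (f2_grad hS T hu.1)]
    exact tsum_congr fun p => by rw [hs, ha]
  set K : Submodule ℝ (F2L (G × G)) := f2D T ⊓ (Submodule.span ℝ B)ᗮ with hK
  set Z : Submodule ℝ (F2L (G × G)) := f2D T ⊓ Kᗮ with hZ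
  have hKc : IsClosed (K : Set (F2L (G × G))) :=
    (f2D_closed T).inter (Submodule.isClosed_orthogonal _)
  have hZc : IsClosed (Z : Set (F2L (G × G))) :=
    (f2D_closed T).inter (Submodule.isClosed_orthogonal _)
  have hKT : f2TI (K : Set (F2L (G × G))) := fun g a ha =>
    ⟨f2D_TI T g a ha.1, hBT.orth_span g a ha.2⟩
  have hZT : f2TI (Z : Set (F2L (G × G))) := fun g a ha =>
    ⟨f2D_TI T g a ha.1, hKT.orth g a ha.2⟩
  have h0 : ∀ a ∈ Z, a = 0 := by
    refine f2_bot hZc hZT fun z hz i hi => ?_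
    by_contra hne
    have h1 : ‖z‖ₑ ^ 2 ≠ 0 := pow_ne_zero _ (by simpa using hne)
    have h2 : (T.card : ℝ≥0∞) * 2 ≠ ⊤ := ENNReal.mul_ne_top (by simp) (by simp)
    obtain ⟨δ, hδ, hlt⟩ := ENNReal.exists_pos_mul_lt h2 h1
    obtain ⟨Y, _, A, Bad, hm, he, hP, hae⟩ := h δ hδ.ne'
    obtain ⟨τ, hτ⟩ := exists_isTS A G
    have h3 : ∀ x, A.P {ξ | Bad ξ x} ≤ δ := fun x => by
      refine le_trans (le_of_eq ?_) hP
      rw [← (A.mp x).measure_preimage (hm x).nullMeasurableSet]
      refine congrArg A.P (Set.ext fun ξ => ?_)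
      have := he x ξ 1
      rwa [mul_one] at this
    have h4 := f2_inj hτ hZc hZT T (fun a ha => ha.1.1)
      (E := fun ξ p => p.2 ∈ T ∧ (Bad ξ p.1 ∨ Bad ξ (p.1 * p.2)))
      (fun p => (MeasurableSet.const _).inter ((hm _).union (hm _)))
      (fun g ξ p => by rw [mul_assoc, he, he]) (by
        filter_upwards [hae] with ξ k a ha hv
        have hs : SqE T fun x b => a (x, b) := fun b _ =>
          (f2_sq a).comp_injective (i := fun x : G => (x, b)) fun x y h => (Prod.ext_iff.1 h).1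
        have hk : a ∈ K := by
          refine ⟨ha.1, (f2_orth_span _ _).2 ?_⟩
          rintro s ⟨u, φ, hu, e⟩
          rw [hp hu hs s a e fun p => ?_]
          · exact k _ hs ha.1.2 (fun x b hb hx => hv (x, b) ⟨hb, hx⟩) u φ hu
          · unfold f2unc
            split_ifs with hp
            · rfl
            · exact ha.1.1 p hp
        exact inner_self_eq_zero.1 ((Submodule.mem_orthogonal _ _).1 ha.2 a hk))
    refine absurd ((f2_le_dim hτ hz i hi).trans (h4.trans ?_)) (not_le.2 hlt)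
    rw [tsum_eq_sum (s := T) fun b hb => by simp [hb]]
    refine (Finset.sum_le_card_nsmul _ _ (δ + δ) fun b _ => ?_).trans (le_of_eq ?_)
    · refine le_trans (measure_mono fun ξ hξ => ?_)
        ((measure_union_le {ξ | Bad ξ 1} {ξ | Bad ξ (1 * b)}).trans (add_le_add (h3 _) (h3 _)))
      exact hξ.2
    · rw [nsmul_eq_mul]; ring
  intro u φ hu f hf hd
  have ha : f2to _ (f2_unc_sq hf) ∈ f2D T := by
    refine ⟨fun p hp => if_neg hp, fun y => ?_⟩
    rw [← hd y]
    refine Finset.sum_congr rfl fun b hb => ?_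
    simp only [f2to_apply, f2unc, if_pos hb]
  have : CompleteSpace K := hKc.completeSpace_coe
  obtain ⟨k, hk, w, hw, e⟩ :=
    Submodule.exists_add_mem_mem_orthogonal (K := K) (f2to _ (f2_unc_sq hf))
  have hw1 : w ∈ f2D T := by
    have := (f2D T).sub_mem ha hk.1
    rwa [e, add_sub_cancel_left] at this
  rw [h0 w ⟨hw1, hw⟩, add_zero] at e
  rw [← e] at hk
  rw [← hp hu hf (f2to _ (f2_unc_sq (f2_grad hS T hu.1))) (f2to _ (f2_unc_sq hf))
    (fun _ => rfl) fun _ => rfl]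
  exact (f2_orth_span _ _).1 hk.2 _ ⟨u, φ, hu, fun _ => rfl⟩

end Vale.Agent.P239
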