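import Vale.Agent.P239.Full.FEnc
import Vale.Agent.P239.Full.FFib2
import Vale.Agent.P239.Full.FEnv

/-! Task FBadM: the relation `Bad` is measurable, symmetric and invariant. `exists_eqs` with `L = Bool`, `A = univ`, `e = True`, `r = fun a => if a then r ξ else r ξ'` (or `cond`); for fixed points `p, p'`,
`Bad` means that `prF (P p.1 - single (p.1, class coordinate of p) 1 - P p'.1 + single (..) 1) v = 0` for all `v ∈ encW` (`exists_pathF`); `mem_closure_span` turns this into a countable condition. Union over the countably many `(p, p')`.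
`bad_act`: translate the functions (`KF.translate`, `equi`).
-/

noncomputable section

open Classical MeasureTheory Filter Topology Set
open scoped Pointwise ENNReal

namespace Vale.Agent.P239

universe u
variable {G : Type u} [Group G] {S : Finset G} {l : ℕ} {Q : Cones S} {B : Bdry S}
  {X : Type u} [MeasurableSpace X]

namespace REnv
variable (E : REnv G X)

theorem bad_iff (z z' : X × Pt G) : E.Bad Q z z' ↔ BadR Q (E.r z.1) z.2 (E.r z'.1) z'.2 := Iff.rfl

omit [Group G] in
theorem fbm_prF {α : Type*} (b : α →₀ ℝ) (v : α → ℝ) :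
    prF b v = Finsupp.linearCombination ℝ v b := rfl

theorem fbm_iff {P : G → (G × EI Q Bool →₀ ℝ)}
    (hP : ∀ (v : G × EI Q Bool → ℝ) (u : G → ℝ),
      (∀ x, ∀ s ∈ S, v (x, Sum.inl s) = u (x * s) - u x) → ∀ x, prF (P x) v = u x - u 1)
    (r r' : G × ℕ → G × ℕ → Prop) (p p' : G × ℕ) :
    BadR Q r p r' p' ↔ ∀ v ∈ encW Q (fun a => cond a r r') (fun _ _ => True) univ univ,
      prF (P p.1 - Finsupp.single (p.1, Sum.inr (Sum.inr (Sum.inl (true, p.2)))) 1 - P p'.1 +
        Finsupp.single (p'.1, Sum.inr (Sum.inr (Sum.inl (false, p'.2)))) 1) v = 0 := by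
  have key : ∀ (u : G → ℝ) (φ : Fin Q.n → G → ℝ) (ψ : Bool → G × ℕ → ℝ),
      prF (P p.1 - Finsupp.single (p.1, Sum.inr (Sum.inr (Sum.inl (true, p.2)))) 1 - P p'.1 +
        Finsupp.single (p'.1, Sum.inr (Sum.inr (Sum.inl (false, p'.2)))) 1) (enc Q univ u φ ψ) =
        u p.1 - ψ true p - (u p'.1 - ψ false p') := by
    intro u φ ψ
    have h := hP (enc Q univ u φ ψ) u fun x s hs => if_pos hs
    rw [fbm_prF, map_add, map_sub, map_sub, ← fbm_prF, ← fbm_prF (P p'.1), h, h,
      Finsupp.linearCombination_single, Finsupp.linearCombination_single, one_smul, one_smul,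
      enc, enc, if_pos (mem_univ _), if_pos (mem_univ _)]
    ring
  constructor
  · rintro h _ ⟨u, φ, ψ, h1, h2, -, rfl⟩
    rw [key, sub_eq_zero]
    exact h u φ _ _ h1 (h2 true (mem_univ _)) (h2 false (mem_univ _))
  · intro h u φ ψ ψ' h1 h2 h3
    have h4 := h _ ⟨u, φ, fun a => cond a ψ ψ', h1, fun a _ => by cases a; exacts [h3, h2],
      fun _ _ h => absurd trivial h, rfl⟩
    rwa [key, sub_eq_zero] at h4

theorem measurable_bad (hS : Cay S) (Q : Cones S) :
    MeasurableSet {w : (X × Pt G) × (X × Pt G) | E.Bad Q w.1 w.2} := by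
  have := hS.countable
  have : Countable (Pt G) := inferInstanceAs (Countable (G × ℕ))
  obtain ⟨P, hP⟩ := exists_pathF hS Q Bool
  obtain ⟨b, cd, hm, hb⟩ := exists_eqs hS Q (univ : Set Bool)
  have hm' := hm ((X × Pt G) × (X × Pt G)) (fun w a => cond a (E.r w.1.1) (E.r w.2.1))
    (fun _ _ _ => True) (fun a p q => by
      cases a
      · exact (measurable_fst.comp measurable_snd) (E.meas p q)
      · exact (measurable_fst.comp measurable_fst) (E.meas p q)) fun _ _ => MeasurableSet.univ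
  have h1 : ∀ p p' : Pt G, Measurable fun w : (X × Pt G) × (X × Pt G) =>
      BadR Q (E.r w.1.1) p (E.r w.2.1) p' := by
    intro p p'
    have e : ∀ w : (X × Pt G) × (X × Pt G), BadR Q (E.r w.1.1) p (E.r w.2.1) p' ↔ _ := fun w =>
      ((fbm_iff hP _ _ p p').trans (forall_congr' fun v => (imp_congr_left (hb _ _ v)).trans
        and_imp)).trans (mem_closure_span b
          {k | cd k (fun a => cond a (E.r w.1.1) (E.r w.2.1)) fun _ _ => True} _)
    rw [funext fun w => propext (e w)]
    exact Measurable.forall fun m => Measurable.exists fun c => (Measurable.forall fun k =>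
      measurable_const.imp (measurableSet_setOfPred.1 (hm' k))).and measurable_const
  have e : {w : (X × Pt G) × (X × Pt G) | E.Bad Q w.1 w.2} = {w | ∃ p p' : Pt G,
      (w.1.2 = p ∧ w.2.2 = p') ∧ BadR Q (E.r w.1.1) p (E.r w.2.1) p'} := by
    ext w
    exact ⟨fun h => ⟨_, _, ⟨rfl, rfl⟩, h⟩, by rintro ⟨_, _, ⟨rfl, rfl⟩, h⟩; exact h⟩
  rw [e, measurableSet_setOfPred]
  refine Measurable.exists fun p => Measurable.exists fun p' => Measurable.and (.and ?_ ?_) (h1 p p')
  · exact measurableSet_setOfPred.1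
      ((measurable_snd.comp measurable_fst) (MeasurableSet.of_discrete (s := {p})))
  · exact measurableSet_setOfPred.1
      ((measurable_snd.comp measurable_snd) (MeasurableSet.of_discrete (s := {p'})))

theorem bad_symm {z z' : X × Pt G} (h : E.Bad Q z z') : E.Bad Q z' z := by
  exact fun u φ ψ ψ' h1 h2 h3 => (h u φ ψ' ψ h1 h3 h2).symm

theorem fbm_cls (g : G) (ξ : X) {u : G → ℝ} {ψ : G × ℕ → ℝ} (h : ClsC (E.r (E.A.sh g ξ)) u ψ) :
    ClsC (E.r ξ) (fun x => u (g * x)) fun p => ψ (g * p.1, p.2) :=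
  ⟨(((Equiv.mulLeft g).prodCongr (Equiv.refl ℕ)).summable_iff (f := fun p => ψ p ^ 2)).2 h.1,
    fun p q hr => h.2 _ _ ((E.equi g ξ p q).2 hr)⟩

theorem fbm_act (g : G) {z z' : X × Pt G} (h : E.Bad Q z z') :
    E.Bad Q (E.act g z) (E.act g z') := fun _ _ _ _ h1 h2 h3 =>
  h _ _ _ _ (h1.translate g) (E.fbm_cls g _ h2) (E.fbm_cls g _ h3)

theorem fbm_inv (g : G) (z : X × Pt G) : E.act g⁻¹ (E.act g z) = z := by
  refine Prod.ext ?_ (Prod.ext (inv_mul_cancel_left g z.2.1) rfl)
  change E.A.sh g⁻¹ (E.A.sh g z.1) = z.1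
  rw [← E.A.sh_mul, inv_mul_cancel, E.A.sh_one]

theorem bad_act (g : G) (z z' : X × Pt G) : E.Bad Q (E.act g z) (E.act g z') ↔ E.Bad Q z z' := by
  refine ⟨fun h => ?_, E.fbm_act g⟩
  have h1 := E.fbm_act g⁻¹ h
  rwa [fbm_inv, fbm_inv] at h1

end REnv

end Vale.Agent.P239
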