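import Vale.Agent.P239.Full.FGD2b
import Vale.Agent.P239.Full.FFib2

/-! Task FGD2c: density. Let `e ξ a p = r ξ a p p`, `W = fibSub (encW (r ξ) (e ξ) A₀ A₀)` (`exists_encM`), `V = subV`. `W` is `Inv` (`inv_fibSub`: closed by `exists_eqs`, invariant by `KF.translate`, `equi`), of finite dimension
(contained in the support space of the coordinates `inl s` (`s ∈ S`), cone coordinates, existing points; `dim_mono`, `dim_supp`, `fin`), orthogonal to `V` (`isOrtho_supp`). `gd` with `Ao n`, `Dg n` for `T n`; `h7` because classes are infinite and connected.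
If `Ao n w' = Dg n v` for all `n` then a.s. `u' - v` is constant on the classes of the layers outside `A₀` (`ClsW`, apply it to `y ↦ u' y - v (y, index of y)`), so the fibre of `w'` lies in `encW A₀ univ`. `fib_dense` with the equations of `exists_eqs`.
`gdens_of`: restrict `ψ` to existing points, approximate, put the old values back at the points that do not exist, add a constant (`enc_le`).
-/

noncomputable section

open Classical MeasureTheory Filter Topology Set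
open scoped Pointwise ENNReal

namespace Vale.Agent.P239

universe u
variable {G : Type u} [Group G] [Countable G] {S : Finset G} {Q : Cones S} {X : Type u}
  [MeasurableSpace X] {L : Type} [Fintype L] (E : LEnv G X L)

omit [Group G] [Countable G] in
theorem gd2c_idx {r : G × ℕ → G × ℕ → Prop} (p : G × ℕ) :
    ∃ ι : G → ℕ, ∀ y ∈ fibR r p, r p (y, ι y) := by
  refine ⟨fun y => if h : y ∈ fibR r p then h.choose else 0, fun y hy => ?_⟩
  simp only [dif_pos hy]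
  exact hy.choose_spec

omit [Countable G] in
theorem gd2c_const {r : G × ℕ → G × ℕ → Prop} (hr : EqvOK r) {T : ℕ → Finset G} {p : G × ℕ}
    (hC : ClsW S T (fibR r p)) {g : G × ℕ → ℝ}
    (hg : ∀ n x j b i, r (x, j) (x, j) → b ∈ T n → r (x, j) (x * b, i) → g (x * b, i) = g (x, j))
    {q : G × ℕ} (hq : r p q) : g q = g p := by
  obtain ⟨ι, hι⟩ := gd2c_idx (r := r) p
  have hp : r p p := hr.trans _ _ _ hq (hr.symm _ _ hq)
  have h1 := hC.2.2 (fun y => g (y, ι y)) (fun n x hx b hb hxb =>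
    hg n x (ι x) b (ι (x * b)) (hr.trans _ _ _ (hr.symm _ _ (hι x hx)) (hι x hx)) hb
      (hr.trans _ _ _ (hr.symm _ _ (hι x hx)) (hι _ hxb))) q.1 ⟨q.2, hq⟩ p.1 ⟨p.2, hp⟩
  have e1 : ι q.1 = q.2 := hr.func p q.1 _ _ (hι _ ⟨q.2, hq⟩) hq
  have e2 : ι p.1 = p.2 := hr.func p p.1 _ _ (hι _ ⟨p.2, hp⟩) hp
  simpa only [e1, e2] using h1

omit [Countable G] in
theorem gd2c_zero {r : G × ℕ → G × ℕ → Prop} {p : G × ℕ} (hC : (fibR r p).Infinite)
    {g : G × ℕ → ℝ} (hs : SqSum g) (hg : ∀ q, r p q → g q = g p) : g p = 0 := by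
  by_contra hne
  obtain ⟨ι, hι⟩ := gd2c_idx (r := r) p
  have h1 : SqSum fun y => g (y, ι y) :=
    Summable.comp_injective (i := fun y => (y, ι y)) hs fun a b e => congrArg Prod.fst e
  refine hC ((h1.ncard_le (abs_pos.2 hne)).1.subset fun y hy => ?_)
  exact (congrArg abs (hg _ (hι y hy))).ge

omit [Countable G] [Fintype L] in
theorem gd2c_sq {v : G × EI Q L → ℝ} (hv : SqSum v) (a : L) :
    SqSum fun p : G × ℕ => v (p.1, Sum.inr (Sum.inr (Sum.inl (a, p.2)))) :=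
  Summable.comp_injective (f := fun p => v p ^ 2)
    (i := fun p : G × ℕ => ((p.1, Sum.inr (Sum.inr (Sum.inl (a, p.2)))) : G × EI Q L)) hv
    fun p q e => by
      simp only [Prod.mk.injEq, Sum.inr.injEq, Sum.inl.injEq, true_and] at e
      exact Prod.ext e.1 e.2

omit [Countable G] in
theorem gdens_of {r : L → G × ℕ → G × ℕ → Prop} (hr : ∀ a, EqvOK (r a)) {A₀ : Set L}
    (h : ∀ v ∈ encW Q r (fun a p => r a p p) A₀ A₀, ∀ ε : ℝ, 0 < ε →
      ∃ v' ∈ encW Q r (fun a p => r a p p) A₀ univ, ∑' p, (v p - v' p) ^ 2 < ε) :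
    GDens Q r A₀ := by
  intro u φ ψ hu hψ ε hε
  set ψ₀ : L → G × ℕ → ℝ := fun a p => if r a p p then ψ a p else 0 with hψ₀
  have h0 : ∀ a ∈ A₀, ClsC (r a) u (ψ₀ a) := fun a ha => by
    refine ⟨Summable.of_nonneg_of_le (fun _ => sq_nonneg _) (fun p => ?_) (hψ a ha).1,
      fun p q hpq => ?_⟩
    · simp only [hψ₀]
      split_ifs
      · exact le_rfl
      · simpa using sq_nonneg _
    · have e1 : r a p p := (hr a).trans _ _ _ hpq ((hr a).symm _ _ hpq)
      have e2 : r a q q := (hr a).trans _ _ _ ((hr a).symm _ _ hpq) hpq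
      simp only [hψ₀, if_pos e1, if_pos e2]
      exact (hψ a ha).2 p q hpq
  obtain ⟨_, ⟨u', φ', ψ', hu', hψ', hs', rfl⟩, hd⟩ := h (enc Q A₀ u φ ψ₀)
    ⟨u, φ, ψ₀, hu, h0, fun a p hp => if_neg hp, rfl⟩ ε hε
  obtain ⟨h1, h2⟩ := enc_le (enc_sqSum hu fun a ha => (h0 a ha).1)
    (enc_sqSum hu' fun a _ => (hψ' a trivial).1)
  refine ⟨fun x => u' x + (u 1 - u' 1), φ',
    fun a p => if a ∈ A₀ ∧ ¬ r a p p then ψ a p else ψ' a p, hu'.add_const _, fun a => ?_,
    by ring, ?_, fun a ha => ?_⟩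
  · refine ClsC.add_const ⟨?_, fun p q hpq => ?_⟩ _
    · by_cases ha : a ∈ A₀
      · refine (fkf_sq (hψ a ha).1 (hψ' a trivial).1 (L := 1) fun p => ?_).1
        have a1 := abs_nonneg (ψ a p)
        have a2 := abs_nonneg (ψ' a p)
        beta_reduce
        split_ifs <;> linarith
      · simp only [ha, false_and, if_false]
        exact (hψ' a trivial).1
    · have e1 : r a p p := (hr a).trans _ _ _ hpq ((hr a).symm _ _ hpq)
      have e2 : r a q q := (hr a).trans _ _ _ ((hr a).symm _ _ hpq) hpq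
      simp only [e1, e2, not_true, and_false, if_false]
      exact (hψ' a trivial).2 p q hpq
  · refine le_trans (le_of_eq ?_) (h1.trans hd.le)
    unfold energy grad2
    refine tsum_congr fun x => Finset.sum_congr rfl fun s _ => ?_
    ring
  · refine le_trans (le_of_eq (tsum_congr fun p => ?_)) ((h2 a ha).trans hd.le)
    by_cases e : r a p p
    · simp only [hψ₀, e, not_true, and_false, if_false, if_true]
    · simp only [hψ₀, e, ha, not_false_eq_true, and_self, if_true, if_false, hs' a p e, sub_self]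

/-- The coordinates of finite total intensity. -/
def LEnv.gd2cE (Q : Cones S) (B : Set L) (ξ : X) (p : G × EI Q L) : Prop :=
  (∃ s ∈ S, p.2 = Sum.inl s) ∨ (∃ i, p.2 = Sum.inr (Sum.inl i)) ∨
    ∃ a j, p.2 = Sum.inr (Sum.inr (Sum.inl (a, j))) ∧ a ∈ B ∧ E.r ξ a (p.1, j) (p.1, j)

theorem LEnv.gd2c_dim {τ : TS (FH E.A (EI Q L)) (EI Q L)} (hτ : IsTS E.A τ) :
    τ.dim (fibSub E.A fun ξ => suppM (E.gd2cE Q univ ξ)) ≠ ⊤ := by
  rw [hτ.dim_supp]
  · rw [Summable.tsum_sum ENNReal.summable ENNReal.summable,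
      Summable.tsum_sum ENNReal.summable ENNReal.summable,
      Summable.tsum_sum ENNReal.summable ENNReal.summable]
    refine ENNReal.add_ne_top.2 ⟨?_, ENNReal.add_ne_top.2 ⟨?_, ENNReal.add_ne_top.2 ⟨?_, ?_⟩⟩⟩
    · rw [tsum_eq_sum (s := S)]
      · exact ENNReal.sum_ne_top.2 fun _ _ => measure_ne_top _ _
      · intro s hs
        simp [LEnv.gd2cE, hs]
    · rw [tsum_fintype]
      exact ENNReal.sum_ne_top.2 fun _ _ => measure_ne_top _ _
    · rw [ENNReal.tsum_prod', tsum_fintype]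
      refine ENNReal.sum_ne_top.2 fun a _ => ne_top_of_le_ne_top (E.fin a) ?_
      refine ENNReal.tsum_le_tsum fun j => measure_mono fun ξ hξ => ?_
      rcases hξ with ⟨s, -, e⟩ | ⟨i, e⟩ | ⟨a', j', e, -, h⟩
      · cases e
      · cases e
      · cases e
        exact h
    · have e : ∀ c : L × ℕ × G,
          E.A.P {ξ | E.gd2cE Q univ ξ (1, Sum.inr (Sum.inr (Sum.inr c)))} = 0 := fun c => by
        simp [LEnv.gd2cE]
      simp only [e, tsum_zero]
      exact ENNReal.zero_ne_top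
  · intro p
    unfold LEnv.gd2cE
    refine measurableSet_setOfPred.2 (Measurable.or measurable_const (Measurable.or measurable_const
      (Measurable.exists fun a => Measurable.exists fun j => Measurable.and measurable_const
        (Measurable.and measurable_const (measurableSet_setOfPred.1 (E.meas a _ _))))))

omit [Countable G] [Fintype L] in
theorem LEnv.gd2c_supp {A₀ A' : Set L} {ξ : X} {v : G × EI Q L → ℝ}
    (hv : v ∈ encW Q (E.r ξ) (fun a p => E.r ξ a p p) A₀ A') : v ∈ suppM (E.gd2cE Q A₀ ξ) := by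
  obtain ⟨u, φ, ψ, -, -, hs, rfl⟩ := hv
  rintro ⟨x, s | i | ⟨a, j⟩ | c⟩ hp
  · exact if_neg fun hs => hp (Or.inl ⟨s, hs, rfl⟩)
  · exact absurd (Or.inr (Or.inl ⟨i, rfl⟩)) hp
  · change (if a ∈ A₀ then ψ a (x, j) else 0) = 0
    split_ifs with ha
    · exact hs a (x, j) fun h => hp (Or.inr (Or.inr ⟨a, j, rfl, ha, h⟩))
    · rfl
  · rfl

omit [Countable G] [Fintype L] in
theorem LEnv.gd2c_equi {A₀ : Set L} (g : G) {ξ : X} {v : G × EI Q L → ℝ}
    (hv : v ∈ encW Q (E.r ξ) (fun a p => E.r ξ a p p) A₀ A₀) :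
    (fun p : G × EI Q L => v (g⁻¹ * p.1, p.2)) ∈
      encW Q (E.r (E.A.sh g ξ)) (fun a p => E.r (E.A.sh g ξ) a p p) A₀ A₀ := by
  obtain ⟨u, φ, ψ, hu, hψ, hs, rfl⟩ := hv
  have he : ∀ a (p q : G × ℕ), E.r (E.A.sh g ξ) a p q ↔
      E.r ξ a (g⁻¹ * p.1, p.2) (g⁻¹ * q.1, q.2) := fun a p q => by
    have := E.equi g ξ a (g⁻¹ * p.1, p.2) (g⁻¹ * q.1, q.2)
    simpa only [mul_inv_cancel_left] using this
  refine ⟨fun x => u (g⁻¹ * x), fun i x => φ i (g⁻¹ * x), fun a p => ψ a (g⁻¹ * p.1, p.2),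
    hu.translate g⁻¹, fun a ha => ⟨?_, fun p q hpq => (hψ a ha).2 _ _ ((he a p q).1 hpq)⟩,
    fun a p hp => hs a _ fun h => hp ((he a p p).2 h), ?_⟩
  · exact Summable.comp_injective (f := fun p => ψ a p ^ 2)
      (i := fun p : G × ℕ => (g⁻¹ * p.1, p.2)) (hψ a ha).1 fun p q e => by
        simp only [Prod.mk.injEq, mul_right_inj] at e
        exact Prod.ext e.1 e.2
  · funext ⟨x, c⟩
    rcases c with s | i | ⟨a, j⟩ | c
    · simp only [enc, mul_assoc]
    · rfl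
    · rfl
    · rfl

theorem gd2c_mem {A : PAct G X} {I : Type u} [Countable I] {Φ : X → Submodule ℝ (G × I → ℝ)}
    {f : FH A I} : f ∈ fibSub A Φ ↔ ∀ᵐ ξ ∂A.P, fibv f ξ ∈ Φ ξ := Iff.rfl

theorem gd2c_lim {α : Type*} (b : α →₀ ℝ) {v : ℕ → α → ℝ} {w : α → ℝ} (hv : ∀ n, SqSum (v n))
    (hw : SqSum w) (hl : Tendsto (fun n => ∑' p, (v n p - w p) ^ 2) atTop (𝓝 0))
    (h : ∀ n, prF b (v n) = 0) : prF b w = 0 := by
  have h1 : Tendsto (fun n => f2to (v n) (hv n)) atTop (𝓝 (f2to w hw)) := f2_tendsto hl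
  have h2 := (tendsto_const_nhds (x := f2fs b)).inner (𝕜 := ℝ) h1
  simp only [f2fs_inner] at h2
  have h3 : (fun n => prF b (f2to (v n) (hv n))) = fun _ => (0 : ℝ) := funext h
  rw [h3] at h2
  exact tendsto_nhds_unique h2 tendsto_const_nhds

theorem LEnv.ae_gdens (hS : Cay S) (Q : Cones S) (A₀ : Set L) (T : ℕ → L → Finset G)
    (hT : ∀ n a, T n a ⊆ T (n + 1) a)
    (h : ∀ᵐ ξ ∂E.A.P, ∀ a, a ∉ A₀ → ∀ p, E.r ξ a p p →
      ClsW S (fun n => T n a) (fibR (E.r ξ a) p)) :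
    ∀ᵐ ξ ∂E.A.P, GDens Q (E.r ξ) A₀ := by
  obtain ⟨τ, hτ⟩ := exists_isTS E.A (EI Q L)
  choose M hM using fun ξ => exists_encM Q (E.r ξ) (fun a p => E.r ξ a p p) A₀ A₀
  choose M' hM' using fun ξ => exists_encM Q (E.r ξ) (fun a p => E.r ξ a p p) A₀ univ
  have mM : ∀ ξ v, v ∈ M ξ ↔ v ∈ encW Q (E.r ξ) (fun a p => E.r ξ a p p) A₀ A₀ := fun ξ v => by
    rw [← hM ξ]; rfl
  have mM' : ∀ ξ v, v ∈ M' ξ ↔ v ∈ encW Q (E.r ξ) (fun a p => E.r ξ a p p) A₀ univ :=
    fun ξ v => by rw [← hM' ξ]; rfl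
  obtain ⟨b, cond, hcm, hce⟩ := exists_eqs hS Q A₀
  have hE := hcm X E.r (fun ξ a p => E.r ξ a p p) E.meas fun a p => E.meas a p p
  choose Ao hAc hA using fun n => E.exists_Ao hS hτ A₀ (T n)
  choose Dg hDc hD using fun n => E.exists_Dg hτ A₀ (T n)
  have hW : τ.Inv (fibSub E.A M) := by
    refine hτ.inv_fibSub (Eventually.of_forall fun ξ v w hv hv2 hw hl => ?_) fun g ξ v hv => ?_
    · rw [mM, hce]
      exact ⟨hw, fun k hk => gd2c_lim (b k) hv2 hw hl fun n =>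
        ((hce _ _ _).1 ((mM ξ _).1 (hv n))).2 k hk⟩
    · exact (mM _ _).2 (E.gd2c_equi g ((mM _ _).1 hv))
  have hV : τ.Inv (E.subV Q A₀) := hτ.inv_supp fun g ξ p =>
    exists_congr fun a => exists_congr fun j => and_congr_right fun _ => and_congr_right fun _ =>
      E.equi g ξ a (p.1, j) (p.1, j)
  have hW1 : fibSub E.A M ≤ fibSub E.A fun ξ => suppM (E.gd2cE Q A₀ ξ) := fun f hf => by
    refine gd2c_mem.2 ?_
    filter_upwards [hf] with ξ hξ
    exact E.gd2c_supp ((mM _ _).1 hξ)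
  have ho : fibSub E.A M ⟂ E.subV Q A₀ := by
    refine Submodule.IsOrtho.mono_left hW1 (isOrtho_supp ?_)
    rintro ξ p (⟨s, -, e⟩ | ⟨i, e⟩ | ⟨a, j, e, ha, -⟩) ⟨a', j', e', ha', -⟩
    · rw [e] at e'; cases e'
    · rw [e] at e'; cases e'
    · rw [e] at e'; cases e'
      exact ha' ha
  have fW : τ.dim (fibSub E.A M) ≠ ⊤ := by
    refine ne_top_of_le_ne_top (E.gd2c_dim hτ) (τ.dim_mono (hW1.trans fun f hf => ?_))
    refine gd2c_mem.2 ?_
    filter_upwards [hf] with ξ hξ p hp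
    refine hξ p fun h => hp ?_
    rcases h with h | h | ⟨a, j, e, -, h⟩
    · exact Or.inl h
    · exact Or.inr (Or.inl h)
    · exact Or.inr (Or.inr ⟨a, j, e, trivial, h⟩)
  have fV : τ.dim (E.subV Q A₀) ≠ ⊤ := by
    refine ne_top_of_le_ne_top (E.gd2c_dim hτ) (τ.dim_mono fun f hf => ?_)
    refine gd2c_mem.2 ?_
    filter_upwards [hf] with ξ hξ p hp
    refine hξ p ?_
    rintro ⟨a, j, e, -, h⟩
    exact hp (Or.inr (Or.inr ⟨a, j, e, trivial, h⟩))
  have hgrad : ∀ w ∈ fibSub E.A M, ∀ᵐ ξ ∂E.A.P, ∃ u, FinEn S u ∧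
      ∀ x, ∀ s ∈ S, fibv w ξ (x, Sum.inl s) = u (x * s) - u x := fun w hw => by
    filter_upwards [hw] with ξ hξ
    obtain ⟨u, φ, ψ, hu, -, -, e⟩ := (mM _ _).1 hξ
    exact ⟨u, hu.1, fun x s hs => by rw [e]; exact if_pos hs⟩
  have h3 : ∀ n, ∀ v ∈ E.subV Q A₀, Ao n v = 0 := fun n v hv => by
    refine fh_ext ?_
    filter_upwards [hA n v, hv, fibv_zero (A := E.A) (I := EI Q L)] with ξ k1 k2 k3 p
    rw [k3]
    by_contra hne
    obtain ⟨a, j, c, e, hd⟩ := k1.1 p hne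
    have k4 := k1.2 (fun _ => 0) (fun x s _ => by
      rw [sub_self]
      refine k2 _ ?_
      rintro ⟨a, j, e, -⟩
      cases e) a p.1 j c hd
    rw [← e, sub_self, mul_zero] at k4
    exact hne k4
  have h4 : ∀ n, ∀ w ∈ fibSub E.A M, Dg n w = 0 := fun n w hw => by
    refine fh_ext ?_
    filter_upwards [hD n w, hW1 hw, fibv_zero (A := E.A) (I := EI Q L)] with ξ k1 k2 k3 p
    rw [k3]
    by_contra hne
    obtain ⟨a, j, c, e, hd⟩ := k1.1 p hne
    obtain ⟨i, hi⟩ := hd.2.2.2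
    have k4 := k1.2 a p.1 j c i hd hi
    have k5 : ∀ y m, fibv w ξ (y, Sum.inr (Sum.inr (Sum.inl (a, m)))) = 0 := fun y m => by
      refine k2 _ ?_
      rintro (⟨s, -, e⟩ | ⟨i, e⟩ | ⟨a', j, e, ha, -⟩)
      · cases e
      · cases e
      · cases e
        exact hd.1 ha
    rw [← e, k5, k5, sub_self, mul_zero] at k4
    exact hne k4
  have h5 : ∀ n, ∀ w ∈ fibSub E.A M, Ao n w ∈
      ((E.subV Q A₀).map (Dg n : FH E.A (EI Q L) →ₗ[ℝ] FH E.A (EI Q L))).topologicalClosure :=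
    fun n w hw => E.Ao_mem hτ (h.mono fun ξ hξ a ha p hp => (hξ a ha p hp).2.1 n) (hA n) (hDc n)
      (hD n) (hgrad w hw)
  have h6 : ∀ n, ∀ w ∈ fibSub E.A M, ∀ v ∈ E.subV Q A₀, Ao (n + 1) w = Dg (n + 1) v →
      Ao n w = Dg n v := fun n w hw v _ e => by
    refine fh_ext ?_
    filter_upwards [hA n w, hD n v, hA (n + 1) w, hD (n + 1) v, hgrad w hw] with ξ k1 k2 k3 k4 k5 p
    obtain ⟨u, -, hu⟩ := k5
    by_cases hp : ∃ a j c, p.2 = Sum.inr (Sum.inr (Sum.inr (a, j, c))) ∧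
        E.Ed A₀ (T n) ξ a (p.1, j) c
    · obtain ⟨a, j, c, e', hd⟩ := hp
      have hd' : E.Ed A₀ (T (n + 1)) ξ a (p.1, j) c := ⟨hd.1, hd.2.1, hT n a hd.2.2.1, hd.2.2.2⟩
      obtain ⟨i, hi⟩ := hd.2.2.2
      have e1 : p = (p.1, Sum.inr (Sum.inr (Sum.inr (a, j, c)))) := Prod.ext rfl e'
      rw [e1, k1.2 u hu a p.1 j c hd, k2.2 a p.1 j c i hd hi, ← k3.2 u hu a p.1 j c hd',
        ← k4.2 a p.1 j c i hd' hi, e]
    · rw [not_not.1 fun hne => hp (k1.1 p hne), not_not.1 fun hne => hp (k2.1 p hne)]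
  have h7 : ∀ v ∈ E.subV Q A₀, (∀ n, Dg n v = 0) → v = 0 := fun v hv e => by
    refine fh_ext ?_
    filter_upwards [ae_all_iff.2 fun n => hD n v, hv, fibv_zero (A := E.A) (I := EI Q L), h, E.ok,
      ae_sqSum_fibv v] with ξ k1 k2 k3 k4 k5 k6 p
    rw [k3]
    by_contra hne
    obtain ⟨a, j, e', ha, hr⟩ := not_not.1 fun hp => hne (k2 p hp)
    have e1 : p = (p.1, Sum.inr (Sum.inr (Sum.inl (a, j)))) := Prod.ext rfl e'
    have hC := k4 a ha _ hr
    refine hne (e1 ▸ gd2c_zero (p := (p.1, j)) hC.1 (gd2c_sq k6 a) fun q hq => ?_)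
    refine gd2c_const (k5 a) hC
      (g := fun q => fibv v ξ (q.1, Sum.inr (Sum.inr (Sum.inl (a, q.2))))) ?_ hq
    intro n x j c i h1 h2 h3
    have k7 := (k1 n).2 a x j c i ⟨ha, h1, h2, ⟨i, h3⟩⟩ h3
    rw [e n, k3] at k7
    exact sub_eq_zero.1 ((mul_eq_zero.1 k7.symm).resolve_left (E.wt_pos ξ a x).1.ne')
  have key := τ.gd hW hV ho fW fV hAc hDc h3 h4 h5 h6 h7
  have hd := fib_dense b hE M' fun f hf ε hε => by
    have hf' : f ∈ fibSub E.A M := by
      refine gd2c_mem.2 ?_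
      filter_upwards [hf, ae_sqSum_fibv f] with ξ k1 k2
      exact (mM _ _).2 ((hce _ _ _).2 ⟨k2, k1⟩)
    obtain ⟨w, hw, v, hv, e, hlt⟩ := key f hf' ε hε
    refine ⟨w, ?_, hlt⟩
    filter_upwards [ae_all_iff.2 fun n => hA n w, ae_all_iff.2 fun n => hD n v, hw, hv, h, E.ok,
      ae_sqSum_fibv v] with ξ k1 k2 k3 k4 k5 k6 k7
    obtain ⟨u, φ, ψ, hu, hψ, hs, e'⟩ := (mM _ _).1 k3
    refine (mM' _ _).2 ⟨u, φ, fun a p => if a ∈ A₀ then ψ a p else
      fibv v ξ (p.1, Sum.inr (Sum.inr (Sum.inl (a, p.2)))), hu, fun a _ => ?_, fun a p hp => ?_, ?_⟩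
    · by_cases ha : a ∈ A₀
      · simp only [if_pos ha]
        exact hψ a ha
      · simp only [if_neg ha]
        refine ⟨gd2c_sq k7 a, fun p q hpq => ?_⟩
        have hp : E.r ξ a p p := (k6 a).trans _ _ _ hpq ((k6 a).symm _ _ hpq)
        refine (gd2c_const (k6 a) (k5 a ha p hp)
          (g := fun q => u q.1 - fibv v ξ (q.1, Sum.inr (Sum.inr (Sum.inl (a, q.2))))) ?_ hpq).symm
        intro n x j c i h1 h2 h3
        have hd : E.Ed A₀ (T n) ξ a (x, j) c := ⟨ha, h1, h2, ⟨i, h3⟩⟩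
        have k8 := (k1 n).2 u (fun x s hs => by rw [e']; exact if_pos hs) a x j c hd
        rw [e n, (k2 n).2 a x j c i hd h3] at k8
        have k9 := mul_left_cancel₀ (E.wt_pos ξ a x).1.ne' k8
        simp only
        linarith
    · by_cases ha : a ∈ A₀
      · simp only [if_pos ha]
        exact hs a p hp
      · simp only [if_neg ha]
        refine k4 _ ?_
        rintro ⟨a', j, e, -, h⟩
        cases e
        exact hp h
    · rw [e']
      funext ⟨x, c⟩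
      rcases c with s | i | ⟨a, j⟩ | c
      · rfl
      · rfl
      · simp only [enc]
        split_ifs <;> rfl
      · rfl
  filter_upwards [hd, E.ok] with ξ k1 k2
  refine gdens_of k2 fun v hv ε hε => ?_
  obtain ⟨h1, h2⟩ := (hce _ _ _).1 hv
  obtain ⟨v', hv', -, hlt⟩ := k1 v h1 h2 ε hε
  exact ⟨v', (mM' _ _).1 hv', hlt⟩

end Vale.Agent.P239
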