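import Vale.Agent.P239.Full.FPair
import Vale.Agent.P239.Full.FGD2c
import Vale.Agent.P239.Full.FBadM

/-! Task FAE3: almost sure properties of pairs and triples of walls. `REnv.ae_gdens`: build the `LEnv` on `E.A.pi L` with `r ξ a = E.r (ξ a)` (`measurePreserving_eval` for `fin`, `ae_pi`), `T n a = ball S n`, finitely many `A₀`.
The statements for `m` follow from `ae_m_iff` (three times), `ae_pi_three` and the deterministic lemmas of FPair with `L = Fin 3`. `m_ne_zero`: `ae_m_iff` with `False`.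
-/

noncomputable section

open Classical MeasureTheory Filter Topology Set
open scoped Pointwise ENNReal

namespace Vale.Agent.P239

universe u
variable {G : Type u} [Group G] {S : Finset G} {l : ℕ} {Q : Cones S} {B : Bdry S}
  {X : Type u} [MeasurableSpace X]

theorem REnv.ae_gdens (hS : Cay S) (Q : Cones S) (E : REnv G X)
    (h : ∀ᵐ ξ ∂E.A.P, ∀ p, E.r ξ p p →
      (fibR (E.r ξ) p).Infinite ∧ ∀ ρ, WD S (ball S ρ) (fibR (E.r ξ) p)) (L : Type) [Fintype L] :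
    ∀ᵐ ξ ∂(E.A.pi L).P, ∀ A₀, GDens Q (fun a => E.r (ξ a)) A₀ := by
  haveI := hS.countable
  let E' : LEnv G (L → X) L :=
    { A := E.A.pi L
      r := fun ξ a => E.r (ξ a)
      meas := fun a p q => (E.meas p q).preimage (measurable_pi_apply a)
      equi := fun g ξ a p q => E.equi g (ξ a) p q
      fin := fun a => by
        have e : ∀ j : ℕ, (E.A.pi L).P {ξ | E.r (ξ a) (1, j) (1, j)} =
            E.A.P {ξ | E.r ξ (1, j) (1, j)} := fun j =>
          (measurePreserving_eval (fun _ : L => E.A.P) a).measure_preimage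
            (E.meas (1, j) (1, j)).nullMeasurableSet
        simp only [e]
        exact E.fin
      ok := E.A.ae_pi L E.ok }
  refine ae_all_iff.2 fun A₀ => E'.ae_gdens hS Q A₀ (fun n _ => ball S n)
    (fun n _ => ball_mono (Nat.le_succ n)) ?_
  filter_upwards [E.A.ae_pi L h] with ξ hξ a _ p hp
  refine ⟨(hξ a p hp).1, (hξ a p hp).2, fun f hf x hx y hy => ?_⟩
  obtain ⟨n, hn⟩ := hS.exists_ball (x⁻¹ * y)
  have h1 := hf n x hx _ hn (by rwa [mul_inv_cancel_left])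
  rw [mul_inv_cancel_left] at h1
  exact h1.symm

namespace TEnv
variable (E : TEnv B Q l X)

/-- The side of the first wall meets the second wall in a finite set. -/
def Fn (a b : X × Pt G) : Prop := (E.U a.1 a.2 ∩ wallV S (E.U b.1 b.2)).Finite

theorem ae_clsOK (hH : RH S l Q) : ∀ᵐ ξ ∂E.A.P, ClsOK Q l (E.r ξ) := by
  haveI := hH.cay.countable
  filter_upwards [E.ok, E.ae_locfin, E.wok] with ξ h1 h2 h3
  refine ⟨h1, h2, fun p hp => ?_, fun p hp => ?_, fun p hp => ?_⟩ <;> rw [← (h3 p hp).1]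
  · exact (h3 p hp).2.two.wallV_infinite hH.cay hH.one
  · exact (h3 p hp).2.conn
  · exact (h3 p hp).2.ends

theorem ae_gdens (hH : RH S l Q) (L : Type) [Fintype L] :
    ∀ᵐ ξ ∂(E.A.pi L).P, ∀ A₀, GDens Q (fun a => E.r (ξ a)) A₀ := by
  refine E.toREnv.ae_gdens hH.cay Q ?_ L
  filter_upwards [E.ae_clsOK hH, E.wok] with ξ h1 h2 p hp
  refine ⟨h1.inf p hp, ?_⟩
  rw [← (h2 p hp).1]
  exact (h2 p hp).2.wd

theorem ae_wok (hS : Cay S) : ∀ᵐ a ∂E.m, WOK B Q l (E.U a.1 a.2) := by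
  haveI := hS.countable
  rw [REnv.ae_m_iff]
  filter_upwards [E.wok] with ξ h p hp
  exact (h p hp).2

theorem m_ne_zero (hS : Cay S) : E.m ≠ 0 := by
  haveI := hS.countable
  intro h
  have h1 : ∀ᵐ _z ∂E.m, False := by
    rw [h, ae_zero]
    exact eventually_bot
  exact E.pos ((REnv.ae_m_iff _).1 h1)

theorem U_act (g : G) (a : X × Pt G) : E.U (E.act g a).1 (E.act g a).2 = g • E.U a.1 a.2 := by
  exact E.U_sh g a.1 a.2

theorem fn_act (g : G) (a b : X × Pt G) : E.Fn (E.act g a) (E.act g b) ↔ E.Fn a b := by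
  rw [Fn, Fn, U_act, U_act, wallV_smul, ← Set.smul_set_inter, Set.finite_smul_set]

theorem ae_trans (hH : RH S l Q) :
    ∀ᵐ a ∂E.m, ∀ᵐ b ∂E.m, ∀ᵐ c ∂E.m, E.Bad Q a b → E.Bad Q b c → E.Bad Q a c := by
  haveI := hH.cay.countable
  rw [REnv.ae_m_iff]
  filter_upwards [E.A.ae_pi_three (E.ae_gdens hH (Fin 3))] with a ha p _
  rw [REnv.ae_m_iff]
  filter_upwards [ha] with b hb p' _
  rw [REnv.ae_m_iff]
  filter_upwards [hb] with c hc p'' _ h1 h2
  exact trans_of_gdens hH.cay (i := 0) (j := 1) (k := 2) (by decide) (hc _) h1 h2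

theorem ae_dir (hH : RH S l Q) : ∀ᵐ a ∂E.m, ∀ᵐ b ∂E.m, ∀ᵐ c ∂E.m,
    (¬ E.Bad Q a b → E.Bad Q b c → (E.Fn a b ↔ E.Fn a c)) ∧
      (¬ E.Bad Q b a → E.Bad Q a c → (E.Fn b a ↔ E.Fn b c)) := by
  haveI := hH.cay.countable
  rw [REnv.ae_m_iff]
  filter_upwards [E.A.ae_pi_three (E.ae_gdens hH (Fin 3)), E.ae_clsOK hH, E.wok]
    with a ha a1 a2 p hp
  rw [REnv.ae_m_iff]
  filter_upwards [ha, E.ae_clsOK hH, E.wok] with b hb b1 b2 p' hp'
  rw [REnv.ae_m_iff]
  filter_upwards [hb, E.ae_clsOK hH, E.wok] with c hc c1 c2 p'' hp''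
  refine ⟨fun h1 h2 => ?_, fun h1 h2 => ?_⟩
  · have h3 := dir_of_gdens hH (i := 0) (j := 1) (k := 2) (by decide) (hc _) a1.eqv b1 c1 hp' hp''
      (a2 p hp).1 h1 h2
    simp only [Fn]
    rw [(b2 p' hp').1, (c2 p'' hp'').1]
    exact h3
  · have h3 := dir_of_gdens hH (i := 1) (j := 0) (k := 2) (by decide) (hc _) b1.eqv a1 c1 hp hp''
      (b2 p' hp').1 h1 h2
    simp only [Fn]
    rw [(a2 p hp).1, (c2 p'' hp'').1]
    exact h3

theorem ae_fvp (hH : RH S l Q) : ∀ᵐ a ∂E.m, ∀ᵐ b ∂E.m, ¬ E.Bad Q a b →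
    B.FVP Q (hatSet (away (E.U a.1 a.2) (wallV S (E.U b.1 b.2))))
      (hatSet (away (E.U b.1 b.2) (wallV S (E.U a.1 a.2)))) := by
  haveI := hH.cay.countable
  rw [REnv.ae_m_iff]
  filter_upwards [E.ok, E.wok] with a a1 a2 p hp
  rw [REnv.ae_m_iff]
  filter_upwards [E.ok, E.wok] with b b1 b2 p' hp' h
  by_contra hn
  refine h fun u φ ψ ψ' hu h1 h2 => ?_
  by_contra hc
  have t1 := h1.tendsto a1 p
  have t2 := h2.tendsto b1 p'
  rw [← (a2 p hp).1] at t1
  rw [← (b2 p' hp').1] at t2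
  exact hn (pair_fvp hH (a2 p hp).2 (b2 p' hp').2 hu hc t1 t2)

end TEnv

end Vale.Agent.P239
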