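import Vale.Agent.P239.Full.FDef

/-! Task FAEQ: almost everywhere equivalence relations. `aeq_dich`: otherwise the set of `z₀` with `m {z | R z₀ z} ≠ 0` is not null; choose such a `z₀` that is typical for both `∀ᵐ z z', R z₀ z → R z z' → R z₀ z'` and
`∀ᵐ z z', R z z₀ → R z₀ z' → R z z'` (exchange the first two quantifiers with `Measure.ae_ae_comm`; measurability of `{(a, b) | ∀ᵐ c, ..}` by `measurable_measure_prodMk_left`); `N = {z | R z₀ z}`.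
-/

noncomputable section

open Classical MeasureTheory Filter Topology Set
open scoped Pointwise ENNReal

namespace Vale.Agent.P239



variable {Z : Type*} [MeasurableSpace Z] {m : Measure Z} {R : Z → Z → Prop}

theorem aeq_dich [SigmaFinite m] (hm : MeasurableSet {p : Z × Z | R p.1 p.2})
    (hs : ∀ a b, R a b → R b a) (ht : ∀ᵐ a ∂m, ∀ᵐ b ∂m, ∀ᵐ c ∂m, R a b → R b c → R a c) :
    (∀ᵐ a ∂m, ∀ᵐ b ∂m, ¬ R a b) ∨
      ∃ N, MeasurableSet N ∧ m N ≠ 0 ∧ ∀ᵐ a ∂m, a ∈ N → ∀ᵐ b ∂m, (R a b ↔ b ∈ N) := by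
  have hR : ∀ {W : Type _} [MeasurableSpace W] {f g : W → Z}, Measurable f → Measurable g →
      MeasurableSet {w | R (f w) (g w)} := fun hf hg => (hf.prodMk hg) hm
  have hmeas : MeasurableSet {p : Z × Z | ∀ᵐ c ∂m, R p.1 p.2 → R p.2 c → R p.1 c} := by
    have h1 : MeasurableSet {q : (Z × Z) × Z | ¬(R q.1.1 q.1.2 → R q.1.2 q.2 → R q.1.1 q.2)} :=
      ((hR measurable_fst.fst measurable_fst.snd).imp
        ((hR measurable_fst.snd measurable_snd).imp (hR measurable_fst.fst measurable_snd))).compl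
    exact (measurable_measure_prodMk_left (ν := m) h1) (measurableSet_singleton 0)
  have ht' : ∀ᵐ b ∂m, ∀ᵐ a ∂m, ∀ᵐ c ∂m, R a b → R b c → R a c :=
    (Measure.ae_ae_comm (p := fun a b => ∀ᵐ c ∂m, R a b → R b c → R a c) hmeas).1 ht
  by_cases h : ∀ᵐ a ∂m, ∀ᵐ b ∂m, ¬ R a b
  · exact Or.inl h
  obtain ⟨z, hz, h1, h2⟩ := ((not_eventually.1 h).and_eventually (ht.and ht')).exists
  refine Or.inr ⟨{b | R z b}, hR measurable_const measurable_id, fun h0 => hz ?_, ?_⟩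
  · exact measure_eq_zero_iff_ae_notMem.1 h0
  · filter_upwards [h1, h2] with a ha ha' haN
    filter_upwards [ha, ha'] with b hb hb'
    exact ⟨hb haN, hb' (hs _ _ haN)⟩

theorem aeq_preimage {f : Z → Z} (hf : MeasurePreserving f m m) (hi : ∀ a b, R (f a) (f b) ↔ R a b)
    {N : Set Z} (h : ∀ᵐ a ∂m, a ∈ N → ∀ᵐ b ∂m, (R a b ↔ b ∈ N)) :
    ∀ᵐ a ∂m, a ∈ f ⁻¹' N → ∀ᵐ b ∂m, (R a b ↔ b ∈ f ⁻¹' N) := by
  filter_upwards [hf.quasiMeasurePreserving.ae h] with a ha haN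
  filter_upwards [hf.quasiMeasurePreserving.ae (ha haN)] with b hb
  rw [← hi]
  exact hb

theorem aeq_eq_or {N N' : Set Z} (h : ∀ᵐ a ∂m, a ∈ N → ∀ᵐ b ∂m, (R a b ↔ b ∈ N))
    (h' : ∀ᵐ a ∂m, a ∈ N' → ∀ᵐ b ∂m, (R a b ↔ b ∈ N')) :
    N =ᵐ[m] N' ∨ ∀ᵐ a ∂m, a ∈ N → ∀ᵐ b ∂m, b ∈ N' → ¬ R a b := by
  by_cases h0 : ∀ᵐ a ∂m, ¬(a ∈ N ∧ a ∈ N')
  · refine Or.inr ?_
    filter_upwards [h] with a ha haN
    filter_upwards [ha haN, h0] with b hb hb0 hbN' hab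
    exact hb0 ⟨hb.1 hab, hbN'⟩
  · obtain ⟨z, hz, h1, h2⟩ := ((not_eventually.1 h0).and_eventually (h.and h')).exists
    rw [not_not] at hz
    refine Or.inl (eventuallyEq_set.2 ?_)
    filter_upwards [h1 hz.1, h2 hz.2] with b hb hb'
    exact hb.symm.trans hb'

end Vale.Agent.P239
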