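import Vale.Agent.P239.Full.FDef5

/-! Task FAM: amenable with bounded isoperimetry implies one end. `H = closure T`, balls are for `T`. `laminar_card`: strong induction on `Ω` (remove a point of a minimal member: at most two members have the same trace or disappear), or count maximal members.
`oneT_of_folner`: let `A ⊆ H`, `A` and `H \ A` infinite, all boundary edges start in `ball ρ`, `K'` from `Iso` for `2 |edgeBd A|`. A Foelner set can be taken inside `H` (one coset piece has a small ratio; translate).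
For `g, h ∈ H` at distance `d > D = 2 (ρ + K' + 1)` let `F g h` be the side of `g • A` in `H` not containing `h`; `bl h (d - ρ - 1)` is on the side of `h` (`const_on_ball`); `F g h ∩ F h g` has no boundary edge so it is empty; the middle
`H \ (F g h ∪ F h g)` has at most `2 |edgeBd A|` boundary edges and contains a ball of radius `K'` around a midpoint, so it is infinite (`card_ball_gt`). Let `A g` be the side not containing `1`: these are nested or disjoint with infinite differences.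
For a Foelner set `F`, `X` a maximal `D`-separated subset of `{x ∈ F | bl x ρ ⊆ F}`, `Ω` the outer boundary vertices of `F`: an infinite subset of `H` whose boundary edges have both ends in `F` meets `Ω`; so the traces of the `A g`, `g ∈ X`, on `Ω`
are distinct nonempty and laminar: `|X| ≤ 2 |Ω|`, while `|F| ≤ |ball D| |X| + |ball ρ| |edgeBd F|`.
-/

noncomputable section

open Classical MeasureTheory Filter Topology Set
open scoped Pointwise ENNReal

namespace Vale.Agent.P239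

universe u
variable {G : Type u} [Group G] {S : Finset G}

theorem laminar_card {α : Type*} (Ω : Finset α) (𝒜 : Finset (Finset α))
    (h1 : ∀ A ∈ 𝒜, A.Nonempty ∧ A ⊆ Ω)
    (h2 : ∀ A ∈ 𝒜, ∀ A' ∈ 𝒜, A ⊆ A' ∨ A' ⊆ A ∨ Disjoint A A') : 𝒜.card ≤ 2 * Ω.card := by
  induction Ω using Finset.induction_on generalizing 𝒜 with
  | empty =>
    rw [Finset.card_empty, mul_zero, Nat.le_zero, Finset.card_eq_zero,
      Finset.eq_empty_iff_forall_notMem]
    intro A hA
    exact (h1 A hA).1.ne_empty (Finset.subset_empty.1 (h1 A hA).2)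
  | insert x Ω hx ih =>
    have h3 := ih ((𝒜.image fun A => A.erase x).erase ∅) (fun A hA => by
      obtain ⟨k1, k2⟩ := Finset.mem_erase.1 hA
      obtain ⟨B, hB, rfl⟩ := Finset.mem_image.1 k2
      exact ⟨Finset.nonempty_iff_ne_empty.2 k1, Finset.subset_insert_iff.1 (h1 B hB).2⟩)
      (fun A hA A' hA' => by
        obtain ⟨B, hB, rfl⟩ := Finset.mem_image.1 (Finset.mem_erase.1 hA).2
        obtain ⟨B', hB', rfl⟩ := Finset.mem_image.1 (Finset.mem_erase.1 hA').2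
        rcases h2 B hB B' hB' with h | h | h
        · exact Or.inl (Finset.erase_subset_erase _ h)
        · exact Or.inr (Or.inl (Finset.erase_subset_erase _ h))
        · exact Or.inr (Or.inr (h.mono (Finset.erase_subset _ _) (Finset.erase_subset _ _))))
    have key : ∀ A ∈ 𝒜, ∀ A' ∈ 𝒜, x ∈ A → x ∈ A' → A.erase x ∈ 𝒜 → A'.erase x ∈ 𝒜 → A ⊆ A' →
        A = A' := by
      intro A hA A' _ k1 _ k3 k4 k5
      rcases h2 A hA _ k4 with h | h | h
      · exact absurd (h k1) (Finset.notMem_erase _ _)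
      · refine Finset.Subset.antisymm k5 fun y hy => ?_
        by_cases hyx : y = x
        · rw [hyx]; exact k1
        · exact h (Finset.mem_erase.2 ⟨hyx, hy⟩)
      · obtain ⟨y, hy⟩ := (h1 _ k3).1
        obtain ⟨m1, m2⟩ := Finset.mem_erase.1 hy
        exact absurd (Finset.mem_erase.2 ⟨m1, k5 m2⟩) (Finset.disjoint_left.1 h m2)
    have h4 : (𝒜.filter fun A => x ∈ A ∧ A.erase x ∈ 𝒜).card ≤ 1 := by
      refine Finset.card_le_one.2 fun A hA A' hA' => ?_
      obtain ⟨k1, k2, k3⟩ := Finset.mem_filter.1 hA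
      obtain ⟨m1, m2, m3⟩ := Finset.mem_filter.1 hA'
      rcases h2 A k1 A' m1 with h | h | h
      · exact key A k1 A' m1 k2 m2 k3 m3 h
      · exact (key A' m1 A k1 m2 k2 m3 k3 h).symm
      · exact absurd m2 (Finset.disjoint_left.1 h k2)
    have h5 : ((𝒜.filter fun A => ¬ (x ∈ A ∧ A.erase x ∈ 𝒜)).erase {x}).card ≤
        ((𝒜.image fun A => A.erase x).erase ∅).card := by
      refine Finset.card_le_card_of_injOn (fun A => A.erase x) (fun A hA => ?_) ?_
      · obtain ⟨k1, k2⟩ := Finset.mem_erase.1 (Finset.mem_coe.1 hA)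
        have k3 := (Finset.mem_filter.1 k2).1
        refine Finset.mem_coe.2 (Finset.mem_erase.2 ⟨fun h => ?_, Finset.mem_image_of_mem _ k3⟩)
        rcases (Finset.erase_eq_empty_iff _ _).1 h with h | h
        · exact (h1 A k3).1.ne_empty h
        · exact k1 h
      · intro A hA A' hA' he
        obtain ⟨k1, k2⟩ := Finset.mem_filter.1 (Finset.mem_erase.1 (Finset.mem_coe.1 hA)).2
        obtain ⟨m1, m2⟩ := Finset.mem_filter.1 (Finset.mem_erase.1 (Finset.mem_coe.1 hA')).2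
        have he' : A.erase x = A'.erase x := he
        by_cases c1 : x ∈ A <;> by_cases c2 : x ∈ A'
        · rw [← Finset.insert_erase c1, he', Finset.insert_erase c2]
        · exact absurd ⟨c1, by rw [he', Finset.erase_eq_of_notMem c2]; exact m1⟩ k2
        · exact absurd ⟨c2, by rw [← he', Finset.erase_eq_of_notMem c1]; exact k1⟩ m2
        · rw [← Finset.erase_eq_of_notMem c1, he', Finset.erase_eq_of_notMem c2]
    have h6 := Finset.card_filter_add_card_filter_not (s := 𝒜)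
      (fun A => x ∈ A ∧ A.erase x ∈ 𝒜)
    have h7 := Finset.pred_card_le_card_erase
      (s := 𝒜.filter fun A => ¬ (x ∈ A ∧ A.erase x ∈ 𝒜)) (a := {x})
    rw [Finset.card_insert_of_notMem hx]
    omega

theorem inv_ball_FAM {T : Finset G} (hT : ∀ t ∈ T, t⁻¹ ∈ T) {r : ℕ} {a : G} (ha : a ∈ ball T r) :
    a⁻¹ ∈ ball T r := by
  induction r generalizing a with
  | zero => rw [mem_ball_zero.1 ha, inv_one]; exact one_mem_ball 0
  | succ r ih =>
    rcases mem_ball_succ.1 ha with h | ⟨b, hb, s, hs, rfl⟩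
    · exact mem_ball_succ.2 (Or.inl (ih h))
    · rw [mul_inv_rev, add_comm]
      exact mul_mem_ball (mem_ball_one (hT s hs)) (ih hb)

theorem bl_symm_FAM {T : Finset G} (hT : ∀ t ∈ T, t⁻¹ ∈ T) {x z : G} {r : ℕ}
    (h : x ∈ bl T z r) : z ∈ bl T x r := by
  have h1 := inv_ball_FAM hT h
  rw [mul_inv_rev, inv_inv] at h1
  exact h1

theorem mem_ball_of_closure {T : Finset G} (hT : ∀ t ∈ T, t⁻¹ ∈ T) {g : G}
    (hg : g ∈ Subgroup.closure (T : Set G)) : ∃ r, g ∈ ball T r := by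
  induction hg using Subgroup.closure_induction with
  | mem x hx => exact ⟨1, mem_ball_one hx⟩
  | one => exact ⟨0, one_mem_ball 0⟩
  | mul x y _ _ hx hy =>
    obtain ⟨r, hr⟩ := hx
    obtain ⟨r', hr'⟩ := hy
    exact ⟨r + r', mul_mem_ball hr hr'⟩
  | inv x _ hx =>
    obtain ⟨r, hr⟩ := hx
    exact ⟨r, inv_ball_FAM hT hr⟩

theorem ball_subset_closure (T : Finset G) (r : ℕ) :
    (ball T r : Set G) ⊆ Subgroup.closure (T : Set G) := by
  induction r with
  | zero =>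
    intro a ha
    rw [mem_ball_zero.1 (Finset.mem_coe.1 ha)]
    exact Subgroup.one_mem _
  | succ r ih =>
    intro a ha
    rcases mem_ball_succ.1 (Finset.mem_coe.1 ha) with h | ⟨b, hb, s, hs, rfl⟩
    · exact ih h
    · exact Subgroup.mul_mem _ (ih hb) (Subgroup.subset_closure hs)

theorem card_ball_gt {T : Finset G} (hT : ∀ t ∈ T, t⁻¹ ∈ T)
    (hi : (Subgroup.closure (T : Set G) : Set G).Infinite) (k : ℕ) : k < (ball T k).card := by
  induction k with
  | zero => exact Finset.card_pos.2 ⟨1, one_mem_ball 0⟩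
  | succ k ih =>
    refine lt_of_le_of_lt ih (Finset.card_lt_card ⟨ball_mono (Nat.le_succ k), fun hs => ?_⟩)
    have key : ∀ j, ball T j ⊆ ball T k := by
      intro j
      induction j with
      | zero => exact ball_mono (Nat.zero_le k)
      | succ j ihj =>
        intro a ha
        rcases mem_ball_succ.1 ha with h | ⟨b, hb, s, hs', rfl⟩
        · exact ihj h
        · exact hs (mem_ball_succ.2 (Or.inr ⟨b, ihj hb, s, hs', rfl⟩))
    refine hi ((ball T k).finite_toSet.subset fun g hg => ?_)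
    obtain ⟨r, hr⟩ := mem_ball_of_closure hT hg
    exact key r hr

/-- A path for arbitrary labels crosses the boundary. -/
theorem exists_cross {T : Finset G} {U : Set G} {x y : G} {r : ℕ} (hx : x ∈ U) (hy : y ∉ U)
    (h : y ∈ bl T x r) : ∃ z ∈ U, ∃ t ∈ T, z * t ∉ U ∧ z ∈ bl T x r := by
  induction r generalizing y with
  | zero =>
    have h1 : x⁻¹ * y = 1 := (mem_ball_zero (S := T)).1 h
    rw [inv_mul_eq_one.1 h1] at hx
    exact absurd hx hy
  | succ r ih =>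
    rcases mem_ball_succ.1 h with h1 | ⟨b, hb, s, hs, h1⟩
    · obtain ⟨z, z1, t, z2, z3, z4⟩ := ih hy h1
      exact ⟨z, z1, t, z2, z3, bl_mono x (Nat.le_succ r) z4⟩
    · have h2 : x * b ∈ bl T x r := by
        show x⁻¹ * (x * b) ∈ ball T r
        rwa [inv_mul_cancel_left]
      have h3 : x * b * s = y := by rw [mul_assoc, ← h1, mul_inv_cancel_left]
      by_cases hb' : x * b ∈ U
      · exact ⟨x * b, hb', s, hs, h3 ▸ hy, bl_mono x (Nat.le_succ r) h2⟩
      · obtain ⟨z, z1, t, z2, z3, z4⟩ := ih hb' h2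
        exact ⟨z, z1, t, z2, z3, bl_mono x (Nat.le_succ r) z4⟩

theorem cross_FAM {T : Finset G} (hT : ∀ t ∈ T, t⁻¹ ∈ T) {U : Set G} {x y : G} (hx : x ∈ U)
    (hy : y ∉ U) (h : x⁻¹ * y ∈ Subgroup.closure (T : Set G)) :
    ∃ z ∈ U, ∃ t ∈ T, z * t ∉ U := by
  obtain ⟨r, hr⟩ := mem_ball_of_closure hT h
  obtain ⟨z, z1, t, z2, z3, _⟩ := exists_cross hx hy hr
  exact ⟨z, z1, t, z2, z3⟩

theorem fin_ball_FAM {T : Finset G} (hT : ∀ t ∈ T, t⁻¹ ∈ T) {K : Set G} (hK : K.Finite)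
    (h : K ⊆ Subgroup.closure (T : Set G)) : ∃ r, ∀ g ∈ K, g ∈ ball T r := by
  choose! ρ hρ using fun g (hg : g ∈ Subgroup.closure (T : Set G)) => mem_ball_of_closure hT hg
  exact ⟨hK.toFinset.sup ρ, fun g hg =>
    ball_mono (Finset.le_sup (f := ρ) (hK.mem_toFinset.2 hg)) (hρ g (h hg))⟩

/-- the side of the translate of `A` by `g` that does not contain `h`. -/
def sideFAM (T : Finset G) (A : Set G) (g h : G) : Set G :=
  {x | g⁻¹ * x ∈ Subgroup.closure (T : Set G) ∧ ¬ (g⁻¹ * x ∈ A ↔ g⁻¹ * h ∈ A)}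

theorem cos_FAM {T : Finset G} {g x t : G} (ht : t ∈ T) :
    g⁻¹ * (x * t) ∈ Subgroup.closure (T : Set G) ↔ g⁻¹ * x ∈ Subgroup.closure (T : Set G) := by
  rw [← mul_assoc]
  exact Subgroup.mul_mem_cancel_right _ (Subgroup.subset_closure ht)

theorem side_edge_FAM {T : Finset G} {A : Set G} {g h x t : G} (ht : t ∈ T)
    (he : ¬ (x ∈ sideFAM T A g h ↔ x * t ∈ sideFAM T A g h)) : (g⁻¹ * x, t) ∈ edgeBd T A := by
  refine ⟨ht, fun h1 => he ?_⟩
  have h2 : g⁻¹ * x ∈ A ↔ g⁻¹ * (x * t) ∈ A := by rw [← mul_assoc]; exact h1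
  show (_ ∧ _) ↔ (_ ∧ _)
  rw [cos_FAM ht, h2]

theorem side_far_FAM {T : Finset G} (hT : ∀ t ∈ T, t⁻¹ ∈ T) {A : Set G} {ρ r : ℕ}
    (hρ : ∀ e ∈ edgeBd T A, e.1 ∈ ball T ρ) {g h y : G} (hgh : h ∉ bl T g (ρ + r))
    (hy : y ∈ bl T h r) : y ∉ sideFAM T A g h := by
  intro hs
  obtain ⟨z, z1, t, z2, z3, z4⟩ := exists_cross (U := (sideFAM T A g h)ᶜ) (x := h)
    (fun h1 => h1.2 Iff.rfl) (not_not.2 hs) hy
  have h1 : z ∈ bl T g ρ := hρ _ (side_edge_FAM z2 fun h2 => z1 (h2.2 (not_not.1 z3)))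
  exact hgh (mem_bl_trans h1 (bl_symm_FAM hT z4))

theorem side_disj_FAM {T : Finset G} (hT : ∀ t ∈ T, t⁻¹ ∈ T) {A : Set G} {ρ r : ℕ} (hr : ρ ≤ r)
    (hρ : ∀ e ∈ edgeBd T A, e.1 ∈ ball T ρ) {g h x : G} (hgh : h ∉ bl T g (ρ + r))
    (h1 : x ∈ sideFAM T A g h) (h2 : x ∈ sideFAM T A h g) : False := by
  obtain ⟨z, z1, t, z2, z3⟩ := cross_FAM hT (U := sideFAM T A g h ∩ sideFAM T A h g) (y := h)
    ⟨h1, h2⟩ (fun h3 => h3.1.2 Iff.rfl) (by simpa using Subgroup.inv_mem _ h2.1)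
  by_cases c : z * t ∈ sideFAM T A g h
  · have h3 : z ∈ bl T h ρ := hρ _ (side_edge_FAM z2 fun h4 => z3 ⟨c, h4.1 z1.2⟩)
    exact side_far_FAM hT hρ hgh (bl_mono _ hr h3) z1.1
  · have h3 : z ∈ bl T g ρ := hρ _ (side_edge_FAM z2 fun h4 => c (h4.1 z1.1))
    exact side_far_FAM hT hρ (fun h4 => hgh (bl_symm_FAM hT h4)) (bl_mono _ hr h3) z1.2

theorem side_inf_FAM {T : Finset G} {A : Set G} (hA : A ⊆ Subgroup.closure (T : Set G))
    (i1 : A.Infinite) (i2 : ((Subgroup.closure (T : Set G) : Set G) \ A).Infinite) (g h : G) :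
    (sideFAM T A g h).Infinite := by
  by_cases c : g⁻¹ * h ∈ A
  · refine (i2.image (mul_right_injective g).injOn).mono ?_
    rintro _ ⟨a, ha, rfl⟩
    refine ⟨?_, ?_⟩
    · simpa using ha.1
    · simpa [c] using ha.2
  · refine (i1.image (mul_right_injective g).injOn).mono ?_
    rintro _ ⟨a, ha, rfl⟩
    refine ⟨?_, ?_⟩
    · simpa using hA ha
    · simpa [c] using ha

/-- the region between two translates. -/
def midFAM (T : Finset G) (A : Set G) (g h : G) : Set G :=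
  {x | g⁻¹ * x ∈ Subgroup.closure (T : Set G) ∧ x ∉ sideFAM T A g h ∧ x ∉ sideFAM T A h g}

theorem mid_edge_FAM {T : Finset G} {A : Set G} {g h x t : G} (ht : t ∈ T)
    (he : ¬ (x ∈ midFAM T A g h ↔ x * t ∈ midFAM T A g h)) :
    (g⁻¹ * x, t) ∈ edgeBd T A ∨ (h⁻¹ * x, t) ∈ edgeBd T A := by
  by_contra hc
  rw [not_or] at hc
  have h1 := not_not.1 fun h' => hc.1 (side_edge_FAM (g := g) (h := h) ht h')
  have h2 := not_not.1 fun h' => hc.2 (side_edge_FAM (g := h) (h := g) ht h')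
  refine he ?_
  show (_ ∧ _ ∧ _) ↔ (_ ∧ _ ∧ _)
  rw [cos_FAM ht, h1, h2]

theorem mid_inf_FAM {T : Finset G} (hT : ∀ t ∈ T, t⁻¹ ∈ T) {A : Set G} {ρ r K' : ℕ}
    (hf : (edgeBd T A).Finite) (hρ : ∀ e ∈ edgeBd T A, e.1 ∈ ball T ρ)
    (hK : ∀ U : Set G, U.Finite → (edgeBd T U).ncard ≤ 2 * (edgeBd T A).ncard → U.ncard ≤ K')
    {A1 A2 : Finset G} (c1 : A1.card = K' + 1) (c2 : A2.card = K' + 1)
    (a1 : ∀ a ∈ A1, a ∈ A ∧ a ∈ ball T r) (a2 : ∀ a ∈ A2, a ∉ A ∧ a ∈ ball T r) {g h : G}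
    (hgh : h ∉ bl T g (ρ + r)) : (midFAM T A g h).Infinite := by
  intro hfin
  have h1 : edgeBd T (midFAM T A g h) ⊆ (fun e : G × G => (g * e.1, e.2)) '' edgeBd T A ∪
      (fun e : G × G => (h * e.1, e.2)) '' edgeBd T A := by
    rintro ⟨x, t⟩ ⟨ht, he⟩
    rcases mid_edge_FAM ht he with h2 | h2
    · exact Or.inl ⟨_, h2, by simp⟩
    · exact Or.inr ⟨_, h2, by simp⟩
  have h2 := hK _ hfin (by
    refine (ncard_le_ncard h1 ((hf.image _).union (hf.image _))).trans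
      ((ncard_union_le _ _).trans ?_)
    rw [two_mul]
    exact add_le_add (ncard_image_le hf) (ncard_image_le hf))
  have key : ∀ B : Finset G, B.card = K' + 1 →
      (∀ a ∈ B, (a ∈ A ↔ g⁻¹ * h ∈ A) ∧ a ∈ ball T r) → False := by
    intro B hB hb
    have h3 : (fun a => g * a) '' (B : Set G) ⊆ midFAM T A g h := by
      rintro _ ⟨a, ha, rfl⟩
      refine ⟨?_, fun h4 => h4.2 ?_, side_far_FAM hT hρ (fun h4 => hgh (bl_symm_FAM hT h4)) ?_⟩
      · simpa using ball_subset_closure T r (hb a ha).2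
      · simpa using (hb a ha).1
      · show g⁻¹ * (g * a) ∈ ball T r
        simpa using (hb a ha).2
    have h4 := ncard_le_ncard h3 hfin
    rw [ncard_image_of_injective _ (mul_right_injective g), ncard_coe_finset] at h4
    omega
  by_cases c : g⁻¹ * h ∈ A
  · exact key A1 c1 fun a ha => ⟨iff_of_true (a1 a ha).1 c, (a1 a ha).2⟩
  · exact key A2 c2 fun a ha => ⟨iff_of_false (a2 a ha).1 c, (a2 a ha).2⟩

theorem meet_FAM {T : Finset G} (hT : ∀ t ∈ T, t⁻¹ ∈ T) {U : Set G} (hU : U.Infinite)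
    {F : Finset G} {g : G} (hg : g ∈ F) (h1 : ∀ x ∈ U, g⁻¹ * x ∈ Subgroup.closure (T : Set G))
    (h2 : ∀ x ∈ U, ∀ t ∈ T, x * t ∉ U → x ∈ F) : ∃ z ∈ U, z ∉ F ∧ ∃ t ∈ T, z * t ∈ F := by
  obtain ⟨y, y1, y2⟩ := hU.exists_notMem_finset F
  obtain ⟨z, z1, t, z2, z3⟩ := cross_FAM hT (U := {x | x ∈ U ∧ x ∉ F}) (x := y) (y := g) ⟨y1, y2⟩
    (fun h => h.2 hg) (by simpa using Subgroup.inv_mem _ (h1 y y1))
  exact ⟨z, z1.1, z1.2, t, z2, by_contra fun h => z3 ⟨by_contra fun h' => z1.2 (h2 z z1.1 t z2 h'), h⟩⟩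

theorem net_FAM {T : Finset G} (hT : ∀ t ∈ T, t⁻¹ ∈ T) (V : Finset G) (D : ℕ) :
    ∃ X ⊆ V, (∀ x ∈ X, ∀ y ∈ X, y ∈ bl T x D → x = y) ∧ V.card ≤ (ball T D).card * X.card := by
  obtain ⟨X, ⟨h3, h2⟩, hmax⟩ := Set.exists_max_image
    {X : Finset G | X ⊆ V ∧ ∀ x ∈ X, ∀ y ∈ X, y ∈ bl T x D → x = y} Finset.card
    (V.powerset.finite_toSet.subset fun X hX => Finset.mem_coe.2 (Finset.mem_powerset.2 hX.1))
    ⟨∅, by simp⟩
  refine ⟨X, h3, h2, ?_⟩
  have h4 : (V : Set G) ⊆ nbh T D X := by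
    intro y hy
    by_contra hc
    have h5 : y ∉ X := fun h => hc (subset_nbh D _ h)
    have h6 := hmax (insert y X) ⟨Finset.insert_subset hy h3, fun a ha b hb hab => by
        rcases Finset.mem_insert.1 ha with rfl | ha' <;>
          rcases Finset.mem_insert.1 hb with rfl | hb'
        · rfl
        · exact absurd ⟨b, hb', bl_symm_FAM hT hab⟩ hc
        · exact absurd ⟨a, ha', hab⟩ hc
        · exact h2 a ha' b hb' hab⟩
    rw [Finset.card_insert_of_notMem h5] at h6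
    omega
  have h5 := (ncard_le_ncard h4 (nbh_finite D X.finite_toSet)).trans
    (nbh_ncard_le D X.finite_toSet)
  rwa [ncard_coe_finset, ncard_coe_finset] at h5

theorem side_eq_FAM {T : Finset G} {A : Set G} {g h o : G} (c : g⁻¹ * o ∈ A ↔ g⁻¹ * h ∈ A) :
    sideFAM T A g o = sideFAM T A g h := by
  unfold sideFAM
  rw [c]

theorem side_ne_FAM {T : Finset G} {A : Set G} {g h o x : G}
    (c : ¬ (g⁻¹ * o ∈ A ↔ g⁻¹ * h ∈ A)) : x ∈ sideFAM T A g o ↔
      g⁻¹ * x ∈ Subgroup.closure (T : Set G) ∧ x ∉ sideFAM T A g h := by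
  show (_ ∧ _) ↔ (_ ∧ ¬ (_ ∧ _))
  generalize (g⁻¹ * x ∈ Subgroup.closure (T : Set G)) = p
  generalize (g⁻¹ * o ∈ A) = q at c
  generalize (g⁻¹ * h ∈ A) = q' at c
  generalize (g⁻¹ * x ∈ A) = q''
  tauto

theorem side_cases_FAM {T : Finset G} (hT : ∀ t ∈ T, t⁻¹ ∈ T) {A : Set G} {ρ r : ℕ} (hr : ρ ≤ r)
    (hρ : ∀ e ∈ edgeBd T A, e.1 ∈ ball T ρ) {g h o : G} (hgh : h ∉ bl T g (ρ + r))
    (hg : g⁻¹ * o ∈ Subgroup.closure (T : Set G)) (hh : h⁻¹ * o ∈ Subgroup.closure (T : Set G)) :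
    Disjoint (sideFAM T A g o) (sideFAM T A h o) ∨
      (sideFAM T A g o ⊆ sideFAM T A h o ∧ midFAM T A g h ⊆ sideFAM T A h o \ sideFAM T A g o) ∨
      (sideFAM T A h o ⊆ sideFAM T A g o ∧ midFAM T A g h ⊆ sideFAM T A g o \ sideFAM T A h o) := by
  have hd := fun x => side_disj_FAM hT hr hρ (x := x) hgh
  have hc : ∀ x, g⁻¹ * x ∈ Subgroup.closure (T : Set G) ↔
      h⁻¹ * x ∈ Subgroup.closure (T : Set G) := by
    intro x
    have h1 := Subgroup.mul_mem _ hh (Subgroup.inv_mem _ hg)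
    have e : h⁻¹ * x = h⁻¹ * o * (g⁻¹ * o)⁻¹ * (g⁻¹ * x) := by group
    rw [e, Subgroup.mul_mem_cancel_left _ h1]
  by_cases c1 : g⁻¹ * o ∈ A ↔ g⁻¹ * h ∈ A <;> by_cases c2 : h⁻¹ * o ∈ A ↔ h⁻¹ * g ∈ A
  · rw [side_eq_FAM c1, side_eq_FAM c2]
    exact Or.inl (disjoint_left.2 hd)
  · rw [side_eq_FAM c1]
    exact Or.inr (Or.inl ⟨fun x h1 => (side_ne_FAM c2).2 ⟨(hc x).1 h1.1, hd x h1⟩,
      fun x h1 => ⟨(side_ne_FAM c2).2 ⟨(hc x).1 h1.1, h1.2.2⟩, h1.2.1⟩⟩)
  · rw [side_eq_FAM c2]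
    exact Or.inr (Or.inr ⟨fun x h1 => (side_ne_FAM c1).2 ⟨(hc x).2 h1.1, fun h2 => hd x h2 h1⟩,
      fun x h1 => ⟨(side_ne_FAM c1).2 ⟨h1.1, h1.2.1⟩, h1.2.2⟩⟩)
  · exact (hd o ⟨hg, c1⟩ ⟨hh, c2⟩).elim

theorem oneT_of_folner {T : Finset G} (hT : ∀ t ∈ T, t⁻¹ ∈ T)
    (hi : (Subgroup.closure (T : Set G) : Set G).Infinite) (hF : Folner T) (hI : Iso T) :
    OneT T := by
  have _ := hi
  intro A hA hf
  by_contra hcon
  rw [not_or] at hcon
  obtain ⟨i1, i2⟩ := hcon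
  obtain ⟨K', hK⟩ := hI (2 * (edgeBd T A).ncard)
  obtain ⟨ρ, hρ'⟩ := fin_ball_FAM hT (hf.image Prod.fst) (by
    rintro _ ⟨⟨x, t⟩, ⟨ht, he⟩, rfl⟩
    by_cases c : x ∈ A
    · exact hA c
    · have h1 : x * t ∈ A := by_contra fun h => he (iff_of_false c h)
      exact (Subgroup.mul_mem_cancel_right _ (Subgroup.subset_closure ht)).1 (hA h1))
  have hρ : ∀ e ∈ edgeBd T A, e.1 ∈ ball T ρ := fun e he => hρ' _ ⟨e, he, rfl⟩
  obtain ⟨A1, s1, c1⟩ := Set.Infinite.exists_subset_card_eq i1 (K' + 1)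
  obtain ⟨A2, s2, c2⟩ := Set.Infinite.exists_subset_card_eq i2 (K' + 1)
  obtain ⟨r1, hr1⟩ := fin_ball_FAM hT A1.finite_toSet (s1.trans hA)
  obtain ⟨r2, hr2⟩ := fin_ball_FAM hT A2.finite_toSet (s2.trans sdiff_subset)
  set r := ρ + r1 + r2 with hr
  have a1 : ∀ a ∈ A1, a ∈ A ∧ a ∈ ball T r := fun a ha =>
    ⟨s1 ha, ball_mono (by omega) (hr1 a ha)⟩
  have a2 : ∀ a ∈ A2, a ∉ A ∧ a ∈ ball T r := fun a ha =>
    ⟨(s2 ha).2, ball_mono (by omega) (hr2 a ha)⟩
  set c : ℕ := 2 * (ball T (ρ + r)).card + (ball T ρ).card with hc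
  obtain ⟨F, hne, hFo⟩ := hF (1 / (c + 1)) (by positivity)
  have hEf : (edgeBd T (F : Set G)).Finite := edgeBd_finite_of_finite F.finite_toSet
  obtain ⟨X, hXV, hsep, hcard⟩ := net_FAM hT (F.filter fun x => bl T x ρ ⊆ F) (ρ + r)
  have hX : ∀ g ∈ X, g ∈ F ∧ bl T g ρ ⊆ F := fun g hg => Finset.mem_filter.1 (hXV hg)
  set Ω : Finset G := hEf.toFinset.image Prod.fst with hΩ
  have hΩc : Ω.card ≤ (edgeBd T (F : Set G)).ncard := by
    rw [ncard_eq_toFinset_card _ hEf]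
    exact Finset.card_image_le
  have hΩm : ∀ z t, t ∈ T → ¬ (z ∈ F ↔ z * t ∈ F) → z ∈ Ω := fun z t ht he =>
    Finset.mem_image.2 ⟨(z, t), hEf.mem_toFinset.2 ⟨ht, he⟩, rfl⟩
  let o : G → G := fun g => (QuotientGroup.mk g : G ⧸ Subgroup.closure (T : Set G)).out
  have ho : ∀ g, g⁻¹ * o g ∈ Subgroup.closure (T : Set G) := fun g =>
    QuotientGroup.eq.1 (QuotientGroup.out_eq' _).symm
  have ho' : ∀ g h, g⁻¹ * h ∈ Subgroup.closure (T : Set G) → o g = o h := fun g h hgh =>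
    congrArg Quotient.out (QuotientGroup.eq.2 hgh)
  let tr : G → Finset G := fun g => Ω.filter fun z => z ∈ sideFAM T A g (o g)
  have t1 : ∀ g ∈ X, (tr g).Nonempty := by
    intro g hg
    obtain ⟨z, z1, z2, t, z3, z4⟩ := meet_FAM hT (side_inf_FAM hA i1 i2 g (o g)) (hX g hg).1
      (fun x hx => hx.1) fun x hx t ht h => (hX g hg).2 (hρ _ (side_edge_FAM ht fun h' =>
        h (h'.1 hx)))
    exact ⟨z, Finset.mem_filter.2 ⟨hΩm z t z3 fun h => z2 (h.2 z4), z1⟩⟩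
  have t2 : ∀ g ∈ X, ∀ h ∈ X, g ≠ h → Disjoint (tr g) (tr h) ∨
      (tr g ⊆ tr h ∧ tr g ≠ tr h) ∨ (tr h ⊆ tr g ∧ tr g ≠ tr h) := by
    intro g hg h hh hne
    have hfar : h ∉ bl T g (ρ + r) := fun h1 => hne (hsep g hg h hh h1)
    by_cases cgh : g⁻¹ * h ∈ Subgroup.closure (T : Set G)
    · obtain ⟨z, z1, z2, t, z3, z4⟩ := meet_FAM hT (mid_inf_FAM hT hf hρ hK c1 c2 a1 a2 hfar)
        (hX g hg).1 (fun x hx => hx.1) fun x hx t ht h1 => by
          rcases mid_edge_FAM ht (fun h' => h1 (h'.1 hx)) with h2 | h2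
          · exact (hX g hg).2 (hρ _ h2)
          · exact (hX h hh).2 (hρ _ h2)
      have z5 := hΩm z t z3 fun h => z2 (h.2 z4)
      have e := ho' g h cgh
      simp only [tr]
      rw [← e]
      rcases side_cases_FAM hT (show ρ ≤ r by omega) hρ hfar (ho g) (e ▸ ho h) with
        h1 | ⟨h1, h2⟩ | ⟨h1, h2⟩
      · exact Or.inl (Finset.disjoint_filter.2 fun x _ h2 h3 => disjoint_left.1 h1 h2 h3)
      · refine Or.inr (Or.inl ⟨fun x hx => Finset.mem_filter.2 ⟨(Finset.mem_filter.1 hx).1,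
          h1 (Finset.mem_filter.1 hx).2⟩, fun h3 => (h2 z1).2 ?_⟩)
        have h4 : z ∈ Ω.filter fun z => z ∈ sideFAM T A h (o g) :=
          Finset.mem_filter.2 ⟨z5, (h2 z1).1⟩
        rw [← h3] at h4
        exact (Finset.mem_filter.1 h4).2
      · refine Or.inr (Or.inr ⟨fun x hx => Finset.mem_filter.2 ⟨(Finset.mem_filter.1 hx).1,
          h1 (Finset.mem_filter.1 hx).2⟩, fun h3 => (h2 z1).2 ?_⟩)
        have h4 : z ∈ Ω.filter fun z => z ∈ sideFAM T A g (o g) :=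
          Finset.mem_filter.2 ⟨z5, (h2 z1).1⟩
        rw [h3] at h4
        exact (Finset.mem_filter.1 h4).2
    · refine Or.inl (Finset.disjoint_filter.2 fun x _ h2 h3 => cgh ?_)
      have h4 := Subgroup.mul_mem _ h2.1 (Subgroup.inv_mem _ h3.1)
      simpa using h4
  have t3 : (X.image tr).card = X.card := by
    refine Finset.card_image_of_injOn fun g hg h hh he => by_contra fun hne => ?_
    rcases t2 g hg h hh hne with h1 | h1 | h1
    · rw [← he, disjoint_self] at h1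
      exact (t1 g hg).ne_empty h1
    · exact h1.2 he
    · exact h1.2 he
  have t4 := laminar_card Ω (X.image tr) (fun B hB => by
      obtain ⟨g, hg, rfl⟩ := Finset.mem_image.1 hB
      exact ⟨t1 g hg, Finset.filter_subset _ _⟩)
    (fun B hB B' hB' => by
      obtain ⟨g, hg, rfl⟩ := Finset.mem_image.1 hB
      obtain ⟨h, hh, rfl⟩ := Finset.mem_image.1 hB'
      by_cases hne : g = h
      · rw [hne]; exact Or.inl (Finset.Subset.refl _)
      · rcases t2 g hg h hh hne with h1 | h1 | h1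
        · exact Or.inr (Or.inr h1)
        · exact Or.inl h1.1
        · exact Or.inr (Or.inl h1.1))
  have t5 : (F.filter fun x => ¬ bl T x ρ ⊆ F).card ≤ (ball T ρ).card * Ω.card := by
    have h1 : ((F.filter fun x => ¬ bl T x ρ ⊆ F : Finset G) : Set G) ⊆ nbh T ρ Ω := by
      intro x hx
      obtain ⟨h2, h3⟩ := Finset.mem_filter.1 (Finset.mem_coe.1 hx)
      obtain ⟨y, y1, y2⟩ := not_subset.1 h3
      obtain ⟨z, z1, t, z2, z3, z4⟩ := exists_cross (U := (F : Set G)) h2 y2 y1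
      exact ⟨z, hΩm z t z2 fun h => z3 (h.1 z1), bl_symm_FAM hT z4⟩
    have h2 := (ncard_le_ncard h1 (nbh_finite ρ Ω.finite_toSet)).trans
      (nbh_ncard_le ρ Ω.finite_toSet)
    rwa [ncard_coe_finset, ncard_coe_finset] at h2
  have t6 := Finset.card_filter_add_card_filter_not (s := F) (fun x => bl T x ρ ⊆ F)
  have t7 : F.card ≤ c * (edgeBd T (F : Set G)).ncard := by
    rw [t3] at t4
    have h1 := Nat.mul_le_mul_left (ball T (ρ + r)).card t4
    refine le_trans ?_ (Nat.mul_le_mul_left c hΩc)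
    rw [hc]
    nlinarith
  have t8 : (F.card : ℝ) ≤ c * (edgeBd T (F : Set G)).ncard := by exact_mod_cast t7
  have t9 : (0 : ℝ) < F.card := by exact_mod_cast hne.card_pos
  have t10 : (0 : ℝ) ≤ c := Nat.cast_nonneg _
  rw [one_div, ← div_eq_inv_mul, le_div_iff₀ (by positivity)] at hFo
  have t11 : (0 : ℝ) ≤ (edgeBd T (F : Set G)).ncard := Nat.cast_nonneg _
  have t12 : ((edgeBd T (F : Set G)).ncard : ℝ) ≤ 0 := by nlinarith
  nlinarith

end Vale.Agent.P239
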