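import Vale.Agent.P239.Full.FRep

/-! Task FGlue: gluing local repairs. Choose `κ x, ρ x, ρ₁ x, ρ₂ x` for `x ∈ X` and put `c' = c - ∑_{x ∈ X} κ x`. By separation `c' = c - κ x` on edges starting in `bl x (3ρs + 1 + l)`,
and `c' = c` on edges starting outside all `bl x (ρ x)`. `LocExact`: for `y ∈ bl x (ρ₁ x)` by `Rep`; otherwise `y ∉ nbh D₀ X` and `c' = c` on `bl y l`.
Cones: `lam`; a support point `y ∈ bl x (ρ₁ x)` lies in the cluster `(x, ρ₂ x)` (`Clus.congr`); otherwise `Tame` gives a cluster `(y, D)` of `c`, and `c' = c` on `bl y (3D+1)`. Then `ax2`.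
-/

noncomputable section

open Classical MeasureTheory Filter Topology Set
open scoped Pointwise ENNReal

namespace Vale.Agent.P239

universe u
variable {G : Type u} [Group G] {S : Finset G} {l : ℕ} {Q : Cones S} {B : Bdry S}

theorem RH.glue (hH : RH S l Q) {c : G → G → ℤ} (hf : {x | ∃ s ∈ S, c x s ≠ 0}.Finite)
    {X : Set G} (hX : X.Finite) {D₀ D₁ ρs : ℕ}
    (hsep : ∀ x ∈ X, ∀ y ∈ X, y ∈ bl S x (4 * ρs + l + 2) → x = y)
    (hrep : ∀ x ∈ X, ∃ (κ : G → G → ℤ) (ρ ρ₁ ρ₂ : ℕ), ρ + (3 * D₁ + 1 + l) ≤ ρ₁ ∧ D₀ ≤ ρ ∧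
      ρ₁ ≤ ρ₂ ∧ ρ₂ ≤ ρs ∧ Q.Rep l c κ x ρ ρ₁ ρ₂)
    (hb : ∀ y, y ∉ nbh S D₀ X → LocExact S l c y) (hT : Q.Tame l c (nbh S D₀ X) D₁) :
    ∃ w, ∀ e ∈ defect S c w, e.1 ∈ nbh S ρs X := by
  have hS := hH.cay
  choose! κ ρ ρ₁ ρ₂ h1 h2 h3 h4 hR using hrep
  let c' : G → G → ℤ := fun y s => c y s - ∑ x ∈ hX.toFinset, κ x y s
  have hne : ∀ y s, c' y s ≠ c y s → ∃ x ∈ X, y ∈ bl S x (ρ x) := fun y s h => by
    obtain ⟨x, hx, h0⟩ := Finset.exists_ne_zero_of_sum_ne_zero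
      (fun h0 : ∑ x ∈ hX.toFinset, κ x y s = 0 => h (by simp only [c', h0, sub_zero]))
    exact ⟨x, hX.mem_toFinset.1 hx, (hR x (hX.mem_toFinset.1 hx)).1 y s h0⟩
  have hA : ∀ x ∈ X, ∀ y ∈ bl S x (3 * ρs + 1 + l), ∀ s, c' y s = c y s - κ x y s := by
    intro x hx y hy s
    have e : ∑ x ∈ hX.toFinset, κ x y s = κ x y s := by
      refine Finset.sum_eq_single_of_mem x (hX.mem_toFinset.2 hx) fun x' hx' hn => ?_
      have hx'' := hX.mem_toFinset.1 hx'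
      by_contra h0
      have := h1 x' hx''
      have := h3 x' hx''
      have := h4 x' hx''
      exact hn (hsep x hx x' hx'' (bl_mono x (by omega)
        (mem_bl_trans hy (mem_bl_symm hS ((hR x' hx'').1 y s h0))))).symm
    simp only [c', e]
  have hB : ∀ y, (¬ ∃ x ∈ X, y ∈ bl S x (ρ₁ x)) → y ∉ nbh S D₀ X ∧
      ∀ z ∈ bl S y (3 * D₁ + 1 + l), ∀ s, c' z s = c z s := fun y hy => by
    refine ⟨fun ⟨x, hx, h⟩ => hy ⟨x, hx, bl_mono x ?_ h⟩, fun z hz s => ?_⟩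
    · have := h1 x hx
      have := h2 x hx
      omega
    · by_contra h
      obtain ⟨x, hx, h'⟩ := hne z s h
      exact hy ⟨x, hx, bl_mono x (h1 x hx) (mem_bl_trans h' (mem_bl_symm hS hz))⟩
  obtain ⟨w, hw⟩ := hH.ax2 c' (fun y => by
      by_cases hy : ∃ x ∈ X, y ∈ bl S x (ρ₁ x)
      · obtain ⟨x, hx, hy⟩ := hy
        have := h3 x hx
        have := h4 x hx
        exact (locExact_iff _ _).2 (((locExact_iff _ _).1 ((hR x hx).2.1 y hy)).congr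
          fun z hz s _ => hA x hx z (bl_mono x (by omega) (mem_bl_trans hy hz)) s)
      · exact (locExact_iff _ _).2 (((locExact_iff _ _).1 (hb y (hB y hy).1)).congr
          fun z hz s _ => (hB y hy).2 z (bl_mono y (by omega) hz) s)) fun i γ => by
    refine Cones.lam hS ((hf.union (hX.biUnion fun x _ => bl_finite (S := S) x (ρ x))).subset ?_)
      fun y hyc ⟨s, hs, h0⟩ => ?_
    · rintro y ⟨-, s, hs, h0⟩
      by_cases h : c' y s = c y s
      · exact Or.inl ⟨s, hs, h ▸ h0⟩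
      · obtain ⟨x, hx, h'⟩ := hne y s h
        exact Or.inr (Set.mem_biUnion hx h')
    · by_cases hy : ∃ x ∈ X, y ∈ bl S x (ρ₁ x)
      · obtain ⟨x, hx, hy⟩ := hy
        have := h4 x hx
        exact ⟨x, ρ₂ x, bl_mono x (h3 x hx) hy, ((hR x hx).2.2 i γ ⟨y, hyc, hy⟩).congr
          fun z _ hz s _ => hA x hx z (bl_mono x (by omega) hz) s⟩
      · obtain ⟨D, hD, hc⟩ := hT i γ y hyc (hB y hy).1
          ⟨s, hs, (hB y hy).2 y (mem_bl_self _ _) s ▸ h0⟩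
        exact ⟨y, D, mem_bl_self _ _, hc.congr
          fun z _ hz s _ => (hB y hy).2 z (bl_mono y (by omega) hz) s⟩
  refine ⟨w, fun e he => ?_⟩
  obtain ⟨x, hx, h'⟩ := hne e.1 e.2 fun h => he.2 (h ▸ hw e.1 (mem_univ _) e.2 he.1)
  have := h1 x hx
  have := h3 x hx
  have := h4 x hx
  exact ⟨x, hx, bl_mono x (by omega) h'⟩

end Vale.Agent.P239
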