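import Vale.Agent.P239.Full.FCoreD
import Vale.Agent.P239.Full.FGlue

/-! Task FAcc: there is no chain; accessibility.
`Chain.false`: `D₁` from `tame_adm`, `m = 3 D₁ + 1 + l`, `θ = 1/(4 N^(m+1))`, `D` from `cluster`, `ρs` from `uniform_rep` (`lab_locExact`, `lab_tame`, `lab_adm`, `lim_smul_A 1`). For large `j`: the visible set is finite (`J.fvp j`),
`X` a maximal `D`-separated subset (`exists_net`), which is `(4ρs + l + 2)`-separated by `cluster`; `J.lc j` has finite support (`lab_supp`, `J.fvp j`); `glue` gives `w` with defect in `K = nbh ρs X`; `w` is constant off a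
finite set (`const_off_finite`); on `K` the middle part is at least `ε = min (1/4) (θ / N^ρs)` (Harnack). `lab_final` at `1`: `min (h (a j) 1) (h Aᶜ 1) ≤ z j / ε → 0`, but `h (a j) 1 ≥ h (a 0) 1 > 0`.
`acc`: otherwise take `A n` with pairwise different `h`, a monotone subsequence (`exists_mono_subseq`; replace by complements if decreasing); it is strictly increasing (`h_congr`); `FVP (a j) (a (j+k))ᶜ` gives the chain.
-/

noncomputable section

open Classical MeasureTheory Filter Topology Set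
open scoped Pointwise ENNReal

namespace Vale.Agent.P239

universe u
variable {G : Type u} [Group G] {S : Finset G} {l : ℕ} {Q : Cones S} {B : Bdry S}

namespace Bdry

theorem Chain.false (hH : RH S l Q) {Φ : B.NFam} (J : B.Chain Q Φ) : False := by
  have hS := hH.cay
  have hN := gl_one_le hS
  obtain ⟨D₁, hD₁⟩ := J.tame_adm hH
  have gA : B.Good J.Aᶜ := (J.good_A hS).compl
  have ga : ∀ j, B.Good (J.a j) := fun j => Φ.good _ (J.mem j)
  have hd : ∀ j, B.Null (J.a j ∩ J.Aᶜ) := fun j =>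
    (Sub.of_subset (subset_iUnion J.a j) : B.Sub (J.a j) J.A)
  have hp := fun j => B.h_harm hS (ga j).1
  have hq := B.h_harm hS gA.1
  have hz := fun j => B.h_compl_union hS (ga j).1 gA.1 (hd j)
  have hpq : ∀ j x, B.h (J.a j) x + B.h J.Aᶜ x ≤ 1 := fun j x => by
    linarith [hz j x, B.h_nonneg (J.a j ∪ J.Aᶜ)ᶜ x]
  have hlim : J.Lim J.Aᶜ := by simpa only [one_smul] using J.lim_smul_A hS 1
  obtain ⟨θ, hθ, hb, hT⟩ : ∃ θ : ℝ, 0 < θ ∧
      (∀ j y, ¬ Vis θ (B.h (J.a j)) (B.h J.Aᶜ) y → LocExact S l (J.lc j) y) ∧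
      ∀ j, Q.Tame l (J.lc j) {y | Vis θ (B.h (J.a j)) (B.h J.Aᶜ) y} D₁ :=
    ⟨1 / (4 * (S.card : ℝ) ^ (3 * D₁ + 1 + l + 1)), by positivity,
      fun j y hy => lab_locExact hS (hp j) hq (B.h_nonneg _) (B.h_nonneg _) (hpq j)
        (Nat.le_add_left _ _) hy,
      fun j => lab_tame hS (hp j) hq (B.h_nonneg _) (B.h_nonneg _) (hpq j) (Nat.le_add_right _ _)
        (hD₁ _ hlim _ (lab_adm (B.h_nonneg _) (hpq j)))⟩
  obtain ⟨D, hD⟩ := J.cluster hH hθ
  obtain ⟨ρs, hρ⟩ := J.uniform_rep hH hθ hD hb hT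
  have hε : 0 < min (1 / 4) (θ / (S.card : ℝ) ^ ρs) := by positivity
  have key : ∀ᶠ j in atTop,
      B.h (J.a j) 1 ≤ (1 - B.h (J.a j) 1 - B.h J.Aᶜ 1) / min (1 / 4) (θ / (S.card : ℝ) ^ ρs) ∨
      B.h J.Aᶜ 1 ≤ (1 - B.h (J.a j) 1 - B.h J.Aᶜ 1) / min (1 / 4) (θ / (S.card : ℝ) ^ ρs) := by
    filter_upwards [hρ, hD (4 * ρs + l + 2)] with j h1 h2
    obtain ⟨X, hXV, hX1, hX2⟩ := exists_net hS {y | Vis θ (B.h (J.a j)) (B.h J.Aᶜ) y} D
    have hX : X.Finite := ((J.fvp j).1 θ hθ).subset fun y hy => ⟨(hXV hy).1, (hXV hy).2.1⟩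
    have hf : {x | ∃ s ∈ S, J.lc j x s ≠ 0}.Finite :=
      ((J.fvp j).1 (1 / (4 * (S.card : ℝ))) (by positivity)).subset fun x ⟨s, hs, h⟩ =>
        lab_supp hS (hp j) hq (B.h_nonneg _) (B.h_nonneg _) hs h
    obtain ⟨w, hw⟩ := hH.glue hf hX
      (fun x hx y hy h => hX1 x hx y hy (h2 x y (hXV hx) (hXV hy) h)) (fun x hx => h1 x (hXV hx))
      (fun y hy => hb j y fun h => hy (hX2 y h)) fun i γ y hy hK =>
        hT j i γ y hy fun h => hK (hX2 y h)
    obtain ⟨c, hc⟩ := const_off_finite hS hH.one (w := w)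
      ((((nbh_finite (S := S) ρs hX).union hf).prod S.finite_toSet).subset fun e he => by
        refine ⟨?_, he.1⟩
        by_cases h : J.lc j e.1 e.2 = 0
        · exact Or.inl (hw e ⟨he.1, fun h' => he.2 (sub_eq_zero.1 (h'.symm.trans h))⟩)
        · exact Or.inr ⟨e.2, he.1, h⟩)
    refine lab_final hS (ga j) gA (hd j) hc (K := nbh S ρs X) hε (min_le_left _ _) ?_
      (fun x hx s hs => by_contra fun h => hx (hw (x, s) ⟨hs, h⟩)) 1
    rintro y ⟨x, hx, hy⟩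
    have h3 := h_harnack_bl (B := B) hS (mem_bl_symm hS hy) (J.a j ∪ J.Aᶜ)ᶜ
    rw [hz, hz] at h3
    exact (min_le_right _ _).trans ((div_le_iff₀' (by positivity)).2 ((hXV hx).2.2.trans h3))
  have h0 := (((J.cv_A.tendsto_h hS 1).const_sub 1).sub_const (B.h J.Aᶜ 1)).div_const
    (min (1 / 4) (θ / (S.card : ℝ) ^ ρs))
  rw [← B.h_compl (J.good_A hS).1, sub_self, zero_div] at h0
  have hm : Monotone fun j => B.h (J.a j) 1 :=
    monotone_nat_of_le_succ fun j => B.h_mono hS (J.mono j) 1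
  obtain ⟨j, h1, h2, h3⟩ := (key.and ((h0.eventually (gt_mem_nhds (B.h_pos hS J.pos 1))).and
    (h0.eventually (gt_mem_nhds (B.h_pos hS J.pos' 1))))).exists
  rcases h1 with h1 | h1
  · exact absurd ((hm j.zero_le).trans h1) h2.not_ge
  · exact absurd h1 h3.not_ge

theorem facc_key (hH : RH S l Q) (Φ : B.NFam) (k : ℕ)
    (hk : ∀ b : ℕ → Set (Bd G), (∀ i, b i ∈ Φ.𝓛) → (∀ i, B.Two (b i)) →
      (∀ i, B.SSub (b i) (b (i + 1))) → B.FVP Q (b 0) (b k)ᶜ) {ε : ℝ} (hε : 0 < ε)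
    (b : ℕ → Set (Bd G)) (h1 : ∀ i, b i ∈ Φ.𝓛) (h2 : ∀ i, B.Sees ε (b i) 1)
    (h3 : ∀ i, B.SSub (b i) (b (i + 1))) : False := by
  have hS := hH.cay
  refine Chain.false (Φ := Φ) hH ⟨b, h1, fun j => (h3 j).1, ((h2 0).two hS hε).1, fun h => ?_,
    fun j => (hk (fun i => b (j + i)) (fun i => h1 _) (fun i => (h2 _).two hS hε)
      fun i => h3 (j + i)).mono hS (Sub.refl _)
        (Sub.compl (Sub.of_subset (subset_iUnion b (j + k))))⟩
  have h4 := ge_of_tendsto' ((cv_iUnion (fun j => (Φ.good _ (h1 j)).1)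
    fun j => (h3 j).1).compl.tendsto_h hS 1) fun j => (h2 j).2
  rw [Bdry.h, measureReal_def, show B.μ 1 (⋃ j, b j)ᶜ = 0 from h, ENNReal.toReal_zero] at h4
  exact absurd hε h4.not_gt

theorem NFam.acc (hH : RH S l Q) (Φ : B.NFam) (k : ℕ)
    (hk : ∀ b : ℕ → Set (Bd G), (∀ i, b i ∈ Φ.𝓛) → (∀ i, B.Two (b i)) →
      (∀ i, B.SSub (b i) (b (i + 1))) → B.FVP Q (b 0) (b k)ᶜ) {ε : ℝ} (hε : 0 < ε) :
    {f : G → ℝ | ∃ A ∈ Φ.𝓛, B.Sees ε A 1 ∧ f = B.h A}.Finite := by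
  have hS := hH.cay
  by_contra hinf
  choose A hA hs hf using fun n => (Set.Infinite.natEmbedding _ hinf n).2
  obtain ⟨φ, hφ, h⟩ := exists_mono_subseq (fun k => (Φ.good _ (hA k)).1)
    (fun i j _ => Φ.nested _ (hA i) _ (hA j)) hε hs
  have hne : ∀ i, B.Sub (A (φ i)) (A (φ (i + 1))) → B.Sub (A (φ (i + 1))) (A (φ i)) → False :=
    fun i h1 h2 => (hφ i.lt_succ_self).ne ((Set.Infinite.natEmbedding _ hinf).injective
      (Subtype.ext ((hf _).trans ((B.h_congr hS h1 h2).trans (hf _).symm))))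
  rcases h with h | h
  · exact facc_key hH Φ k hk hε (fun i => A (φ i)) (fun i => hA _) (fun i => hs _) fun i =>
      ⟨h _ _ i.lt_succ_self, hne i (h _ _ i.lt_succ_self)⟩
  · exact facc_key hH Φ k hk hε (fun i => (A (φ i))ᶜ) (fun i => Φ.compl _ (hA _))
      (fun i => (hs _).compl) fun i => ⟨(h _ _ i.lt_succ_self).compl,
        fun h' => hne i (fca_compl h') (h _ _ i.lt_succ_self)⟩

end Bdry

end Vale.Agent.P239
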