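import Vale.Agent.P239.Full.FCap
import Vale.Agent.P239.Atom2

/-! Task FAtom: copy Atom.lean and Atom2.lean with `IsK, SplitK, IrrK` instead of `IsD, Split, Irr`, `isK_of_mono` instead of `isD_of_mono`, and the hypothesis `SB` instead of `split_bound`
(`energy_le_nrm` for the use of `var_count` in `exists_atomK`).
-/

noncomputable section

open Classical MeasureTheory Filter Topology Set
open scoped Pointwise ENNReal

namespace Vale.Agent.P239

universe u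
variable {G : Type u} [Group G] {S : Finset G} {l : ℕ} {Q : Cones S} {B : Bdry S}

namespace Bdry

theorem fatom_pos {f : Bd G → ℝ} (hf : B.IsK Q f) (t : ℝ) : B.IsK Q fun ξ => max (f ξ - t) 0 :=
  (hf.sub (isK_const t)).max (isK_const 0)

theorem fatom_eq {ψ φ : Bd G → ℝ} (h : B.IsK Q ψ) (he : ∀ ξ, φ ξ = ψ ξ) : B.IsK Q φ := by
  have : φ = ψ := funext he
  rw [this]; exact h

theorem fatom_acc {f : Bd G → ℝ} {E : ℕ → Set (Bd G)} (h : ∀ n, B.SplitK Q f (E n))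
    (hu : ∀ A A' : Set (Bd G), B.SplitK Q f A → B.SplitK Q f A' → B.SplitK Q f (A ∪ A')) (n : ℕ) :
    B.SplitK Q f (Set.accumulate E n) := by
  induction n with
  | zero => rw [Set.accumulate_zero_nat]; exact h 0
  | succ n ih => rw [Set.accumulate_succ]; exact hu _ _ ih (h (n + 1))

theorem splitK_univ {f : Bd G → ℝ} (hf : B.IsK01 Q f) : B.SplitK Q f univ := by
  exact ⟨MeasurableSet.univ, fun t _ => fatom_eq (fatom_pos hf.1 t) fun ξ => by simp⟩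

theorem splitK_pos {f : Bd G → ℝ} (hf : B.IsK01 Q f) : B.SplitK Q f {ξ | 0 < f ξ} := by
  refine ⟨measurableSet_lt measurable_const hf.1.1, fun t ht => fatom_eq (fatom_pos hf.1 t) fun ξ => ?_⟩
  by_cases h : 0 < f ξ
  · exact Set.indicator_of_mem (s := {ξ | 0 < f ξ}) h _
  · rw [Set.indicator_of_notMem (s := {ξ | 0 < f ξ}) h, max_eq_right]
    push Not at h; linarith

theorem SplitK.compl {f : Bd G → ℝ} (hf : B.IsK01 Q f) {E : Set (Bd G)} (h : B.SplitK Q f E) :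
    B.SplitK Q f Eᶜ := by
  refine ⟨h.1.compl, fun t ht => fatom_eq ((fatom_pos hf.1 t).sub (h.2 t ht)) fun ξ => ?_⟩
  by_cases hξ : ξ ∈ E <;> simp [hξ]

theorem SplitK.inter {f : Bd G → ℝ} {E E' : Set (Bd G)} (h : B.SplitK Q f E)
    (h' : B.SplitK Q f E') : B.SplitK Q f (E ∩ E') := by
  refine ⟨h.1.inter h'.1, fun t ht => fatom_eq ((h.2 t ht).min (h'.2 t ht)) fun ξ => ?_⟩
  by_cases hξ : ξ ∈ E <;> by_cases hξ' : ξ ∈ E' <;> simp [hξ, hξ']

theorem SplitK.union {f : Bd G → ℝ} {E E' : Set (Bd G)} (h : B.SplitK Q f E)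
    (h' : B.SplitK Q f E') : B.SplitK Q f (E ∪ E') := by
  refine ⟨h.1.union h'.1, fun t ht => fatom_eq ((h.2 t ht).max (h'.2 t ht)) fun ξ => ?_⟩
  by_cases hξ : ξ ∈ E <;> by_cases hξ' : ξ ∈ E' <;> simp [hξ, hξ']

theorem splitK_iUnion (hH : RH S l Q) (hb : B.SB Q) {f : Bd G → ℝ} (hf : B.IsK01 Q f)
    {E : ℕ → Set (Bd G)} (h : ∀ n, B.SplitK Q f (E n)) : B.SplitK Q f (⋃ n, E n) := by
  have hm : MeasurableSet (⋃ n, E n) := MeasurableSet.iUnion fun n => (h n).1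
  refine ⟨hm, fun t ht => ?_⟩
  obtain ⟨K, hK⟩ := hb f hf t ht
  have hU := fatom_acc h (fun _ _ h1 h2 => h1.union h2)
  have hp := fatom_pos hf.1 t
  refine isK_of_mono hH.cay hH.gap (K := K)
    (ψ := fun n => (Set.accumulate E n).indicator fun ξ => max (f ξ - t) 0)
    (fun n => (hU n).2 t ht) (fun n => hK _ (hU n)) (hp.1.indicator hm) ?_
    (Eventually.of_forall fun ξ => ⟨?_, ?_⟩)
  · obtain ⟨C, hC⟩ := hp.2.1
    refine ⟨C, fun ξ => ?_⟩
    by_cases hξ : ξ ∈ ⋃ n, E n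
    · rw [Set.indicator_of_mem hξ]; exact hC ξ
    · rw [Set.indicator_of_notMem hξ, abs_zero]; exact (abs_nonneg _).trans (hC ξ)
  · intro m n hmn
    exact Set.indicator_le_indicator_of_subset (Set.monotone_accumulate hmn)
      (fun _ => le_max_right _ _) ξ
  · by_cases hξ : ξ ∈ ⋃ n, E n
    · obtain ⟨N, hN⟩ := Set.mem_iUnion.1 hξ
      rw [Set.indicator_of_mem hξ]
      refine tendsto_const_nhds.congr' ?_
      filter_upwards [eventually_ge_atTop N] with n hn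
      rw [Set.indicator_of_mem (Set.mem_accumulate.2 ⟨N, hn, hN⟩)]
    · rw [Set.indicator_of_notMem hξ]
      refine tendsto_const_nhds.congr fun n => ?_
      rw [Set.indicator_of_notMem]
      intro hn
      obtain ⟨N, _, hN⟩ := Set.mem_accumulate.1 hn
      exact hξ (Set.mem_iUnion.2 ⟨N, hN⟩)

theorem splitK_iInter (hH : RH S l Q) (hb : B.SB Q) {f : Bd G → ℝ} (hf : B.IsK01 Q f)
    {E : ℕ → Set (Bd G)} (h : ∀ n, B.SplitK Q f (E n)) : B.SplitK Q f (⋂ n, E n) := by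
  have h1 := (splitK_iUnion hH hb hf fun n => (h n).compl hf).compl hf
  rw [Set.compl_iUnion] at h1
  simpa only [compl_compl] using h1

theorem SplitK.irr_sub {f : Bd G → ℝ} {E R : Set (Bd G)} (hE : B.SplitK Q f E) (hR : B.IrrK Q R)
    {a : ℝ} (ha : 0 < a) (hfa : ∀ᵐ ξ ∂B.μ 1, ξ ∈ R → a ≤ f ξ) : B.Sub R E ∨ B.Sub R Eᶜ := by
  have hθ := (isK_const (B := B) (Q := Q) 1).min ((hE.2 (a / 2) (half_pos ha)).const_mul (2 / a))
  have h1 : ∀ ξ, ξ ∉ E → min 1 (2 / a * E.indicator (fun ξ => max (f ξ - a / 2) 0) ξ) = 0 := by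
    intro ξ hξ
    rw [Set.indicator_of_notMem hξ]; simp
  have h2 : ∀ ξ, ξ ∈ E → a ≤ f ξ →
      min 1 (2 / a * E.indicator (fun ξ => max (f ξ - a / 2) 0) ξ) = 1 := by
    intro ξ hξ hle
    rw [Set.indicator_of_mem hξ]
    refine min_eq_left ?_
    have e1 : a / 2 ≤ max (f ξ - a / 2) 0 := le_max_of_le_left (by linarith)
    have e2 : 2 / a * (a / 2) = 1 := by field_simp
    calc (1 : ℝ) = 2 / a * (a / 2) := e2.symm
      _ ≤ _ := mul_le_mul_of_nonneg_left e1 (by positivity)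
  rcases hR _ hθ (hfa.mono fun ξ hξ hr => by
    by_cases hξE : ξ ∈ E
    · exact Or.inr (h2 ξ hξE (hξ hr))
    · exact Or.inl (h1 ξ hξE)) with h | h
  · refine Or.inr ((B.sub_iff _ _).2 ?_)
    filter_upwards [h, hfa] with ξ h0 hle hr hξE
    have := (h0 hr).symm.trans (h2 ξ hξE (hle hr))
    norm_num at this
  · refine Or.inl ((B.sub_iff _ _).2 ?_)
    filter_upwards [h] with ξ h0 hr
    by_contra hξE
    have := (h0 hr).symm.trans (h1 ξ hξE)
    norm_num at this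

theorem irrK_of_atom {f : Bd G → ℝ} {M : Set (Bd G)} (hM : B.SplitK Q f M)
    (hat : ∀ E, B.SplitK Q f E → E ⊆ M → B.Null E ∨ B.Null (M \ E)) : B.IrrK Q M := by
  intro θ hθ h01
  have hT : MeasurableSet {ξ | θ ξ = 1} := measurableSet_eq_fun hθ.1 measurable_const
  have hE : B.SplitK Q f (M ∩ {ξ | θ ξ = 1}) := by
    refine ⟨hM.1.inter hT, fun t ht => ?_⟩
    have hI := hM.2 t ht
    have e : (M ∩ {ξ | θ ξ = 1}).indicator (fun ξ => max (f ξ - t) 0) =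
        {ξ | θ ξ = 1}.indicator (M.indicator fun ξ => max (f ξ - t) 0) := by
      rw [Set.indicator_indicator, Set.inter_comm]
    rw [e]
    refine (hθ.mul hI).congr (hI.1.indicator hT) ?_ ?_
    · obtain ⟨C, hC⟩ := hI.2.1
      refine ⟨C, fun ξ => ?_⟩
      by_cases hξ : ξ ∈ {ξ | θ ξ = 1}
      · rw [Set.indicator_of_mem hξ]; exact hC ξ
      · rw [Set.indicator_of_notMem hξ, abs_zero]; exact (abs_nonneg _).trans (hC ξ)
    · filter_upwards [h01] with ξ hξ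
      by_cases h1 : ξ ∈ {ξ | θ ξ = 1}
      · rw [Set.indicator_of_mem h1]
        have h1' : θ ξ = 1 := h1
        rw [h1', one_mul]
      · rw [Set.indicator_of_notMem h1]
        by_cases hm : ξ ∈ M
        · rcases hξ hm with h0 | h0
          · rw [h0, zero_mul]
          · exact absurd h0 h1
        · rw [Set.indicator_of_notMem hm, mul_zero]
  rcases hat _ hE Set.inter_subset_left with h | h
  · refine Or.inl ?_
    filter_upwards [(B.null_iff_ae _).1 h, h01] with ξ h0 h1 hm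
    rcases h1 hm with h2 | h2
    · exact h2
    · exact absurd ⟨hm, h2⟩ h0
  · refine Or.inr ?_
    filter_upwards [(B.null_iff_ae _).1 h] with ξ h0 hm
    by_contra h2
    exact h0 ⟨hm, fun h3 => h2 h3.2⟩

theorem exists_mainK (hH : RH S l Q) (hb : B.SB Q) {f : Bd G → ℝ} (hf : B.IsK01 Q f)
    {R : Set (Bd G)} (hR : B.IrrK Q R) {a : ℝ} (ha : 0 < a)
    (hfa : ∀ᵐ ξ ∂B.μ 1, ξ ∈ R → a ≤ f ξ) :
    ∃ M, B.SplitK Q f M ∧ B.Sub R M ∧ (∀ ξ ∈ M, 0 < f ξ) ∧ B.IrrK Q M := by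
  let T : Set ENNReal := {x | ∃ E, B.SplitK Q f E ∧ B.Sub R E ∧ B.μ 1 E = x}
  have hT : T.Nonempty := ⟨_, univ, splitK_univ hf, Sub.of_subset (subset_univ _), rfl⟩
  obtain ⟨u, -, hu, huT⟩ := exists_seq_tendsto_sInf hT (OrderBot.bddBelow T)
  choose E hE hQE hEu using huT
  have hM : B.SplitK Q f ((⋂ n, E n) ∩ {ξ | 0 < f ξ}) :=
    (splitK_iInter hH hb hf hE).inter (splitK_pos hf)
  have hQM : B.Sub R ((⋂ n, E n) ∩ {ξ | 0 < f ξ}) := by
    refine (B.sub_iff _ _).2 ?_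
    have h1 : ∀ᵐ ξ ∂B.μ 1, ∀ n, ξ ∈ R → ξ ∈ E n :=
      ae_all_iff.2 fun n => (B.sub_iff _ _).1 (hQE n)
    filter_upwards [h1, hfa] with ξ h1 h2 hq
    exact ⟨Set.mem_iInter.2 fun n => h1 n hq, ha.trans_le (h2 hq)⟩
  have hpos : ∀ ξ ∈ (⋂ n, E n) ∩ {ξ | 0 < f ξ}, 0 < f ξ := fun ξ hξ => hξ.2
  have hmin : ∀ E', B.SplitK Q f E' → B.Sub R E' →
      B.μ 1 ((⋂ n, E n) ∩ {ξ | 0 < f ξ}) ≤ B.μ 1 E' := by
    intro E' h1 h2
    refine le_trans (ge_of_tendsto' hu fun n => ?_) (sInf_le (s := T) ⟨E', h1, h2, rfl⟩)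
    rw [← hEu n]
    exact measure_mono (Set.inter_subset_left.trans (Set.iInter_subset _ n))
  generalize (⋂ n, E n) ∩ {ξ | 0 < f ξ} = M at hM hQM hpos hmin
  refine ⟨M, hM, hQM, hpos, irrK_of_atom hM fun E' hE' hsub => ?_⟩
  have hadd := measure_inter_add_sdiff (μ := B.μ 1) M hE'.1
  rw [Set.inter_eq_self_of_subset_right hsub] at hadd
  rcases hE'.irr_sub hR ha hfa with h | h
  · refine Or.inr ?_
    have h1 := hmin E' hE' h
    rw [← hadd] at h1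
    have h2 : B.μ 1 E' + B.μ 1 (M \ E') ≤ B.μ 1 E' + 0 := by rwa [add_zero]
    exact le_antisymm ((ENNReal.add_le_add_iff_left (measure_ne_top _ _)).1 h2) bot_le
  · refine Or.inl ?_
    have h0 : B.Sub R (M ∩ E'ᶜ) := by
      refine (B.sub_iff _ _).2 ?_
      filter_upwards [(B.sub_iff _ _).1 hQM, (B.sub_iff _ _).1 h] with ξ h1 h2 hq
      exact ⟨h1 hq, h2 hq⟩
    have h1 := hmin _ (hM.inter (hE'.compl hf)) h0
    rw [← hadd, ← Set.sdiff_eq] at h1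
    have h2 : B.μ 1 E' + B.μ 1 (M \ E') ≤ 0 + B.μ 1 (M \ E') := by rwa [zero_add]
    exact le_antisymm ((ENNReal.add_le_add_iff_right (measure_ne_top _ _)).1 h2) bot_le

theorem fatom_fin {f : Bd G → ℝ} (hf : B.IsK01 Q f)
    (t : Finset (Set (Bd G))) (ht : ∀ E ∈ t, B.SplitK Q f E) : B.SplitK Q f (⋃ E ∈ t, E) := by
  induction t using Finset.induction_on with
  | empty =>
    have h := (splitK_univ hf).compl hf
    simpa using h
  | insert a t _ ih =>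
    rw [Finset.set_biUnion_insert]
    exact (ht a (Finset.mem_insert_self _ _)).union
      (ih fun E hE => ht E (Finset.mem_insert_of_mem hE))

theorem fatom_sum {P t : Finset (Set (Bd G))} (htP : t ⊆ P)
    (hm : ∀ E ∈ P, MeasurableSet E) (hd : (P : Set (Set (Bd G))).PairwiseDisjoint id)
    {Y : Set (Bd G)} (hY : MeasurableSet Y) (x : G) :
    ∑ E ∈ t, B.h (E ∩ Y) x = B.h ((⋃ E ∈ t, E) ∩ Y) x := by
  rw [iUnion₂_inter]
  refine (measureReal_biUnion_finset (μ := B.μ x) (f := fun E => E ∩ Y) ?_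
    (fun E hE => (hm E (htP hE)).inter hY) (fun E _ => measure_ne_top _ _)).symm
  intro E hE E' hE' hne
  exact (hd (htP hE) (htP hE') hne).mono inter_subset_left inter_subset_left

theorem exists_atomK (hH : RH S l Q) (hb : B.SB Q) {f : Bd G → ℝ} (hf : B.IsK01 Q f)
    (hpos : ¬ B.Null {ξ | 0 < f ξ}) :
    ∃ M, B.SplitK Q f M ∧ ¬ B.Null M ∧ (∀ ξ ∈ M, 0 < f ξ) ∧ B.IrrK Q M := by
  have hS := hH.cay
  have hg := hH.gap
  by_contra hno
  have hna : ∀ E ∈ {E | B.SplitK Q f E}, E ⊆ {ξ | 0 < f ξ} → B.μ 1 E ≠ 0 →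
      ∃ E' ∈ {E | B.SplitK Q f E}, E' ⊆ E ∧ B.μ 1 E' ≠ 0 ∧ B.μ 1 (E \ E') ≠ 0 := by
    intro E hE hEX hE0
    by_contra h
    refine hno ⟨E, hE, hE0, hEX, irrK_of_atom hE fun E' hE' hsub => ?_⟩
    by_contra h'
    rw [not_or] at h'
    exact h ⟨E', hE', hsub, h'.1, h'.2⟩
  obtain ⟨δ, hδ, hY0⟩ : ∃ δ : ℝ, 0 < δ ∧ ¬ B.Null {ξ | 2 * δ < f ξ} := by
    by_contra h
    apply hpos
    have h1 : ∀ n : ℕ, B.μ 1 {ξ | 2 * (1 / ((n : ℝ) + 1)) < f ξ} = 0 := fun n => by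
      by_contra h2
      exact h ⟨1 / ((n : ℝ) + 1), by positivity, h2⟩
    refine measure_mono_null (fun ξ hξ => ?_) (measure_iUnion_null h1)
    have h2 : 0 < f ξ / 2 := half_pos hξ
    obtain ⟨n, hn⟩ := exists_nat_one_div_lt h2
    exact mem_iUnion.2 ⟨n, show 2 * (1 / ((n : ℝ) + 1)) < f ξ by linarith⟩
  obtain ⟨Y, hY⟩ : ∃ Y : Set (Bd G), Y = {ξ | 2 * δ < f ξ} := ⟨_, rfl⟩
  have hYg : B.Good Y := by
    rw [hY]
    exact good_gt hS hg hf.1.isD _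
  rw [← hY] at hY0
  have hYX : Y ⊆ {ξ | 0 < f ξ} := by
    intro ξ hξ
    rw [hY] at hξ
    have h1 : 2 * δ < f ξ := hξ
    change 0 < f ξ
    linarith
  obtain ⟨K, hK⟩ := hb f hf δ hδ
  obtain ⟨C, hC0, hC⟩ := B.var_count hS hg
  have hq : 0 < (1 / 8 * δ ^ 2) ^ 2 := by positivity
  obtain ⟨m, hm⟩ := exists_nat_gt (max (C * K / (1 / 8 * δ ^ 2) ^ 2) 0)
  have hm0 : (0 : ℝ) < m := (le_max_right _ _).trans_lt hm
  have hm1 : C * K < m * (1 / 8 * δ ^ 2) ^ 2 := (div_lt_iff₀ hq).1 ((le_max_left _ _).trans_lt hm)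
  obtain ⟨T, hT, hTm⟩ :=
    (hYg.infinite_deep hS hY0 (θ := 1 / 2) (by norm_num)).exists_subset_card_eq m
  obtain ⟨r, hr⟩ := hS.finite_subset_ball T.finite_toSet
  have hc : (0 : ℝ) < (S.card : ℝ) ^ r := pow_pos (by exact_mod_cast hS.card_pos) r
  have hη : 0 < 1 / (16 * (m : ℝ)) / (S.card : ℝ) ^ r := by positivity
  obtain ⟨P, hP, hPd, hPX⟩ := exists_fine_partition (B.μ 1) {E | B.SplitK Q f E} (fun E hE => hE.1)
    (fun E hE => SplitK.compl hf hE) (fun E hE E' hE' => SplitK.inter hE hE')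
    (fun E hE => splitK_iUnion hH hb hf hE) (splitK_pos hf) hna
    (η := ENNReal.ofReal (1 / (16 * (m : ℝ)) / (S.card : ℝ) ^ r))
    (ENNReal.ofReal_pos.2 hη).ne'
  have hPm : ∀ E ∈ P, MeasurableSet E := fun E hE => (hP E hE).1.1
  have hsmall : ∀ E ∈ P, ∀ x ∈ T, B.h (E ∩ Y) x ≤ 1 / (16 * (m : ℝ)) := by
    intro E hE x hx
    have h1 := B.h_harnack hS 1 (hr x hx) (E ∩ Y)
    rw [one_mul] at h1
    have h2 : B.h (E ∩ Y) 1 ≤ 1 / (16 * (m : ℝ)) / (S.card : ℝ) ^ r :=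
      ENNReal.toReal_le_of_le_ofReal hη.le ((measure_mono inter_subset_left).trans (hP E hE).2)
    have h3 := h1.trans (mul_le_mul_of_nonneg_left h2 hc.le)
    rwa [mul_div_cancel₀ _ hc.ne'] at h3
  have htot : ∀ x, ∑ E ∈ P, B.h (E ∩ Y) x = B.h Y x := by
    intro x
    rw [fatom_sum Finset.Subset.rfl hPm hPd hYg.1 x]
    have h1 : (⋃ E ∈ P, E) = {ξ | 0 < f ξ} := by
      rw [← hPX, sUnion_eq_biUnion]
      rfl
    rw [h1, inter_eq_right.2 hYX]
  obtain ⟨t, htP, ht⟩ := exists_signs (κ := T) P fun E x => B.h (E ∩ Y) x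
  have hbound : ∑ E ∈ P, ∑ x : T, B.h (E ∩ Y) x ^ 2 ≤ 1 / 16 := by
    rw [Finset.sum_comm]
    have h1 : ∀ x : T, ∑ E ∈ P, B.h (E ∩ Y) x ^ 2 ≤ 1 / (16 * (m : ℝ)) := by
      intro x
      calc ∑ E ∈ P, B.h (E ∩ Y) x ^ 2 ≤ ∑ E ∈ P, 1 / (16 * (m : ℝ)) * B.h (E ∩ Y) x := by
            refine Finset.sum_le_sum fun E hE => ?_
            rw [sq]
            exact mul_le_mul_of_nonneg_right (hsmall E hE x x.2) (B.h_nonneg _ _)
        _ = 1 / (16 * (m : ℝ)) * B.h Y x := by rw [← Finset.mul_sum, htot]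
        _ ≤ 1 / (16 * (m : ℝ)) * 1 := mul_le_mul_of_nonneg_left (B.h_le_one _ _) (by positivity)
        _ = _ := mul_one _
    calc ∑ x : T, ∑ E ∈ P, B.h (E ∩ Y) x ^ 2 ≤ ∑ _x : T, 1 / (16 * (m : ℝ)) :=
          Finset.sum_le_sum fun x _ => h1 x
      _ = 1 / 16 := by
          rw [Finset.sum_const, Finset.card_univ, Fintype.card_coe, hTm, nsmul_eq_mul]
          field_simp
  have hE0 : B.SplitK Q f (⋃ E ∈ t, E) := fatom_fin hf t fun E hE => (hP E (htP hE)).1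
  obtain ⟨E0, hE0def⟩ : ∃ E0 : Set (Bd G), E0 = ⋃ E ∈ t, E := ⟨_, rfl⟩
  have hpt : ∀ x ∈ T, 1 / 8 ≤ B.h E0ᶜ x ∧ 1 / 8 ≤ B.h (E0 ∩ Y) x := by
    intro x hx
    have h1 := (Finset.single_le_sum (f := fun j : T =>
      (∑ E ∈ t, B.h (E ∩ Y) j - ∑ E ∈ P \ t, B.h (E ∩ Y) j) ^ 2) (fun _ _ => sq_nonneg _)
      (Finset.mem_univ ⟨x, hx⟩)).trans (ht.trans hbound)
    have h2 := Finset.sum_sdiff (f := fun E => B.h (E ∩ Y) x) htP
    have h3 := fatom_sum (B := B) htP hPm hPd hYg.1 x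
    rw [← hE0def] at h3
    rw [htot, h3] at h2
    simp only [h3] at h1
    have h4 : 1 / 2 < B.h Y x := hT hx
    have h5 : B.h (Y ∩ E0) x + B.h (Y \ E0) x = B.h Y x :=
      measureReal_inter_add_sdiff (by rw [hE0def]; exact hE0.1) (measure_ne_top _ _)
    have h6 : B.h (Y \ E0) x ≤ B.h E0ᶜ x :=
      measureReal_mono (fun ξ hξ => hξ.2) (measure_ne_top _ _)
    rw [inter_comm] at h5
    have h7 := abs_le.1 (abs_le_of_sq_le_sq (b := 1 / 4) (h1.trans (by norm_num)) (by norm_num))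
    constructor <;> linarith [h7.1, h7.2]
  rw [← hE0def] at hE0
  have hψ : B.IsK01 Q (E0.indicator fun ξ => max (f ξ - δ) 0) := by
    refine ⟨hE0.2 δ hδ, fun ξ => ?_⟩
    by_cases hξ : ξ ∈ E0
    · rw [indicator_of_mem hξ]
      exact ⟨le_max_right _ _, max_le (by linarith [(hf.2 ξ).2]) zero_le_one⟩
    · rw [indicator_of_notMem hξ]
      exact ⟨le_rfl, zero_le_one⟩
  obtain ⟨hfin, hcard⟩ := hC _ hψ.isD01 E0ᶜ (E0 ∩ Y) 0 δ (1 / 8) hδ (by norm_num)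
    (Eventually.of_forall fun ξ hξ => (indicator_of_notMem hξ _).le)
    (Eventually.of_forall fun ξ hξ => by
      rw [indicator_of_mem hξ.1, zero_add]
      have h1 := hξ.2
      rw [hY] at h1
      have h2 : 2 * δ < f ξ := h1
      exact le_max_of_le_left (by linarith))
  have h1 : (m : ℝ) ≤ ({x | 1 / 8 ≤ B.h E0ᶜ x ∧ 1 / 8 ≤ B.h (E0 ∩ Y) x}.ncard : ℝ) := by
    have h2 := Set.ncard_le_ncard (s := (T : Set G)) (fun x hx => hpt x hx) hfin
    rw [Set.ncard_coe_finset, hTm] at h2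
    exact_mod_cast h2
  have h2 := mul_le_mul_of_nonneg_right h1 hq.le
  obtain ⟨φ, -, hφ⟩ := hK E0 hE0
  have h3 := mul_le_mul_of_nonneg_left ((Cones.energy_le_nrm _ φ).trans hφ) hC0
  linarith

end Bdry

end Vale.Agent.P239
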