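import Vale.Agent.P239.Full.FTrB

/-! Task FAx23a: the lift is locally exact. `bl y (l+1)` meets at most one core (`sep`). If none: the potential is `P ∘ π` with `P` a local potential of `c` at `π y` (`edge`: `π x ∈ π y * S'`). If it meets `K = γ • K i`: the potential is `0` on `K` and `D K ∘ π` outside;
points of `X ∩ bl y l` are within `2l+1` of `wallV K` (`exists_wall_path` for `Kᶜ`), so `π x ∈ cn 1 ⊆ cn l'` (`cone`). `exists_pot`: choose for each core one pair `(i, γ)`; by `uniq` and `mem_cone_iff` the cone does not depend on the choice.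
-/

noncomputable section

open Classical MeasureTheory Filter Topology Set
open scoped Pointwise ENNReal

namespace Vale.Agent.P239

universe u
variable {G : Type u} [Group G] {S : Finset G} {l L : ℕ} {B : Bdry S} {Z : Cores B L}
  (Y : Tr Z)

namespace Tr

theorem exists_pot {l' : ℕ} {c : Z.Γ → Z.Γ → ℤ} {F : Set Z.Γ}
    (h : ∀ i γ, ExOn Y.S' c (Y.Q.cn l' i γ \ F)) : ∃ D, Y.Pot l' c D F := by
  have key : ∀ K' : Set G, ∃ D : Z.Γ → ℤ, ∀ i (γ : Z.Γ), (γ : G) • Y.K i = K' →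
      ∀ y ∈ Y.Q.cn l' i γ \ F, ∀ s ∈ Y.S', c y s = D (y * s) - D y := fun K' => by
    by_cases hK : ∃ (j : Fin Y.Q.n) (σ : Z.Γ), (σ : G) • Y.K j = K'
    · obtain ⟨j, σ, rfl⟩ := hK
      obtain ⟨D, hD⟩ := h j σ
      refine ⟨D, fun i γ e y hy => hD y ?_⟩
      obtain rfl := Y.uniq i j γ σ e
      exact ⟨nbh_mono le_rfl (fun τ hτ => (Y.mem_cone_iff i σ τ).2
        (((Y.mem_cone_iff i γ τ).1 hτ).trans e)) hy.1, hy.2⟩
    · exact ⟨0, fun i γ e => absurd ⟨i, γ, e⟩ hK⟩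
  choose D hD using key
  exact ⟨D, fun i γ => hD _ i γ rfl⟩

theorem lift_locExact (hS : Cay S) (hL : 2 * l + 2 ≤ L) {l' : ℕ} (hl : 1 ≤ l')
    {c : Z.Γ → Z.Γ → ℤ} {D : Set G → Z.Γ → ℤ} {F : Set Z.Γ} (hD : Y.Pot l' c D F)
    (hc : ∀ y, y ∉ F → LocExact Y.S' l' c y) {y : G} (hy : ∀ x ∈ bl S y l, x ∈ Z.X → Y.π x ∉ F) :
    LocExact S l (Y.lift c D) y := by
  have hed : ∀ x ∈ Z.X, ∀ s ∈ S, x * s ∈ Z.X → (Y.π x)⁻¹ * Y.π (x * s) ∈ Y.S' :=
    fun x hx s hs hxs => Y.edge x (subset_nbh 1 _ hx) _ (subset_nbh 1 _ hxs)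
      (bl_mono x (by omega) (mul_mem_bl (mem_bl_self x 0) hs))
  rw [locExact_iff]
  by_cases hK : ∃ K ∈ Z.𝒦, ∃ z ∈ bl S y (l + 1), z ∈ K
  · obtain ⟨K, hK, z, hz, hzK⟩ := hK
    have hcore : ∀ x ∈ bl S y (l + 1), x ∉ Z.X → Z.core x = K := fun x hx h => by
      obtain ⟨K', h1⟩ := not_forall.1 h
      obtain ⟨h2, h3⟩ := Classical.not_imp.1 h1
      rw [Z.core_eq h2 (not_not.1 h3)]
      exact (Z.sep K hK K' h2 z hzK x (not_not.1 h3)
        (bl_mono z (by omega) (mem_bl_trans (mem_bl_symm hS hz) hx))).symm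
    obtain ⟨i, γ, rfl⟩ := Y.orbit K hK
    refine ⟨fun x => if x ∈ Z.X then D ((γ : G) • Y.K i) (Y.π x) else 0, fun x hx s hs => ?_⟩
    unfold lift
    beta_reduce
    split_ifs with h1 h2 h2
    · obtain ⟨w, a1, t, a2, a3, a4, -⟩ := exists_wall_path hS (U := ((γ : G) • Y.K i)ᶜ)
        (h1 _ hK) (not_not.2 hzK) (mem_bl_trans (mem_bl_symm hS hx) hz)
      have a5 := Y.cone i γ x (subset_nbh 1 _ h1) ⟨w, ⟨t, a2, fun e => a1 (e.2 (not_not.1 a3))⟩,
        bl_mono w (by omega) (mem_bl_symm hS a4)⟩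
      rw [hD i γ _ ⟨nbh_mono hl le_rfl a5, hy x hx h1⟩ _ (hed x h1 s hs h2), mul_inv_cancel_left]
    · rw [hcore _ (mul_mem_bl hx hs) h2, zero_sub]
    · rw [hcore _ (bl_mono y l.le_succ hx) h1, sub_zero]
    · rfl
  · have hX : ∀ x ∈ bl S y (l + 1), x ∈ Z.X := fun x hx K h1 h2 => hK ⟨K, h1, x, hx, h2⟩
    have hyX := hX y (mem_bl_self y _)
    obtain ⟨P, hP⟩ := (locExact_iff _ _).1 (hc _ (hy y (mem_bl_self y _) hyX))
    refine ⟨fun x => P (Y.π x), fun x hx s hs => ?_⟩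
    have h1 := hX x (bl_mono y l.le_succ hx)
    have h2 := hX _ (mul_mem_bl hx hs)
    rw [lift, if_pos h1, if_pos h2, hP _ (ball_mono hl (mem_ball_one (Y.edge y
      (subset_nbh 1 _ hyX) x (subset_nbh 1 _ h1) (bl_mono y (by omega) hx)))) _
      (hed x h1 s hs h2), mul_inv_cancel_left]

end Tr

end Vale.Agent.P239
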