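import Vale.Agent.P239.Full.FTrB

/-! Task FAx23b: from a potential of the lift to a potential on `Γ`. `R` with `x0⁻¹ s x0 ∈ ball S R` for `s ∈ S'`. Let `P` be a local potential of `c` at `γ`, `κ = w (γ x0) - P γ`. Choose `m` such that for `z ∈ nbh 1 X ∩ bl (γ x0) (R+1)`
`π z ∈ bl γ m` (`near`, `scale`), and for two outer wall vertices `z, z'` of a core in this ball, `π z = σ a`, `π z' = σ' a'` (`a, a' ∈ ball S' 1`, `σ, σ'` in the cone), `σ` and `σ'` are joined by a `T i`-path inside `bl γ m` (`scale'`, `scaleT`, `scale`),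
so `D K - P` has the same value at `π z` and `π z'`. By induction on the radius (`mem_ball_succ`) every `x ∈ bl (γ x0) R` satisfies: if `x ∈ X` then `w x - P (π x) = κ`; if `x ∈ K` then `w x + D K (π z) - P (π z) = κ` for all outer wall vertices `z` of `K` in `bl (γ x0) (R+1)`.
-/

noncomputable section

open Classical MeasureTheory Filter Topology Set
open scoped Pointwise ENNReal

namespace Vale.Agent.P239

universe u
variable {G : Type u} [Group G] {S : Finset G} {l L : ℕ} {B : Bdry S} {Z : Cores B L}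
  (Y : Tr Z)

theorem ax23b_ball_sub {H : Type*} [Group H] {T T' : Finset H} (h : T ⊆ T') {r : ℕ} {a : H}
    (ha : a ∈ ball T r) : a ∈ ball T' r := by
  induction r generalizing a with
  | zero => exact mem_ball_zero.2 (mem_ball_zero.1 ha)
  | succ r ih =>
    rcases mem_ball_succ.1 ha with h1 | ⟨b, hb, s, hs, rfl⟩
    · exact mem_ball_succ.2 (Or.inl (ih h1))
    · exact mem_ball_succ.2 (Or.inr ⟨b, ih hb, s, h hs, rfl⟩)

theorem ax23b_ball_cl {H : Type*} [Group H] {T : Finset H} {r : ℕ} {a : H}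
    (ha : a ∈ ball T r) : a ∈ Subgroup.closure (T : Set H) := by
  induction r generalizing a with
  | zero => rw [mem_ball_zero.1 ha]; exact one_mem _
  | succ r ih =>
    rcases mem_ball_succ.1 ha with h1 | ⟨b, hb, s, hs, rfl⟩
    · exact ih h1
    · exact mul_mem (ih hb) (Subgroup.subset_closure hs)

/-- Points near the complement of the cores and near `γ x0` are sent near `γ`. -/
theorem Tr.ax23b_near (hS : Cay S) (R : ℕ) : ∃ m, ∀ (γ : Z.Γ), ∀ z ∈ nbh S 1 Z.X,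
    z ∈ bl S ((γ : G) * Y.x0) R → Y.π z ∈ bl Y.S' γ m := by
  obtain ⟨Rn, hn⟩ := Y.near
  obtain ⟨r0, h0⟩ := hS.exists_ball Y.x0
  obtain ⟨m, hm⟩ := Y.scale (r0 + R + Rn)
  refine ⟨m, fun γ z hz hz' => hm _ ?_⟩
  have h1 : (γ : G) * Y.x0 ∈ bl S (γ : G) r0 := by
    change (γ : G)⁻¹ * ((γ : G) * Y.x0) ∈ ball S r0
    rwa [inv_mul_cancel_left]
  exact mem_bl_trans (mem_bl_trans h1 hz') (mem_bl_symm hS (hn z hz))

/-- A function that is locally constant on the part of a cone near `γ` takes the same value at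
all points near the cone that are close to `γ`. -/
theorem Tr.ax23b_cone (hS : Cay S) (m₁ : ℕ) : ∃ m, ∀ (γ δ : Z.Γ) (i : Fin Y.Q.n)
    (E : Z.Γ → ℤ), (∀ y ∈ Y.Q.cone i δ, y ∈ bl Y.S' γ m → ∀ s ∈ Y.S', E (y * s) = E y) →
    ∀ a ∈ Y.Q.cn 1 i δ, a ∈ bl Y.S' γ m₁ → ∀ a' ∈ Y.Q.cn 1 i δ, a' ∈ bl Y.S' γ m₁ →
      E a = E a' := by
  obtain ⟨R₂, h₂⟩ := Y.scale' hS (m₁ + 1 + (m₁ + 1))
  obtain ⟨m₂, h₃⟩ := Y.scaleT R₂
  refine ⟨m₁ + 1 + m₂, fun γ δ i E hE => ?_⟩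
  have key : ∀ a ∈ Y.Q.cn 1 i δ, a ∈ bl Y.S' γ m₁ →
      ∃ σ ∈ Y.Q.cone i δ, σ ∈ bl Y.S' γ (m₁ + 1) ∧ E a = E σ := by
    rintro a ⟨σ, hσ, h1⟩ ha
    have h2 : σ ∈ bl Y.S' γ (m₁ + 1) := mem_bl_trans ha (mem_bl_symm Y.cay h1)
    refine ⟨σ, hσ, h2, ?_⟩
    rcases mem_ball_succ.1 h1 with h3 | ⟨b, hb, s, hs, e⟩
    · rw [inv_mul_eq_one.1 (mem_ball_zero.1 h3)]
    · rw [mem_ball_zero.1 hb, one_mul, inv_mul_eq_iff_eq_mul] at e
      rw [e]
      exact hE σ hσ (bl_mono γ (Nat.le_add_right _ _) h2) s hs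
  intro a ha hb a' ha' hb'
  obtain ⟨σ, hσ, h1, e⟩ := key a ha hb
  obtain ⟨σ', hσ', h1', e'⟩ := key a' ha' hb'
  have h4 : σ⁻¹ * σ' ∈ Y.Q.H i := by
    have h5 : σ' ∈ Y.Q.cone i σ := by
      rw [Y.Q.cone_eq hσ]
      exact hσ'
    exact h5
  have h5 : σ⁻¹ * σ' ∈ ball (Y.Q.T i) m₂ :=
    h₃ i _ h4 (h₂ _ (mem_bl_trans (mem_bl_symm Y.cay h1) h1'))
  have h6 := const_on_ball E σ m₂ (S := Y.Q.T i) (fun b hb s hs => by
    refine hE _ (Y.Q.mul_mem_cone hσ (ax23b_ball_cl hb)) (mem_bl_trans h1 ?_) s (Y.Q.sub i hs)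
    change σ⁻¹ * (σ * b) ∈ ball Y.S' m₂
    rw [inv_mul_cancel_left]
    exact ax23b_ball_sub (Y.Q.sub i) hb) _ (ball_mono (Nat.le_succ m₂) h5)
  rw [mul_inv_cancel_left] at h6
  rw [e, e', h6]

theorem Tr.lift_transfer (hS : Cay S) (hL : 1 ≤ L) : ∃ R m : ℕ, ∀ l', m ≤ l' →
    ∀ (c : Z.Γ → Z.Γ → ℤ) (D : Set G → Z.Γ → ℤ) (F : Set Z.Γ), Y.Pot l' c D F →
    ∀ (w : G → ℤ) (γ : Z.Γ), LocExact Y.S' l' c γ → Disjoint (bl Y.S' γ l') F →
      (∀ x ∈ bl S ((γ : G) * Y.x0) R, ∀ s ∈ S, Y.lift c D x s = w (x * s) - w x) →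
      ∀ s ∈ Y.S', c γ s = w (((γ * s : Z.Γ) : G) * Y.x0) - w ((γ : G) * Y.x0) := by
  obtain ⟨R, hR⟩ := hS.finite_subset_ball
    (Y.S'.finite_toSet.image fun s : Z.Γ => Y.x0⁻¹ * ((s : G) * Y.x0))
  obtain ⟨m₁, hm₁⟩ := Y.ax23b_near hS R
  obtain ⟨m₂, hm₂⟩ := Y.ax23b_cone hS m₁
  refine ⟨R, m₁ + m₂, fun l' hl c D F hD w γ hc hF hw => ?_⟩
  obtain ⟨P, hP⟩ := (locExact_iff c γ).1 hc
  have hX : ∀ x ∈ Z.X, x ∈ nbh S 1 Z.X := fun x hx => subset_nbh 1 _ hx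
  have hE : ∀ K ∈ Z.𝒦, ∀ z ∈ wallV S K \ K, z ∈ bl S ((γ : G) * Y.x0) R →
      ∀ z' ∈ wallV S K \ K, z' ∈ bl S ((γ : G) * Y.x0) R →
        D K (Y.π z) - P (Y.π z) = D K (Y.π z') - P (Y.π z') := by
    intro K hK z hz h1 z' hz' h1'
    have h2 := hX z (Z.outer_X hS hL hK hz)
    have h2' := hX z' (Z.outer_X hS hL hK hz')
    obtain ⟨i, δ, rfl⟩ := Y.orbit K hK
    refine hm₂ γ δ i (fun y => D ((δ : G) • Y.K i) y - P y) (fun y hy hy' s hs => ?_)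
      _ (Y.cone i δ z h2 (subset_nbh L _ hz.1)) (hm₁ γ z h2 h1)
      _ (Y.cone i δ z' h2' (subset_nbh L _ hz'.1)) (hm₁ γ z' h2' h1')
    have h3 : y ∈ bl Y.S' γ l' := bl_mono γ (by omega) hy'
    have h4 := hD i δ y ⟨subset_nbh l' _ hy, fun h => Set.disjoint_left.1 hF h3 h⟩ s hs
    have h5 := hP y h3 s hs
    omega
  have hπ : ∀ δ : Z.Γ, Y.π ((δ : G) * Y.x0) = δ := fun δ => by
    rw [Y.π_mul, Y.π_x0, mul_one]
  have hx0 : ∀ δ : Z.Γ, (δ : G) * Y.x0 ∈ Z.X := fun δ => (Z.smul_mem_X δ.2).2 Y.hx0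
  have key : ∀ k, k ≤ R → ∀ b ∈ ball S k,
      ((γ : G) * Y.x0 * b ∈ Z.X → w ((γ : G) * Y.x0 * b) - P (Y.π ((γ : G) * Y.x0 * b)) =
        w ((γ : G) * Y.x0) - P γ) ∧
      ∀ K ∈ Z.𝒦, (γ : G) * Y.x0 * b ∈ K → ∃ z ∈ wallV S K \ K, z ∈ bl S ((γ : G) * Y.x0) R ∧
        w ((γ : G) * Y.x0 * b) + (D K (Y.π z) - P (Y.π z)) = w ((γ : G) * Y.x0) - P γ := by
    intro k
    induction k with
    | zero =>
      intro _ b hb
      rw [mem_ball_zero.1 hb, mul_one, hπ]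
      exact ⟨fun _ => rfl, fun K hK h => absurd h (hx0 γ K hK)⟩
    | succ k ih =>
      intro hk b hb
      rcases mem_ball_succ.1 hb with h1 | ⟨b', hb', s, hs, rfl⟩
      · exact ih (by omega) b h1
      obtain ⟨ha, hb⟩ := ih (by omega) b' hb'
      rw [← mul_assoc]
      have hy : (γ : G) * Y.x0 * b' ∈ bl S ((γ : G) * Y.x0) k := by
        change ((γ : G) * Y.x0)⁻¹ * ((γ : G) * Y.x0 * b') ∈ ball S k
        rwa [inv_mul_cancel_left]
      generalize (γ : G) * Y.x0 * b' = y at ha hb hy ⊢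
      have hyR : y ∈ bl S ((γ : G) * Y.x0) R := bl_mono _ (by omega) hy
      have hysR : y * s ∈ bl S ((γ : G) * Y.x0) R := bl_mono _ hk (mul_mem_bl hy hs)
      have hys : y * s ∈ bl S y 1 := mul_mem_bl (mem_bl_self y 0) hs
      have h2 := hw y hyR s hs
      unfold Tr.lift at h2
      by_cases h3 : y ∈ Z.X
      · rw [if_pos h3] at h2
        have h4 := ha h3
        refine ⟨fun h5 => ?_, fun K hK h5 => ?_⟩
        · rw [if_pos h5] at h2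
          have h6 := hP _ (bl_mono γ (by omega) (hm₁ γ y (hX y h3) hyR)) _
            (Y.edge y (hX y h3) (y * s) (hX _ h5) (bl_mono y (by omega) hys))
          rw [mul_inv_cancel_left] at h6
          omega
        · rw [if_neg fun h => h K hK h5, Z.core_eq hK h5] at h2
          refine ⟨y, ⟨⟨s, hs, fun h => h3 K hK (h.2 h5)⟩, h3 K hK⟩, hyR, ?_⟩
          omega
      · rw [if_neg h3] at h2
        obtain ⟨K', hK', h4⟩ : ∃ K' ∈ Z.𝒦, y ∈ K' := by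
          by_contra h
          exact h3 fun K hK h' => h ⟨K, hK, h'⟩
        obtain ⟨z, hz, hzR, e⟩ := hb K' hK' h4
        refine ⟨fun h5 => ?_, fun K hK h5 => ?_⟩
        · rw [if_pos h5, Z.core_eq hK' h4] at h2
          have h6 := hE K' hK' z hz hzR (y * s)
            ⟨hS.mul_mem_wallV hs fun h => h5 K' hK' (h.1 h4), h5 K' hK'⟩ hysR
          omega
        · rw [if_neg fun h => h K hK h5] at h2
          obtain rfl := Z.sep K' hK' K hK y h4 (y * s) h5 (bl_mono y hL hys)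
          refine ⟨z, hz, hzR, ?_⟩
          omega
  intro s hs
  have h1 := (key R le_rfl _ (hR _ ⟨s, hs, rfl⟩)).1
  have e : (γ : G) * Y.x0 * (Y.x0⁻¹ * ((s : G) * Y.x0)) = ((γ * s : Z.Γ) : G) * Y.x0 := by
    rw [Subgroup.coe_mul, mul_assoc, mul_inv_cancel_left, mul_assoc]
  beta_reduce at h1
  rw [e, hπ] at h1
  have h2 := h1 (hx0 _)
  have h3 := hP γ (mem_bl_self γ l') s hs
  omega

end Vale.Agent.P239
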