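import Vale.Agent.P239.Full.FCoreA

/-! Task FCoreB: limits meet every cone in a finite set; isolated clusters.
`Lim.finite_cone`: by Harnack (`Sees.harnack`) it suffices to treat points of the cone itself. Suppose `x k` are infinitely many distinct points of `cone i γ` seeing `R`. `R k = (x k)⁻¹ • R` is seen from `1`, these are
pairwise not a.e. equal (`Lim.stab`) and nested; take a monotone subsequence, so `R 0 ⊊ R 1 ⊊ R 2` (or reversed; then use complements). `Appr.fvp` gives `FVP (R 0) (R 2)ᶜ`. Use its cone clause for `cone i 1`: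
the points `(x 0)⁻¹ * x k ∈ cone i 1` see `R 0`, the points `(x 2)⁻¹ * x k` see `(R 2)ᶜ`.
`tame_adm`: otherwise for every `n` there are `R n, χ n, i n, γ n, y n` without cluster of radius `≤ n`; translate `y n` to `1` (`Lim.smul`, `cn_smul`); by `finite_cones` the cone is constant along a subsequence;
`R n` is seen from `1` with `ε = 1/(4|S|)` (`sees_of_adm`), pass to a limit `R` (`exists_cv`, `Lim.of_cv`) and to a pointwise limit `χ` (compactness of `G → Prop` or `G → Bool`, `G` countable); `χ` is admissible for `R`;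
its wall in `cn` is finite by `finite_cone`, inside `ball D`; for large `n`, `χ n = χ` on `ball (3D+2)`, so `(1, D)` is a cluster, with potential `indZ χ`.
-/

noncomputable section

open Classical MeasureTheory Filter Topology Set
open scoped Pointwise ENNReal

namespace Vale.Agent.P239

universe u
variable {G : Type u} [Group G] {S : Finset G} {l : ℕ} {Q : Cones S} {B : Bdry S}

/-- The gradient of an integer indicator. -/
def dZ (U : Set G) (x s : G) : ℤ := indZ U (x * s) - indZ U x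

namespace Bdry
variable {Φ : B.NFam} {J : B.Chain Q Φ}

/-- `χ` is an admissible vertex set for the event `R`. -/
def AdmS (B : Bdry S) (R : Set (Bd G)) (χ : Set G) : Prop :=
  ∀ x, (x ∈ χ → 1 / 4 ≤ B.h R x) ∧ (x ∉ χ → B.h R x ≤ 3 / 4)

theorem sees_of_adm (hS : Cay S) {R : Set (Bd G)} (hR : MeasurableSet R) {χ : Set G}
    (h : B.AdmS R χ) {x : G} (hx : x ∈ wallV S χ) : B.Sees (1 / (4 * S.card)) R x := by
  obtain ⟨s, hs, hw⟩ := hx
  have h1 := gl_one_le hS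
  have k1 : ∀ A, 1 / 4 ≤ B.h A (x * s) → 1 / (4 * S.card : ℝ) ≤ B.h A x := fun A h2 => by
    have := B.h_harnack hS x (mem_ball_one hs) A
    rw [pow_one] at this
    rw [div_le_iff₀ (by positivity)]
    linarith
  have k2 : 1 / (4 * S.card : ℝ) ≤ 1 / 4 := one_div_le_one_div_of_le four_pos (by linarith)
  by_cases h2 : x ∈ χ
  · have h3 : x * s ∉ χ := fun h3 => hw ⟨fun _ => h3, fun _ => h2⟩
    refine ⟨k2.trans ((h x).1 h2), k1 _ ?_⟩
    rw [B.h_compl hR]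
    linarith [(h _).2 h3]
  · have h3 : x * s ∈ χ := not_not.1 fun h3 => hw ⟨fun h => absurd h h2, fun h => absurd h h3⟩
    refine ⟨k1 _ ((h _).1 h3), k2.trans ?_⟩
    rw [B.h_compl hR]
    linarith [(h _).2 h2]

theorem fcb_cone (hH : RH S l Q) {R : Set (Bd G)} (h : J.Lim R) {ε : ℝ} (hε : 0 < ε)
    (i : Fin Q.n) (γ : G) : {x | x ∈ Q.cone i γ ∧ B.Sees ε R x}.Finite := by
  have hS := hH.cay
  by_contra hinf
  obtain ⟨x, hx, hxm⟩ : ∃ x : ℕ → G, Function.Injective x ∧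
      ∀ k, x k ∈ Q.cone i γ ∧ B.Sees ε R (x k) :=
    ⟨fun k => Set.Infinite.natEmbedding _ hinf k,
      Subtype.val_injective.comp (Set.Infinite.natEmbedding _ hinf).injective,
      fun k => (Set.Infinite.natEmbedding _ hinf k).2⟩
  have hL : ∀ k, J.Lim ((x k)⁻¹ • R) := fun k => h.smul hS _
  have hsee : ∀ j k, B.Sees ε ((x j)⁻¹ • R) ((x j)⁻¹ * x k) := fun j k => (hxm k).2.smul _
  have hc : ∀ j k, (x j)⁻¹ * x k ∈ Q.cone i 1 := fun j k => by
    have h1 := (Q.H i).mul_mem ((Q.H i).inv_mem (hxm j).1) (hxm k).1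
    change 1⁻¹ * ((x j)⁻¹ * x k) ∈ Q.H i
    simpa [mul_assoc] using h1
  have hinj : ∀ j, Function.Injective fun k => (x j)⁻¹ * x k :=
    fun j a b e => hx (mul_left_cancel e)
  have key : ∀ a b, ¬ B.FVP Q ((x a)⁻¹ • R) ((x b)⁻¹ • R)ᶜ := fun a b hf => by
    rcases hf.2 i 1 with h1 | h1
    · refine Set.infinite_of_injective_forall_mem (hinj a) (fun k => ?_) (h1 ε hε)
      exact ⟨hc a k, (hsee a k).1⟩
    · refine Set.infinite_of_injective_forall_mem (hinj b) (fun k => ?_) (h1 ε hε)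
      exact ⟨hc b k, (hsee b k).2⟩
  have ss : ∀ a b, a ≠ b → B.Sub ((x a)⁻¹ • R) ((x b)⁻¹ • R) →
      B.SSub ((x a)⁻¹ • R) ((x b)⁻¹ • R) := fun a b hab h1 =>
    ⟨h1, fun h2 => hab (hx (inv_injective (h.stab hH ⟨h1, h2⟩)))⟩
  have fv : ∀ a b c, a ≠ b → b ≠ c → B.Sub ((x a)⁻¹ • R) ((x b)⁻¹ • R) →
      B.Sub ((x b)⁻¹ • R) ((x c)⁻¹ • R) → False := fun a b c h1 h2 h3 h4 =>
    key a c (((hL b).appr hS).fvp hS (hL b).2.1 ((hL a).clo hS) ((hL c).clo hS) (ss a b h1 h3)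
      (ss b c h2 h4))
  obtain ⟨φ, hφ, hm⟩ := exists_mono_subseq (A := fun k => (x k)⁻¹ • R) (fun k => (hL k).1.1)
    (fun a b _ => ((hL a).clo hS).nested ((hL b).clo hS)) hε
    fun k => by simpa using hsee k k
  have p01 : φ 0 < φ 1 := hφ zero_lt_one
  have p12 : φ 1 < φ 2 := hφ one_lt_two
  rcases hm with hm | hm
  · exact fv _ _ _ p01.ne p12.ne (hm 0 1 zero_lt_one) (hm 1 2 one_lt_two)
  · exact fv _ _ _ p12.ne' p01.ne' (hm 1 2 one_lt_two) (hm 0 1 zero_lt_one)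

theorem Chain.Lim.finite_cone (hH : RH S l Q) {R : Set (Bd G)} (h : J.Lim R) {ε : ℝ} (hε : 0 < ε)
    (r : ℕ) (i : Fin Q.n) (γ : G) : {x | x ∈ Q.cn r i γ ∧ B.Sees ε R x}.Finite := by
  have hS := hH.cay
  have h1 : (0 : ℝ) < S.card := by exact_mod_cast hS.card_pos
  refine (nbh_finite (S := S) r
    (fcb_cone hH h (div_pos hε (pow_pos h1 r)) i γ)).subset ?_
  rintro x ⟨⟨a, ha, hx⟩, hs⟩
  exact ⟨a, ⟨ha, hs.harnack hS (mem_bl_symm hS hx)⟩, hx⟩

theorem fcb_wall {χ : Set G} {x s : G} (hs : s ∈ S) (h : dZ χ x s ≠ 0) : x ∈ wallV S χ :=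
  ⟨s, hs, fun e => h (by simp only [dZ, indZ, e, sub_self])⟩

theorem fcb_clus {χ χ₀ : Set G} {i : Fin Q.n} {γ y : G} {D : ℕ}
    (hag : ∀ x ∈ ball S (3 * D + 2), y * x ∈ χ ↔ x ∈ χ₀)
    (hw : ∀ x ∈ Q.cn l i γ, y⁻¹ * x ∈ wallV S χ₀ → x ∈ bl S y D) :
    Q.Clus l (dZ χ) i γ y D := by
  have h1 : ∀ x ∈ bl S y (3 * D + 1), ∀ s ∈ S, dZ χ x s = dZ χ₀ (y⁻¹ * x) s := by
    intro x hx s hs
    have a1 := hag _ (bl_mono y (Nat.le_succ _) hx)
    have a2 := hag _ (mul_mem_bl hx hs)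
    rw [mul_inv_cancel_left] at a1 a2
    simp only [dZ, indZ, a1, a2, mul_assoc]
  refine ⟨fun x hx hx' ⟨s, hs, h⟩ => hw x hx (fcb_wall hs (h1 x hx' s hs ▸ h)),
    fun x => indZ χ₀ (y⁻¹ * x), fun x hx s hs => ?_⟩
  by_cases h : x ∈ bl S y D
  · simp only [if_pos h]
    rw [h1 x (bl_mono y (by omega) h) s hs, dZ, mul_assoc]
  · simp only [if_neg h]
    by_contra h2
    refine h (hw x hx (fcb_wall hs fun e => h2 ?_))
    rw [← e, dZ, mul_assoc]

theorem Chain.tame_adm (hH : RH S l Q) (J : B.Chain Q Φ) : ∃ D₀ : ℕ, ∀ R, J.Lim R → ∀ χ : Set G,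
    B.AdmS R χ → Q.Tame l (dZ χ) ∅ D₀ := by
  have hS := hH.cay
  by_contra hne
  simp only [Cones.Tame, not_exists, not_forall, not_and, exists_prop] at hne
  choose R hR χ hχ i γ y hy _ hs hD using hne
  obtain ⟨W, hW, hW'⟩ := Q.finite_cones hS l (finite_singleton (1 : G))
  have h1 : ∀ n x, x ∈ Q.cn l (i n) (γ n) → (y n)⁻¹ * x ∈ Q.cn l (i n) ((y n)⁻¹ * γ n) :=
    fun n x hx => by
      rw [← Cones.cn_smul]
      exact smul_mem_smul_set (a := (y n)⁻¹) hx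
  have h2 : ∀ n, ∃ w ∈ W, Q.cone (i n) ((y n)⁻¹ * γ n) = Q.cone (i n) w := fun n =>
    hW' _ _ ⟨1, by simpa using h1 n _ (hy n), rfl⟩
  have hL : ∀ n, J.Lim ((y n)⁻¹ • R n) := fun n => (hR n).smul hS _
  have hε : (0 : ℝ) < 1 / (4 * S.card) := by
    have := gl_one_le hS
    positivity
  obtain ⟨φ, L, hφ, hg, hsee, hcv⟩ := exists_cv hS (A := fun n => (y n)⁻¹ • R n)
    (fun n => (hL n).1) (fun a b _ => ((hL a).clo hS).nested ((hL b).clo hS)) hε fun n => by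
      obtain ⟨s, hs1, hs2⟩ := hs n
      simpa using (sees_of_adm hS (hR n).1.1 (hχ n) (fcb_wall hs1 hs2)).smul (y n)⁻¹
  have hLL : J.Lim L := Chain.Lim.of_cv (fun k => hL (φ k)) hg (hsee.two hS hε) hcv
  have hU := Nat.hyperfilter_le_atTop
  obtain ⟨χ₀, hχ₀⟩ : ∃ χ₀ : Set G, ∀ x, ∀ᶠ k in (hyperfilter ℕ : Filter ℕ),
      (y (φ k) * x ∈ χ (φ k) ↔ x ∈ χ₀) := by
    refine ⟨{x | ∀ᶠ k in (hyperfilter ℕ : Filter ℕ), y (φ k) * x ∈ χ (φ k)}, fun x => ?_⟩
    rcases (hyperfilter ℕ).em fun k => y (φ k) * x ∈ χ (φ k) with h | h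
    · exact h.mono fun k hk => iff_of_true hk h
    · exact h.mono fun k hk => iff_of_false hk (Ultrafilter.eventually_not.1 h)
  have hh : ∀ n x, B.h ((y n)⁻¹ • R n) x = B.h (R n) (y n * x) := fun n x => by
    rw [← B.h_smul (y n)⁻¹ (y n * x), inv_mul_cancel_left]
  have hadm : B.AdmS L χ₀ := fun x => by
    have ht := (hcv.tendsto_h hS x).mono_left hU
    refine ⟨fun hx => ge_of_tendsto ht ?_, fun hx => le_of_tendsto ht ?_⟩
    · exact (hχ₀ x).mono fun k hk => by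
        rw [hh]
        exact (hχ _ _).1 (hk.2 hx)
    · exact (hχ₀ x).mono fun k hk => by
        rw [hh]
        exact (hχ _ _).2 fun h => hx (hk.1 h)
  obtain ⟨i₀, hi₀⟩ := (Ultrafilter.eventually_exists_iff (f := hyperfilter ℕ)
    (P := fun a k => i (φ k) = a)).1 (Eventually.of_forall fun k => ⟨_, rfl⟩)
  obtain ⟨w, -, hw⟩ := (Ultrafilter.eventually_exists_mem_iff (f := hyperfilter ℕ)
    (P := fun w k => Q.cone (i (φ k)) ((y (φ k))⁻¹ * γ (φ k)) = Q.cone (i (φ k)) w) hW).1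
    (Eventually.of_forall fun k => h2 (φ k))
  obtain ⟨D, hD'⟩ := hS.finite_subset_bl (hLL.finite_cone hH hε l i₀ w) 1
  obtain ⟨k, ⟨k1, k2⟩, k3, k4⟩ := ((hi₀.and hw).and
    (((eventually_all_finset (ball S (3 * D + 2))).2 fun x _ => hχ₀ x).and
      (hU (hφ.tendsto_atTop.eventually_ge_atTop D)))).exists
  refine hD (φ k) D k4 (fcb_clus k3 fun x hx hxw => ?_)
  have h3 := h1 _ x hx
  rw [Cones.cn, k2, k1] at h3
  have h4 := hD' ⟨h3, sees_of_adm hS hg.1 hadm hxw⟩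
  simpa [bl] using h4

end Bdry

end Vale.Agent.P239
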