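import Vale.Agent.P239.Full.FMRep
import Vale.Agent.P239.Full.FAM
import Vale.Agent.P239.Full.FCoreB

/-! Task FIsoW: a thin subgroup carrying a wall has bounded isoperimetry. `H = closure T` is infinite (`Two.wallV_infinite`), `hatSet U` is good (`Thin.good`) and seen from `1` with `ε`. Given `K`: `D` with `H ∩ ball S (2R + 2l) ⊆ ball T D`, `T ⊆ ball S a`,
`r = a D + R + l`, `r'` from `multi_rep K r`, `σ, g` from `Thin.far` for `nbh (R + r') H` at `1` with `g 1 ≤ ε/2`, `m` with `H ∩ ball S (σ + R) ⊆ ball T m`, `ρ = a m + σ + r'`.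
A finite `A` with at most `K` boundary edges meets at most `K` cosets of `H` (`exists_cross`); it suffices to bound `A ⊆ H` (translate; the boundary of a coset piece is part of the boundary). `Z` = starting points of boundary edges. If `|A| > K |ball S ρ|` some `x ∈ A` is not in `nbh ρ Z`;
translate it to `1` by an element of `H`. `F = wallV U ∩ nbh R (H \ A)`, `c y s = if y ∈ F then 0 else dZ U y s` has finite support and is locally exact off `nbh r Z`. With `w` from `multi_rep`, `const_off_finite`, `tube` for `K₀ = F ∪ nbh r' Z`, which avoids `ball σ`.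
-/

noncomputable section

open Classical MeasureTheory Filter Topology Set
open scoped Pointwise ENNReal

namespace Vale.Agent.P239

universe u
variable {G : Type u} [Group G] {S : Finset G} {l : ℕ} {B : Bdry S}

theorem isw_ball_T {T : Finset G} (hT : ∀ t ∈ T, t⁻¹ ∈ T) (n : ℕ) :
    ∃ D, ∀ g ∈ ball S n, g ∈ Subgroup.closure (T : Set G) → g ∈ ball T D := by
  have h : ∀ W : Finset G, ∃ D, ∀ g ∈ W, g ∈ Subgroup.closure (T : Set G) → g ∈ ball T D := by
    intro W
    induction W using Finset.induction_on with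
    | empty => exact ⟨0, fun g hg => absurd hg (Finset.notMem_empty g)⟩
    | insert a W _ ih =>
      obtain ⟨D, hD⟩ := ih
      by_cases ha : a ∈ Subgroup.closure (T : Set G)
      · obtain ⟨r, hr⟩ := mem_ball_of_closure hT ha
        refine ⟨D + r, fun g hg hg' => ?_⟩
        rcases Finset.mem_insert.1 hg with rfl | hg
        · exact ball_mono (Nat.le_add_left _ _) hr
        · exact ball_mono (Nat.le_add_right _ _) (hD g hg hg')
      · refine ⟨D, fun g hg hg' => ?_⟩
        rcases Finset.mem_insert.1 hg with rfl | hg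
        · exact absurd hg' ha
        · exact hD g hg hg'
  exact h _

theorem isw_ball_S {T : Finset G} {a : ℕ} (ha : ∀ t ∈ T, t ∈ ball S a) (D : ℕ) :
    ∀ g ∈ ball T D, g ∈ ball S (a * D) := by
  induction D with
  | zero =>
    intro g hg
    rw [mem_ball_zero.1 hg]
    exact one_mem_ball _
  | succ D ih =>
    intro g hg
    rcases mem_ball_succ.1 hg with h | ⟨b, hb, t, ht, rfl⟩
    · exact ball_mono (Nat.mul_le_mul_left a (Nat.le_succ D)) (ih g h)
    · rw [Nat.mul_succ]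
      exact mul_mem_ball (ih b hb) (ha t ht)

/-- A path inside the subgroup from `A` to its complement passes near `Z`. -/
theorem isw_cross (hS : Cay S) {T : Finset G} {a n D : ℕ} (ha : ∀ t ∈ T, t ∈ ball S a)
    (hD : ∀ g ∈ ball S n, g ∈ Subgroup.closure (T : Set G) → g ∈ ball T D)
    {A Z : Set G} (hZ : ∀ z ∈ A, ∀ t ∈ T, z * t ∉ A → z ∈ Z) {x y : G}
    (hx : x ∈ A) (hy : y ∉ A) (hxH : x ∈ Subgroup.closure (T : Set G))
    (hyH : y ∈ Subgroup.closure (T : Set G)) (hxy : y ∈ bl S x n) :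
    ∃ z ∈ Z, x ∈ bl S z (a * D) := by
  have h1 : y ∈ bl T x D := hD _ hxy (Subgroup.mul_mem _ (Subgroup.inv_mem _ hxH) hyH)
  obtain ⟨z, hz, t, ht, hzt, hzb⟩ := exists_cross hx hy h1
  exact ⟨z, hZ z hz t ht hzt, mem_bl_symm hS (isw_ball_S ha D _ hzb)⟩

theorem isw_dZ_abs (U : Set G) (x s : G) : |dZ U x s| ≤ 1 := by
  unfold dZ indZ
  split_ifs <;> simp

theorem isw_core (hH : HypQ S l) {T : Finset G} (hT : ∀ t ∈ T, t⁻¹ ∈ T) {U : Set G}
    (hU : WallOf B (Subgroup.closure (T : Set G)) U)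
    (hth : ∀ r, Thin S (nbh S r (Subgroup.closure (T : Set G)))) (K : ℕ) :
    ∃ ρ : ℕ, ∀ (A : Set G) (Z : Finset G), A.Finite → Z.card ≤ K →
      A ⊆ Subgroup.closure (T : Set G) → (Z : Set G) ⊆ Subgroup.closure (T : Set G) →
      (∀ z ∈ A, ∀ t ∈ T, z * t ∉ A → z ∈ (Z : Set G)) → (1 : G) ∈ A → (1 : G) ∈ nbh S ρ Z := by
  have hS := hH.cay
  obtain ⟨h2, R, hR⟩ := hU
  have hgood : B.Good (hatSet U) := Thin.good B hS hH.gap ((hth R).mono hR)
  obtain ⟨ε, hε, hsee⟩ := h2.exists_sees hS 1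
  obtain ⟨D, hD⟩ := isw_ball_T (S := S) hT (R + l + l + R)
  obtain ⟨a, ha⟩ := hS.finite_subset_ball (K := (T : Set G)) T.finite_toSet
  obtain ⟨r', hr'⟩ := hH.multi_rep K (a * D + R + l)
  obtain ⟨σ, g, hg, hg1, hg2⟩ := (hth (R + r')).far hS 1 (half_pos hε)
  obtain ⟨m, hm⟩ := isw_ball_T (S := S) hT (σ + R)
  refine ⟨a * m + (r' + σ), fun A Z hA hZK hAH hZH hZ h1A => ?_⟩
  by_contra hno
  set H : Set G := (Subgroup.closure (T : Set G) : Set G) with hHdef
  set F : Set G := wallV S U ∩ nbh S R (H \ A) with hF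
  set c : G → G → ℤ := fun y s => if y ∈ F then 0 else dZ U y s with hc
  have hsupp : ∀ y, ∀ s ∈ S, c y s ≠ 0 → ∃ h ∈ A, y ∈ bl S h R := by
    intro y s hs hne
    have hyF : y ∉ F := fun h => hne (if_pos h)
    have hw : y ∈ wallV S U := Bdry.fcb_wall hs (by rwa [hc, show
      (fun y s => if y ∈ F then 0 else dZ U y s) y s = dZ U y s from if_neg hyF] at hne)
    obtain ⟨h, hh, hy⟩ := hR hw
    by_cases hA' : h ∈ A
    · exact ⟨h, hA', hy⟩
    · exact absurd ⟨hw, h, ⟨hh, hA'⟩, hy⟩ hyF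
  have hfin : {x | ∃ s ∈ S, c x s ≠ 0}.Finite := by
    refine (nbh_finite (S := S) R hA).subset ?_
    rintro x ⟨s, hs, hne⟩
    exact hsupp x s hs hne
  have hb : ∀ x s, |c x s| ≤ 1 := by
    intro x s
    by_cases hx : x ∈ F
    · rw [show c x s = 0 from if_pos hx]; simp
    · rw [show c x s = dZ U x s from if_neg hx]; exact isw_dZ_abs U x s
  have hloc : ∀ y, y ∉ nbh S (a * D + R + l) (Z : Set G) → LocExact S l c y := by
    intro y hy
    rw [locExact_iff]
    by_cases hF1 : ∃ x ∈ bl S y l, x ∈ F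
    · obtain ⟨x, hx, hxw, h, hh, hxh⟩ := hF1
      refine ⟨fun _ => 0, fun x' hx' s hs => ?_⟩
      rw [sub_self]
      by_contra hne
      obtain ⟨h', hh', hx'h⟩ := hsupp x' s hs hne
      have e1 : y ∈ bl S h' (R + l) := mem_bl_trans hx'h (mem_bl_symm hS hx')
      have e2 : h ∈ bl S h' (R + l + l + R) :=
        mem_bl_trans (mem_bl_trans e1 hx) (mem_bl_symm hS hxh)
      obtain ⟨z, hz, hzb⟩ := isw_cross hS ha hD hZ hh' hh.2 (hAH hh') hh.1 e2
      refine hy ⟨z, hz, ?_⟩
      have e3 := mem_bl_trans hzb e1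
      rw [← add_assoc] at e3
      exact e3
    · refine ⟨indZ U, fun x hx s _ => ?_⟩
      exact if_neg fun h => hF1 ⟨x, hx, h⟩
  obtain ⟨w, hw⟩ := hr' c Z hZK hb hfin hloc
  have hnd : ∀ x, x ∉ nbh S r' (Z : Set G) → ∀ s ∈ S, c x s = w (x * s) - w x := by
    intro x hx s hs
    by_contra hne
    exact hx (hw (x, s) ⟨hs, hne⟩)
  have hwf : {e : G × G | e.2 ∈ S ∧ w (e.1 * e.2) ≠ w e.1}.Finite := by
    refine (((nbh_finite (S := S) r' Z.finite_toSet).union hfin).prod S.finite_toSet).subset ?_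
    rintro ⟨x, s⟩ ⟨hs, hne⟩
    refine ⟨?_, hs⟩
    by_cases hx : x ∈ nbh S r' (Z : Set G)
    · exact Or.inl hx
    · refine Or.inr ⟨s, hs, ?_⟩
      rw [hnd x hx s hs]
      exact sub_ne_zero.2 hne
  obtain ⟨c₀, hc₀⟩ := const_off_finite hS hH.one hwf
  have hK : ∀ y ∈ F ∪ nbh S r' (Z : Set G), 1 ≤ g y := by
    rintro y (hy | hy)
    · refine hg1 y (nbh_mono (Nat.le_add_right _ _) subset_rfl (hR hy.1)) fun hyb => hno ?_
      obtain ⟨h, hh, hyh⟩ := hy.2
      have e1 : h ∈ bl S 1 (σ + R) := mem_bl_trans hyb (mem_bl_symm hS hyh)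
      obtain ⟨z, hz, hzb⟩ := isw_cross hS ha hm hZ h1A hh.2 (Subgroup.one_mem _) hh.1 e1
      exact ⟨z, hz, bl_mono z (Nat.le_add_right _ _) hzb⟩
    · refine hg1 y (nbh_mono (Nat.le_add_left _ _) hZH hy) fun hyb => hno ?_
      obtain ⟨z, hz, hyz⟩ := hy
      exact ⟨z, hz, bl_mono z (Nat.le_add_left _ _) (mem_bl_trans hyz (mem_bl_symm hS hyb))⟩
  have ht := Bdry.tube hS hgood hc₀ hg hK (fun x hx s hs _ => by
    rw [← hnd x (fun h => hx (Or.inr h)) s hs]
    exact if_neg fun h => hx (Or.inl h)) 1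
  rcases ht with h | h
  · linarith [hsee.1]
  · linarith [hsee.2]

theorem iso_of_wall (hH : HypQ S l) {T : Finset G} (hT : ∀ t ∈ T, t⁻¹ ∈ T) {U : Set G}
    (hU : WallOf B (Subgroup.closure (T : Set G)) U)
    (hth : ∀ r, Thin S (nbh S r (Subgroup.closure (T : Set G)))) : Iso T := by
  intro K
  obtain ⟨ρ, hρ⟩ := isw_core hH hT hU hth K
  refine ⟨(ball S ρ).card * K, fun A hA hK => ?_⟩
  have hE : (edgeBd T A).Finite := edgeBd_finite_of_finite hA
  set Z : Finset G := hE.toFinset.image Prod.fst with hZ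
  have hZK : Z.card ≤ K := by
    refine Finset.card_image_le.trans ?_
    rw [← Set.ncard_eq_toFinset_card _ hE]
    exact hK
  have hsub : A ⊆ nbh S ρ (Z : Set G) := by
    intro x hx
    have h := hρ {h | h ∈ Subgroup.closure (T : Set G) ∧ x * h ∈ A}
      ((Z.image fun z => x⁻¹ * z).filter fun h => h ∈ Subgroup.closure (T : Set G))
      ((hA.preimage (mul_right_injective x).injOn).subset fun h hh => hh.2)
      ((Finset.card_filter_le _ _).trans (Finset.card_image_le.trans hZK))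
      (fun h hh => hh.1) (fun h hh => (Finset.mem_filter.1 (Finset.mem_coe.1 hh)).2)
      (fun z hz t ht hzt => by
        refine Finset.mem_coe.2 (Finset.mem_filter.2 ⟨Finset.mem_image.2 ⟨x * z, ?_, ?_⟩, hz.1⟩)
        · refine Finset.mem_image.2 ⟨(x * z, t), hE.mem_toFinset.2 ⟨ht, fun hi => hzt ⟨?_, ?_⟩⟩, rfl⟩
          · exact Subgroup.mul_mem _ hz.1 (Subgroup.subset_closure ht)
          · rw [← mul_assoc]
            exact hi.1 hz.2
        · rw [inv_mul_cancel_left])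
      ⟨Subgroup.one_mem _, by rwa [mul_one]⟩
    obtain ⟨z, hz, hb⟩ := h
    obtain ⟨z', hz', rfl⟩ := Finset.mem_image.1 (Finset.mem_filter.1 (Finset.mem_coe.1 hz)).1
    refine ⟨z', Finset.mem_coe.2 hz', ?_⟩
    rwa [mul_one, mul_inv_rev, inv_inv] at hb
  calc A.ncard ≤ (nbh S ρ (Z : Set G)).ncard :=
        Set.ncard_le_ncard hsub (nbh_finite ρ Z.finite_toSet)
    _ ≤ (ball S ρ).card * (Z : Set G).ncard := nbh_ncard_le ρ Z.finite_toSet
    _ ≤ (ball S ρ).card * K := by
        rw [Set.ncard_coe_finset]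
        exact Nat.mul_le_mul_left _ hZK

end Vale.Agent.P239
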