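import Vale.Agent.P239.Full.FKF

/-! Task FKcut: cutting a function along a wall on which it is low.
Let `m = (a + b) / 2`, `v' x = ind U x * max (v x - b) 0`. Energy: `finEn_of_le` with `T` the edges starting in the finite set `wallV U ∩ {a < v}` or ending there.
For `i, x` let `val = v x - φ i x`; define `val' i x = max (val - b) 0` if `m < val` and `cone i x \ U` is finite, and `0` otherwise; `φ' = v' - val'`. By `ax6` (with `KF.tendsto_cn`, `r = 0`)
a cone with `m < val` has `U ∩ cone` or `cone \ U` finite; call it the exceptional set `E`. Off `E`, `|φ'| ≤ |φ|`. `E` is nonempty only if some `T i`-edge of the cone crosses `U`; such an edge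
starts at a wall vertex with `a < v` or at a point with `|φ i| ≥ m - a`, so there are at most `K₀` such edges in all cones together. `kcut`: so the union of all exceptional sets is finite.
`kcut_bound`: the union over all cones of type `i` of the exceptional sets is a finite set `A` with `(edgeBd (T i) A).ncard ≤ K₀`, so `iso` bounds its size; on it `|φ'| ≤ 2 (C + |b|) + ...` is bounded.
-/

noncomputable section

open Classical MeasureTheory Filter Topology Set
open scoped Pointwise ENNReal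

namespace Vale.Agent.P239

universe u
variable {G : Type u} [Group G] {S : Finset G} {l : ℕ} {Q : Cones S} {B : Bdry S}

omit [Group G] in
theorem fkcut_sq {p q : G → ℝ} (hp : SqSum p) {A : Set G} (hA : A.Finite) {M : ℝ}
    (hM : ∀ x ∈ A, |q x| ≤ M) (h : ∀ x, x ∉ A → |q x| ≤ |p x|) :
    SqSum q ∧ ∑' x, q x ^ 2 ≤ ∑' x, p x ^ 2 + M ^ 2 * A.ncard := by
  have h1 : HasSum (fun x => if x ∈ A then M ^ 2 else 0) (M ^ 2 * A.ncard) := by
    have h2 := hasSum_sum_of_ne_finset_zero (L := SummationFilter.unconditional G)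
      (f := fun x => if x ∈ A then M ^ 2 else 0) (s := hA.toFinset)
      fun x hx => if_neg fun h => hx (hA.mem_toFinset.2 h)
    rwa [Finset.sum_congr rfl fun x hx => if_pos (hA.mem_toFinset.1 hx), Finset.sum_const,
      nsmul_eq_mul, mul_comm, ← Set.ncard_eq_toFinset_card _ hA] at h2
  have h3 : ∀ x, q x ^ 2 ≤ p x ^ 2 + if x ∈ A then M ^ 2 else 0 := fun x => by
    split_ifs with hx
    · have := pow_le_pow_left₀ (abs_nonneg _) (hM x hx) 2
      rw [sq_abs] at this
      linarith [sq_nonneg (p x)]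
    · rw [add_zero]
      exact sq_le_sq.2 (h x hx)
  have h4 := (Summable.hasSum hp).add h1
  have h5 : SqSum q := Summable.of_nonneg_of_le (fun _ => sq_nonneg _) h3 h4.summable
  exact ⟨h5, hasSum_le h3 (Summable.hasSum h5) h4⟩

omit [Group G] in
theorem fkcut_abs (U : Set G) (x : G) (r : ℝ) : |ind U x * r| ≤ |r| := by
  unfold ind
  split_ifs <;> simp

theorem fkcut_pos (r : ℝ) : |max r 0| ≤ |r| := by
  simpa using abs_max_sub_max_le_abs r 0 0

theorem fkcut_en {v : G → ℝ} (hv : FinEn S v) {a b : ℝ} (hab : a < b) {U : Set G}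
    (hU : (wallV S U ∩ {x | a < v x}).Finite) {M : ℝ}
    (hM : ∀ e ∈ (wallV S U ∩ {x | a < v x}) ×ˢ (S : Set G),
      |ind U (e.1 * e.2) * max (v (e.1 * e.2) - b) 0 - ind U e.1 * max (v e.1 - b) 0| ≤ M) :
    FinEn S (fun x => ind U x * max (v x - b) 0) ∧
      energy S (fun x => ind U x * max (v x - b) 0) ≤ 2 * 1 ^ 2 * (energy S v + energy S v) +
        M ^ 2 * ((wallV S U ∩ {x | a < v x}) ×ˢ (S : Set G)).ncard := by
  refine finEn_of_le hv hv zero_le_one (hU.prod S.finite_toSet) hM fun x s hs he => ?_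
  rw [one_mul]
  refine le_trans ?_ ((Bdry.capA_pos_lip b _ _).trans (le_add_of_nonneg_right (abs_nonneg _)))
  by_cases h : x ∈ U ↔ x * s ∈ U
  · rw [show ind U (x * s) = ind U x by simp only [ind, h], ← mul_sub]
    exact fkcut_abs _ _ _
  · have h1 : v x ≤ a := not_lt.1 fun h1 => he ⟨⟨⟨s, hs, h⟩, h1⟩, hs⟩
    rw [max_eq_right (by linarith : v x - b ≤ 0), mul_zero, sub_zero, sub_zero]
    exact fkcut_abs _ _ _

theorem fkcut_main (hH : RH S l Q) {v : G → ℝ} {φ : Fin Q.n → G → ℝ} (hv : Q.KF v φ) {a b : ℝ}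
    (hab : a < b) {U : Set G} (hU : (wallV S U ∩ {x | a < v x}).Finite) (i : Fin Q.n) :
    ∃ (q : G → ℝ) (A : Set G), A.Finite ∧
      edgeBd (Q.T i) A ⊆
        (wallV S U ∩ {x | a < v x} ∪ {x | b - a ≤ |φ i x|}) ×ˢ (Q.T i : Set G) ∧
      (∀ x, x ∉ A → |q x| ≤ |φ i x|) ∧ (∀ x, |q x| ≤ |v x - b| + |v x - φ i x - b|) ∧
      ∀ x, ∀ t ∈ Q.T i, ind U (x * t) * max (v (x * t) - b) 0 - q (x * t) =
        ind U x * max (v x - b) 0 - q x := by
  obtain ⟨A, hA⟩ : ∃ A : Set G,
      ∀ x, x ∈ A ↔ b < v x - φ i x ∧ ¬ (x ∈ U ↔ (Q.cone i x \ U).Finite) := ⟨_, fun _ => Iff.rfl⟩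
  have hc : ∀ x, ∀ t ∈ Q.T i, Q.cone i (x * t) = Q.cone i x := fun x t ht =>
    Cones.cone_eq (Cones.mul_mem_cone (Cones.mem_cone_self i x) (Subgroup.subset_closure ht))
  have hE : edgeBd (Q.T i) A ⊆
      (wallV S U ∩ {x | a < v x} ∪ {x | b - a ≤ |φ i x|}) ×ˢ (Q.T i : Set G) := by
    rintro ⟨x, t⟩ ⟨ht, he⟩
    simp only [hA, hc x t ht, (hv.2 i).2 x t ht] at he
    refine ⟨?_, ht⟩
    by_cases h1 : a < v x
    · exact Or.inl ⟨⟨t, Q.sub i ht, by tauto⟩, h1⟩
    · have h2 : b < v x - φ i x := by tauto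
      exact Or.inr (le_trans (by linarith) (neg_le_abs (φ i x)))
  have hF : ∀ γ, (A ∩ Q.cone i γ).Finite := fun γ => by
    by_cases h1 : b < v γ - φ i γ
    · by_cases h2 : (Q.cone i γ \ U).Finite
      · refine h2.subset fun x hx => ⟨hx.2, fun h3 => ((hA x).1 hx.1).2 ?_⟩
        rw [Cones.cone_eq hx.2]
        exact iff_of_true h3 h2
      · refine ((hH.ax6 i γ v φ hv _ a (hab.trans h1) ((hv.tendsto_cn 0 i γ).mono_left
          (inf_le_inf_left _ (principal_mono.2 (subset_nbh _ _)))) U hU).resolve_right h2).subset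
          fun x hx => ⟨by_contra fun h3 => ((hA x).1 hx.1).2 ?_, hx.2⟩
        rw [Cones.cone_eq hx.2]
        exact iff_of_false h3 h2
    · refine finite_empty.subset fun x hx => h1 ?_
      rw [← hv.val_eq hx.2]
      exact ((hA x).1 hx.1).1
  have hEf := ((hU.union ((hv.2 i).1.ncard_le (sub_pos.2 hab)).1).prod
    (Q.T i).finite_toSet).subset hE
  refine ⟨fun x => ind U x * max (v x - b) 0 -
    if (Q.cone i x \ U).Finite then max (v x - φ i x - b) 0 else 0, A,
    (hEf.biUnion fun e _ => hF e.1).subset fun x hx => by_contra fun h0 => ?_, hE,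
    fun x hx => ?_, fun x => ?_, fun x t ht => ?_⟩
  · have h1 := Cones.const_cone (Q := Q) (i := i) (γ := x) (· ∈ A) fun y hy t ht =>
      propext (Iff.symm (by_contra fun h2 => h0 (mem_biUnion (x := (y, t)) ⟨ht, h2⟩
        ⟨hx, by rw [Cones.cone_eq hy]; exact Cones.mem_cone_self i x⟩)))
    exact Cones.cone_infinite i x ((hF x).subset fun y hy => ⟨(h1 y hy).mpr hx, hy⟩)
  · have h1 := Bdry.capA_pos_lip b (v x) (v x - φ i x)
    rw [sub_sub_cancel] at h1
    by_cases h2 : b < v x - φ i x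
    · have h3 : x ∈ U ↔ (Q.cone i x \ U).Finite := by_contra fun h3 => hx ((hA x).2 ⟨h2, h3⟩)
      simp only [← h3, ind]
      split_ifs
      · rwa [one_mul]
      · simp
    · rw [max_eq_right (by linarith : v x - φ i x - b ≤ 0), sub_zero] at h1
      simp only [max_eq_right (by linarith : v x - φ i x - b ≤ 0), ite_self, sub_zero]
      exact (fkcut_abs _ _ _).trans h1
  · refine (abs_sub _ _).trans (add_le_add ((fkcut_abs _ _ _).trans (fkcut_pos _)) ?_)
    split_ifs
    · exact fkcut_pos _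
    · simp
  · simp only [sub_sub_cancel, hc x t ht, (hv.2 i).2 x t ht]

theorem kcut (hH : RH S l Q) {v : G → ℝ} {φ : Fin Q.n → G → ℝ} (hv : Q.KF v φ) {a b : ℝ}
    (hab : a < b) {U : Set G} (hU : (wallV S U ∩ {x | a < v x}).Finite) :
    ∃ φ', Q.KF (fun x => ind U x * max (v x - b) 0) φ' := by
  choose q A h1 _ h3 _ h5 using fkcut_main hH hv hab hU
  obtain ⟨M, hM⟩ := ((hU.prod S.finite_toSet).image fun e : G × G =>
    |ind U (e.1 * e.2) * max (v (e.1 * e.2) - b) 0 - ind U e.1 * max (v e.1 - b) 0|).bddAbove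
  refine ⟨q, (fkcut_en hv.1 hab hU fun e he => hM (mem_image_of_mem _ he)).1, fun i => ⟨?_, h5 i⟩⟩
  obtain ⟨M', hM'⟩ := ((h1 i).image fun x => |q i x|).bddAbove
  exact (fkcut_sq (hv.2 i).1 (h1 i) (fun x hx => hM' (mem_image_of_mem _ hx)) (h3 i)).1

theorem kcut_bound (hH : RH S l Q) {v : G → ℝ} {φ : Fin Q.n → G → ℝ} (hv : Q.KF v φ)
    (hb : Bdd v) {a b : ℝ} (hab : a < b) (N : ℕ) : ∃ K : ℝ, ∀ U : Set G,
      (wallV S U ∩ {x | a < v x}).Finite → (wallV S U ∩ {x | a < v x}).ncard ≤ N →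
      ∃ φ', Q.KF (fun x => ind U x * max (v x - b) 0) φ' ∧
        Q.nrm (fun x => ind U x * max (v x - b) 0) φ' ≤ K := by
  obtain ⟨C, hC⟩ := hb
  choose D hD using fun i => (hv.2 i).1.bdd
  choose K hK using fun i =>
    hH.iso i ((N + {x | b - a ≤ |φ i x|}.ncard) * (Q.T i : Set G).ncard)
  have hC' : ∀ x, |v x - b| ≤ C + |b| := fun x => (abs_sub _ _).trans (add_le_add_left (hC x) _)
  refine ⟨2 * 1 ^ 2 * (energy S v + energy S v) +
    (C + |b| + (C + |b|)) ^ 2 * (N * (S : Set G).ncard : ℕ) +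
    ∑ i, (∑' x, φ i x ^ 2 + (C + |b| + (C + D i + |b|)) ^ 2 * K i), fun U hU hN => ?_⟩
  choose q A h1 h2 h3 h4 h5 using fkcut_main hH hv hab hU
  have he := fkcut_en hv.1 hab hU (M := C + |b| + (C + |b|)) fun e _ => (abs_sub _ _).trans
    (add_le_add ((fkcut_abs _ _ _).trans ((fkcut_pos _).trans (hC' _)))
      ((fkcut_abs _ _ _).trans ((fkcut_pos _).trans (hC' _))))
  have hs := fun i => fkcut_sq (hv.2 i).1 (h1 i) (M := C + |b| + (C + D i + |b|))
    (fun x _ => (h4 i x).trans (add_le_add (hC' x) ((abs_sub _ _).trans (add_le_add_left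
      ((abs_sub _ _).trans (add_le_add (hC x) (hD i x))) _)))) (h3 i)
  refine ⟨q, ⟨he.1, fun i => ⟨(hs i).1, h5 i⟩⟩, add_le_add (he.2.trans ?_)
    (Finset.sum_le_sum fun i _ => (hs i).2.trans ?_)⟩
  · rw [Set.ncard_prod]
    gcongr
  · have hf := ((hv.2 i).1.ncard_le (sub_pos.2 hab)).1
    have := hK i _ (h1 i) ((Set.ncard_le_ncard (h2 i)
      ((hU.union hf).prod (Q.T i).finite_toSet)).trans (by
        rw [Set.ncard_prod]
        exact Nat.mul_le_mul_right _ ((Set.ncard_union_le _ _).trans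
          (Nat.add_le_add_right hN _))))
    gcongr

/-- Two cuts with walls on which `v` is low, resp. high, and with finite intersection are
separated: `θ = F v * ind U'ᶜ + ind U * (1 - F v)` with `F = 1` below `a'`, `0` above `b'`. -/
theorem sepK_of_walls (B : Bdry S) (hH : RH S l Q) {v : G → ℝ} {φ : Fin Q.n → G → ℝ}
    (hv : Q.KF v φ) {a b : ℝ} (hab : a < b) {U U' : Set G}
    (hU : (wallV S U ∩ {x | a < v x}).Finite) (hU' : (wallV S U' ∩ {x | v x < b}).Finite)
    (hd : (U ∩ U').Finite) : B.SepK Q (hatSet U') (hatSet U) := by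
  obtain ⟨δ, hδ⟩ : ∃ δ, δ = (b - a) / 3 := ⟨_, rfl⟩
  have h0 : 0 < δ := by linarith
  obtain ⟨p, hp⟩ := kcut hH hv (b := a + δ) (by linarith) hU
  obtain ⟨q, hq⟩ := kcut hH (hv.const_mul (-1)) (a := -b) (b := -(b - δ)) (U := U'ᶜ)
    (by linarith) (by simpa [wallV_compl] using hU')
  have hk := ((hp.add hq).const_mul δ⁻¹).lip₁ (F := min 1) zero_le_one fun r r' => by
    simpa using Bdry.capA_min_lip 1 r 1 r'
  generalize hu : (fun x => min 1 (δ⁻¹ * (ind U x * max (v x - (a + δ)) 0 +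
    ind U'ᶜ x * max (-1 * v x - -(b - δ)) 0))) = u at hk
  have h1 : ∀ x, 0 ≤ u x ∧ u x ≤ 1 := fun x => by
    have hi : ∀ V : Set G, 0 ≤ ind V x := fun V => by unfold ind; positivity
    have := hi U
    have := hi U'ᶜ
    rw [← hu]
    exact ⟨le_min zero_le_one (by positivity), min_le_left _ _⟩
  have hb : Bdd u := ⟨1, fun x => abs_le.2 ⟨by linarith [(h1 x).1], (h1 x).2⟩⟩
  have hae := (B.null_iff_ae _).1 (B.null_hatSet_of_finite hH.cay hd)
  refine ⟨hat u, ⟨⟨hb.measurable_hat, hb.bdd_hat, u, _, hb, hk, EventuallyEq.rfl⟩, fun ξ =>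
    ⟨ge_of_tendsto' (hb.tendsto_hat ξ) fun x => (h1 x).1,
      le_of_tendsto' (hb.tendsto_hat ξ) fun x => (h1 x).2⟩⟩, ?_, ?_⟩
  · filter_upwards [hae] with ξ h2 h3
    refine (hat_congr ?_).trans (hat_const 0 ξ)
    filter_upwards [h3, Ultrafilter.compl_mem_iff_notMem.2 h2] with x h4 h5
    have h6 : x ∉ U := fun h6 => h5 ⟨h6, h4⟩
    simp [← hu, ind, h4, h6]
  · filter_upwards [hae] with ξ h2 h3
    refine (hat_congr ?_).trans (hat_const 1 ξ)
    filter_upwards [h3, Ultrafilter.compl_mem_iff_notMem.2 h2] with x h4 h5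
    have h6 : x ∈ U'ᶜ := fun h6 => h5 ⟨h4, h6⟩
    simp only [← hu, ind, if_pos h4, if_pos h6, one_mul]
    refine min_eq_left ((one_le_inv_mul₀ h0).2 ?_)
    linarith [le_max_left (v x - (a + δ)) 0, le_max_left (-1 * v x - -(b - δ)) 0]

end Vale.Agent.P239
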