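import Vale.Agent.P239.Full.FClB
import Vale.Agent.P239.Full.FIsoW
import Vale.Agent.P239.Full.FKcut

/-! Task FEnd: classes carrying walls are not cut by other walls. `ks_cut_one`: as `kcut`. `a < a₁ < a₂ < b`, `val x = v x - ψ x`; only finitely many `T`-edges `y → y t` crossing `U` start at points with `a₂ < val y`
(either `|ψ y| ≥ a₂ - a₁`, or `osc r v y ≥ a₁ - a`, or a wall vertex in `bl y r` with `a < v`; `T ⊆ ball S r`, `exists_wall_path`). For a coset with `a₂ < val`, `OneT` gives `U ∩ coset` or `coset \ U` finite, nonempty only for finitely many cosets.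
`val' = max (val - b) 0` if `a₂ < val` and `coset \ U` is finite, else `0`. `dich`: `iso_of_wall` with `IsCl.thin`; `folner_or_gap'`, `oneT_of_folner`, `exists_grad_of_gap` with `IsCl.wired`, `ks_closure`.
`IsWCl.cut`: symmetrise `T` (`T ∪ T⁻¹` has the same closure), the cut function has finite energy by `kcut` for `hH.rh`; `ks_of_le`. `ended`: `exists_sep`, replace `v` by `-v` if necessary, `KS.tendsto`.
`fin_nbh`: a point of `U ∩ nbh r t` is near a point of `U ∩ t` or near a wall vertex in `nbh R s ∩ nbh r t`.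
-/

noncomputable section

open Classical MeasureTheory Filter Topology Set
open scoped Pointwise ENNReal

namespace Vale.Agent.P239

universe u
variable {G : Type u} [Group G] {S : Finset G} {l : ℕ} {B : Bdry S}

theorem fend_wall (hS : Cay S) {U : Set G} {x y : G} {r : ℕ} (h : ¬ (x ∈ U ↔ y ∈ U))
    (hy : y ∈ bl S x r) : ∃ z ∈ wallV S U, z ∈ bl S x r := by
  by_cases hx : x ∈ U
  · obtain ⟨z, h1, s, h2, h3, h4, -⟩ := exists_wall_path hS hx (fun h' => h (iff_of_true hx h')) hy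
    exact ⟨z, ⟨s, h2, fun h' => h3 (h'.1 h1)⟩, h4⟩
  · obtain ⟨z, h1, s, h2, h3, h4, -⟩ := exists_wall_path (U := Uᶜ) hS hx
      (fun h' => h (iff_of_false hx h')) hy
    exact ⟨z, ⟨s, h2, fun h' => h3 fun h5 => h1 (h'.2 h5)⟩, h4⟩

theorem fend_edges (hS : Cay S) (T : Finset G) {v ψ : G → ℝ} (hv : FinEn S v) (hψ : SqSum ψ)
    {a b : ℝ} (hab : a < b) {U : Set G} (hU : (wallV S U ∩ {x | a < v x}).Finite) :
    {x | b < v x - ψ x ∧ ∃ t ∈ T, ¬ (x ∈ U ↔ x * t ∈ U)}.Finite := by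
  obtain ⟨r, hr⟩ := hS.finite_subset_ball T.finite_toSet
  obtain ⟨C, -, H⟩ := osc_sq S r
  have h0 : 0 < (b - a) / 2 := half_pos (sub_pos.2 hab)
  refine (((nbh_finite (S := S) r hU).union ((H v hv).1.ncard_le h0).1).union
    (hψ.ncard_le h0).1).subset ?_
  rintro x ⟨h1, t, ht, h2⟩
  obtain ⟨z, h3, h4⟩ := fend_wall hS h2
    (show x⁻¹ * (x * t) ∈ ball S r by rw [inv_mul_cancel_left]; exact hr t ht)
  by_cases h5 : a < v z
  · exact Or.inl (Or.inl ⟨z, ⟨h3, h5⟩, mem_bl_symm hS h4⟩)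
  · have h6 := abs_sub_le_osc v x (one_mem_ball r) (show x⁻¹ * z ∈ ball S r from h4)
    rw [mul_one, mul_inv_cancel_left] at h6
    by_cases h7 : (b - a) / 2 ≤ |ψ x|
    · exact Or.inr h7
    · refine Or.inl (Or.inr (le_trans ?_ (le_abs_self (osc S r v x))))
      linarith [le_abs_self (v x - v z), neg_abs_le (ψ x), not_le.1 h7, not_lt.1 h5]

theorem ks_cut_one (hS : Cay S) {T : Finset G} (hT : ∀ t ∈ T, t⁻¹ ∈ T)
    (hi : (Subgroup.closure (T : Set G) : Set G).Infinite) (h1 : OneT T) {v ψ : G → ℝ}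
    (hv : FinEn S v) (hψ : KS (Subgroup.closure (T : Set G)) v ψ) {a b : ℝ} (hab : a < b)
    {U : Set G} (hU : (wallV S U ∩ {x | a < v x}).Finite) :
    ∃ ψ', KS (Subgroup.closure (T : Set G)) (fun x => ind U x * max (v x - b) 0) ψ' := by
  let Q : Cones T := ⟨1, fun _ => T, fun _ => Finset.Subset.refl T, fun _ => hT, fun _ => hi⟩
  obtain ⟨c, hc⟩ : ∃ c : G → Set G, ∀ x, c x = Q.cone (0 : Fin 1) x := ⟨_, fun _ => rfl⟩
  have c1 : ∀ x y, y ∈ c x ↔ x⁻¹ * y ∈ Subgroup.closure (T : Set G) := fun x y => by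
    rw [hc]
    rfl
  have c2 : ∀ x y, y ∈ c x → c y = c x := fun x y h => by
    rw [hc] at h
    rw [hc, hc, Cones.cone_eq h]
  have c3 : ∀ x, ∀ t ∈ T, c (x * t) = c x := fun x t ht => c2 _ _ (by
    rw [c1, inv_mul_cancel_left]
    exact Subgroup.subset_closure ht)
  have c4 : ∀ x y, y ∈ c x → v y - ψ y = v x - ψ x := fun x y h => by
    rw [← hψ.2 x _ ((c1 x y).1 h), mul_inv_cancel_left]
  have c5 : ∀ x, ∀ t ∈ T, v (x * t) - ψ (x * t) = v x - ψ x := fun x t ht =>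
    hψ.2 x t (Subgroup.subset_closure ht)
  have hE := fend_edges hS T hv hψ.1 hab hU
  have hO : ∀ γ, b < v γ - ψ γ → (U ∩ c γ).Finite ∨ (c γ \ U).Finite := by
    intro γ hγ
    have h2 := h1 {h | h ∈ Subgroup.closure (T : Set G) ∧ γ * h ∈ U} (fun h hh => hh.1) (by
      refine ((hE.image (γ⁻¹ * ·)).prod T.finite_toSet).subset ?_
      rintro ⟨h, t⟩ ⟨ht, he⟩
      have h3 : h * t ∈ Subgroup.closure (T : Set G) ↔ h ∈ Subgroup.closure (T : Set G) :=
        Subgroup.mul_mem_cancel_right _ (Subgroup.subset_closure ht)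
      simp only [Set.mem_ofPred_eq, h3] at he
      have h4 : h ∈ Subgroup.closure (T : Set G) := by tauto
      refine ⟨⟨γ * h, ⟨?_, t, ht, ?_⟩, inv_mul_cancel_left _ _⟩, ht⟩
      · rwa [hψ.2 γ h h4]
      · rw [mul_assoc]
        tauto)
    refine h2.imp (fun h => (h.image (γ * ·)).subset fun x hx => ?_)
      fun h => (h.image (γ * ·)).subset fun x hx => ?_
    · exact ⟨γ⁻¹ * x, ⟨(c1 _ _).1 hx.2, by rw [mul_inv_cancel_left]; exact hx.1⟩,
        mul_inv_cancel_left _ _⟩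
    · exact ⟨γ⁻¹ * x, ⟨(c1 _ _).1 hx.1, fun h => hx.2 (by simpa using h.2)⟩,
        mul_inv_cancel_left _ _⟩
  obtain ⟨A, hA⟩ : ∃ A : Set G,
      ∀ x, x ∈ A ↔ b < v x - ψ x ∧ ¬ (x ∈ U ↔ (c x \ U).Finite) := ⟨_, fun _ => Iff.rfl⟩
  have hEf : (edgeBd T A).Finite := by
    refine (hE.prod T.finite_toSet).subset ?_
    rintro ⟨x, t⟩ ⟨ht, he⟩
    simp only [hA, c3 x t ht, c5 x t ht] at he
    exact ⟨⟨by tauto, t, ht, by tauto⟩, ht⟩
  have hF : ∀ γ, (A ∩ c γ).Finite := fun γ => by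
    by_cases h1 : b < v γ - ψ γ
    · by_cases h2 : (c γ \ U).Finite
      · refine h2.subset fun x hx => ⟨hx.2, fun h3 => ((hA x).1 hx.1).2 ?_⟩
        rw [c2 _ _ hx.2]
        exact iff_of_true h3 h2
      · refine ((hO γ h1).resolve_right h2).subset
          fun x hx => ⟨by_contra fun h3 => ((hA x).1 hx.1).2 ?_, hx.2⟩
        rw [c2 _ _ hx.2]
        exact iff_of_false h3 h2
    · refine finite_empty.subset fun x hx => h1 ?_
      rw [← c4 _ _ hx.2]
      exact ((hA x).1 hx.1).1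
  have hAf : A.Finite := by
    refine (hEf.biUnion fun e _ => hF e.1).subset fun x hx => by_contra fun h0 => ?_
    have h1 := Cones.const_cone (Q := Q) (i := (0 : Fin 1)) (γ := x) (· ∈ A) fun y hy t ht =>
      propext (Iff.symm (by_contra fun h2 => h0 (mem_biUnion (x := (y, t)) ⟨ht, h2⟩
        ⟨hx, by rw [hc, Cones.cone_eq hy]; exact Cones.mem_cone_self _ x⟩)))
    exact Cones.cone_infinite (Q := Q) (0 : Fin 1) x
      ((hF x).subset fun y hy => ⟨(h1 y hy).mpr hx, by rwa [hc]⟩)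
  obtain ⟨q, hq⟩ : ∃ q : G → ℝ, ∀ x, q x = ind U x * max (v x - b) 0 -
    if (c x \ U).Finite then max (v x - ψ x - b) 0 else 0 := ⟨_, fun _ => rfl⟩
  obtain ⟨M, hM⟩ := (hAf.image fun x => |q x|).bddAbove
  refine ⟨q, ks_closure (fkcut_sq hψ.1 hAf (fun x hx => hM (mem_image_of_mem _ hx))
    fun x hx => ?_).1 fun x t ht => ?_⟩
  · have h1 := Bdry.capA_pos_lip b (v x) (v x - ψ x)
    rw [sub_sub_cancel] at h1
    rw [hq]
    by_cases h2 : b < v x - ψ x
    · have h3 : x ∈ U ↔ (c x \ U).Finite := by_contra fun h3 => hx ((hA x).2 ⟨h2, h3⟩)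
      simp only [← h3, ind]
      split_ifs
      · rwa [one_mul]
      · simp
    · rw [max_eq_right (by linarith : v x - ψ x - b ≤ 0), sub_zero] at h1
      simp only [max_eq_right (by linarith : v x - ψ x - b ≤ 0), ite_self, sub_zero]
      exact (fkcut_abs _ _ _).trans h1
  · simp only [hq, sub_sub_cancel, c3 x t ht, c5 x t ht]

theorem fend_inf (hH : HypQ S l) {H : Subgroup G} {U : Set G} (hU : WallOf B H U) :
    (H : Set G).Infinite := fun h => by
  obtain ⟨R, hR⟩ := hU.2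
  exact hU.1.wallV_infinite hH.cay hH.one ((nbh_finite R h).subset hR)

theorem dich (hH : HypQ S l) (hn : B.NonD) {t : Subgroup G} (ht : IsCl S t) {T : Finset G}
    (hT : ∀ x ∈ T, x⁻¹ ∈ T) (hsub : (T : Set G) ⊆ t) {U : Set G}
    (hU : WallOf B (Subgroup.closure (T : Set G)) U) :
    Iso T ∧ (OneT T ∨ ∀ θ, FinEn S θ → ∃ p, KS (Subgroup.closure (T : Set G)) θ p) := by
  have hi := fend_inf hH hU
  have hle : Subgroup.closure (T : Set G) ≤ t := (Subgroup.closure_le t).2 hsub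
  have hI : Iso T := iso_of_wall hH hT hU fun r =>
    (ht.thin hH.cay hH.gap hn r).mono (nbh_mono le_rfl hle)
  have hne : T.Nonempty := Finset.nonempty_iff_ne_empty.2 fun h => hi (by simp [h])
  refine ⟨hI, (folner_or_gap' hne).imp (fun h => oneT_of_folner hT hi h hI) fun h θ hθ => ?_⟩
  obtain ⟨p, h1, h2⟩ := exists_grad_of_gap h (u := θ) (summable_sum (ff_grad hH.cay T hθ))
    fun f hf hd => ht.wired hH.cay hsub θ hθ f hf (fun _ _ _ => ⟨mem_univ _, mem_univ _⟩) hd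
  exact ⟨p, ks_closure h1 h2⟩

theorem fend_en (hH : HypQ S l) {v : G → ℝ} (hv : FinEn S v) {a b : ℝ} (hab : a < b) {U : Set G}
    (hU : (wallV S U ∩ {x | a < v x}).Finite) : FinEn S fun x => ind U x * max (v x - b) 0 := by
  obtain ⟨φ, h⟩ := kcut hH.rh (φ := fun i => i.elim0) ⟨hv, fun i => i.elim0⟩ hab hU
  exact h.1

theorem IsWCl.cut (hH : HypQ S l) (hn : B.NonD) {t : Subgroup G} (ht : IsWCl B t) {v ψ : G → ℝ}
    (hv : FinEn S v) (hψ : KS t v ψ) {a b : ℝ} (hab : a < b) {U : Set G}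
    (hU : (wallV S U ∩ {x | a < v x}).Finite) :
    ∃ ψ', KS t (fun x => ind U x * max (v x - b) 0) ψ' := by
  obtain ⟨hcl, T, hT, U', hU'⟩ := ht
  have h1 : ∀ x ∈ T ∪ T⁻¹, x⁻¹ ∈ T ∪ T⁻¹ := fun x hx => by
    simp only [Finset.mem_union, Finset.mem_inv', inv_inv] at hx ⊢
    exact hx.symm
  have h2 : ((T ∪ T⁻¹ : Finset G) : Set G) ⊆ t := fun x hx => by
    simp only [Finset.mem_coe, Finset.mem_union, Finset.mem_inv'] at hx
    exact hx.elim (fun h => hT h) fun h => t.inv_mem_iff.1 (hT h)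
  have h3 : WallOf B (Subgroup.closure ((T ∪ T⁻¹ : Finset G) : Set G)) U' :=
    hU'.mono (Subgroup.closure_mono (Finset.coe_subset.2 Finset.subset_union_left))
  have hi := fend_inf hH h3
  have hle := (Subgroup.closure_le t).2 h2
  have h4 := fend_en hH hv hab hU
  obtain ⟨ψ', h5⟩ := (dich hH hn hcl h1 h2 h3).2.elim
    (fun h => ks_cut_one hH.cay h1 hi h hv (hψ.mono hle) hab hU) fun h => h _ h4
  exact ⟨ψ', hcl.ks_of_le hH.cay hle hi h4 h5⟩

theorem fend_lim (hS : Cay S) {H : Subgroup G} {u φ : G → ℝ} (hu : FinEn S u) (h : KS H u φ)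
    (r : ℕ) {η : ℝ} (hη : 0 < η) : {x | x ∈ nbh S r H ∧ η ≤ |u x - (u 1 - φ 1)|}.Finite := by
  have h1 := h.tendsto hS hu r 1
  rw [one_smul] at h1
  refine (eventually_cofinite.1
    (eventually_inf_principal.1 (Metric.tendsto_nhds.1 h1 η hη))).subset fun x hx h2 => ?_
  exact absurd (h2 hx.1) (not_lt.2 hx.2)

theorem fend_aux (hH : HypQ S l) (hn : B.NonD) {s t : Subgroup G} (ht : IsWCl B t)
    {U : Set G} {R : ℕ} (hU : wallV S U ⊆ nbh S R s) {v φ ψ : G → ℝ} (hv : FinEn S v)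
    (hφ : KS s v φ) (hψ : KS t v ψ) (hlt : v 1 - φ 1 < v 1 - ψ 1) :
    (U ∩ t).Finite ∨ ((t : Set G) \ U).Finite := by
  obtain ⟨η, hη⟩ : ∃ η, η = (φ 1 - ψ 1) / 5 := ⟨_, rfl⟩
  have h0 : 0 < η := by linarith
  have hab : v 1 - φ 1 + η < v 1 - φ 1 + 2 * η := by linarith
  have h1 : (wallV S U ∩ {x | v 1 - φ 1 + η < v x}).Finite :=
    (fend_lim hH.cay hv hφ R h0).subset fun x hx =>
      ⟨hU hx.1, le_trans (by linarith [show v 1 - φ 1 + η < v x from hx.2]) (le_abs_self _)⟩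
  obtain ⟨ψ', h2⟩ := ht.cut hH hn hv hψ hab h1
  have h3 := (fend_lim hH.cay hv hψ 0 h0).union (fend_lim hH.cay (fend_en hH hv hab h1) h2 0 h0)
  by_contra hc
  rw [not_or] at hc
  obtain ⟨x, hx, hx'⟩ := Set.Infinite.exists_notMem_finite hc.1 h3
  obtain ⟨y, hy, hy'⟩ := Set.Infinite.exists_notMem_finite hc.2 h3
  have a1 := abs_lt.1 (not_le.1 fun h => hx' (Or.inl ⟨subset_nbh 0 _ hx.2, h⟩))
  have a2 := abs_lt.1 (not_le.1 fun h => hx' (Or.inr ⟨subset_nbh 0 _ hx.2, h⟩))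
  have a3 := abs_lt.1 (not_le.1 fun h => hy' (Or.inr ⟨subset_nbh 0 _ hy.1, h⟩))
  rw [show ind U x = 1 from if_pos hx.1, one_mul] at a2
  rw [show ind U y = 0 from if_neg hy.2, zero_mul] at a3
  linarith [le_max_left (v x - (v 1 - φ 1 + 2 * η)) 0, a1.1, a2.2, a3.1]

theorem ended (hH : HypQ S l) (hn : B.NonD) {s t : Subgroup G} (hs : IsCl S s) (ht : IsWCl B t)
    (hne : s ≠ t) {U : Set G} {R : ℕ} (hU : wallV S U ⊆ nbh S R s) :
    (U ∩ t).Finite ∨ ((t : Set G) \ U).Finite := by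
  obtain ⟨v, φ, ψ, -, -, hv, hφ, hψ, h1, -⟩ :=
    exists_sep hH.cay hH.tf hs ht.1 hne (m := 0) (fun i => i.elim0) fun i => i.elim0
  have hF : ∀ a a' : ℝ, |-a - -a'| ≤ 1 * |a - a'| := fun a a' => by
    rw [one_mul, neg_sub_neg, abs_sub_comm]
  rcases h1.lt_or_gt with h | h
  · exact fend_aux hH hn ht hU (hv.lip₁ (F := fun a => -a) zero_le_one hF)
      (hφ.lip₁ (F := fun a => -a) zero_le_one hF) (hψ.lip₁ (F := fun a => -a) zero_le_one hF)
      (by linarith)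
  · exact fend_aux hH hn ht hU hv hφ hψ (by linarith)

theorem fin_nbh (hS : Cay S) (tf : TorsionFree G) {s t : Subgroup G} (hs : IsCl S s)
    (ht : IsCl S t) (hne : s ≠ t) {U : Set G} {R : ℕ} (hU : wallV S U ⊆ nbh S R s)
    (hf : (U ∩ t).Finite) (r : ℕ) : (U ∩ nbh S r t).Finite := by
  refine ((nbh_finite (S := S) r hf).union
    (nbh_finite (S := S) (r + r) (hs.nbh_inter_finite hS tf ht hne R r))).subset ?_
  rintro x ⟨h1, a, h2, h3⟩
  by_cases h4 : a ∈ U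
  · exact Or.inl ⟨a, ⟨h4, h2⟩, h3⟩
  · obtain ⟨z, h5, h6⟩ := fend_wall hS (fun h => h4 (h.2 h1)) h3
    exact Or.inr ⟨z, ⟨hU h5, a, h2, h6⟩, mem_bl_trans (mem_bl_symm hS h6) h3⟩

end Vale.Agent.P239
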