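import Vale.Agent.P239.Full.FTrB
import Vale.Agent.P239.Full.FEnd

/-! Task FTrC: restriction of functions, wired subsets, isoperimetry. `finEn_restrict`: `FinEn.of_cay` for `upF S'`, sum over a subset. `wired_of_wk`: approximate `u` by `u'` with `KS (cls (K i))` for all `i` (`dens_cl`, `pairE_of_dense`);
split the sum over `G` into left cosets of `Γ` (`Subgroup.groupEquivQuotientProdSubgroup`, `pairE_summable`, `Summable.tsum_prod`); on the coset `x Γ` use `f (x γ) b` and the restriction of `u' (x ·)` (`KS.translate`). `iso`: `dich` with `wallOf`.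
-/

noncomputable section

open Classical MeasureTheory Filter Topology Set
open scoped Pointwise ENNReal

namespace Vale.Agent.P239

universe u
variable {G : Type u} [Group G] {S : Finset G} {l L : ℕ} {B : Bdry S} {Z : Cores B L}
  (Y : Tr Z)

theorem iso_of_upF {Γ : Subgroup G} {T : Finset Γ} (h : Iso (upF T)) : Iso T := by
  intro K
  obtain ⟨K', hK'⟩ := h K
  refine ⟨K', fun A hA hK => ?_⟩
  have hm : ∀ γ : Γ, (γ : G) ∈ Subtype.val '' A ↔ γ ∈ A := fun γ =>
    Subtype.val_injective.mem_set_image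
  have he : edgeBd (upF T) (Subtype.val '' A) =
      Prod.map Subtype.val Subtype.val '' edgeBd T A := by
    ext ⟨x, b⟩
    constructor
    · rintro ⟨h1, h2⟩
      obtain ⟨β, hβ, rfl⟩ := mem_upF.1 h1
      have hx : x ∈ Γ := by
        by_contra hx
        refine h2 ⟨?_, ?_⟩
        · rintro ⟨a, -, rfl⟩
          exact (hx a.2).elim
        · rintro ⟨a, -, ha⟩
          refine (hx ?_).elim
          have e : x = (a : G) * (β : G)⁻¹ := by
            rw [ha]
            simp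
          rw [e]
          exact Γ.mul_mem a.2 (Γ.inv_mem β.2)
      refine ⟨(⟨x, hx⟩, β), ⟨hβ, fun h3 => h2 ?_⟩, rfl⟩
      exact (hm ⟨x, hx⟩).trans (h3.trans (hm (⟨x, hx⟩ * β)).symm)
    · rintro ⟨⟨y, β⟩, ⟨h1, h2⟩, h3⟩
      obtain ⟨rfl, rfl⟩ := Prod.mk.inj h3
      refine ⟨mem_upF.2 ⟨β, h1, rfl⟩, fun h3 => h2 ?_⟩
      exact (hm y).symm.trans (h3.trans (hm (y * β)))
  have h1 := hK' (Subtype.val '' A) (hA.image _) (by
    rw [he, Set.ncard_image_of_injective _ (Subtype.val_injective.prodMap Subtype.val_injective)]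
    exact hK)
  rwa [Set.ncard_image_of_injective _ Subtype.val_injective] at h1

theorem sum_upF_TrC {Γ : Subgroup G} (T : Finset Γ) (a : G → ℝ) :
    ∑ b ∈ upF T, a b = ∑ b ∈ T, a (b : G) := by
  unfold upF
  rw [Finset.sum_map]
  rfl

theorem tsum_coset_TrC (Γ : Subgroup G) {a : G → ℝ} (ha : Summable a)
    (h : ∀ x, ∑' γ : Γ, a (x * γ) = 0) : ∑' x, a x = 0 := by
  have hb : Function.Bijective fun p : (G ⧸ Γ) × Γ => p.1.out * (p.2 : G) := by
    constructor
    · rintro ⟨q, γ⟩ ⟨q', γ'⟩ he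
      have he' : q.out * (γ : G) = q'.out * (γ' : G) := he
      have h1 : q = q' := by
        have h2 := congrArg (QuotientGroup.mk (s := Γ)) he'
        rwa [QuotientGroup.mk_mul_of_mem _ γ.2, QuotientGroup.mk_mul_of_mem _ γ'.2,
          QuotientGroup.out_eq', QuotientGroup.out_eq'] at h2
      subst h1
      rw [Subtype.val_injective (mul_left_cancel he')]
    · intro x
      obtain ⟨γ, hγ⟩ := QuotientGroup.mk_out_eq_mul Γ x
      refine ⟨((x : G ⧸ Γ), γ⁻¹), ?_⟩
      simp [hγ]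
  rw [← (Equiv.ofBijective _ hb).tsum_eq]
  refine ((Equiv.ofBijective _ hb).summable_iff.2 ha).tsum_prod.trans ?_
  simp only [Function.comp_apply, Equiv.ofBijective_apply, h, tsum_zero]

namespace Tr

theorem finEn_restrict (hS : Cay S) {v : G → ℝ} (hv : FinEn S v) :
    FinEn Y.S' fun γ => v (γ : G) := by
  obtain ⟨C, -, hC⟩ := FinEn.of_cay hS (upF Y.S')
  have h1 : Summable (grad2 (upF Y.S') v) := (hC v hv).1
  refine (h1.comp_injective (Subtype.val_injective (p := fun x => x ∈ Z.Γ))).congr fun γ => ?_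
  exact sum_upF_TrC _ _

theorem kf_restrict (hS : Cay S) {v : G → ℝ} (hv : FinEn S v) {χ : Fin Y.Q.n → G → ℝ}
    (h : ∀ i, KS (Z.cls (Y.K i)) v (χ i)) :
    Y.Q.KF (fun γ => v (γ : G)) (fun i γ => χ i (γ : G)) := by
  refine ⟨Y.finEn_restrict hS hv, fun i => ⟨?_, fun x t ht => ?_⟩⟩
  · exact (h i).1.comp_injective (Subtype.val_injective (p := fun x => x ∈ Z.Γ))
  · exact (h i).2 x t (Y.upF_sub hS i (Finset.mem_coe.2 (mem_upF.2 ⟨t, ht, rfl⟩)))

theorem wired_of_wk (hS : Cay S) {T : Finset Z.Γ} (h : Y.Q.WK T) : Wired S (upF T) := by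
  intro u hu f hf _ hd
  refine pairE_of_dense hS hf hu fun ε hε => ?_
  obtain ⟨u', -, ψ, hu', -, hψ, -, he, -⟩ := dens_cl hS (n := 0) Fin.elim0
    (fun i => Z.cls (Y.K i)) (fun i => (Z.cl _ (Y.K_mem i)).1) hu (φ := Fin.elim0)
    (fun i => i.elim0) hε
  refine ⟨u', hu', he, ?_⟩
  obtain ⟨C, -, hC⟩ := FinEn.of_cay hS (upF T)
  refine tsum_coset_TrC Z.Γ (pairE_summable hf (hC u' hu').1) fun x => ?_
  have h1 := h _ _ (Y.kf_restrict hS (hu'.translate x).1 fun i => (hψ i).translate x)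
    (fun γ b => f (x * γ) b) (fun b hb => ?_) (fun y => ?_)
  · refine Eq.trans (tsum_congr fun γ => ?_) h1
    rw [sum_upF_TrC]
    simp only [Subgroup.coe_mul, mul_assoc]
  · exact (hf b (mem_upF.2 ⟨b, hb, rfl⟩)).comp_injective (i := fun γ : Z.Γ => x * (γ : G))
      fun a a' h2 => Subtype.val_injective (mul_left_cancel h2)
  · have h2 := hd (x * y)
    rw [sum_upF_TrC] at h2
    simpa only [Subgroup.coe_mul, Subgroup.coe_inv, mul_assoc] using h2

theorem iso (hH : HypQ S l) (hn : B.NonD) (hL : 1 ≤ L) (i : Fin Y.Q.n) : Iso (Y.Q.T i) := by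
  refine iso_of_upF (dich hH hn (Z.cl _ (Y.K_mem i)).1 (fun x hx => ?_) (Y.upF_sub hH.cay i)
    (Y.wallOf hH.cay hL i)).1
  obtain ⟨t, ht, rfl⟩ := mem_upF.1 hx
  exact mem_upF.2 ⟨t⁻¹, Y.Q.symm i t ht, rfl⟩

end Tr

end Vale.Agent.P239
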