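import Vale.Agent.P239.Full.FExt
import Vale.Agent.P239.Full.FTrC
import Vale.Agent.P239.Full.FAx23a
import Vale.Agent.P239.Full.FAx23b

/-! Task FAx6: the axioms for the vertex group. `one`: `ext_cut` with `v = 1`, `a = 0`, `b = 1/2`, pull back along `γ ↦ γ x0`. `ax23`: `l' = max 1 m`, `exists_pot`, `lift_locExact` (`fib_finite`), `sc` resp. `cof`, `lift_transfer`.
`ax6`: `dich` for `upF (T i)`. One-ended case: `A = {h ∈ closure | γ h ∈ U}` has finitely many boundary edges. Otherwise `a < b < b' < c`, `ext_cut`, `θ = ind U' * max (w - b') 0` has finite energy (`kcut` for `hH.rh`), so it converges along the neighbourhoods of the coset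
(`KS.tendsto`); at the points `σ z` of `outer` it equals `ind U (σ d) * max (v (σ d) - b') 0` with `v (σ d) → c` (`FinEn.tendsto_nbh`); and `σ ∈ U ↔ σ d ∈ U` for all but finitely many `σ` in the cone (`exists_wall_path`).
-/

noncomputable section

open Classical MeasureTheory Filter Topology Set
open scoped Pointwise ENNReal

namespace Vale.Agent.P239

universe u
variable {G : Type u} [Group G] {S : Finset G} {l L : ℕ} {B : Bdry S} {Z : Cores B L}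
  (Y : Tr Z)

theorem fax6_ev {α : Type*} {C : Set α} {P : α → Prop} (h : ∀ᶠ y in cofinite ⊓ 𝓟 C, P y) :
    {y | y ∈ C ∧ ¬ P y}.Finite := by
  rw [eventually_inf_principal, eventually_cofinite] at h
  refine h.subset fun y hy => ?_
  exact fun h' => hy.2 (h' hy.1)

theorem fax6_map {α β : Type*} {C : Set α} {C' : Set β} {f : α → β} (hf : Function.Injective f)
    (h : ∀ y ∈ C, f y ∈ C') : Tendsto f (cofinite ⊓ 𝓟 C) (cofinite ⊓ 𝓟 C') :=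
  Tendsto.inf hf.tendsto_cofinite (tendsto_principal_principal.2 h)

theorem fax6_side {H : Type u} [Group H] {T : Finset H} (hT : Cay T) {U C : Set H} {v : H → ℝ}
    {a c : ℝ} (hac : a < c) (hv : FinEn T v) (hl : Tendsto v (cofinite ⊓ 𝓟 C) (𝓝 c))
    (hU : (wallV T U ∩ {x | a < v x}).Finite) (d : H) :
    {σ | σ ∈ C ∧ ¬ (σ ∈ U ↔ σ * d ∈ U)}.Finite := by
  obtain ⟨r, hr⟩ := hT.exists_ball d
  have h1 := fax6_ev ((FinEn.tendsto_nbh hT hv hl r).eventually (lt_mem_nhds hac))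
  refine (nbh_finite (S := T) r (hU.union h1)).subset ?_
  rintro σ ⟨hσ, hn⟩
  have hd : σ * d ∈ bl T σ r := by
    change σ⁻¹ * (σ * d) ∈ ball T r
    rwa [inv_mul_cancel_left]
  have key : ∃ y ∈ wallV T U, y ∈ bl T σ r := by
    by_cases hs : σ ∈ U
    · have hs' : σ * d ∉ U := fun h => hn ⟨fun _ => h, fun _ => hs⟩
      obtain ⟨y, hy, s, hs1, hs2, hy1, -⟩ := exists_wall_path hT hs hs' hd
      exact ⟨y, ⟨s, hs1, fun h => hs2 (h.1 hy)⟩, hy1⟩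
    · have hs' : σ * d ∉ Uᶜ := fun h => hn ⟨fun h' => absurd h' hs, fun h' => absurd h' h⟩
      obtain ⟨y, hy, s, hs1, hs2, hy1, -⟩ := exists_wall_path (U := Uᶜ) hT hs hs' hd
      exact ⟨y, ⟨s, hs1, fun h => hy (h.2 (not_not.1 hs2))⟩, hy1⟩
  obtain ⟨y, hy, hy1⟩ := key
  refine ⟨y, ?_, mem_bl_symm hT hy1⟩
  by_cases hay : a < v y
  · exact Or.inl ⟨hy, hay⟩
  · exact Or.inr ⟨⟨σ, hσ, hy1⟩, hay⟩

namespace Tr

theorem fax6_inj : Function.Injective fun γ : Z.Γ => (γ : G) * Y.x0 := fun _ _ h =>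
  Subtype.ext (mul_right_cancel h)

theorem fax6_X (γ : Z.Γ) : (γ : G) * Y.x0 ∈ Z.X := (Z.smul_mem_X γ.2).2 Y.hx0

theorem fax6_pi (γ : Z.Γ) : Y.π ((γ : G) * Y.x0) = γ := by rw [Y.π_mul, Y.π_x0, mul_one]

theorem fax6_mem {i : Fin Y.Q.n} {g : G} :
    g ∈ Subgroup.closure (upF (Y.Q.T i) : Set G) ↔ ∃ h ∈ Y.Q.H i, (h : G) = g := by
  rw [closure_upF, Subgroup.mem_map]
  rfl

theorem fax6_one {i : Fin Y.Q.n} (h1 : OneT (upF (Y.Q.T i))) (γ : Z.Γ) {v : Z.Γ → ℝ} {c a : ℝ}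
    (hac : a < c) (hl : Tendsto v (cofinite ⊓ 𝓟 (Y.Q.cone i γ)) (𝓝 c)) {U : Set Z.Γ}
    (hU : (wallV Y.S' U ∩ {x | a < v x}).Finite) :
    (U ∩ Y.Q.cone i γ).Finite ∨ (Y.Q.cone i γ \ U).Finite := by
  have h2 := fax6_ev (hl.eventually (lt_mem_nhds hac))
  let A : Set G := {g | ∃ h ∈ Y.Q.H i, (h : G) = g ∧ γ * h ∈ U}
  have hA : ∀ h : Z.Γ, h ∈ Y.Q.H i → ((h : G) ∈ A ↔ γ * h ∈ U) := fun h hh =>
    ⟨fun ⟨h', _, e, hu⟩ => by rwa [← Subtype.ext e], fun hu => ⟨h, hh, rfl, hu⟩⟩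
  have hinj : Function.Injective fun y : Z.Γ => ((γ⁻¹ * y : Z.Γ) : G) := fun _ _ h =>
    mul_left_cancel (Subtype.ext h)
  have hfin : (edgeBd (upF (Y.Q.T i)) A).Finite := by
    refine (((hU.union h2).image fun y : Z.Γ => ((γ⁻¹ * y : Z.Γ) : G)).prod
      (upF (Y.Q.T i)).finite_toSet).subset ?_
    rintro ⟨x, t⟩ ⟨ht, hn⟩
    refine ⟨?_, ht⟩
    obtain ⟨τ, hτ, rfl⟩ := mem_upF.1 ht
    have hτH : τ ∈ Y.Q.H i := Subgroup.subset_closure hτ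
    have hx : ∃ h ∈ Y.Q.H i, (h : G) = x := by
      by_cases hxA : x ∈ A
      · obtain ⟨h, hh, e, -⟩ := hxA
        exact ⟨h, hh, e⟩
      · have : x * τ ∈ A := by
          by_contra h'
          exact hn ⟨fun h => absurd h hxA, fun h => absurd h h'⟩
        obtain ⟨h, hh, e, -⟩ := this
        refine ⟨h * τ⁻¹, mul_mem hh (inv_mem hτH), ?_⟩
        rw [Subgroup.coe_mul, e, Subgroup.coe_inv, mul_inv_cancel_right]
    obtain ⟨h, hh, rfl⟩ := hx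
    refine ⟨γ * h, ?_, by simp⟩
    have hw : γ * h ∈ wallV Y.S' U := by
      refine ⟨τ, Y.Q.sub i hτ, fun e => hn ?_⟩
      change (h : G) ∈ A ↔ ((h * τ : Z.Γ) : G) ∈ A
      rw [hA h hh, hA _ (mul_mem hh hτH), ← mul_assoc]
      exact e
    by_cases hay : a < v (γ * h)
    · exact Or.inl ⟨hw, hay⟩
    · refine Or.inr ⟨?_, hay⟩
      change γ⁻¹ * (γ * h) ∈ Y.Q.H i
      rwa [inv_mul_cancel_left]
  rcases h1 A (fun g ⟨h, hh, e, _⟩ => Y.fax6_mem.2 ⟨h, hh, e⟩) hfin with h | h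
  · refine Or.inl ((h.preimage hinj.injOn).subset ?_)
    rintro y ⟨hy, hc⟩
    exact (hA _ hc).2 (by rwa [mul_inv_cancel_left])
  · refine Or.inr ((h.preimage hinj.injOn).subset ?_)
    rintro y ⟨hc, hy⟩
    refine ⟨Y.fax6_mem.2 ⟨_, hc, rfl⟩, fun h' => hy ?_⟩
    have := (hA _ hc).1 h'
    rwa [mul_inv_cancel_left] at this

theorem fax6_two (hH : HypQ S l) (hL : 2 * l + 2 ≤ L) {i : Fin Y.Q.n}
    (h1 : ∀ θ, FinEn S θ → ∃ p, KS (Subgroup.closure (upF (Y.Q.T i) : Set G)) θ p) (γ : Z.Γ)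
    {v : Z.Γ → ℝ} {φ : Fin Y.Q.n → Z.Γ → ℝ} (hv : Y.Q.KF v φ) {c a : ℝ}
    (hac : a < c) (hl : Tendsto v (cofinite ⊓ 𝓟 (Y.Q.cone i γ)) (𝓝 c)) {U : Set Z.Γ}
    (hU : (wallV Y.S' U ∩ {x | a < v x}).Finite) :
    (U ∩ Y.Q.cone i γ).Finite ∨ (Y.Q.cone i γ \ U).Finite := by
  set δ : ℝ := (c - a) / 3 with hδ
  have hδ0 : 0 < δ := by rw [hδ]; linarith
  obtain ⟨w, U', hw, hX, -, hfin⟩ := Y.ext_cut hH hL hv (show a < a + δ by linarith) hU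
  have hk : (Cones.empty S).KF w (fun j => j.elim0) := ⟨hw, fun j => j.elim0⟩
  obtain ⟨φ', hθ, -⟩ := kcut hH.rh hk (show a + δ < a + 2 * δ by linarith) hfin
  obtain ⟨p, hp⟩ := h1 _ hθ
  obtain ⟨z, d, hz⟩ := Y.outer hH.cay (by omega) i γ
  obtain ⟨r, hr⟩ := hH.cay.exists_ball z
  obtain ⟨r', hr'⟩ := Y.cay.exists_ball d
  have t1 := (KS.tendsto hH.cay hθ hp r (γ : G)).comp
    (fax6_map (C := Y.Q.cone i γ) (f := fun σ : Z.Γ => (σ : G) * z)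
      (fun _ _ h => Subtype.ext (mul_right_cancel h)) (fun σ hσ => by
        refine ⟨σ, ⟨((γ⁻¹ * σ : Z.Γ) : G), Y.fax6_mem.2 ⟨_, hσ, rfl⟩, by simp⟩, ?_⟩
        rwa [inv_mul_cancel_left]))
  have t2 := (FinEn.tendsto_nbh Y.cay hv.1 hl r').comp
    (fax6_map (C := Y.Q.cone i γ) (f := fun σ : Z.Γ => σ * d)
      (fun _ _ h => mul_right_cancel h) (fun σ hσ => ⟨σ, hσ, by rwa [inv_mul_cancel_left]⟩))
  set Lm : ℝ := ind U' (γ : G) * max (w γ - (a + 2 * δ)) 0 - p γ with hLm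
  have e1 := fax6_ev (t1.eventually (Ioo_mem_nhds (show Lm - δ / 4 < Lm by linarith)
    (show Lm < Lm + δ / 4 by linarith)))
  have e2 := fax6_ev (t2.eventually (lt_mem_nhds (show c - δ / 2 < c by linarith)))
  have e3 := fax6_side Y.cay hac hv.1 hl hU d
  have hE := (e1.union e2).union e3
  have val : ∀ σ ∈ Y.Q.cone i γ, ind U' ((σ : G) * z) * max (w ((σ : G) * z) - (a + 2 * δ)) 0 =
      ind U (σ * d) * max (v (σ * d) - (a + 2 * δ)) 0 := by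
    intro σ hσ
    obtain ⟨-, hx, hπ⟩ := hz σ hσ
    obtain ⟨q1, q2⟩ := hX _ hx
    rw [hπ] at q1 q2
    rw [q1]
    unfold ind
    rw [if_congr q2 rfl rfl]
  by_contra hcon
  rw [not_or] at hcon
  obtain ⟨σ₁, ⟨hu1, hc1⟩, hn1⟩ := (Set.Infinite.sdiff hcon.1 hE).nonempty
  obtain ⟨σ₂, ⟨hc2, hu2⟩, hn2⟩ := (Set.Infinite.sdiff hcon.2 hE).nonempty
  have a1 : Lm - δ / 4 < ind U' ((σ₁ : G) * z) * max (w ((σ₁ : G) * z) - (a + 2 * δ)) 0 ∧
      ind U' ((σ₁ : G) * z) * max (w ((σ₁ : G) * z) - (a + 2 * δ)) 0 < Lm + δ / 4 := by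
    by_contra h
    exact hn1 (Or.inl (Or.inl ⟨hc1, h⟩))
  have a2 : Lm - δ / 4 < ind U' ((σ₂ : G) * z) * max (w ((σ₂ : G) * z) - (a + 2 * δ)) 0 ∧
      ind U' ((σ₂ : G) * z) * max (w ((σ₂ : G) * z) - (a + 2 * δ)) 0 < Lm + δ / 4 := by
    by_contra h
    exact hn2 (Or.inl (Or.inl ⟨hc2, h⟩))
  have b1 : c - δ / 2 < v (σ₁ * d) := by
    by_contra h
    exact hn1 (Or.inl (Or.inr ⟨hc1, h⟩))
  have d1 : σ₁ * d ∈ U := by
    by_contra h
    exact hn1 (Or.inr ⟨hc1, fun h' => h (h'.1 hu1)⟩)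
  have d2 : σ₂ * d ∉ U := fun h => hn2 (Or.inr ⟨hc2, fun h' => hu2 (h'.2 h)⟩)
  rw [val σ₁ hc1] at a1
  rw [val σ₂ hc2] at a2
  simp only [ind, if_pos d1, if_neg d2, one_mul, zero_mul] at a1 a2
  have := le_max_left (v (σ₁ * d) - (a + 2 * δ)) 0
  linarith [a1.1, a1.2, a2.1, a2.2]

theorem one (hH : HypQ S l) (hL : 2 * l + 2 ≤ L) : OneEnded Y.S' := by
  intro U hU
  have hU' : (wallV Y.S' U ∩ {x | (0 : ℝ) < (fun _ : Z.Γ => (1 : ℝ)) x}).Finite :=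
    ((wallV_finite_iff U).2 hU).inter_of_left _
  obtain ⟨w, U', -, hX, hK, hfin⟩ := Y.ext_cut hH hL (Cones.kf_const (Q := Y.Q) 1)
    (show (0 : ℝ) < 1 / 2 by norm_num) hU'
  have hw : ∀ x, w x = 1 := by
    intro x
    by_cases hx : x ∈ Z.X
    · exact (hX x hx).1
    · simp only [Cores.X, mem_ofPred_eq, not_forall, not_not] at hx
      obtain ⟨K, hK1, hK2⟩ := hx
      obtain ⟨i, γ, rfl⟩ := Y.orbit K hK1
      rw [hK i γ x hK2, sub_zero]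
  have h1 : (wallV S U').Finite :=
    hfin.subset fun x hx => ⟨hx, by rw [mem_ofPred_eq, hw x]; norm_num⟩
  have hiff : ∀ γ : Z.Γ, (γ : G) * Y.x0 ∈ U' ↔ γ ∈ U := fun γ => by
    rw [(hX _ (Y.fax6_X γ)).2, Y.fax6_pi]
  rcases hH.one U' ((wallV_finite_iff U').1 h1) with h | h
  · exact Or.inl ((h.preimage Y.fax6_inj.injOn).subset fun γ hγ => (hiff γ).2 hγ)
  · exact Or.inr ((h.preimage Y.fax6_inj.injOn).subset fun γ hγ h' => hγ ((hiff γ).1 h'))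

theorem ax23 (hH : HypQ S l) (hL : 2 * l + 2 ≤ L) : ∃ l' : ℕ,
    (∀ c : Z.Γ → Z.Γ → ℤ, (∀ y, LocExact Y.S' l' c y) → (∀ i γ, ExOn Y.S' c (Y.Q.cn l' i γ)) →
      ExOn Y.S' c univ) ∧
    ∀ (c : Z.Γ → Z.Γ → ℤ) (F : Set Z.Γ), F.Finite → (∀ y, y ∉ F → LocExact Y.S' l' c y) →
      (∀ i γ, ExOn Y.S' c (Y.Q.cn l' i γ \ F)) → ∃ w, (defect Y.S' c w).Finite := by
  obtain ⟨R, m, hR⟩ := Y.lift_transfer hH.cay (show 1 ≤ L by omega)
  refine ⟨max 1 m, fun c hc hcone => ?_, fun c F hF hc hcone => ?_⟩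
  · obtain ⟨D, hD⟩ := Y.exists_pot (F := ∅) (c := c) (l' := max 1 m)
      fun i γ => (hcone i γ).mono sdiff_subset
    obtain ⟨w, hw⟩ := hH.sc (Y.lift c D) fun y =>
      Y.lift_locExact hH.cay hL (le_max_left 1 m) hD (fun y _ => hc y) fun _ _ _ h => h
    exact ⟨fun γ => w ((γ : G) * Y.x0), fun γ _ s hs =>
      hR _ (le_max_right 1 m) c D ∅ hD w γ (hc γ) (disjoint_empty _)
        (fun x _ s hs => hw x (mem_univ _) s hs) s hs⟩
  · obtain ⟨D, hD⟩ := Y.exists_pot hcone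
    have h1 : {y | ¬ LocExact S l (Y.lift c D) y}.Finite := by
      refine (nbh_finite (S := S) l (Y.fib_finite hF)).subset fun y hy => ?_
      by_contra hn
      refine hy (Y.lift_locExact hH.cay hL (le_max_left 1 m) hD hc fun x hx hxX hxF => hn ?_)
      exact ⟨x, ⟨subset_nbh 1 _ hxX, hxF⟩, mem_bl_symm hH.cay hx⟩
    obtain ⟨w, hw⟩ := hH.cof _ h1
    refine ⟨fun γ => w ((γ : G) * Y.x0), ?_⟩
    have h2 := (nbh_finite (S := S) R (hw.image Prod.fst)).preimage Y.fax6_inj.injOn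
    have h3 := nbh_finite (S := Y.S') (max 1 m) hF
    refine ((h2.union h3).prod Y.S'.finite_toSet).subset ?_
    rintro ⟨γ, s⟩ ⟨hs, hne⟩
    refine ⟨?_, hs⟩
    by_contra hn
    rw [mem_union, not_or] at hn
    have hγ : γ ∉ F := fun h => hn.2 (subset_nbh _ _ h)
    refine hne (hR _ (le_max_right 1 m) c D F hD w γ (hc γ hγ) ?_ ?_ s hs)
    · rw [Set.disjoint_left]
      intro y hy hyF
      exact hn.2 ⟨y, hyF, mem_bl_symm Y.cay hy⟩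
    · intro x hx t ht
      by_contra hxt
      exact hn.1 ⟨x, ⟨(x, t), ⟨ht, hxt⟩, rfl⟩, mem_bl_symm hH.cay hx⟩

theorem ax6 (hH : HypQ S l) (hn : B.NonD) (hL : 2 * l + 2 ≤ L) (i : Fin Y.Q.n) (γ : Z.Γ) :
    Y.Q.End (Y.Q.cone i γ) := by
  intro v φ hv c a hac hl U hU
  have hT : ∀ x ∈ upF (Y.Q.T i), x⁻¹ ∈ upF (Y.Q.T i) := by
    intro x hx
    obtain ⟨τ, hτ, rfl⟩ := mem_upF.1 hx
    exact mem_upF.2 ⟨τ⁻¹, Y.Q.symm i τ hτ, rfl⟩
  rcases (dich hH hn (Z.cl _ (Y.K_mem i)).1 hT (Y.upF_sub hH.cay i)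
    (Y.wallOf hH.cay (by omega) i)).2 with h | h
  · exact Y.fax6_one h γ hac hl hU
  · exact Y.fax6_two hH hL h γ hv hac hl hU

end Tr

end Vale.Agent.P239
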