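import Vale.Agent.P239.Full.FDef
import Vale.Agent.P239.FinA

/-! Task FBas: elementary facts about balls, walls, cones, cochains. All proofs are short (use Ball.lean).
`exists_wall_path`: induction on `r` with `mem_ball_succ`. `finite_cones`: a cone whose neighbourhood meets `F` contains one of the finitely many points of `nbh l F`,
and is then `cone i x` for such a point. `const_off_finite`: the finitely many edges with nonzero gradient have finitely many endpoint values; every vertex is joined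
to such an endpoint (or to `1`) by edges of zero gradient so `w` has finite range; each level set has finite `edgeBd`, one of them is infinite hence cofinite.
`sees_of_wall`: one endpoint has `h ≥ 1/2`, the other `h < 1/2`, use `h_harnack` with `r = 1` for `A` and `Aᶜ`.
-/

noncomputable section

open Classical MeasureTheory Filter Topology Set
open scoped Pointwise ENNReal

namespace Vale.Agent.P239

universe u
variable {G : Type u} [Group G] {S : Finset G} {l : ℕ} {Q : Cones S} {B : Bdry S}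

theorem mem_bl_self (z : G) (r : ℕ) : z ∈ bl S z r := by
  change z⁻¹ * z ∈ ball S r
  rw [inv_mul_cancel]
  exact one_mem_ball r

theorem bl_finite (z : G) (r : ℕ) : (bl S z r).Finite :=
  ((ball S r).finite_toSet.image (z * ·)).subset fun x hx => ⟨z⁻¹ * x, hx, by simp⟩

theorem bl_mono (z : G) {r r' : ℕ} (h : r ≤ r') : bl S z r ⊆ bl S z r' := fun _ hx => ball_mono h hx

theorem mem_bl_symm (hS : Cay S) {x z : G} {r : ℕ} (h : x ∈ bl S z r) : z ∈ bl S x r := by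
  have := hS.inv_mem_ball (show z⁻¹ * x ∈ ball S r from h)
  rw [mul_inv_rev, inv_inv] at this
  exact this

theorem mem_bl_trans {x y z : G} {r r' : ℕ} (h : y ∈ bl S x r) (h' : z ∈ bl S y r') :
    z ∈ bl S x (r + r') := by
  have := mul_mem_ball (show x⁻¹ * y ∈ ball S r from h) (show y⁻¹ * z ∈ ball S r' from h')
  rw [mul_assoc, mul_inv_cancel_left] at this
  exact this

theorem mul_mem_bl {x z s : G} {r : ℕ} (h : x ∈ bl S z r) (hs : s ∈ S) : x * s ∈ bl S z (r + 1) := by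
  have := mul_mem_ball (show z⁻¹ * x ∈ ball S r from h) (mem_ball_one hs)
  rw [mul_assoc] at this
  exact this

theorem bl_smul (g z : G) (r : ℕ) : g • bl S z r = bl S (g * z) r := by
  ext x
  rw [Set.mem_smul_set_iff_inv_smul_mem]
  change z⁻¹ * (g⁻¹ * x) ∈ ball S r ↔ (g * z)⁻¹ * x ∈ ball S r
  rw [mul_inv_rev, mul_assoc]

theorem Cay.finite_subset_bl (hS : Cay S) {K : Set G} (hK : K.Finite) (z : G) :
    ∃ r, K ⊆ bl S z r := by
  obtain ⟨r, hr⟩ := hS.finite_subset_ball (hK.image (z⁻¹ * ·))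
  exact ⟨r, fun x hx => hr _ ⟨x, hx, rfl⟩⟩

theorem subset_nbh (r : ℕ) (A : Set G) : A ⊆ nbh S r A := fun x hx => ⟨x, hx, mem_bl_self x r⟩

theorem nbh_mono {r r' : ℕ} (h : r ≤ r') {A A' : Set G} (hA : A ⊆ A') :
    nbh S r A ⊆ nbh S r' A' := fun _ ⟨a, ha, hx⟩ => ⟨a, hA ha, ball_mono h hx⟩

theorem nbh_nbh (r r' : ℕ) (A : Set G) : nbh S r (nbh S r' A) ⊆ nbh S (r' + r) A :=
  fun _ ⟨_, ⟨a, ha, hb⟩, hx⟩ => ⟨a, ha, mem_bl_trans (S := S) hb hx⟩

theorem nbh_finite (r : ℕ) {A : Set G} (hA : A.Finite) : (nbh S r A).Finite :=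
  (hA.biUnion fun a _ => bl_finite (S := S) a r).subset fun _ ⟨a, ha, hx⟩ =>
    Set.mem_biUnion ha hx

theorem nbh_ncard_le (r : ℕ) {A : Set G} (hA : A.Finite) :
    (nbh S r A).ncard ≤ (ball S r).card * A.ncard := by
  have h : nbh S r A ⊆ (hA.toFinset * ball S r : Finset G) := fun x ⟨a, ha, hx⟩ =>
    Finset.mem_coe.2 (Finset.mem_mul.2 ⟨a, hA.mem_toFinset.2 ha, a⁻¹ * x, hx, by simp⟩)
  refine (Set.ncard_le_ncard h (Finset.finite_toSet _)).trans ?_
  rw [Set.ncard_coe_finset, Set.ncard_eq_toFinset_card A hA, mul_comm]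
  exact Finset.card_mul_le

theorem nbh_smul (r : ℕ) (g : G) (A : Set G) : nbh S r (g • A) = g • nbh S r A := by
  ext x
  rw [Set.mem_smul_set_iff_inv_smul_mem]
  constructor
  · rintro ⟨_, ⟨a, ha, rfl⟩, hx⟩
    refine ⟨a, ha, ?_⟩
    simpa [mul_assoc] using hx
  · rintro ⟨a, ha, hx⟩
    refine ⟨g • a, ⟨a, ha, rfl⟩, ?_⟩
    simpa [mul_assoc] using hx

theorem wallV_compl (U : Set G) : wallV S Uᶜ = wallV S U := by
  ext x
  simp only [wallV, Set.mem_ofPred_eq, Set.mem_compl_iff, not_iff_not]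

theorem wallV_smul (g : G) (U : Set G) : wallV S (g • U) = g • wallV S U := by
  ext x
  simp only [wallV, Set.mem_ofPred_eq, Set.mem_smul_set_iff_inv_smul_mem, smul_eq_mul, mul_assoc]

theorem wallV_inter (U V : Set G) : wallV S (U ∩ V) ⊆ wallV S U ∪ wallV S V := by
  rintro x ⟨s, hs, h⟩
  by_contra hc
  rw [Set.mem_union, not_or] at hc
  have h1 : x ∈ U ↔ x * s ∈ U := not_not.1 fun h' => hc.1 ⟨s, hs, h'⟩
  have h2 : x ∈ V ↔ x * s ∈ V := not_not.1 fun h' => hc.2 ⟨s, hs, h'⟩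
  exact h (by rw [Set.mem_inter_iff, Set.mem_inter_iff, h1, h2])

theorem wallV_symmDiff (U V : Set G) : wallV S (symmDiff U V) ⊆ wallV S U ∪ wallV S V := by
  rintro x ⟨s, hs, h⟩
  by_contra hc
  rw [Set.mem_union, not_or] at hc
  have h1 : x ∈ U ↔ x * s ∈ U := not_not.1 fun h' => hc.1 ⟨s, hs, h'⟩
  have h2 : x ∈ V ↔ x * s ∈ V := not_not.1 fun h' => hc.2 ⟨s, hs, h'⟩
  exact h (by rw [Set.mem_symmDiff, Set.mem_symmDiff, h1, h2])

theorem Cay.mul_mem_wallV (hS : Cay S) {U : Set G} {x s : G} (hs : s ∈ S)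
    (h : ¬ (x ∈ U ↔ x * s ∈ U)) : x * s ∈ wallV S U :=
  ⟨s⁻¹, hS.symm s hs, by rw [mul_inv_cancel_right]; exact fun h' => h h'.symm⟩

theorem wallV_finite_iff (U : Set G) : (wallV S U).Finite ↔ (edgeBd S U).Finite := by
  constructor
  · intro h
    exact (h.prod S.finite_toSet).subset fun e he => ⟨⟨e.2, he.1, he.2⟩, he.1⟩
  · intro h
    exact (h.image Prod.fst).subset fun x ⟨s, hs, h'⟩ => ⟨(x, s), ⟨hs, h'⟩, rfl⟩

theorem wallV_finite_of_finite (hS : Cay S) {U : Set G} (hU : U.Finite) : (wallV S U).Finite :=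
  (wallV_finite_iff U).2 (edgeBd_finite_of_finite hU)

theorem exists_wall_path (hS : Cay S) {U : Set G} {x y : G} {r : ℕ} (hx : x ∈ U) (hy : y ∉ U)
    (h : y ∈ bl S x r) : ∃ z ∈ U, ∃ s ∈ S, z * s ∉ U ∧ z ∈ bl S x r ∧ z * s ∈ bl S x r := by
  induction r generalizing y with
  | zero =>
    have : x⁻¹ * y = 1 := mem_ball_zero.1 (show x⁻¹ * y ∈ ball S 0 from h)
    rw [inv_mul_eq_one] at this
    exact absurd (this ▸ hx) hy
  | succ r ih =>
    have key : ∀ y, y ∉ U → y ∈ bl S x r →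
        ∃ z ∈ U, ∃ s ∈ S, z * s ∉ U ∧ z ∈ bl S x (r + 1) ∧ z * s ∈ bl S x (r + 1) := fun y hy h => by
      obtain ⟨z, hz, s, hs, h1, h2, h3⟩ := ih hy h
      exact ⟨z, hz, s, hs, h1, bl_mono x r.le_succ h2, bl_mono x r.le_succ h3⟩
    rcases mem_ball_succ.1 (show x⁻¹ * y ∈ ball S (r + 1) from h) with h1 | ⟨b, hb, s, hs, e⟩
    · exact key y hy h1
    · have hb' : x * b ∈ bl S x r := by
        change x⁻¹ * (x * b) ∈ ball S r
        rwa [inv_mul_cancel_left]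
      have e' : x * b * s = y := by rw [mul_assoc, ← e, mul_inv_cancel_left]
      by_cases h2 : x * b ∈ U
      · exact ⟨x * b, h2, s, hs, e' ▸ hy, bl_mono x r.le_succ hb', e' ▸ h⟩
      · exact key _ h2 hb'

theorem const_off_finite (hS : Cay S) (h1 : OneEnded S) {w : G → ℤ}
    (hw : {e : G × G | e.2 ∈ S ∧ w (e.1 * e.2) ≠ w e.1}.Finite) : ∃ c, {x | w x ≠ c}.Finite := by
  by_contra hc
  push Not at hc
  have hfin : ∀ c, {x | w x = c}.Finite := fun c => by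
    refine (h1 _ (hw.subset fun e he => ⟨he.1, fun h => he.2 ?_⟩)).resolve_right (hc c)
    rw [Set.mem_ofPred_eq, Set.mem_ofPred_eq, h]
  have hV := (hw.image fun e => w (e.1 * e.2)).insert (w 1)
  have key : ∀ r, ∀ b ∈ ball S r, w b ∈ insert (w 1)
      ((fun e : G × G => w (e.1 * e.2)) '' {e : G × G | e.2 ∈ S ∧ w (e.1 * e.2) ≠ w e.1}) := by
    intro r
    induction r with
    | zero => intro b hb; rw [mem_ball_zero.1 hb]; exact Set.mem_insert _ _
    | succ r ih =>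
      intro b hb
      rcases mem_ball_succ.1 hb with h | ⟨a, ha, s, hs, rfl⟩
      · exact ih b h
      · by_cases h : w (a * s) = w a
        · rw [h]; exact ih a ha
        · exact Or.inr ⟨(a, s), ⟨hs, h⟩, rfl⟩
  have := hS.inf
  refine Set.infinite_univ ((hV.biUnion fun c _ => hfin c).subset fun x _ => ?_)
  obtain ⟨r, hr⟩ := hS.exists_ball x
  exact Set.mem_biUnion (key r x hr) rfl

/-- A maximal separated subset. -/
theorem exists_net (hS : Cay S) (V : Set G) (D : ℕ) : ∃ X ⊆ V,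
    (∀ x ∈ X, ∀ y ∈ X, y ∈ bl S x D → x = y) ∧ ∀ y ∈ V, ∃ x ∈ X, y ∈ bl S x D := by
  obtain ⟨X, hX⟩ := zorn_subset {X | X ⊆ V ∧ ∀ x ∈ X, ∀ y ∈ X, y ∈ bl S x D → x = y} (by
    intro c hc hch
    refine ⟨⋃₀ c, ⟨Set.sUnion_subset fun t ht => (hc ht).1, ?_⟩, fun t ht => Set.subset_sUnion_of_mem ht⟩
    rintro x ⟨t, ht, hx⟩ y ⟨t', ht', hy⟩
    rcases hch.total ht ht' with h | h
    · exact (hc ht').2 x (h hx) y hy
    · exact (hc ht).2 x hx y (h hy))
  refine ⟨X, hX.1.1, hX.1.2, fun y hy => ?_⟩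
  by_contra hn
  push Not at hn
  have h1 : insert y X ⊆ X := by
    refine hX.2 ⟨Set.insert_subset hy hX.1.1, ?_⟩ (Set.subset_insert _ _)
    rintro a (rfl | ha) b (rfl | hb) hab
    · rfl
    · exact absurd (mem_bl_symm hS hab) (hn b hb)
    · exact absurd hab (hn a ha)
    · exact hX.1.2 a ha b hb hab
  exact hn y (h1 (Set.mem_insert _ _)) (mem_bl_self y D)

theorem locExact_iff (c : G → G → ℤ) (y : G) : LocExact S l c y ↔ ExOn S c (bl S y l) := by
  constructor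
  · rintro ⟨D, hD⟩
    refine ⟨D, fun x hx s hs => ?_⟩
    have := hD _ hx s hs
    rwa [mul_inv_cancel_left] at this
  · rintro ⟨D, hD⟩
    refine ⟨D, fun b hb s hs => hD _ ?_ s hs⟩
    change y⁻¹ * (y * b) ∈ ball S l
    rwa [inv_mul_cancel_left]

theorem ExOn.mono {c : G → G → ℤ} {N N' : Set G} (h : ExOn S c N) (h' : N' ⊆ N) : ExOn S c N' :=
  h.imp fun _ hD x hx => hD x (h' hx)

theorem ExOn.congr {c c' : G → G → ℤ} {N : Set G} (h : ExOn S c N)
    (h' : ∀ x ∈ N, ∀ s ∈ S, c' x s = c x s) : ExOn S c' N :=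
  h.imp fun _ hD x hx s hs => (h' x hx s hs).trans (hD x hx s hs)

theorem ExOn.add {c c' : G → G → ℤ} {N : Set G} (h : ExOn S c N) (h' : ExOn S c' N) :
    ExOn S (fun x s => c x s + c' x s) N := by
  obtain ⟨D, hD⟩ := h
  obtain ⟨D', hD'⟩ := h'
  refine ⟨fun x => D x + D' x, fun x hx s hs => ?_⟩
  beta_reduce
  rw [hD x hx s hs, hD' x hx s hs]
  ring

theorem ExOn.sub {c c' : G → G → ℤ} {N : Set G} (h : ExOn S c N) (h' : ExOn S c' N) :
    ExOn S (fun x s => c x s - c' x s) N := by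
  obtain ⟨D, hD⟩ := h
  obtain ⟨D', hD'⟩ := h'
  refine ⟨fun x => D x - D' x, fun x hx s hs => ?_⟩
  beta_reduce
  rw [hD x hx s hs, hD' x hx s hs]
  ring

theorem ExOn.translate {c : G → G → ℤ} {N : Set G} (g : G) (h : ExOn S c (g • N)) :
    ExOn S (fun x s => c (g * x) s) N := by
  obtain ⟨D, hD⟩ := h
  refine ⟨fun x => D (g * x), fun x hx s hs => ?_⟩
  beta_reduce
  rw [hD (g * x) ⟨x, hx, rfl⟩ s hs, mul_assoc]

namespace Cones

theorem mem_cone_self (i : Fin Q.n) (γ : G) : γ ∈ Q.cone i γ := by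
  change γ⁻¹ * γ ∈ Q.H i
  rw [inv_mul_cancel]
  exact one_mem _

theorem cone_eq {i : Fin Q.n} {γ x : G} (h : x ∈ Q.cone i γ) : Q.cone i x = Q.cone i γ := by
  ext y
  change x⁻¹ * y ∈ Q.H i ↔ γ⁻¹ * y ∈ Q.H i
  rw [← (Q.H i).mul_mem_cancel_left (show γ⁻¹ * x ∈ Q.H i from h), mul_assoc, mul_inv_cancel_left]

theorem mul_mem_cone {i : Fin Q.n} {γ x t : G} (h : x ∈ Q.cone i γ) (ht : t ∈ Q.H i) :
    x * t ∈ Q.cone i γ := by
  change γ⁻¹ * (x * t) ∈ Q.H i
  rw [← mul_assoc]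
  exact mul_mem h ht

theorem cone_infinite (i : Fin Q.n) (γ : G) : (Q.cone i γ).Infinite :=
  ((Q.inf i).image (mul_right_injective γ).injOn).mono (by
    rintro _ ⟨t, ht, rfl⟩
    exact mul_mem_cone (mem_cone_self i γ) ht)

theorem cone_smul (g : G) (i : Fin Q.n) (γ : G) : g • Q.cone i γ = Q.cone i (g * γ) := by
  ext x
  rw [Set.mem_smul_set_iff_inv_smul_mem]
  change γ⁻¹ * (g⁻¹ * x) ∈ Q.H i ↔ (g * γ)⁻¹ * x ∈ Q.H i
  rw [mul_inv_rev, mul_assoc]

theorem cn_smul (r : ℕ) (g : G) (i : Fin Q.n) (γ : G) : g • Q.cn r i γ = Q.cn r i (g * γ) := by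
  rw [cn, cn, ← nbh_smul, cone_smul]

/-- A function invariant under the generators is constant on a cone. -/
theorem const_cone {α : Type*} {i : Fin Q.n} {γ : G} (f : G → α)
    (h : ∀ x ∈ Q.cone i γ, ∀ t ∈ Q.T i, f (x * t) = f x) : ∀ x ∈ Q.cone i γ, f x = f γ := by
  have key : ∀ t ∈ Q.H i, ∀ x ∈ Q.cone i γ, f (x * t) = f x := by
    intro t ht
    induction ht using Subgroup.closure_induction with
    | mem t ht => exact fun x hx => h x hx t ht
    | one => intro x _; rw [mul_one]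
    | mul a b ha _ iha ihb =>
      intro x hx
      rw [← mul_assoc, ihb _ (mul_mem_cone hx ha), iha x hx]
    | inv a ha iha =>
      intro x hx
      rw [← iha _ (mul_mem_cone hx (inv_mem ha)), inv_mul_cancel_right]
  intro x hx
  rw [← key _ hx γ (mem_cone_self i γ), mul_inv_cancel_left]

/-- A function invariant along the edges from a cone neighbourhood is constant there. -/
theorem const_cn {α : Type*} {r : ℕ} {i : Fin Q.n} {γ : G} (f : G → α)
    (h : ∀ x ∈ Q.cn r i γ, ∀ s ∈ S, f (x * s) = f x) : ∀ x ∈ Q.cn (r + 1) i γ, f x = f γ := by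
  rintro x ⟨a, ha, hx⟩
  have h1 := const_on_ball f a r (fun b hb s hs => h _ ⟨a, ha, by rwa [inv_mul_cancel_left]⟩ s hs)
    _ hx
  rw [mul_inv_cancel_left] at h1
  rw [h1]
  exact const_cone f (fun y hy t ht => h y (subset_nbh r _ hy) t (Q.sub i ht)) a ha

/-- Finitely many cone neighbourhoods meet a finite set. -/
theorem finite_cones (hS : Cay S) (r : ℕ) {F : Set G} (hF : F.Finite) :
    ∃ W : Set G, W.Finite ∧ ∀ i γ, (Q.cn r i γ ∩ F).Nonempty → ∃ x ∈ W, Q.cone i γ = Q.cone i x :=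
  ⟨nbh S r F, nbh_finite r hF, fun _ _ ⟨y, ⟨a, ha, hy⟩, hF⟩ =>
    ⟨a, ⟨y, hF, mem_bl_symm hS hy⟩, (cone_eq ha).symm⟩⟩

theorem Step.symm (hS : Cay S) {R : ℕ} {x y : G} (h : Q.Step l R x y) : Q.Step l R y x := by
  rcases h with h | ⟨i, γ, h1, h2⟩
  · exact Or.inl (mem_bl_symm hS (show y ∈ bl S x R from h))
  · exact Or.inr ⟨i, γ, h2, h1⟩

theorem Step.smul {R : ℕ} {x y : G} (g : G) (h : Q.Step l R x y) :
    Q.Step l R (g * x) (g * y) := by
  rcases h with h | ⟨i, γ, h1, h2⟩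
  · left
    rwa [mul_inv_rev, mul_assoc, inv_mul_cancel_left]
  · exact Or.inr ⟨i, g * γ, cn_smul l g i γ ▸ ⟨x, h1, rfl⟩, cn_smul l g i γ ▸ ⟨y, h2, rfl⟩⟩

theorem comp_subset (R : ℕ) (D : Set G) (x : G) : Q.comp l R D x ⊆ D := by
  rintro y ⟨hx, h⟩
  induction h with
  | refl => exact hx
  | tail _ h _ => exact h.2.1

theorem mem_comp_self (R : ℕ) {D : Set G} {x : G} (hx : x ∈ D) : x ∈ Q.comp l R D x :=
  ⟨hx, Relation.ReflTransGen.refl⟩

theorem comp_eq (hS : Cay S) {R : ℕ} {D : Set G} {x y : G} (h : y ∈ Q.comp l R D x) :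
    Q.comp l R D y = Q.comp l R D x := by
  have h' : Relation.ReflTransGen (fun a b => a ∈ D ∧ b ∈ D ∧ Q.Step l R a b) y x := by
    obtain ⟨-, h⟩ := h
    induction h with
    | refl => exact Relation.ReflTransGen.refl
    | tail _ h ih => exact Relation.ReflTransGen.head ⟨h.2.1, h.1, h.2.2.symm hS⟩ ih
  ext z
  exact ⟨fun hz => ⟨h.1, h.2.trans hz.2⟩, fun hz => ⟨comp_subset R D x h, h'.trans hz.2⟩⟩

theorem comp_step {R : ℕ} {D : Set G} {x y z : G} (h : y ∈ Q.comp l R D x) (hz : z ∈ D)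
    (hs : Q.Step l R y z) : z ∈ Q.comp l R D x :=
  ⟨h.1, h.2.tail ⟨comp_subset R D x h, hz, hs⟩⟩

theorem comp_comp (R : ℕ) (D : Set G) (x : G) :
    Q.comp l R (Q.comp l R D x) x = Q.comp l R D x := by
  refine Set.Subset.antisymm (comp_subset R _ x) ?_
  rintro y ⟨hx, h⟩
  refine ⟨mem_comp_self R hx, ?_⟩
  induction h with
  | refl => exact Relation.ReflTransGen.refl
  | tail h1 h2 ih => exact ih.tail ⟨⟨hx, h1⟩, ⟨hx, h1.tail h2⟩, h2.2.2⟩

theorem comp_mono (R : ℕ) {D D' : Set G} (h : D ⊆ D') (x : G) :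
    Q.comp l R D x ⊆ Q.comp l R D' x := by
  rintro y ⟨hx, hy⟩
  induction hy with
  | refl => exact mem_comp_self R (h hx)
  | tail _ h2 ih => exact comp_step ih (h h2.2.1) h2.2.2

theorem comp_smul (R : ℕ) (g : G) (D : Set G) (x : G) :
    Q.comp l R (g • D) (g * x) = g • Q.comp l R D x := by
  have key : ∀ (g : G) (D : Set G) (x y : G), y ∈ Q.comp l R D x →
      g * y ∈ Q.comp l R (g • D) (g * x) := by
    rintro g D x y ⟨hx, h⟩
    induction h with
    | refl => exact mem_comp_self R ⟨x, hx, rfl⟩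
    | tail _ h2 ih => exact comp_step ih ⟨_, h2.2.1, rfl⟩ (h2.2.2.smul g)
  ext y
  constructor
  · intro h
    have := key g⁻¹ _ _ _ h
    rw [inv_smul_smul, inv_mul_cancel_left] at this
    exact Set.mem_smul_set_iff_inv_smul_mem.2 this
  · rintro ⟨z, hz, rfl⟩
    exact key g D x z hz

/-- Removing a finite set from a connected set leaves finitely many components. -/
theorem finite_comps (hS : Cay S) {R : ℕ} {C F : Set G} {x₀ : G} (hC : C ⊆ Q.comp l R C x₀)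
    (hF : F.Finite) (hx : x₀ ∈ F) :
    ∃ W : Set G, W.Finite ∧ W ⊆ C \ F ∧ ∀ y ∈ C \ F, ∃ x ∈ W, y ∈ Q.comp l R (C \ F) x := by
  obtain ⟨W₀, hW₀, hW⟩ := finite_cones (Q := Q) hS l hF
  have hp : ∀ q : Fin Q.n × G, ∃ p, (Q.cn l q.1 q.2 ∩ (C \ F)).Nonempty →
      p ∈ Q.cn l q.1 q.2 ∩ (C \ F) := fun q => by
    by_cases h : (Q.cn l q.1 q.2 ∩ (C \ F)).Nonempty
    · exact ⟨h.some, fun _ => h.some_mem⟩
    · exact ⟨1, fun h' => absurd h' h⟩
  choose p hp using hp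
  refine ⟨(nbh S R F ∪ p '' (Set.univ ×ˢ W₀)) ∩ (C \ F),
    ((nbh_finite R hF).union ((Set.finite_univ.prod hW₀).image p)).inter_of_left _,
    Set.inter_subset_right, fun y hy => ?_⟩
  obtain ⟨-, h⟩ := hC hy.1
  induction h with
  | refl => exact absurd hx hy.2
  | @tail a b _ h2 ih =>
    by_cases ha : a ∈ F
    · rcases h2.2.2 with h3 | ⟨i, γ, h3, h4⟩
      · exact ⟨b, ⟨Or.inl ⟨a, ha, h3⟩, hy⟩, mem_comp_self R hy⟩
      · obtain ⟨x, hx1, hx2⟩ := hW i γ ⟨a, h3, ha⟩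
        have h5 : b ∈ Q.cn l i x := by rw [cn, ← hx2]; exact h4
        have h6 := hp (i, x) ⟨b, h5, hy⟩
        exact ⟨p (i, x), ⟨Or.inr ⟨(i, x), ⟨Set.mem_univ _, hx1⟩, rfl⟩, h6.2⟩,
          comp_step (mem_comp_self R h6.2) hy (Or.inr ⟨i, x, h6.1, h5⟩)⟩
    · obtain ⟨x, hx1, hx2⟩ := ih ⟨h2.1, ha⟩
      exact ⟨x, hx1, comp_step hx2 hy h2.2.2⟩

end Cones

theorem HypQ.rh (h : HypQ S l) : RH S l (Cones.empty S) :=
  ⟨h.cay, h.gap, h.one, h.tf, fun c hc _ => h.sc c hc,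
    fun c _ hF hc _ _ => h.cof c (hF.subset fun y hy => not_not.1 fun h' => hy (hc y h')),
    fun i => i.elim0, fun i => i.elim0⟩

namespace Bdry

theorem Sees.compl {ε : ℝ} {A : Set (Bd G)} {x : G} (h : B.Sees ε A x) : B.Sees ε Aᶜ x :=
  ⟨h.2, by rw [compl_compl]; exact h.1⟩

theorem Sees.two (hS : Cay S) {ε : ℝ} (hε : 0 < ε) {A : Set (Bd G)} {x : G} (h : B.Sees ε A x) :
    B.Two A := by
  have key : ∀ A, ε ≤ B.h A x → ¬ B.Null A := fun A h1 h2 => by
    rw [Bdry.h, Measure.real, (B.null_iff hS x A).2 h2, ENNReal.toReal_zero] at h1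
    exact absurd hε (not_lt.2 h1)
  exact ⟨key _ h.1, key _ h.2⟩

theorem Sees.smul {ε : ℝ} {A : Set (Bd G)} {x : G} (h : B.Sees ε A x) (g : G) :
    B.Sees ε (g • A) (g * x) := by
  rw [Sees, ← Set.smul_set_compl, B.h_smul, B.h_smul]
  exact h

theorem Sees.harnack (hS : Cay S) {ε : ℝ} {A : Set (Bd G)} {x y : G} {r : ℕ} (h : B.Sees ε A x)
    (hy : y ∈ bl S x r) : B.Sees (ε / (S.card : ℝ) ^ r) A y := by
  have hp : (0 : ℝ) < (S.card : ℝ) ^ r := pow_pos (Nat.cast_pos.2 hS.card_pos) r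
  have key : ∀ A, ε ≤ B.h A x → ε / (S.card : ℝ) ^ r ≤ B.h A y := fun A h1 => by
    have := B.h_harnack hS y (show y⁻¹ * x ∈ ball S r from mem_bl_symm hS hy) A
    rw [mul_inv_cancel_left] at this
    rw [div_le_iff₀' hp]
    exact h1.trans this
  exact ⟨key _ h.1, key _ h.2⟩

theorem h_harnack_bl (hS : Cay S) {x y : G} {r : ℕ} (hy : y ∈ bl S x r) (A : Set (Bd G)) :
    B.h A y ≤ (S.card : ℝ) ^ r * B.h A x := by
  have := B.h_harnack hS x (show x⁻¹ * y ∈ ball S r from hy) A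
  rwa [mul_inv_cancel_left] at this

theorem sees_of_wall (hS : Cay S) {A : Set (Bd G)} (hA : MeasurableSet A) {x : G}
    (hx : x ∈ wallV S (B.lev A)) : B.Sees (1 / (2 * S.card)) A x := by
  obtain ⟨s, hs, h⟩ := hx
  have h1 := gl_one_le hS
  have k1 : ∀ A, 1 / 2 ≤ B.h A (x * s) → 1 / (2 * S.card : ℝ) ≤ B.h A x := fun A h2 => by
    have := B.h_harnack hS x (mem_ball_one hs) A
    rw [pow_one] at this
    rw [div_le_iff₀ (by positivity)]
    linarith
  have k2 : 1 / (2 * S.card : ℝ) ≤ 1 / 2 := one_div_le_one_div_of_le two_pos (by linarith)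
  change ¬ (1 / 2 ≤ B.h A x ↔ 1 / 2 ≤ B.h A (x * s)) at h
  by_cases h2 : 1 / 2 ≤ B.h A x
  · have h3 : ¬ 1 / 2 ≤ B.h A (x * s) := fun h3 => h ⟨fun _ => h3, fun _ => h2⟩
    refine ⟨k2.trans h2, k1 _ ?_⟩
    rw [B.h_compl hA]
    linarith
  · have h3 : 1 / 2 ≤ B.h A (x * s) := not_not.1 fun h3 => h ⟨fun h => absurd h h2, fun h => absurd h h3⟩
    refine ⟨k1 _ h3, k2.trans ?_⟩
    rw [B.h_compl hA]
    linarith

theorem Two.exists_sees (hS : Cay S) {A : Set (Bd G)} (h : B.Two A) (x : G) :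
    ∃ ε : ℝ, 0 < ε ∧ B.Sees ε A x :=
  ⟨min (B.h A x) (B.h Aᶜ x), lt_min (B.h_pos hS h.1 x) (B.h_pos hS h.2 x), min_le_left _ _,
    min_le_right _ _⟩

theorem Two.compl {A : Set (Bd G)} (h : B.Two A) : B.Two Aᶜ :=
  ⟨h.2, by rw [compl_compl]; exact h.1⟩

theorem Two.smul (hS : Cay S) {A : Set (Bd G)} (h : B.Two A) (g : G) : B.Two (g • A) := by
  rw [Two, ← Set.smul_set_compl, B.null_smul hS, B.null_smul hS]
  exact h

theorem lev_smul (g : G) (A : Set (Bd G)) : B.lev (g • A) = g • B.lev A := by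
  ext x
  rw [Set.mem_smul_set_iff_inv_smul_mem]
  change 1 / 2 ≤ B.h (g • A) x ↔ 1 / 2 ≤ B.h A (g⁻¹ * x)
  rw [← B.h_smul g (g⁻¹ * x) A, mul_inv_cancel_left]

theorem Good.aeq_lev {A : Set (Bd G)} (h : B.Good A) : B.AEq A (hatSet (B.lev A)) := by
  constructor
  · rw [B.sub_iff]
    filter_upwards [h.2] with ξ h1 h2
    rw [Set.indicator_of_mem h2] at h1
    have h3 : ξ ∈ hatSet {x | 1 / 2 < B.h A x} := mem_hatSet_of_lt (B.h_bdd A) (by rw [h1]; norm_num)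
    exact Filter.mem_of_superset (f := (ξ.uf : Filter G)) h3 fun x hx =>
      (show 1 / 2 < B.h A x from hx).le
  · rw [B.sub_iff]
    filter_upwards [h.2] with ξ h1 h2
    by_contra h3
    rw [Set.indicator_of_notMem h3] at h1
    refine not_mem_hatSet_of_lt (B.h_bdd A) (t := 1 / 4) (ξ := ξ) (by rw [h1]; norm_num) ?_
    exact Filter.mem_of_superset (f := (ξ.uf : Filter G)) h2 fun x hx =>
      lt_of_lt_of_le (by norm_num) (show 1 / 2 ≤ B.h A x from hx)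

theorem Good.congr (hS : Cay S) {A A' : Set (Bd G)} (h : B.Good A) (hm : MeasurableSet A')
    (he : B.AEq A A') : B.Good A' := by
  refine ⟨hm, ?_⟩
  rw [← B.h_congr hS he.1 he.2]
  filter_upwards [h.2, (B.sub_iff _ _).1 he.1, (B.sub_iff _ _).1 he.2] with ξ h1 h2 h3
  rw [h1]
  by_cases h4 : ξ ∈ A
  · rw [Set.indicator_of_mem h4, Set.indicator_of_mem (h2 h4)]
  · rw [Set.indicator_of_notMem h4, Set.indicator_of_notMem fun h5 => h4 (h3 h5)]

theorem Good.aeq_of_h {A A' : Set (Bd G)} (h : B.Good A) (h' : B.Good A')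
    (he : B.h A = B.h A') : B.AEq A A' := by
  have h1 := h.aeq_lev
  have h2 := h'.aeq_lev
  rw [lev, he] at h1
  exact ⟨h1.1.trans h2.2, h2.1.trans h1.2⟩

theorem AEq.symm {A A' : Set (Bd G)} (h : B.AEq A A') : B.AEq A' A := ⟨h.2, h.1⟩

theorem AEq.trans {A A' A'' : Set (Bd G)} (h : B.AEq A A') (h' : B.AEq A' A'') : B.AEq A A'' :=
  ⟨h.1.trans h'.1, h'.2.trans h.2⟩

theorem AEq.compl {A A' : Set (Bd G)} (h : B.AEq A A') : B.AEq Aᶜ A'ᶜ := ⟨h.2.compl, h.1.compl⟩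

theorem AEq.smul (hS : Cay S) {A A' : Set (Bd G)} (h : B.AEq A A') (g : G) :
    B.AEq (g • A) (g • A') := ⟨(B.sub_smul hS g _ _).2 h.1, (B.sub_smul hS g _ _).2 h.2⟩

theorem sub_iff_null (A A' : Set (Bd G)) : B.Sub A A' ↔ B.Null (A ∩ A'ᶜ) := Iff.rfl

end Bdry

end Vale.Agent.P239
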