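import Vale.Agent.P239.Full.FDef4

/-! Task FBlk: combinatorics of separated necks. Write `C = cp D x`, `A z = side`, `K z = zone`, radii `r₀ ≤ r₁ ≤ r₂`.
`zone_side`: `K z'` lies in `cp (C ∩ bl z' r₂) z'`, a connected subset of `D \ bl z r₀` (the balls of radius `r₂` are disjoint), so in one component of `D \ bl z r₀`.
`far_disj`: follow a path in `C` from `y` to `z` until it first enters `bl z r₀`; before that it stays in the component of `y` in `D \ bl z r₀`, which does not contain `K z'`; so `y` is joined to a point of `K z` avoiding `bl z' r₀`.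
`sep_finite`: a neck separating `x` from `y` has `bl z r₀` meeting a fixed finite path. `exists_inc`: among the necks separating `x` from `y` take `z` and `k ∈ K z` on the side of `x` with the fewest necks separating `x` from `k`
(`far_disj` shows that a neck `z'` separating `x` from `k` separates `x` from `y` and has a strictly smaller set). `inc_disj`: `far_disj`. `two_inc`: with only one incident neck the near side of it would be contained in the block.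
`infinite_necks`: with finitely many necks there are finitely many blocks (`Set.Finite.of_finite_fibers` or the map to the subsets of the necks).
-/

noncomputable section

open Classical MeasureTheory Filter Topology Set
open scoped Pointwise ENNReal

namespace Vale.Agent.P239

universe u
variable {G : Type u} [Group G] {S : Finset G} {l : ℕ} {Q : Cones S} {B : Bdry S}

namespace Cones
variable {D X : Set G} {τ : NT G}

theorem side_subset (hS : Cay S) {z : G} (h : Q.Neck l D τ z) : Q.side l D τ z ⊆ Q.cp l D z := by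
  rintro y ⟨π, hπ, hy⟩
  have h1 := comp_mono _ Set.diff_subset _ hy
  rwa [comp_eq hS (h.2.2.2.1 π hπ).2] at h1

theorem side_step {z x y : G} (hx : x ∈ Q.side l D τ z) (hy : y ∈ D) (hy' : y ∉ bl S z τ.1)
    (hs : Q.Step l (2 * l + 1) x y) : y ∈ Q.side l D τ z := by
  obtain ⟨π, hπ, hx⟩ := hx
  exact ⟨π, hπ, comp_step hx ⟨hy, hy'⟩ hs⟩

theorem not_mem_side (z : G) {y : G} (hy : y ∈ bl S z τ.1) : y ∉ Q.side l D τ z :=   fun ⟨_, _, h⟩ => (comp_subset _ _ _ h).2 hy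

theorem Neck.exists_port {z : G} (h : Q.Neck l D τ z) :
    ∃ π ∈ ball S τ.2.1, z * π ∈ Q.zone l D τ z ∧ z * π ∈ Q.side l D τ z := by
  obtain ⟨y, π, hπ, hy⟩ := h.2.2.2.2.1.nonempty
  obtain ⟨h1, h2⟩ := h.2.2.2.1 π hπ
  refine ⟨π, h1, ⟨h2, ?_⟩, π, hπ, mem_comp_self _ hy.1⟩
  change z⁻¹ * (z * π) ∈ ball S τ.2.1
  rwa [inv_mul_cancel_left]

theorem mem_blk_self {x : G} (hx : x ∈ D) : x ∈ Q.blk l D τ X x :=   ⟨mem_comp_self _ hx, fun _ _ _ => Iff.rfl⟩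

theorem blk_eq (hS : Cay S) {x y : G} (h : y ∈ Q.blk l D τ X x) :
    Q.blk l D τ X y = Q.blk l D τ X x := by
  have e : Q.cp l D y = Q.cp l D x := comp_eq hS h.1
  ext w
  simp only [blk, e, Set.mem_setOf_eq]
  exact and_congr_right fun _ => forall_congr' fun z => forall_congr' fun hz =>
    forall_congr' fun hc => iff_congr (h.2 z hz hc).symm Iff.rfl

theorem fblk_comp (hS : Cay S) {z x y : G} (h : y ∈ Q.cp l (D \ bl S z τ.1) x) :
    y ∈ Q.side l D τ z ↔ x ∈ Q.side l D τ z := by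
  refine exists_congr fun π => and_congr_right fun _ => ⟨fun h1 => ?_, fun h1 => ?_⟩
  · have h2 := mem_comp_self (Q := Q) (l := l) (2 * l + 1) h.1
    rwa [← comp_eq hS h, comp_eq hS h1] at h2
  · exact (comp_eq hS h1).subset h

theorem fblk_step (hS : Cay S) {z x y : G} (h : x ∈ D ∧ y ∈ D ∧ Q.Step l (2 * l + 1) x y)
    (hx : x ∉ bl S z τ.1) (hy : y ∉ bl S z τ.1) : y ∈ Q.side l D τ z ↔ x ∈ Q.side l D τ z :=
  ⟨fun h1 => side_step h1 h.1 hx (h.2.2.symm hS), fun h1 => side_step h1 h.2.1 hy h.2.2⟩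

theorem fblk_symm (hS : Cay S) {x y : G} (h : y ∈ Q.cp l D x) : x ∈ Q.cp l D y :=
  (comp_eq hS h).symm.subset (mem_comp_self _ h.1)

theorem fblk_tr (hS : Cay S) {x y z : G} (h : y ∈ Q.cp l D x) (h' : z ∈ Q.cp l D x) :
    z ∈ Q.cp l D y := (comp_eq hS h).symm.subset h'

theorem fblk_tr' (hS : Cay S) {x y z : G} (h : y ∈ Q.cp l D x) (h' : z ∈ Q.cp l D y) :
    z ∈ Q.cp l D x := (comp_eq hS h).subset h'

theorem SepN.fblk_disj (hS : Cay S) (h : Q.SepN l D τ X) {z z' : G} (hz : z ∈ X) (hz' : z' ∈ X)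
    {y : G} {r r' : ℕ} (hr : r ≤ τ.2.2.1) (hr' : r' ≤ τ.2.2.1) (hy : y ∈ bl S z r)
    (hy' : y ∈ bl S z' r') : z = z' :=
  h.2 z hz z' hz' (bl_mono z (by omega) (mem_bl_trans hy (mem_bl_symm hS hy')))

theorem Neck.fblk_near {z : G} (h : Q.Neck l D τ z) (x : G) :
    (∃ k ∈ Q.zone l D τ z, (x ∈ Q.side l D τ z ↔ k ∈ Q.side l D τ z)) ∧
      ∃ k ∈ Q.zone l D τ z, ¬ (x ∈ Q.side l D τ z ↔ k ∈ Q.side l D τ z) := by
  obtain ⟨π, -, h1, h2⟩ := h.exists_port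
  have h3 : z ∈ Q.zone l D τ z := ⟨mem_comp_self _ h.1, mem_bl_self _ _⟩
  have h4 : z ∉ Q.side l D τ z := not_mem_side z (mem_bl_self _ _)
  by_cases hx : x ∈ Q.side l D τ z
  · exact ⟨⟨_, h1, iff_of_true hx h2⟩, z, h3, fun h => h4 (h.1 hx)⟩
  · exact ⟨⟨z, h3, iff_of_false hx h4⟩, _, h1, fun h => hx (h.2 h2)⟩

theorem SepN.zone_side (hS : Cay S) (h : Q.SepN l D τ X) {z z' : G} (hz : z ∈ X) (hz' : z' ∈ X)
    (hne : z ≠ z') (hc : z' ∈ Q.cp l D z) {y : G} (hy : y ∈ Q.zone l D τ z') :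
    y ∈ Q.side l D τ z ↔ z' ∈ Q.side l D τ z := by
  obtain ⟨-, r1, r2, -, -, -, h1, -⟩ := h.1 z' hz'
  have hsub : Q.cp l D z' ∩ bl S z' τ.2.2.1 ⊆ D \ bl S z τ.1 := fun w hw =>
    ⟨comp_subset _ _ _ hw.1, fun h2 => hne (h.fblk_disj hS hz hz' (r1.trans r2) le_rfl h2 hw.2)⟩
  exact fblk_comp hS (comp_mono _ hsub _ (h1 y hy.1 hy.2))

theorem SepN.zone_disj (hS : Cay S) (h : Q.SepN l D τ X) {z z' : G} (hz : z ∈ X) (hz' : z' ∈ X)
    {y : G} (hy : y ∈ Q.zone l D τ z) (hy' : y ∈ Q.zone l D τ z') : z = z' :=   h.fblk_disj hS hz hz' (h.1 z hz).2.2.1 (h.1 z hz).2.2.1 hy.2 hy'.2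

theorem SepN.far_disj (hS : Cay S) (h : Q.SepN l D τ X) {z z' : G} (hz : z ∈ X) (hz' : z' ∈ X)
    (hne : z ≠ z') (hc : z' ∈ Q.cp l D z) {y : G} (hy : y ∈ Q.cp l D z) :
    (y ∈ Q.side l D τ z ↔ z' ∈ Q.side l D τ z) ∨ (y ∈ Q.side l D τ z' ↔ z ∈ Q.side l D τ z') := by
  obtain ⟨hD, hp⟩ := hy
  obtain ⟨-, r1, r2, -⟩ := h.1 z hz
  have z1 : ∀ w ∈ Q.cp l D z, w ∈ bl S z τ.1 → (w ∈ Q.side l D τ z' ↔ z ∈ Q.side l D τ z') :=
    fun w hw hb => h.zone_side hS hz' hz hne.symm (fblk_symm hS hc) ⟨hw, bl_mono _ r1 hb⟩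
  have z2 : ∀ w ∈ Q.cp l D z, w ∈ bl S z' τ.1 → (w ∈ Q.side l D τ z ↔ z' ∈ Q.side l D τ z) :=
    fun w hw hb => h.zone_side hS hz hz' hne hc ⟨fblk_tr hS hc hw, bl_mono _ r1 hb⟩
  have dj : ∀ w ∈ bl S z τ.1, w ∉ bl S z' τ.1 := fun w h1 h2 =>
    hne (h.fblk_disj hS hz hz' (r1.trans r2) (r1.trans r2) h1 h2)
  induction hp with
  | refl => exact Or.inr Iff.rfl
  | @tail a b h1 h2 ih =>
    by_cases b1 : b ∈ bl S z τ.1
    · exact Or.inr (z1 b ⟨hD, h1.tail h2⟩ b1)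
    by_cases b2 : b ∈ bl S z' τ.1
    · exact Or.inl (z2 b ⟨hD, h1.tail h2⟩ b2)
    by_cases a1 : a ∈ bl S z τ.1
    · exact Or.inr ((fblk_step hS h2 (dj a a1) b2).trans (z1 a ⟨hD, h1⟩ a1))
    by_cases a2 : a ∈ bl S z' τ.1
    · exact Or.inl ((fblk_step hS h2 a1 b1).trans (z2 a ⟨hD, h1⟩ a2))
    exact ih.imp (fblk_step hS h2 a1 b1).trans (fblk_step hS h2 a2 b2).trans

theorem sep_finite (hS : Cay S) {x y : G} (hy : y ∈ Q.cp l D x) :
    {z | ¬ (x ∈ Q.side l D τ z ↔ y ∈ Q.side l D τ z)}.Finite := by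
  obtain ⟨-, hp⟩ := hy
  induction hp with
  | refl => simp
  | @tail a b _ h2 ih =>
    refine ((ih.union (bl_finite (S := S) a τ.1)).union (bl_finite (S := S) b τ.1)).subset
      fun z hz => ?_
    by_cases a1 : a ∈ bl S z τ.1
    · exact Or.inl (Or.inr (mem_bl_symm hS a1))
    by_cases b1 : b ∈ bl S z τ.1
    · exact Or.inr (mem_bl_symm hS b1)
    exact Or.inl (Or.inl fun h3 => hz (h3.trans (fblk_step hS h2 a1 b1).symm))

theorem SepN.mem_blk (hS : Cay S) (h : Q.SepN l D τ X) {z : G} (hz : z ∈ X) {y y' : G}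
    (hy : y ∈ Q.zone l D τ z) (hy' : y' ∈ Q.zone l D τ z)
    (hs : y ∈ Q.side l D τ z ↔ y' ∈ Q.side l D τ z) : y' ∈ Q.blk l D τ X y := by
  refine ⟨fblk_tr hS hy.1 hy'.1, fun z' hz' hc => ?_⟩
  by_cases e : z' = z
  · exact e ▸ hs
  · have h1 := fblk_symm hS (fblk_tr' hS hy.1 hc)
    exact (h.zone_side hS hz' hz e h1 hy).trans (h.zone_side hS hz' hz e h1 hy').symm

theorem SepN.exists_inc (hS : Cay S) (h : Q.SepN l D τ X) {x y : G} (hy : y ∈ Q.cp l D x)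
    (hn : y ∉ Q.blk l D τ X x) :
    ∃ z ∈ Q.Inc l D τ X x, ¬ (x ∈ Q.side l D τ z ↔ y ∈ Q.side l D τ z) := by
  have hx : x ∈ Q.cp l D x := mem_comp_self _ hy.1
  have far : ∀ z ∈ X, z ∈ Q.cp l D x → ∀ z' ∈ X, z' ∈ Q.cp l D x → z ≠ z' → ∀ w ∈ Q.cp l D x,
      (w ∈ Q.side l D τ z ↔ z' ∈ Q.side l D τ z) ∨ (w ∈ Q.side l D τ z' ↔ z ∈ Q.side l D τ z') :=
    fun z hz hc z' hz' hc' hne w hw =>
      h.far_disj hS hz hz' hne (fblk_tr hS hc hc') (fblk_tr hS hc hw)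
  have key : ∀ (n : ℕ), ∀ z ∈ X, z ∈ Q.cp l D x → ¬ (x ∈ Q.side l D τ z ↔ y ∈ Q.side l D τ z) →
      ∀ k ∈ Q.zone l D τ z, (x ∈ Q.side l D τ z ↔ k ∈ Q.side l D τ z) →
      {w | w ∈ X ∧ w ∈ Q.cp l D x ∧ ¬ (x ∈ Q.side l D τ w ↔ k ∈ Q.side l D τ w)}.ncard = n →
      ∃ z ∈ Q.Inc l D τ X x, ¬ (x ∈ Q.side l D τ z ↔ y ∈ Q.side l D τ z) := by
    intro n
    induction n using Nat.strong_induction_on with
    | _ n ih =>
      intro z hz hc hs k hk hxk hn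
      have kc : k ∈ Q.cp l D x := fblk_tr' hS hc hk.1
      by_cases hb : k ∈ Q.blk l D τ X x
      · exact ⟨z, ⟨hz, hc, k, hk, hb⟩, hs⟩
      obtain ⟨z', hz', hc', hs'⟩ : ∃ z' ∈ X, z' ∈ Q.cp l D x ∧
          ¬ (x ∈ Q.side l D τ z' ↔ k ∈ Q.side l D τ z') := by
        by_contra h1
        exact hb ⟨kc, fun w h2 h3 => not_not.1 fun h4 => h1 ⟨w, h2, h3, h4⟩⟩
      have hne : z ≠ z' := by
        rintro rfl
        exact hs' hxk
      have a1 := h.zone_side hS hz' hz hne.symm (fblk_tr hS hc' hc) hk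
      have a2 := far z hz hc z' hz' hc' hne x hx
      have a3 := far z hz hc z' hz' hc' hne y hy
      obtain ⟨k', hk', hxk'⟩ := ((h.1 z' hz').fblk_near x).1
      have a4 : ¬ (x ∈ Q.side l D τ z' ↔ y ∈ Q.side l D τ z') := fun a5 =>
        a2.elim (fun a2 => a3.elim (fun a3 => hs (a2.trans a3.symm))
          fun a3 => hs' (a5.trans (a3.trans a1.symm))) fun a2 => hs' (a2.trans a1.symm)
      refine ih _ ?_ z' hz' hc' a4 k' hk' hxk' rfl
      rw [← hn]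
      refine Set.ncard_lt_ncard ⟨fun w hw => ⟨hw.1, hw.2.1, ?_⟩,
        fun h1 => (h1 ⟨hz', hc', hs'⟩).2.2 hxk'⟩
        ((sep_finite (τ := τ) hS kc).subset fun w hw => hw.2.2)
      obtain ⟨w1, w2, w3⟩ := hw
      have hne' : w ≠ z' := by
        rintro rfl
        exact w3 hxk'
      have b1 := h.zone_side hS w1 hz' hne' (fblk_tr hS w2 hc') hk'
      have b2 := far w w1 w2 z' hz' hc' hne' x hx
      have b3 := far w w1 w2 z' hz' hc' hne' k kc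
      exact fun b4 => b2.elim (fun b2 => w3 (b2.trans b1.symm)) fun b2 =>
        b3.elim (fun b3 => w3 (b4.trans (b3.trans b1.symm))) fun b3 => hs' (b2.trans b3.symm)
  obtain ⟨z, hz, hc, hs⟩ : ∃ z ∈ X, z ∈ Q.cp l D x ∧
      ¬ (x ∈ Q.side l D τ z ↔ y ∈ Q.side l D τ z) := by
    by_contra h1
    exact hn ⟨hy, fun w h2 h3 => not_not.1 fun h4 => h1 ⟨w, h2, h3, h4⟩⟩
  obtain ⟨k, hk, hxk⟩ := ((h.1 z hz).fblk_near x).1
  exact key _ z hz hc hs k hk hxk rfl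

theorem SepN.inc_disj (hS : Cay S) (h : Q.SepN l D τ X) {x z z' : G} (hz : z ∈ Q.Inc l D τ X x)
    (hz' : z' ∈ Q.Inc l D τ X x) {y : G} (hy : y ∈ Q.cp l D x)
    (h1 : ¬ (x ∈ Q.side l D τ z ↔ y ∈ Q.side l D τ z))
    (h2 : ¬ (x ∈ Q.side l D τ z' ↔ y ∈ Q.side l D τ z')) : z = z' := by
  by_contra hne
  obtain ⟨z1, z2, k, k1, k2⟩ := hz
  obtain ⟨z1', z2', k', k1', k2'⟩ := hz'
  have a1 := (k2.2 z' z1' z2').trans
    (h.zone_side hS z1' z1 (Ne.symm hne) (fblk_tr hS z2' z2) k1)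
  have a2 := (k2'.2 z z1 z2).trans (h.zone_side hS z1 z1' hne (fblk_tr hS z2 z2') k1')
  rcases h.far_disj hS z1 z1' hne (fblk_tr hS z2 z2') (fblk_tr hS z2 hy) with a3 | a3
  · exact h1 (a2.trans a3.symm)
  · exact h2 (a1.trans a3.symm)

theorem SepN.inc_finite (hS : Cay S) (h : Q.SepN l D τ X) {x : G} (hf : (Q.blk l D τ X x).Finite) :
    (Q.Inc l D τ X x).Finite :=   (nbh_finite (S := S) τ.2.1 hf).subset fun _ ⟨_, _, k, h1, h2⟩ => ⟨k, h2, mem_bl_symm hS h1.2⟩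

theorem SepN.one_inc (hS : Cay S) (h : Q.SepN l D τ X) {x : G} (hn : (X ∩ Q.cp l D x).Nonempty) :
    (Q.Inc l D τ X x).Nonempty := by
  obtain ⟨z, hz, hc⟩ := hn
  obtain ⟨k, hk, hs⟩ := ((h.1 z hz).fblk_near x).2
  obtain ⟨z', hz', -⟩ := h.exists_inc hS (fblk_tr' hS hc hk.1) fun hb => hs (hb.2 z hz hc)
  exact ⟨z', hz'⟩

theorem SepN.two_inc (hS : Cay S) (h : Q.SepN l D τ X) {x : G} (hn : (X ∩ Q.cp l D x).Nonempty)
    (hf : (Q.blk l D τ X x).Finite) : ∃ z ∈ Q.Inc l D τ X x, ∃ z' ∈ Q.Inc l D τ X x, z ≠ z' := by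
  obtain ⟨z, hz⟩ := h.one_inc hS hn
  have hN := h.1 z hz.1
  have h1 : {y | y ∈ Q.cp l D x ∧ (x ∈ Q.side l D τ z ↔ y ∈ Q.side l D τ z)}.Infinite := by
    by_cases hx : x ∈ Q.side l D τ z
    · exact hN.2.2.2.2.1.mono fun y hy =>
        ⟨fblk_tr' hS hz.2.1 (side_subset hS hN hy), iff_of_true hx hy⟩
    · exact hN.2.2.2.2.2.1.mono fun y hy => ⟨fblk_tr' hS hz.2.1 hy.1, iff_of_false hx hy.2⟩
  obtain ⟨y, ⟨y1, y2⟩, y3⟩ := (h1.diff hf).nonempty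
  obtain ⟨z', hz', hs⟩ := h.exists_inc hS y1 y3
  refine ⟨z, hz, z', hz', ?_⟩
  rintro rfl
  exact hs y2

theorem SepN.infinite_necks (hS : Cay S) (h : Q.SepN l D τ X) {x : G}
    (hn : (X ∩ Q.cp l D x).Nonempty) (hf : ∀ y ∈ Q.cp l D x, (Q.blk l D τ X y).Finite) :
    (X ∩ Q.cp l D x).Infinite := by
  intro hfin
  obtain ⟨z, hz, hc⟩ := hn
  have hN := h.1 z hz
  refine (hN.2.2.2.2.1.mono fun y hy => fblk_tr' hS hc (side_subset hS hN hy))
    (Set.Finite.of_finite_fibers (fun y => {w | w ∈ X ∩ Q.cp l D x ∧ y ∈ Q.side l D τ w})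
      (hfin.finite_subsets.subset ?_) ?_)
  · rintro _ ⟨y, -, rfl⟩
    exact fun w hw => hw.1
  · rintro _ ⟨y, hy, rfl⟩
    refine (hf y hy).subset fun y' hy' => ⟨fblk_tr hS hy hy'.1, fun w h1 h2 => ?_⟩
    have h3 := Set.ext_iff.1 hy'.2 w
    have h4 : w ∈ X ∩ Q.cp l D x := ⟨h1, fblk_tr' hS hy h2⟩
    exact ⟨fun h5 => (h3.2 ⟨h4, h5⟩).2, fun h5 => (h3.1 ⟨h4, h5⟩).2⟩

end Cones

theorem CfOK.sepN {ω : Cf G} (h : CfOK S ω) (Q : Cones S) (l : ℕ) {τ : NT G} {σ : ℕ} (q : ℕ)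
    (hσ : 2 * τ.2.2.1 ≤ σ) : Q.SepN l (cfD ω) τ (Q.NX l ω τ σ q) :=   ⟨fun _ hz => hz.2, fun z hz z' hz' hb => h.sep σ q z hz.1 z' hz'.1 (bl_mono z hσ hb)⟩

end Vale.Agent.P239
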