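import Vale.Agent.P239.Full.FKF
import Vale.Agent.P239.CoreMain

/-! Task FIsK: boundary values of class `IsK`. Copy the proofs of DFun.lean / GoodSet.lean with `KF.lip` instead of `finEn_of_le`
(`mul`: truncate, the product is Lipschitz on bounded sets, as in `IsD.mul`). `IsK.kf_H`: `u - H (hat u)` is square summable (`sqSum_sub_H`), `kf_sqSum`, `KF.sub`.
`isK_of_mono`: as `isD_of_mono` with `kf_of_tendsto`.
`SepK.fvp`: first clause `Sep.finite_vis`. Let `Θ = H θ ∈ [0,1]` converge to `val` on the cone. If `val < 1`, take `a = (1 + val)/2 < 1`; far on the cone `Θ ≤ (a + val)/2`, so by Markov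
`h {θ ≤ a} ≥ ε'`; `var_count` with `A = {θ ≤ a}`, `δ = 1 - a` shows that finitely many such points see `A'`. If `val > 0` apply the same to `1 - θ`.
`nonK_of`: if `hat u` is not a.e. constant there are `a < b` with `{hat u < a}`, `{b < hat u}` nonnull; compose with a clamp (see `exists_nonconst` in CoreMain.lean).
-/

noncomputable section

open Classical MeasureTheory Filter Topology Set
open scoped Pointwise ENNReal

namespace Vale.Agent.P239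

universe u
variable {G : Type u} [Group G] {S : Finset G} {l : ℕ} {Q : Cones S} {B : Bdry S}

namespace Bdry

theorem isK_clamp_lip (a b s t : ℝ) :
    |Max.max a (Min.min b s) - Max.max a (Min.min b t)| ≤ |s - t| := by
  refine (abs_max_sub_max_le_max _ _ _ _).trans (max_le (by simp) ?_)
  exact (abs_min_sub_min_le_max _ _ _ _).trans (max_le (by simp) le_rfl)

theorem isK_clamp_abs {C : ℝ} (hC : 0 ≤ C) (s : ℝ) : |Max.max (-C) (Min.min C s)| ≤ C :=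
  abs_le.2 ⟨le_max_left _ _, max_le (by linarith) (min_le_left _ _)⟩

theorem isK_comp {ψ φ : Bd G → ℝ} (hm : Measurable ψ) (hb : Bdd ψ) (hm' : Measurable φ)
    (hb' : Bdd φ) {u v : G → ℝ} (hu : Bdd u) (hv : Bdd v) (he : ψ =ᵐ[B.μ 1] hat u)
    (he' : φ =ᵐ[B.μ 1] hat v) {F : ℝ → ℝ → ℝ} (hF : Continuous fun p : ℝ × ℝ => F p.1 p.2)
    {χ : Fin Q.n → G → ℝ} (hE : Q.KF (fun x => F (u x) (v x)) χ) :
    B.IsK Q (fun ξ => F (ψ ξ) (φ ξ)) := by
  have h1 : (fun ξ => F (ψ ξ) (φ ξ)) =ᵐ[B.μ 1] hat fun x => F (u x) (v x) := by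
    filter_upwards [he, he'] with ξ h1 h2
    rw [hat_comp₂ hu hv hF, h1, h2]
  exact ⟨hF.measurable.comp (hm.prodMk hm'), hb.comp₂ hb' hF, _, χ, hu.comp₂ hv hF, hE, h1⟩

theorem isK_const_of {α : Type*} [MeasurableSpace α] (μ : Measure α)
    [IsProbabilityMeasure μ] {ψ : α → ℝ} (hb : Bdd ψ)
    (h : ∀ a b : ℝ, a < b → μ {ξ | ψ ξ < a} = 0 ∨ μ {ξ | b < ψ ξ} = 0) :
    ∃ κ : ℝ, ∀ᵐ ξ ∂μ, ψ ξ = κ := by
  obtain ⟨C, hC⟩ := hb
  have hne : {a : ℝ | μ {ξ | ψ ξ < a} = 0}.Nonempty := by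
    refine ⟨-C, ?_⟩
    have h1 : {ξ | ψ ξ < -C} = ∅ :=
      eq_empty_of_forall_notMem fun ξ hξ => absurd (abs_le.1 (hC ξ)).1 (not_le.2 hξ)
    change μ {ξ | ψ ξ < -C} = 0
    rw [h1, measure_empty]
  have hbdd : BddAbove {a : ℝ | μ {ξ | ψ ξ < a} = 0} := by
    refine ⟨C, fun a ha => ?_⟩
    by_contra h1
    have h2 : {ξ | ψ ξ < a} = univ :=
      eq_univ_of_forall fun ξ => (abs_le.1 (hC ξ)).2.trans_lt (not_le.1 h1)
    have h3 : μ {ξ | ψ ξ < a} = 0 := ha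
    rw [h2, measure_univ] at h3
    exact one_ne_zero h3
  obtain ⟨κ, hκ⟩ : ∃ κ, κ = sSup {a : ℝ | μ {ξ | ψ ξ < a} = 0} := ⟨_, rfl⟩
  refine ⟨κ, ?_⟩
  have h1 : ∀ n : ℕ, μ {ξ | ψ ξ < κ - 1 / ((n : ℝ) + 1)} = 0 := by
    intro n
    have h2 : κ - 1 / ((n : ℝ) + 1) < sSup {a : ℝ | μ {ξ | ψ ξ < a} = 0} := by
      rw [← hκ]
      exact sub_lt_self _ (by positivity)
    obtain ⟨a, ha, ha'⟩ := exists_lt_of_lt_csSup hne h2
    exact measure_mono_null (fun ξ hξ => lt_trans hξ ha') ha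
  have h2 : ∀ n : ℕ, μ {ξ | κ + 1 / ((n : ℝ) + 1) < ψ ξ} = 0 := by
    intro n
    have h3 : (0 : ℝ) < 1 / ((n : ℝ) + 1) := by positivity
    rcases h (κ + 1 / ((n : ℝ) + 1) / 2) (κ + 1 / ((n : ℝ) + 1)) (by linarith) with h4 | h4
    · have h5 := le_csSup hbdd h4
      rw [← hκ] at h5
      linarith
    · exact h4
  have h3 : ∀ᵐ ξ ∂μ, ∀ n : ℕ, ¬ ψ ξ < κ - 1 / ((n : ℝ) + 1) :=
    ae_all_iff.2 fun n => measure_eq_zero_iff_ae_notMem.1 (h1 n)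
  have h4 : ∀ᵐ ξ ∂μ, ∀ n : ℕ, ¬ κ + 1 / ((n : ℝ) + 1) < ψ ξ :=
    ae_all_iff.2 fun n => measure_eq_zero_iff_ae_notMem.1 (h2 n)
  filter_upwards [h3, h4] with ξ h5 h6
  rcases lt_trichotomy (ψ ξ) κ with h7 | h7 | h7
  · obtain ⟨n, hn⟩ := exists_nat_one_div_lt (sub_pos.2 h7)
    exact absurd (by linarith) (h5 n)
  · exact h7
  · obtain ⟨n, hn⟩ := exists_nat_one_div_lt (sub_pos.2 h7)
    exact absurd (by linarith) (h6 n)

theorem isK_not_const {f g : Bd G → ℝ} (he : f =ᵐ[B.μ 1] g) (h1 : ¬ B.Null {ξ | f ξ < 1 / 4})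
    (h2 : ¬ B.Null {ξ | 3 / 4 < f ξ}) (c : ℝ) : ¬ ∀ᵐ ξ ∂B.μ 1, g ξ = c := by
  intro hc
  by_cases h3 : c < 1 / 4
  · refine h2 ((B.null_iff_ae _).2 ?_)
    filter_upwards [he, hc] with ξ h4 h5 h6
    have h7 : 3 / 4 < f ξ := h6
    linarith
  · refine h1 ((B.null_iff_ae _).2 ?_)
    filter_upwards [he, hc] with ξ h4 h5 h6
    have h7 : f ξ < 1 / 4 := h6
    exact h3 (by linarith)

theorem isK_vis (hS : Cay S) (hg : Gap S) {θ : Bd G → ℝ} (hθ : B.IsD01 θ) {A : Set (Bd G)}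
    (h1 : ∀ᵐ ξ ∂B.μ 1, ξ ∈ A → θ ξ = 1) {C : Set G} {c : ℝ} (hc : c < 1)
    (ht : Tendsto (B.H θ) (cofinite ⊓ 𝓟 C) (𝓝 c)) {ε : ℝ} (hε : 0 < ε) :
    {x | x ∈ C ∧ ε ≤ B.h A x}.Finite := by
  obtain ⟨d, hd⟩ : ∃ d : ℝ, d = (1 - c) / 3 := ⟨_, rfl⟩
  have hd0 : 0 < d := by rw [hd]; linarith
  obtain ⟨K, -, hK⟩ := var_count B hS hg
  have hM : MeasurableSet {ξ | θ ξ ≤ 1 - d} := measurableSet_le hθ.1.1 measurable_const
  have h2 := (hK θ hθ {ξ | θ ξ ≤ 1 - d} A (1 - d) d (Min.min ε d) hd0 (lt_min hε hd0)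
    (Eventually.of_forall fun ξ h => h) (by
      filter_upwards [h1] with ξ h3 h4
      rw [h3 h4, sub_add_cancel])).1
  have h3 := ht.eventually (gt_mem_nhds (show c < c + d by linarith))
  rw [eventually_inf_principal, eventually_cofinite] at h3
  refine (h2.union h3).subset ?_
  rintro x ⟨hx, hx'⟩
  by_cases h4 : B.H θ x < c + d
  · refine Or.inl ⟨(min_le_right _ _).trans ?_, (min_le_left _ _).trans hx'⟩
    have hi : Integrable ({ξ | θ ξ ≤ 1 - d}.indicator fun _ => (1 : ℝ)) (B.μ x) :=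
      (integrable_const _).indicator hM
    have hi' := B.integrable hθ.1.1 hθ.1.2.1 x
    have h5 : ∫ _ : Bd G, (1 - d) ∂B.μ x ≤
        ∫ ξ, (θ ξ + {ξ | θ ξ ≤ 1 - d}.indicator (fun _ => (1 : ℝ)) ξ) ∂B.μ x := by
      refine integral_mono (integrable_const _) (hi'.add hi) fun ξ => ?_
      by_cases h6 : ξ ∈ {ξ | θ ξ ≤ 1 - d}
      · have h7 := (hθ.2 ξ).1
        change 1 - d ≤ θ ξ + _
        rw [indicator_of_mem h6]
        linarith
      · have h7 : ¬ θ ξ ≤ 1 - d := h6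
        change 1 - d ≤ θ ξ + _
        rw [indicator_of_notMem h6]
        linarith [not_le.1 h7]
    rw [integral_add hi' hi, integral_const, probReal_univ, one_smul] at h5
    rw [B.h_eq_H hM]
    change 1 - d ≤ B.H θ x + B.H ({ξ | θ ξ ≤ 1 - d}.indicator fun _ => (1 : ℝ)) x at h5
    linarith
  · exact Or.inr fun h5 => h4 (h5 hx)

theorem IsK.isD {ψ : Bd G → ℝ} (h : B.IsK Q ψ) : B.IsD ψ := by
  obtain ⟨hm, hb, u, φ, hu, hk, he⟩ := h
  exact ⟨hm, hb, u, hu, hk.1, he⟩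

theorem IsK01.isD01 {ψ : Bd G → ℝ} (h : B.IsK01 Q ψ) : B.IsD01 ψ := ⟨h.1.isD, h.2⟩

theorem IsK.kf_H (hS : Cay S) (hg : Gap S) {ψ : Bd G → ℝ} (h : B.IsK Q ψ) :
    ∃ φ, Q.KF (B.H ψ) φ := by
  obtain ⟨-, -, u, φ, hb, hu, he⟩ := h
  rw [B.H_congr hS he]
  have h1 := hu.sub (Cones.kf_sqSum (Q := Q) (sqSum_sub_H (B := B) hS hg hb hu.1).1)
  simp only [sub_sub_cancel] at h1
  exact ⟨_, h1⟩

theorem isK_hat {u : G → ℝ} {φ : Fin Q.n → G → ℝ} (hb : Bdd u) (hu : Q.KF u φ) :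
    B.IsK Q (hat u) :=
  ⟨hb.measurable_hat, hb.bdd_hat, u, φ, hb, hu, EventuallyEq.rfl⟩

theorem IsK.congr {ψ φ : Bd G → ℝ} (h : B.IsK Q ψ) (hm : Measurable φ) (hb : Bdd φ)
    (he : φ =ᵐ[B.μ 1] ψ) : B.IsK Q φ := by
  obtain ⟨-, -, u, χ, hb', hu, he'⟩ := h
  exact ⟨hm, hb, u, χ, hb', hu, he.trans he'⟩

theorem isK_const (c : ℝ) : B.IsK Q (fun _ => c) :=
  ⟨measurable_const, ⟨|c|, fun _ => le_rfl⟩, fun _ => c, fun _ _ => 0, ⟨|c|, fun _ => le_rfl⟩,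
    Cones.kf_const c, Eventually.of_forall fun ξ => (hat_const c ξ).symm⟩

theorem IsK.lip {ψ φ : Bd G → ℝ} (h : B.IsK Q ψ) (h' : B.IsK Q φ) {F : ℝ → ℝ → ℝ} {L : ℝ}
    (hL : 0 ≤ L) (hF : ∀ a b a' b', |F a b - F a' b'| ≤ L * (|a - a'| + |b - b'|)) :
    B.IsK Q (fun ξ => F (ψ ξ) (φ ξ)) := by
  obtain ⟨hm, hb, u, χ, hu, huE, he⟩ := h
  obtain ⟨hm', hb', v, χ', hv, hvE, he'⟩ := h'
  exact isK_comp hm hb hm' hb' hu hv he he' (df_continuous hL hF) (huE.lip hvE hL hF).1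

theorem IsK.lip₁ {ψ : Bd G → ℝ} (h : B.IsK Q ψ) {F : ℝ → ℝ} {L : ℝ} (hL : 0 ≤ L)
    (hF : ∀ a a', |F a - F a'| ≤ L * |a - a'|) : B.IsK Q (fun ξ => F (ψ ξ)) :=
  h.lip h (F := fun a _ => F a) hL fun a _ a' _ =>
    (hF a a').trans (mul_le_mul_of_nonneg_left (le_add_of_nonneg_right (abs_nonneg _)) hL)

theorem IsK.add {ψ φ : Bd G → ℝ} (h : B.IsK Q ψ) (h' : B.IsK Q φ) :
    B.IsK Q (fun ξ => ψ ξ + φ ξ) :=
  h.lip h' (F := fun a b => a + b) zero_le_one fun a b a' b' => by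
    rw [one_mul, show a + b - (a' + b') = (a - a') + (b - b') by ring]
    exact abs_add_le _ _

theorem IsK.sub {ψ φ : Bd G → ℝ} (h : B.IsK Q ψ) (h' : B.IsK Q φ) :
    B.IsK Q (fun ξ => ψ ξ - φ ξ) :=
  h.lip h' (F := fun a b => a - b) zero_le_one fun a b a' b' => by
    rw [one_mul, show a - b - (a' - b') = (a - a') - (b - b') by ring]
    exact abs_sub _ _

theorem IsK.mul {ψ φ : Bd G → ℝ} (h : B.IsK Q ψ) (h' : B.IsK Q φ) :
    B.IsK Q (fun ξ => ψ ξ * φ ξ) := by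
  obtain ⟨hm, hb, u, χ, hu, huE, he⟩ := h
  obtain ⟨hm', hb', v, χ', hv, hvE, he'⟩ := h'
  obtain ⟨C, hC⟩ := id hu
  obtain ⟨D, hD⟩ := id hv
  have hC0 : 0 ≤ C := (abs_nonneg _).trans (hC 1)
  have hD0 : 0 ≤ D := (abs_nonneg _).trans (hD 1)
  have h1 := (huE.lip hvE
    (F := fun a b => Max.max (-C) (Min.min C a) * Max.max (-D) (Min.min D b))
    (add_nonneg hC0 hD0) fun a b a' b' => by
      have e1 := isK_clamp_lip (-C) C a a'
      have e2 := isK_clamp_lip (-D) D b b'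
      have e3 := isK_clamp_abs hC0 a'
      have e4 := isK_clamp_abs hD0 b
      generalize Max.max (-C) (Min.min C a) = p at *
      generalize Max.max (-C) (Min.min C a') = p' at *
      generalize Max.max (-D) (Min.min D b) = q at *
      generalize Max.max (-D) (Min.min D b') = q' at *
      rw [show p * q - p' * q' = (p - p') * q + p' * (q - q') by ring]
      refine (abs_add_le _ _).trans ?_
      rw [abs_mul, abs_mul]
      have h1 := mul_le_mul e1 e4 (abs_nonneg _) (abs_nonneg _)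
      have h2 := mul_le_mul e3 e2 (abs_nonneg _) hC0
      have h3 := mul_nonneg hC0 (abs_nonneg (a - a'))
      have h4 := mul_nonneg hD0 (abs_nonneg (b - b'))
      linarith).1
  have h2 : (fun x => Max.max (-C) (Min.min C (u x)) * Max.max (-D) (Min.min D (v x))) =
      fun x => u x * v x := by
    funext x
    rw [min_eq_right (abs_le.1 (hC x)).2, max_eq_right (abs_le.1 (hC x)).1,
      min_eq_right (abs_le.1 (hD x)).2, max_eq_right (abs_le.1 (hD x)).1]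
  rw [h2] at h1
  exact isK_comp hm hb hm' hb' hu hv he he' (F := fun a b => a * b) (by fun_prop) h1

theorem IsK.const_mul {ψ : Bd G → ℝ} (h : B.IsK Q ψ) (c : ℝ) : B.IsK Q (fun ξ => c * ψ ξ) :=
  (isK_const c).mul h

theorem IsK.max {ψ φ : Bd G → ℝ} (h : B.IsK Q ψ) (h' : B.IsK Q φ) :
    B.IsK Q (fun ξ => max (ψ ξ) (φ ξ)) :=
  h.lip h' (F := fun a b => Max.max a b) zero_le_one fun a b a' b' => by
    rw [one_mul]
    exact (abs_max_sub_max_le_max a b a' b').trans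
      (max_le_add_of_nonneg (abs_nonneg _) (abs_nonneg _))

theorem IsK.min {ψ φ : Bd G → ℝ} (h : B.IsK Q ψ) (h' : B.IsK Q φ) :
    B.IsK Q (fun ξ => min (ψ ξ) (φ ξ)) :=
  h.lip h' (F := fun a b => Min.min a b) zero_le_one fun a b a' b' => by
    rw [one_mul]
    exact (abs_min_sub_min_le_max a b a' b').trans
      (max_le_add_of_nonneg (abs_nonneg _) (abs_nonneg _))

theorem IsK.smul (hS : Cay S) {ψ : Bd G → ℝ} (h : B.IsK Q ψ) (g : G) :
    B.IsK Q (fun ξ => ψ (g • ξ)) := by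
  obtain ⟨hm, ⟨C, hC⟩, u, χ, ⟨D, hD⟩, huE, he⟩ := h
  exact ⟨hm.comp (measurable_smul_bd g), ⟨C, fun ξ => hC _⟩, fun x => u (g * x), _,
    ⟨D, fun x => hD _⟩, huE.translate g, B.ae_smul hS g he⟩

/-- The graph norm of the harmonic extension is controlled by any representative. -/
theorem exists_nrm_H (B : Bdry S) (Q : Cones S) (hS : Cay S) (hg : Gap S) : ∃ C : ℝ, 0 ≤ C ∧
    ∀ u φ, Bdd u → Q.KF u φ → ∃ φ', Q.KF (B.H (hat u)) φ' ∧
      Q.nrm (B.H (hat u)) φ' ≤ C * Q.nrm u φ := by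
  obtain ⟨C, hC0, hC⟩ := id hg
  refine ⟨2 * (2 + Q.n * C), by positivity, fun u φ hb hu => ?_⟩
  obtain ⟨hp, hhE, -, -⟩ := sqSum_sub_H (B := B) hS hg hb hu.1
  have hharm := B.H_harm hS hb.measurable_hat hb.bdd_hat
  have hadd := hS.energy_add hhE hharm hp
  simp only [add_sub_cancel] at hadd
  have hE0 := energy_nonneg (S := S) (B.H (hat u))
  have hsum := hC _ hp
  have h1 := hu.lip (Cones.kf_sqSum (Q := Q) hp) (F := fun a b => a - b) zero_le_one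
    fun a b a' b' => by
      rw [one_mul, show a - b - (a' - b') = (a - a') - (b - b') by ring]
      exact abs_sub _ _
  have e : (fun x => u x - (u x - B.H (hat u) x)) = B.H (hat u) := by
    funext x
    ring
  rw [e] at h1
  refine ⟨_, h1.1, h1.2.trans ?_⟩
  have h2 := Cones.energy_le_nrm (Q := Q) u φ
  have h3 : energy S (fun x => u x - B.H (hat u) x) ≤ Q.nrm u φ := by
    have h4 : energy S u = energy S (B.H (hat u)) + energy S (fun x => u x - B.H (hat u) x) := hadd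
    linarith
  have h4 : Q.nrm (fun x => u x - B.H (hat u) x) (fun _ x => u x - B.H (hat u) x) =
      energy S (fun x => u x - B.H (hat u) x) + Q.n * ∑' x, (u x - B.H (hat u) x) ^ 2 := by
    unfold Cones.nrm
    rw [Finset.sum_const, Finset.card_univ, Fintype.card_fin, nsmul_eq_mul]
  rw [h4]
  have h5 := mul_le_mul_of_nonneg_left (hsum.trans (mul_le_mul_of_nonneg_left h3 hC0))
    (Nat.cast_nonneg (α := ℝ) Q.n)
  nlinarith

theorem isK_of_mono (hS : Cay S) (hg : Gap S) {ψ : ℕ → Bd G → ℝ} {φ : Bd G → ℝ} {K : ℝ}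
    (hD : ∀ n, B.IsK Q (ψ n)) (hK : ∀ n, ∃ χ, Q.KF (B.H (ψ n)) χ ∧ Q.nrm (B.H (ψ n)) χ ≤ K)
    (hm' : Measurable φ) (hb' : Bdd φ)
    (hl : ∀ᵐ ξ ∂B.μ 1, Monotone (fun n => ψ n ξ) ∧ Tendsto (fun n => ψ n ξ) atTop (𝓝 (φ ξ))) :
    B.IsK Q φ := by
  choose χ hχ using hK
  have h1 : ∀ x, Tendsto (fun n => B.H (ψ n) x) atTop (𝓝 (B.H φ x)) := by
    intro x
    have hl' : ∀ᵐ ξ ∂B.μ x, Monotone (fun n => ψ n ξ) ∧
        Tendsto (fun n => ψ n ξ) atTop (𝓝 (φ ξ)) := by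
      rw [B.ae_eq_ae hS x]
      exact hl
    exact integral_tendsto_of_tendsto_of_monotone
      (fun n => B.integrable (hD n).1 (hD n).2.1 x) (B.integrable hm' hb' x)
      (hl'.mono fun _ h => h.1) (hl'.mono fun _ h => h.2)
  obtain ⟨χ', h2, -⟩ := Cones.kf_of_tendsto (fun n => (hχ n).1) (fun n => (hχ n).2) h1
  have h3 := hat_H_of_mono hS (fun n => (hD n).1) (fun n => (hD n).2.1) hm' hb'
    (fun n => (hD n).isD.hat_H hS hg) hl
  exact ⟨hm', hb', B.H φ, χ', B.H_bdd hb', h2, h3.symm⟩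

theorem SepK.sep {A A' : Set (Bd G)} (h : B.SepK Q A A') : B.Sep A A' := by
  obtain ⟨θ, h1, h2, h3⟩ := h
  exact ⟨θ, h1.isD01, h2, h3⟩

theorem SepK.symm {A A' : Set (Bd G)} (h : B.SepK Q A A') : B.SepK Q A' A := by
  obtain ⟨θ, ⟨h1, h2⟩, h3, h4⟩ := h
  refine ⟨fun ξ => 1 - θ ξ, ⟨(isK_const 1).sub h1, fun ξ => ?_⟩, ?_, ?_⟩
  · have := h2 ξ
    constructor <;> linarith [this.1, this.2]
  · filter_upwards [h4] with ξ h5 h6
    rw [h5 h6, sub_self]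
  · filter_upwards [h3] with ξ h5 h6
    rw [h5 h6, sub_zero]

theorem SepK.mono {A A' A₁ A₁' : Set (Bd G)} (h : B.SepK Q A A') (h1 : B.Sub A₁ A)
    (h2 : B.Sub A₁' A') : B.SepK Q A₁ A₁' := by
  obtain ⟨θ, h0, h3, h4⟩ := h
  refine ⟨θ, h0, ?_, ?_⟩
  · filter_upwards [h3, (B.sub_iff _ _).1 h1] with ξ h5 h6 h7
    exact h5 (h6 h7)
  · filter_upwards [h4, (B.sub_iff _ _).1 h2] with ξ h5 h6 h7
    exact h5 (h6 h7)

theorem SepK.smul (hS : Cay S) {A A' : Set (Bd G)} (h : B.SepK Q A A') (g : G) :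
    B.SepK Q (g • A) (g • A') := by
  obtain ⟨θ, ⟨h1, h2⟩, h3, h4⟩ := h
  refine ⟨fun ξ => θ (g⁻¹ • ξ), ⟨h1.smul hS g⁻¹, fun ξ => h2 _⟩, ?_, ?_⟩
  · filter_upwards [B.ae_smul hS g⁻¹ h3] with ξ h5 h6
    exact h5 (mem_smul_set_iff_inv_smul_mem.1 h6)
  · filter_upwards [B.ae_smul hS g⁻¹ h4] with ξ h5 h6
    exact h5 (mem_smul_set_iff_inv_smul_mem.1 h6)

theorem IrrK.smul (hS : Cay S) {A : Set (Bd G)} (h : B.IrrK Q A) (g : G) : B.IrrK Q (g • A) := by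
  intro θ h1 h2
  have h3 : ∀ᵐ ξ ∂B.μ 1, ξ ∈ A → θ (g • ξ) = 0 ∨ θ (g • ξ) = 1 := by
    filter_upwards [B.ae_smul hS g h2] with ξ h4 h5
    exact h4 (smul_mem_smul_set h5)
  refine (h (fun ξ => θ (g • ξ)) (h1.smul hS g) h3).imp (fun h4 => ?_) fun h4 => ?_
  · filter_upwards [B.ae_smul hS g⁻¹ h4] with ξ h5 h6
    have h7 := h5 (mem_smul_set_iff_inv_smul_mem.1 h6)
    rwa [smul_inv_smul] at h7
  · filter_upwards [B.ae_smul hS g⁻¹ h4] with ξ h5 h6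
    have h7 := h5 (mem_smul_set_iff_inv_smul_mem.1 h6)
    rwa [smul_inv_smul] at h7

theorem IrrK.congr {A A' : Set (Bd G)} (h : B.IrrK Q A) (h1 : B.Sub A A') (h2 : B.Sub A' A) :
    B.IrrK Q A' := by
  intro θ h3 h4
  have h5 : ∀ᵐ ξ ∂B.μ 1, ξ ∈ A → θ ξ = 0 ∨ θ ξ = 1 := by
    filter_upwards [h4, (B.sub_iff _ _).1 h1] with ξ h6 h7 h8
    exact h6 (h7 h8)
  refine (h θ h3 h5).imp (fun h6 => ?_) fun h6 => ?_
  · filter_upwards [h6, (B.sub_iff _ _).1 h2] with ξ h7 h8 h9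
    exact h7 (h8 h9)
  · filter_upwards [h6, (B.sub_iff _ _).1 h2] with ξ h7 h8 h9
    exact h7 (h8 h9)

theorem SplitK.split {f : Bd G → ℝ} {E : Set (Bd G)} (h : B.SplitK Q f E) : B.Split f E :=
  ⟨h.1, fun t ht => (h.2 t ht).isD⟩

theorem SepK.fvp (hS : Cay S) (hg : Gap S) {A A' : Set (Bd G)} (h : B.SepK Q A A') :
    B.FVP Q A A' := by
  refine ⟨fun ε hε => h.sep.finite_vis hS hg hε, fun i γ => ?_⟩
  obtain ⟨θ, hθ, h0, h1⟩ := h
  obtain ⟨χ, hχ⟩ := hθ.1.kf_H hS hg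
  have ht : Tendsto (B.H θ) (cofinite ⊓ 𝓟 (Q.cone i γ)) (𝓝 (B.H θ γ - χ i γ)) :=
    (hχ.tendsto_cn 0 i γ).mono_left (inf_le_inf_left _ (principal_mono.2 (subset_nbh 0 _)))
  by_cases hc : B.H θ γ - χ i γ < 1
  · exact Or.inr fun ε hε => isK_vis hS hg hθ.isD01 h1 hc ht hε
  · refine Or.inl fun ε hε => ?_
    have hθ' : B.IsD01 fun ξ => 1 - θ ξ := ⟨(isD_const 1).sub hθ.1.isD, fun ξ => by
      have := hθ.2 ξ
      constructor <;> linarith [this.1, this.2]⟩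
    have e : B.H (fun ξ => 1 - θ ξ) = fun x => 1 - B.H θ x := by
      funext x
      unfold H
      rw [integral_sub (integrable_const _) (B.integrable hθ.1.1 hθ.1.2.1 x), integral_const,
        probReal_univ, one_smul]
    refine isK_vis hS hg hθ' (c := 1 - (B.H θ γ - χ i γ)) ?_ (by linarith [not_lt.1 hc]) ?_ hε
    · filter_upwards [h0] with ξ h2 h3
      rw [h2 h3, sub_zero]
    · rw [e]
      exact tendsto_const_nhds.sub ht

theorem nonK_of {u : G → ℝ} {φ : Fin Q.n → G → ℝ} (hb : Bdd u) (hu : Q.KF u φ)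
    (hn : ∀ c : ℝ, ¬ ∀ᵐ ξ ∂B.μ 1, hat u ξ = c) : B.NonK Q := by
  obtain ⟨a, b, hab, ha, hb'⟩ : ∃ a b : ℝ, a < b ∧ B.μ 1 {ξ | hat u ξ < a} ≠ 0 ∧
      B.μ 1 {ξ | b < hat u ξ} ≠ 0 := by
    by_contra hcon
    obtain ⟨κ, hκ⟩ := isK_const_of (B.μ 1) hb.bdd_hat fun a b hab => by
      by_contra h1
      rw [not_or] at h1
      exact hcon ⟨a, b, hab, h1.1, h1.2⟩
    exact hn κ hκ
  have hd : 0 < 2 * (b - a) := by linarith
  have hD := (isK_hat (B := B) hb hu).lip₁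
    (F := fun t => Max.max 0 (Min.min 1 (1 / 4 + (t - a) / (2 * (b - a)))))
    (L := 1 / (2 * (b - a))) (by positivity) (fun s t => by
      refine (isK_clamp_lip _ _ _ _).trans (le_of_eq ?_)
      rw [add_sub_add_left_eq_sub, ← sub_div, sub_sub_sub_cancel_right, abs_div, abs_of_pos hd]
      ring)
  refine ⟨_, ⟨hD, fun ξ => ⟨le_max_left _ _, max_le zero_le_one (min_le_left _ _)⟩⟩,
    fun h => ha (measure_mono_null (fun ξ hξ => ?_) h),
    fun h => hb' (measure_mono_null (fun ξ hξ => ?_) h)⟩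
  · have h1 : hat u ξ < a := hξ
    have h2 : (hat u ξ - a) / (2 * (b - a)) < 0 := div_neg_of_neg_of_pos (by linarith) hd
    change Max.max 0 (Min.min 1 (1 / 4 + (hat u ξ - a) / (2 * (b - a)))) < 1 / 4
    exact max_lt (by norm_num) (min_lt_of_right_lt (by linarith))
  · have h1 : b < hat u ξ := hξ
    have h2 : 1 / 2 < (hat u ξ - a) / (2 * (b - a)) := by
      rw [lt_div_iff₀ hd]
      linarith
    change 3 / 4 < Max.max 0 (Min.min 1 (1 / 4 + (hat u ξ - a) / (2 * (b - a))))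
    exact lt_max_of_lt_right (lt_min (by norm_num) (by linarith))

theorem NonK.exists_nonconst (h : B.NonK Q) :
    ∃ u φ, Bdd u ∧ Q.KF u φ ∧ ∀ c : ℝ, ¬ ∀ᵐ ξ ∂B.μ 1, hat u ξ = c := by
  obtain ⟨f, ⟨⟨-, -, u, φ, hb, hu, he⟩, -⟩, h1, h2⟩ := h
  exact ⟨u, φ, hb, hu, isK_not_const he h1 h2⟩

theorem exists_nonD (B : Bdry S) (hS : Cay S) (hg : Gap S) (h : ¬ HarmVanish S) : B.NonD := by
  obtain ⟨f, ⟨⟨-, -, u, hb, hu, he⟩, -⟩, h1, h2⟩ := B.exists_nonconst hS hg h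
  exact ⟨u, hb, hu, isK_not_const he h1 h2⟩

end Bdry

end Vale.Agent.P239
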