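import Vale.Agent.P239.Full.FBas

/-! Task FMP: maximum principle and consequences.
`mp`: `v = if y ∈ U₀ then max (p y - g y) 0 else 0` is bounded, subharmonic everywhere, `hat v ≤ 0` a.e., so `v ≤ 0` by `B.sub`.
`H_min_le`: `-(min g 1)` is bounded and subharmonic. `h_hatSet_le`: on `hatSet N` (a.e., `ae_cofinite`) `hat (min g 1) = 1`.
`pot_finite`: `Cay.green` for `ind F`; positivity: a negative minimum is attained (`SqSum.tendsto`) and spreads to all vertices.
`Thin.good`: given `ε` take `F, g` at the point `1`, `g'` from `pot_finite F`, `m = min (g + g') 1`; `max (ind U - m) 0` is subharmonic so `ind U - m ≤ h (hatSet U)`;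
hence `hat h ≥ 1 - hat m` on `hatSet U` and `∫ hat m ≤ ε` (`hat g' = 0` a.e.); let `ε → 0` and use `gs_good`.
`close_of_thin`: `mp` for `p = h (hatSet V)`, `V = symmDiff U U'`, on `U₀ = Vᶜ \ wallV V`; wall vertices of `V` lie outside `ball r`. (`hatSet V` is good, it equals the symmetric difference.)
`level_out`: `mp` with `p = h Aᶜ`, `g = 1 - lam`, `U₀ = Yᶜ`. `level_in`: `mp` with `p = h A`, `g = lam`, `U₀ = Y`, then the mean value property at an inner wall vertex is violated.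
`level_sub`: `mp` with `p = h Aᶜ` on `Y` minus the inner wall vertices.
`not_finite_sees`: the wall of `lev A` is finite (`sees_of_wall`), so `lev A` or its complement is finite, contradicting `Good.infinite_deep`.
`tube`: for `x ∉ K` let `k = w x - indZ U x`, `U₀ = {y ∉ K | w y - indZ U y = k}`; far points of `U₀` are all outside `U` (if `c - k ≠ 1`) or all inside; `mp` for `h (hatSet U)` resp. its complement.
-/

noncomputable section

open Classical MeasureTheory Filter Topology Set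
open scoped Pointwise ENNReal

namespace Vale.Agent.P239

universe u
variable {G : Type u} [Group G] {S : Finset G} {l : ℕ} {Q : Cones S} {B : Bdry S}

theorem fmp_avg_mono {u v : G → ℝ} {y : G} (h : ∀ s ∈ S, u (y * s) ≤ v (y * s)) :
    avg S u y ≤ avg S v y :=
  div_le_div_of_nonneg_right (Finset.sum_le_sum h) (Nat.cast_nonneg _)

theorem fmp_avg_nonneg {u : G → ℝ} (h : ∀ x, 0 ≤ u x) (y : G) : 0 ≤ avg S u y :=
  div_nonneg (Finset.sum_nonneg fun _ _ => h _) (Nat.cast_nonneg _)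

theorem fmp_avg_add (u v : G → ℝ) (y : G) :
    avg S (fun x => u x + v x) y = avg S u y + avg S v y := by
  simp only [avg, Finset.sum_add_distrib, add_div]

theorem fmp_avg_sub (u v : G → ℝ) (y : G) :
    avg S (fun x => u x - v x) y = avg S u y - avg S v y := by
  simp only [avg, Finset.sum_sub_distrib, sub_div]

theorem fmp_avg_mul (c : ℝ) (u : G → ℝ) (y : G) :
    avg S (fun x => c * u x) y = c * avg S u y := by
  simp only [avg, ← Finset.mul_sum, mul_div_assoc]

theorem fmp_avg_const (hS : Cay S) (c : ℝ) (y : G) : avg S (fun _ => c) y = c := by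
  have h : (S.card : ℝ) ≠ 0 := by exact_mod_cast hS.card_pos.ne'
  simp only [avg, Finset.sum_const, nsmul_eq_mul]
  field_simp

theorem fmp_avg_lt (hS : Cay S) {u : G → ℝ} {y t : G} {c : ℝ} (h : ∀ s ∈ S, u (y * s) ≤ c)
    (ht : t ∈ S) (h' : u (y * t) < c) : avg S u y < c := by
  have h0 : (0 : ℝ) < S.card := by exact_mod_cast hS.card_pos
  have h1 : ∑ s ∈ S, u (y * s) < ∑ _s ∈ S, c := Finset.sum_lt_sum h ⟨t, ht, h'⟩
  rw [Finset.sum_const, nsmul_eq_mul] at h1
  rw [avg, div_lt_iff₀ h0]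
  linarith

theorem fmp_supH_const (hS : Cay S) {c : ℝ} (hc : 0 ≤ c) : SupH S fun _ => c :=
  ⟨fun _ => hc, fun x => (fmp_avg_const hS c x).le⟩

theorem fmp_supH_min (hS : Cay S) {g : G → ℝ} (hg : SupH S g) : SupH S fun y => min (g y) 1 := by
  refine ⟨fun x => le_min (hg.1 x) zero_le_one, fun x => le_min ?_ ?_⟩
  · exact (fmp_avg_mono fun s _ => min_le_left _ _).trans (hg.2 x)
  · exact (fmp_avg_mono (v := fun _ => 1) fun s _ => min_le_right _ _).trans
      (fmp_avg_const hS 1 x).le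

theorem fmp_bdd {α : Type*} {u : α → ℝ} {C : ℝ} (h0 : ∀ x, 0 ≤ u x) (h1 : ∀ x, u x ≤ C) : Bdd u :=
  ⟨C, fun x => by rw [abs_of_nonneg (h0 x)]; exact h1 x⟩

theorem fmp_bdd_min {g : G → ℝ} (hg : SupH S g) : Bdd fun y => min (g y) 1 :=
  fmp_bdd (C := 1) (fun x => le_min (hg.1 x) zero_le_one) fun _ => min_le_right _ _

theorem fmp_bdd_const {α : Type*} (c : ℝ) : Bdd fun _ : α => c := ⟨|c|, fun _ => le_rfl⟩

theorem fmp_le_hat {u : G → ℝ} (hu : Bdd u) {c : ℝ} {ξ : Bd G}
    (h : ∀ᶠ x in (ξ.uf : Filter G), c ≤ u x) : c ≤ hat u ξ :=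
  ge_of_tendsto (hu.tendsto_hat ξ) h

theorem fmp_hat_le {u : G → ℝ} (hu : Bdd u) {c : ℝ} {ξ : Bd G}
    (h : ∀ᶠ x in (ξ.uf : Filter G), u x ≤ c) : hat u ξ ≤ c :=
  le_of_tendsto (hu.tendsto_hat ξ) h

omit [Group G] in
theorem fmp_hatSet_mono {U V : Set G} (h : U ⊆ V) : hatSet U ⊆ hatSet V :=
  fun _ hξ => Filter.mem_of_superset hξ h

theorem fmp_harnack (hS : Cay S) {g : G → ℝ} (hg : SupH S g) (x : G) (r : ℕ) :
    ∀ b ∈ ball S r, g (x * b) ≤ (S.card : ℝ) ^ r * g x := by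
  have h0 : (0 : ℝ) < S.card := by exact_mod_cast hS.card_pos
  have h1 : (1 : ℝ) ≤ S.card := by exact_mod_cast hS.card_pos
  induction r with
  | zero =>
    intro b hb
    rw [mem_ball_zero.1 hb]
    simp
  | succ r ih =>
    intro b hb
    rcases mem_ball_succ.1 hb with hb | ⟨a, ha, s, hs, rfl⟩
    · refine (ih b hb).trans (mul_le_mul_of_nonneg_right ?_ (hg.1 x))
      exact pow_le_pow_right₀ h1 (Nat.le_succ r)
    · have h2 : g (x * a * s) ≤ ∑ t ∈ S, g (x * a * t) :=
        Finset.single_le_sum (f := fun t => g (x * a * t)) (fun t _ => hg.1 _) hs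
      have h3 := hg.2 (x * a)
      rw [avg, div_le_iff₀ h0] at h3
      have h4 := mul_le_mul_of_nonneg_right (ih a ha) h0.le
      rw [← mul_assoc, pow_succ]
      nlinarith

theorem fmp_wall_edge (hS : Cay S) {Y : Set G} (hne : (wallV S Y).Nonempty) :
    ∃ x ∈ Y, ∃ s ∈ S, x * s ∉ Y := by
  obtain ⟨x, s, hs, h⟩ := hne
  by_cases hx : x ∈ Y
  · exact ⟨x, hx, s, hs, fun h' => h ⟨fun _ => h', fun _ => hx⟩⟩
  · refine ⟨x * s, ?_, s⁻¹, hS.symm s hs, by simpa using hx⟩
    by_contra h'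
    exact h ⟨fun h1 => absurd h1 hx, fun h1 => absurd h1 h'⟩

namespace Bdry

theorem mp (B : Bdry S) (hS : Cay S) {p g : G → ℝ} (hp : Bdd p) (hg : ∀ x, 0 ≤ g x) {U₀ : Set G}
    (h1 : ∀ y ∈ U₀, p y - avg S p y ≤ g y - avg S g y)
    (h2 : ∀ y ∈ U₀, ∀ s ∈ S, y * s ∈ U₀ ∨ p (y * s) ≤ g (y * s))
    (h3 : ∀ᵐ ξ ∂B.μ 1, ξ ∈ hatSet U₀ → hat p ξ ≤ 0) : ∀ y ∈ U₀, p y ≤ g y := by
  set v : G → ℝ := fun y => if y ∈ U₀ then max (p y - g y) 0 else 0 with hv
  have v0 : ∀ y, 0 ≤ v y := fun y => by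
    simp only [hv]
    split_ifs
    · exact le_max_right _ _
    · exact le_rfl
  have v1 : ∀ y, v y ≤ max (p y) 0 := fun y => by
    simp only [hv]
    split_ifs
    · exact max_le_max (by linarith [hg y]) le_rfl
    · exact le_max_right _ _
  obtain ⟨C, hC⟩ := hp
  have vb : Bdd v := fmp_bdd (C := C) v0 fun y =>
    (v1 y).trans (max_le ((le_abs_self _).trans (hC y)) ((abs_nonneg _).trans (hC y)))
  have vs : ∀ y, v y ≤ avg S v y := by
    intro y
    by_cases hy : y ∈ U₀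
    · have e : v y = max (p y - g y) 0 := if_pos hy
      rw [e]
      refine max_le ?_ (fmp_avg_nonneg v0 y)
      have h4 : avg S (fun x => p x - g x) y ≤ avg S v y := by
        refine fmp_avg_mono fun s hs => ?_
        rcases h2 y hy s hs with h | h
        · have e' : v (y * s) = max (p (y * s) - g (y * s)) 0 := if_pos h
          rw [e']
          exact le_max_left _ _
        · linarith [v0 (y * s)]
      rw [fmp_avg_sub] at h4
      linarith [h1 y hy]
    · have e : v y = 0 := if_neg hy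
      rw [e]
      exact fmp_avg_nonneg v0 y
  have vh : ∀ᵐ ξ ∂B.μ 1, hat v ξ ≤ 0 := by
    filter_upwards [h3] with ξ hξ
    by_cases hm : ξ ∈ hatSet U₀
    · have ht : Tendsto (fun y => max (p y) 0) (ξ.uf : Filter G) (𝓝 (max (hat p ξ) 0)) :=
        (Bdd.tendsto_hat ⟨C, hC⟩ ξ).max tendsto_const_nhds
      have := le_of_tendsto_of_tendsto' (vb.tendsto_hat ξ) ht v1
      rwa [max_eq_right (hξ hm)] at this
    · refine fmp_hat_le vb ?_
      have hc : U₀ᶜ ∈ ξ.uf := Ultrafilter.compl_mem_iff_notMem.2 hm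
      filter_upwards [hc] with y hy
      exact (if_neg hy : v y = 0).le
  intro y hy
  have h5 := B.sub v vb vs y
  have h6 : ∫ ξ, hat v ξ ∂B.μ y ≤ 0 := by
    refine integral_nonpos_of_ae ?_
    rw [Filter.EventuallyLE, B.ae_eq_ae hS y]
    exact vh
  have e : v y = max (p y - g y) 0 := if_pos hy
  linarith [le_max_left (p y - g y) 0]

theorem fmp_good_le (hS : Cay S) {A : Set (Bd G)} (hA : B.Good A) {g : G → ℝ} (hg : SupH S g)
    {U₀ : Set G} (h2 : ∀ y ∈ U₀, ∀ s ∈ S, y * s ∈ U₀ ∨ B.h A (y * s) ≤ g (y * s))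
    (h3 : ∀ᵐ ξ ∂B.μ 1, ξ ∈ hatSet U₀ → ξ ∉ A) : ∀ y ∈ U₀, B.h A y ≤ g y := by
  refine B.mp hS (B.h_bdd A) hg.1 (fun y _ => ?_) h2 ?_
  · rw [B.h_harm hS hA.1 y]
    linarith [hg.2 y]
  · filter_upwards [h3, hA.2] with ξ h h' hm
    rw [h', indicator_of_notMem (h hm)]

theorem H_min_le (B : Bdry S) (hS : Cay S) {g : G → ℝ} (hg : SupH S g) (x : G) :
    B.H (hat fun y => min (g y) 1) x ≤ g x := by
  have hm := fmp_supH_min hS hg
  have hb := fmp_bdd_min hg
  have hb' : Bdd fun y => -1 * min (g y) 1 := by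
    obtain ⟨C, hC⟩ := hb
    exact ⟨C, fun y => by simpa using hC y⟩
  have h1 := B.sub _ hb' (fun y => by rw [fmp_avg_mul]; linarith [hm.2 y]) x
  have h2 : ∀ ξ, hat (fun y => -1 * min (g y) 1) ξ = -1 * hat (fun y => min (g y) 1) ξ :=
    fun ξ => hat_eq_of_tendsto ((hb.tendsto_hat ξ).const_mul _)
  simp only [h2, integral_const_mul] at h1
  have h3 : min (g x) 1 ≤ g x := min_le_left _ _
  unfold H
  linarith

theorem h_hatSet_le (B : Bdry S) (hS : Cay S) {g : G → ℝ} (hg : SupH S g) {N F : Set G}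
    (hF : F.Finite) (h : ∀ y ∈ N, y ∉ F → 1 ≤ g y) (x : G) : B.h (hatSet N) x ≤ g x := by
  have hb := fmp_bdd_min hg
  refine le_trans ?_ (B.H_min_le hS hg x)
  rw [B.h_eq_H (measurableSet_hatSet N)]
  refine B.H_mono hS (measurable_const.indicator (measurableSet_hatSet N)) (gs_bdd_ind _)
    hb.measurable_hat hb.bdd_hat ?_ x
  filter_upwards [B.ae_cofinite hS] with ξ hξ
  by_cases hm : ξ ∈ hatSet N
  · rw [indicator_of_mem hm]
    refine fmp_le_hat hb ?_
    have hN : N ∈ (ξ.uf : Filter G) := hm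
    filter_upwards [hN, hξ hF.compl_mem_cofinite] with y hy hy'
    exact le_min (h y hy hy') le_rfl
  · rw [indicator_of_notMem hm]
    exact fmp_le_hat hb (Eventually.of_forall fun y => le_min (hg.1 y) zero_le_one)

end Bdry

theorem SupH.add {g g' : G → ℝ} (h : SupH S g) (h' : SupH S g') : SupH S fun x => g x + g' x :=
  ⟨fun x => add_nonneg (h.1 x) (h'.1 x), fun x => by
    rw [fmp_avg_add]
    exact add_le_add (h.2 x) (h'.2 x)⟩

theorem pot_finite (hS : Cay S) (hg : Gap S) {F : Set G} (hF : F.Finite) :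
    ∃ g, SupH S g ∧ SqSum g ∧ ∀ y ∈ F, 1 ≤ g y := by
  have hi : SqSum (ind F) := by
    refine summable_of_hasFiniteSupport (hF.subset fun y hy => ?_)
    by_contra h
    exact hy (by simp [ind, h])
  have hi0 : ∀ y, 0 ≤ ind F y := fun y => by
    unfold ind
    split_ifs
    · exact zero_le_one
    · exact le_rfl
  obtain ⟨p, hp, he⟩ := hS.green hg hi
  have h0 : ∀ x, 0 ≤ p x := by
    intro x
    by_contra hx
    have hx' : p x < 0 := not_le.1 hx
    have hfin : {y | p y ≤ p x}.Finite := by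
      have h1 : ∀ᶠ y in cofinite, p x < p y := hp.tendsto.eventually (lt_mem_nhds hx')
      refine (Filter.eventually_cofinite.1 h1).subset fun y hy => not_lt.2 hy
    obtain ⟨z, hz, hmin⟩ := hfin.toFinset.exists_min_image p ⟨x, by simp⟩
    have hz' : p z ≤ p x := by simpa using hz
    have hall : ∀ y, p z ≤ p y := fun y => by
      by_cases hy : p y ≤ p x
      · exact hmin y (by simpa using hy)
      · linarith [not_le.1 hy]
    have hstep : ∀ y, p y = p z → ∀ s ∈ S, p (y * s) = p z := by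
      intro y hy s hs
      by_contra hne
      have h1 : p z < p (y * s) := lt_of_le_of_ne (hall _) (Ne.symm hne)
      have h2 := fmp_avg_lt hS (u := fun x => -1 * p x) (y := y) (c := -p z)
        (fun t _ => by linarith [hall (y * t)]) hs (by linarith)
      rw [fmp_avg_mul] at h2
      linarith [he y, hi0 y]
    have hball : ∀ r, ∀ b ∈ ball S r, p (z * b) = p z := by
      intro r
      induction r with
      | zero =>
        intro b hb
        rw [mem_ball_zero.1 hb, mul_one]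
      | succ r ih =>
        intro b hb
        rcases mem_ball_succ.1 hb with hb | ⟨a, ha, s, hs, rfl⟩
        · exact ih b hb
        · rw [← mul_assoc]
          exact hstep _ (ih a ha) s hs
    have := hS.inf
    refine Set.infinite_univ (hfin.subset fun y _ => ?_)
    obtain ⟨r, hr⟩ := hS.exists_ball (z⁻¹ * y)
    have := hball r _ hr
    rw [mul_inv_cancel_left] at this
    exact this.le.trans hz'
  refine ⟨p, ⟨h0, fun x => by linarith [he x, hi0 x]⟩, hp, fun y hy => ?_⟩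
  have h1 : ind F y = 1 := if_pos hy
  linarith [he y, fmp_avg_nonneg (S := S) h0 y]

theorem Thin.mono {N N' : Set G} (h : Thin S N) (h' : N' ⊆ N) : Thin S N' := by
  intro x ε hε
  obtain ⟨F, g, hF, hg, h1, h2⟩ := h x ε hε
  exact ⟨F, g, hF, hg, fun y hy => h1 y (h' hy), h2⟩

theorem thin_of_finite {N : Set G} (h : N.Finite) : Thin S N := fun _ _ hε =>
  ⟨N, fun _ => 0, h, ⟨fun _ => le_rfl, fun x => by simp [avg]⟩, fun _ hy hy' => absurd hy hy', hε.le⟩

theorem Thin.union {N N' : Set G} (h : Thin S N) (h' : Thin S N') : Thin S (N ∪ N') := by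
  intro x ε hε
  obtain ⟨F, g, hF, hg, h1, h2⟩ := h x (ε / 2) (half_pos hε)
  obtain ⟨F', g', hF', hg', h1', h2'⟩ := h' x (ε / 2) (half_pos hε)
  refine ⟨F ∪ F', fun y => g y + g' y, hF.union hF', hg.add hg', fun y hy hy' => ?_, by linarith⟩
  rcases hy with hy | hy
  · linarith [h1 y hy fun h => hy' (Or.inl h), hg'.1 y]
  · linarith [h1' y hy fun h => hy' (Or.inr h), hg.1 y]

theorem Thin.smul {N : Set G} (h : Thin S N) (g : G) : Thin S (g • N) := by
  intro x ε hε
  obtain ⟨F, u, hF, hu, h1, h2⟩ := h (g⁻¹ * x) ε hε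
  refine ⟨g • F, fun y => u (g⁻¹ * y), hF.smul_set, ⟨fun y => hu.1 _, fun y => ?_⟩,
    fun y hy hy' => ?_, h2⟩
  · have := hu.2 (g⁻¹ * y)
    simpa only [avg, mul_assoc] using this
  · rw [Set.mem_smul_set_iff_inv_smul_mem, smul_eq_mul] at hy hy'
    exact h1 _ hy hy'

theorem Thin.nbh (hS : Cay S) {N : Set G} (h : Thin S N) (r : ℕ) : Thin S (nbh S r N) := by
  intro x ε hε
  have h0 : (0 : ℝ) < (S.card : ℝ) ^ r := pow_pos (by exact_mod_cast hS.card_pos) r
  obtain ⟨F, g, hF, hg, h1, h2⟩ := h x (ε / (S.card : ℝ) ^ r) (div_pos hε h0)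
  refine ⟨P239.nbh S r F, fun y => (S.card : ℝ) ^ r * g y, nbh_finite r hF,
    ⟨fun y => mul_nonneg h0.le (hg.1 y), fun y => ?_⟩, fun y hy hy' => ?_, ?_⟩
  · rw [fmp_avg_mul]
    exact mul_le_mul_of_nonneg_left (hg.2 y) h0.le
  · obtain ⟨a, ha, hb⟩ := hy
    have h3 := fmp_harnack hS hg y r _ (hS.inv_mem_ball hb)
    rw [mul_inv_rev, inv_inv, mul_inv_cancel_left] at h3
    exact (h1 a ha fun haF => hy' ⟨a, haF, hb⟩).trans h3
  · rw [le_div_iff₀ h0] at h2
    linarith

theorem Thin.far (hS : Cay S) {N : Set G} (h : Thin S N) (x : G) {ε : ℝ} (hε : 0 < ε) :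
    ∃ (σ : ℕ) (g : G → ℝ), SupH S g ∧ (∀ y ∈ N, y ∉ bl S x σ → 1 ≤ g y) ∧ g x ≤ ε := by
  obtain ⟨F, g, hF, hg, h1, h2⟩ := h x ε hε
  obtain ⟨σ, hσ⟩ := hS.finite_subset_bl hF x
  exact ⟨σ, g, hg, fun y hy hy' => h1 y hy fun h => hy' (hσ h), h2⟩

theorem Thin.null (B : Bdry S) (hS : Cay S) {N : Set G} (h : Thin S N) : B.Null (hatSet N) := by
  by_contra hn
  have h0 := B.h_pos hS hn 1
  obtain ⟨F, g, hF, hg, h1, h2⟩ := h 1 _ (half_pos h0)
  linarith [B.h_hatSet_le hS hg hF h1 1]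

theorem fmp_inner (B : Bdry S) (hS : Cay S) {U : Set G} {m : G → ℝ} (hm : SupH S m)
    (h : ∀ y ∈ wallV S U, 1 ≤ m y) : ∀ x ∈ U, 1 - m x ≤ B.h (hatSet U) x := by
  set w : G → ℝ := fun y => if y ∈ U then max (1 - m y) 0 else 0 with hw
  have w0 : ∀ y, 0 ≤ w y := fun y => by
    simp only [hw]
    split_ifs
    · exact le_max_right _ _
    · exact le_rfl
  have w1 : ∀ y, w y ≤ 1 := fun y => by
    simp only [hw]
    split_ifs
    · exact max_le (by linarith [hm.1 y]) zero_le_one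
    · exact zero_le_one
  have wb : Bdd w := fmp_bdd w0 w1
  have ws : ∀ y, w y ≤ avg S w y := by
    intro y
    by_cases hy : y ∈ U
    · have e : w y = max (1 - m y) 0 := if_pos hy
      rw [e]
      refine max_le ?_ (fmp_avg_nonneg w0 y)
      by_cases hy' : y ∈ wallV S U
      · linarith [h y hy', fmp_avg_nonneg (S := S) w0 y]
      · have h4 : avg S (fun x => (fun _ => (1 : ℝ)) x - m x) y ≤ avg S w y := by
          refine fmp_avg_mono fun s hs => ?_
          have hys : y * s ∈ U := by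
            by_contra hn
            exact hy' ⟨s, hs, fun h => hn (h.1 hy)⟩
          have e' : w (y * s) = max (1 - m (y * s)) 0 := if_pos hys
          rw [e']
          exact le_max_left _ _
        rw [fmp_avg_sub, fmp_avg_const hS] at h4
        linarith [hm.2 y]
    · have e : w y = 0 := if_neg hy
      rw [e]
      exact fmp_avg_nonneg w0 y
  intro x hx
  have h5 : w x ≤ B.H (hat w) x := B.sub w wb ws x
  have h6 : B.H (hat w) x ≤ B.h (hatSet U) x := by
    rw [B.h_eq_H (measurableSet_hatSet U)]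
    refine B.H_mono hS wb.measurable_hat wb.bdd_hat
      (measurable_const.indicator (measurableSet_hatSet U)) (Bdry.gs_bdd_ind _)
      (Eventually.of_forall fun ξ => ?_) x
    by_cases hξ : ξ ∈ hatSet U
    · rw [indicator_of_mem hξ]
      exact fmp_hat_le wb (Eventually.of_forall w1)
    · rw [indicator_of_notMem hξ]
      refine fmp_hat_le wb ?_
      have hc : Uᶜ ∈ ξ.uf := Ultrafilter.compl_mem_iff_notMem.2 hξ
      filter_upwards [hc] with y hy
      exact (if_neg hy : w y = 0).le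
  have e : w x = max (1 - m x) 0 := if_pos hx
  linarith [le_max_left (1 - m x) 0]

theorem Thin.good (B : Bdry S) (hS : Cay S) (hg : Gap S) {U : Set G} (h : Thin S (wallV S U)) :
    B.Good (hatSet U) := by
  have hM := measurableSet_hatSet U
  have hb := B.h_bdd (hatSet U)
  set φ : Bd G → ℝ := (hatSet U).indicator fun ξ => 1 - hat (B.h (hatSet U)) ξ with hφ
  have hle : ∀ ξ, hat (B.h (hatSet U)) ξ ≤ 1 := fun ξ =>
    fmp_hat_le hb (Eventually.of_forall fun x => B.h_le_one _ x)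
  have hge : ∀ ξ, 0 ≤ hat (B.h (hatSet U)) ξ := fun ξ =>
    fmp_le_hat hb (Eventually.of_forall fun x => B.h_nonneg _ x)
  have φ0 : ∀ ξ, 0 ≤ φ ξ := fun ξ => indicator_nonneg (fun ξ _ => by linarith [hle ξ]) ξ
  have φ1 : ∀ ξ, φ ξ ≤ 1 := fun ξ =>
    indicator_apply_le' (fun _ => by linarith [hge ξ]) fun _ => zero_le_one
  have φm : Measurable φ := (measurable_const.sub hb.measurable_hat).indicator hM
  have φb : Bdd φ := fmp_bdd φ0 φ1
  have key : ∀ ε : ℝ, 0 < ε → B.H φ 1 ≤ ε := by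
    intro ε hε
    obtain ⟨F, g, hF, hg1, h1, h2⟩ := h 1 ε hε
    obtain ⟨g', hg', hq, h3⟩ := pot_finite hS hg hF
    have hmb := fmp_bdd_min hg1
    have h4 := fmp_inner B hS (U := U) ((fmp_supH_min hS hg1).add hg') fun y hy => by
      by_cases hyF : y ∈ F
      · linarith [h3 y hyF, (fmp_supH_min hS hg1).1 y]
      · linarith [le_min (h1 y hy hyF) le_rfl, hg'.1 y]
    refine le_trans ?_ ((B.H_min_le hS hg1 1).trans h2)
    refine B.H_mono hS φm φb hmb.measurable_hat hmb.bdd_hat ?_ 1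
    filter_upwards [B.hat_eq_zero hS hq.tendsto] with ξ hξ
    by_cases hm : ξ ∈ hatSet U
    · rw [hφ, indicator_of_mem hm]
      have t1 := (tendsto_const_nhds (x := (1 : ℝ))).sub
        ((hmb.tendsto_hat ξ).add (hq.bdd.tendsto_hat ξ))
      have hU : U ∈ (ξ.uf : Filter G) := hm
      have t2 := le_of_tendsto_of_tendsto t1 (hb.tendsto_hat ξ)
        (by filter_upwards [hU] with y hy using h4 y hy)
      linarith
    · rw [hφ, indicator_of_notMem hm]
      exact fmp_le_hat hmb (Eventually.of_forall (fmp_supH_min hS hg1).1)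
  have hz : ∫ ξ, φ ξ ∂B.μ 1 = 0 :=
    le_antisymm (le_of_forall_pos_le_add fun ε hε => by rw [zero_add]; exact key ε hε)
      (integral_nonneg φ0)
  refine B.gs_good hS hM ?_
  filter_upwards [(integral_eq_zero_iff_of_nonneg φ0 (B.integrable φm φb 1)).1 hz] with ξ hξ hm
  rw [hφ, indicator_of_mem hm] at hξ
  have : 1 - hat (B.h (hatSet U)) ξ = 0 := hξ
  linarith

namespace Bdry

theorem close_of_thin (hS : Cay S) {U U' : Set G} (hU : B.Good (hatSet U))
    (hU' : B.Good (hatSet U')) {g g' : G → ℝ} (hg : SupH S g) (hg' : SupH S g') {r : ℕ}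
    (h1 : ∀ y ∈ wallV S U, y ∉ ball S r → 1 ≤ g y) (h2 : ∀ y ∈ wallV S U', y ∉ ball S r → 1 ≤ g' y)
    (h3 : ∀ x ∈ ball S (r + 1), x ∈ U ↔ x ∈ U') :
    B.h (symmDiff (hatSet U) (hatSet U')) 1 ≤ g 1 + g' 1 := by
  have hV : hatSet (symmDiff U U') = symmDiff (hatSet U) (hatSet U') := by
    simp only [Set.symmDiff_def, sdiff_eq, hatSet_union, hatSet_inter, hatSet_compl]
  have hG : B.Good (symmDiff (hatSet U) (hatSet U')) := by
    simp only [Set.symmDiff_def, sdiff_eq]
    exact (hU.inter hS hU'.compl).union hS (hU'.inter hS hU.compl)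
  have hout : ∀ x ∈ ball S (r + 1), x ∉ symmDiff U U' := by
    intro x hx hx'
    rcases hx' with h | h
    · exact h.2 ((h3 x hx).1 h.1)
    · exact h.2 ((h3 x hx).2 h.1)
  have hw : ∀ x ∈ ball S r, x ∉ wallV S (symmDiff U U') := by
    rintro x hx ⟨s, hs, h⟩
    exact h ⟨fun h => absurd h (hout x (ball_mono (Nat.le_succ r) hx)),
      fun h => absurd h (hout _ (mul_mem_ball hx (mem_ball_one hs)))⟩
  refine fmp_good_le hS hG (hg.add hg') (U₀ := (symmDiff U U')ᶜ \ wallV S (symmDiff U U'))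
    (fun y hy s hs => ?_) (Eventually.of_forall fun ξ hξ => ?_) 1
    ⟨hout 1 (one_mem_ball _), hw 1 (one_mem_ball _)⟩
  · by_cases hys : y * s ∈ wallV S (symmDiff U U')
    · right
      have hb : y * s ∉ ball S r := fun h => hw _ h hys
      rcases wallV_symmDiff U U' hys with h | h
      · linarith [h1 _ h hb, hg'.1 (y * s), B.h_le_one (symmDiff (hatSet U) (hatSet U')) (y * s)]
      · linarith [h2 _ h hb, hg.1 (y * s), B.h_le_one (symmDiff (hatSet U) (hatSet U')) (y * s)]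
    · exact Or.inl ⟨fun h => hy.2 ⟨s, hs, fun h' => hy.1 (h'.2 h)⟩, hys⟩
  · have := fmp_hatSet_mono sdiff_subset hξ
    rwa [hatSet_compl, hV] at this

theorem level_out (hS : Cay S) {A : Set (Bd G)} (hA : B.Good A) {lam : ℝ} (h1 : lam ≤ 1)
    {Y : Set G} (hY : ∀ x ∈ Y, ∀ s ∈ S, x * s ∉ Y → lam ≤ B.h A x ∧ B.h A (x * s) < lam)
    (hne : (wallV S Y).Nonempty) : ¬ B.Sub (hatSet Y)ᶜ A := by
  intro hs
  obtain ⟨x, hx, s, hsS, hxs⟩ := fmp_wall_edge hS hne
  have h := fmp_good_le hS hA.compl (fmp_supH_const hS (c := 1 - lam) (by linarith)) (U₀ := Yᶜ)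
    (fun y hy t ht => ?_) ?_ (x * s) hxs
  · rw [B.h_compl hA.1] at h
    linarith [(hY x hx s hsS hxs).2]
  · by_cases hyt : y * t ∈ Y
    · right
      rw [B.h_compl hA.1]
      linarith [(hY _ hyt t⁻¹ (hS.symm t ht) (by simpa using hy)).1]
    · exact Or.inl hyt
  · filter_upwards [(B.sub_iff _ _).1 hs] with ξ hξ hm
    rw [hatSet_compl] at hm
    exact fun h => h (hξ hm)

theorem level_in (hS : Cay S) {A : Set (Bd G)} (hA : B.Good A) {lam : ℝ} (h0 : 0 ≤ lam)
    {Y : Set G} (hY : ∀ x ∈ Y, ∀ s ∈ S, x * s ∉ Y → lam ≤ B.h A x ∧ B.h A (x * s) < lam)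
    (hne : (wallV S Y).Nonempty) : ¬ B.Sub (hatSet Y) Aᶜ := by
  intro hs
  obtain ⟨x, hx, s, hsS, hxs⟩ := fmp_wall_edge hS hne
  have h := fmp_good_le hS hA (fmp_supH_const hS h0) (U₀ := Y) (fun y hy t ht => ?_)
    ((B.sub_iff _ _).1 hs)
  · have h1 := fmp_avg_lt hS (u := B.h A) (y := x) (c := lam) (fun t ht => ?_) hsS
      (hY x hx s hsS hxs).2
    · rw [B.h_harm hS hA.1 x] at h1
      linarith [(hY x hx s hsS hxs).1]
    · by_cases hxt : x * t ∈ Y
      · exact h _ hxt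
      · exact (hY x hx t ht hxt).2.le
  · by_cases hyt : y * t ∈ Y
    · exact Or.inl hyt
    · exact Or.inr (hY y hy t ht hyt).2.le

theorem level_sub (hS : Cay S) {A : Set (Bd G)} (hA : B.Good A) {lam : ℝ} (h1 : lam ≤ 1)
    {Y : Set G} (hY : ∀ x ∈ Y, ∀ s ∈ S, x * s ∉ Y → lam ≤ B.h A x)
    (hs : B.Sub (hatSet Y) A) : ∀ x ∈ Y, lam ≤ B.h A x := by
  have hout : ∀ x ∈ Y, x ∉ {x ∈ Y | ∀ s ∈ S, x * s ∈ Y} → lam ≤ B.h A x := by
    intro x hx hx'
    by_contra hn
    refine hx' ⟨hx, fun s hs => ?_⟩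
    by_contra h
    exact hn (hY x hx s hs h)
  have h := fmp_good_le hS hA.compl (fmp_supH_const hS (c := 1 - lam) (by linarith))
    (U₀ := {x ∈ Y | ∀ s ∈ S, x * s ∈ Y}) (fun y hy t ht => ?_) ?_
  · intro x hx
    by_cases hx' : x ∈ {x ∈ Y | ∀ s ∈ S, x * s ∈ Y}
    · have := h x hx'
      rw [B.h_compl hA.1] at this
      linarith
    · exact hout x hx hx'
  · by_cases hyt : y * t ∈ {x ∈ Y | ∀ s ∈ S, x * s ∈ Y}
    · exact Or.inl hyt
    · right
      rw [B.h_compl hA.1]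
      linarith [hout _ (hy.2 t ht) hyt]
  · filter_upwards [(B.sub_iff _ _).1 hs] with ξ hξ hm
    exact fun h => h (hξ (fmp_hatSet_mono (fun x hx => hx.1) hm))

theorem not_finite_sees (hS : Cay S) (h1 : OneEnded S) {A : Set (Bd G)} (hA : B.Good A)
    (h2 : B.Two A) : ¬ {x | B.Sees (1 / (2 * S.card)) A x}.Finite := by
  intro hf
  have hw : (wallV S (B.lev A)).Finite := hf.subset fun x hx => sees_of_wall hS hA.1 hx
  rcases h1 _ ((wallV_finite_iff _).1 hw) with h | h
  · refine hA.infinite_deep hS h2.1 (θ := 1 / 2) (by norm_num) (h.subset fun x hx => ?_)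
    have e1 : 1 / 2 < B.h A x := hx
    exact e1.le
  · refine hA.compl.infinite_deep hS h2.2 (θ := 1 / 2) (by norm_num) (h.subset fun x hx hx' => ?_)
    have e1 : 1 / 2 < B.h Aᶜ x := hx
    have e2 : 1 / 2 ≤ B.h A x := hx'
    rw [B.h_compl hA.1] at e1
    linarith

theorem not_fvp_compl (hS : Cay S) (h1 : OneEnded S) {A : Set (Bd G)} (hA : B.Good A)
    (h2 : B.Two A) : ¬ B.FVP Q A Aᶜ := by
  intro h
  have h0 : (0 : ℝ) < S.card := by exact_mod_cast hS.card_pos
  exact not_finite_sees hS h1 hA h2 (h.1 _ (by positivity))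

theorem Two.wallV_infinite (hS : Cay S) (h1 : OneEnded S) {U : Set G} (h : B.Two (hatSet U)) :
    (wallV S U).Infinite := by
  intro hw
  rcases h1 _ ((wallV_finite_iff _).1 hw) with h' | h'
  · exact h.1 (B.null_hatSet_of_finite hS h')
  · have := B.null_hatSet_of_finite hS h'
    rw [hatSet_compl] at this
    exact h.2 this

theorem tube (hS : Cay S) {U K : Set G} (hU : B.Good (hatSet U)) {w : G → ℤ} {c : ℤ}
    (hw : {x | w x ≠ c}.Finite) {g : G → ℝ} (hg : SupH S g) (hK : ∀ y ∈ K, 1 ≤ g y)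
    (h : ∀ x, x ∉ K → ∀ s ∈ S, x * s ∉ K → w (x * s) - w x = indZ U (x * s) - indZ U x) (x : G) :
    B.h (hatSet U) x ≤ g x ∨ B.h (hatSet U)ᶜ x ≤ g x := by
  by_cases hx : x ∈ K
  · exact Or.inl ((B.h_le_one _ x).trans (hK x hx))
  set U₀ : Set G := {y | y ∉ K ∧ w y - indZ U y = w x - indZ U x} with hU₀
  have h2 : ∀ A : Set (Bd G), ∀ y ∈ U₀, ∀ s ∈ S, y * s ∈ U₀ ∨ B.h A (y * s) ≤ g (y * s) := by
    intro A y hy s hs
    by_cases hys : y * s ∈ K
    · exact Or.inr ((B.h_le_one _ _).trans (hK _ hys))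
    · refine Or.inl ⟨hys, ?_⟩
      linarith [h y hy.1 s hs hys, hy.2]
  by_cases hc : c - (w x - indZ U x) = 1
  · refine Or.inr (fmp_good_le hS hU.compl hg (h2 _) ?_ x ⟨hx, rfl⟩)
    filter_upwards [B.ae_cofinite hS] with ξ hξ hm hn
    refine hn ?_
    have h3 : U₀ ∈ (ξ.uf : Filter G) := hm
    have h4 : U ∈ (ξ.uf : Filter G) := by
      filter_upwards [h3, hξ hw.compl_mem_cofinite] with y hy hy'
      have e1 : w y = c := not_not.1 hy'
      by_contra hyU
      have e2 : indZ U y = 0 := if_neg hyU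
      linarith [hy.2]
    exact h4
  · refine Or.inl (fmp_good_le hS hU hg (h2 _) ?_ x ⟨hx, rfl⟩)
    filter_upwards [B.ae_cofinite hS] with ξ hξ hm hn
    have h3 : U₀ ∈ (ξ.uf : Filter G) := hm
    have h4 : U ∈ (ξ.uf : Filter G) := hn
    have h5 : ∀ᶠ y in (ξ.uf : Filter G), False := by
      filter_upwards [h3, h4, hξ hw.compl_mem_cofinite] with y hy hyU hy'
      have e1 : w y = c := not_not.1 hy'
      have e2 : indZ U y = 1 := if_pos hyU
      exact hc (by linarith [hy.2])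
    exact h5.exists.elim fun _ h => h

end Bdry

end Vale.Agent.P239
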