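import Vale.Agent.P239.Full.FKcut
import Vale.Agent.P239.Full.FIsK
import Vale.Agent.P239.Full.FMP

/-! Task FCap: canonical caps.
`lev_ae`: `E ∩ {0 < f}` and `Eᶜ ∩ {0 < f}` are good (`good_of_split` for the absolute `Split`, `SplitK.split`; the complement splits because `(f - t)^+ - indicator E (f - t)^+` is `IsD`), so on `{0 < f}` a.e. `hat (h E) = 1_E`.
`capV_finite`: a cap vertex `x` sees `E` with `ε = 1/(2|S|)` and has `t < H f x`. By `var_count` for `f` all but finitely many such `x` have `h {f ≤ t/2} x < ε/2` (Markov gives `h {3t/4 ≤ f} x ≥ t/4`);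
then `x` sees `E ∩ {t/2 < f}` and `Eᶜ` with `ε/2`, and `var_count` for `indicator E (f - t/4)^+` bounds these (compare CapA).
`sb_of_bdd`: `kcut_bound` with `v = H f`, `a = t/2`, `b = t`, `U = lev E`; `hat` of the cut function is `indicator E (f - t)^+` a.e. (`lev_ae`, `IsD.hat_H`); `exists_nrm_H`.
-/

noncomputable section

open Classical MeasureTheory Filter Topology Set
open scoped Pointwise ENNReal

namespace Vale.Agent.P239

universe u
variable {G : Type u} [Group G] {S : Finset G} {l : ℕ} {Q : Cones S} {B : Bdry S}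

namespace Bdry

theorem SplitK.lev_ae (hS : Cay S) (hg : Gap S) {f : Bd G → ℝ} (hf : B.IsK01 Q f)
    {E : Set (Bd G)} (hE : B.SplitK Q f E) :
    ∀ᵐ ξ ∂B.μ 1, 0 < f ξ → hat (B.h E) ξ = E.indicator (fun _ => (1 : ℝ)) ξ ∧
      (ξ ∈ E ↔ ξ ∈ hatSet (B.lev E)) := by
  have hm : MeasurableSet {ξ | 0 < f ξ} := measurableSet_lt measurable_const hf.1.1
  have key : ∀ M : Set (Bd G), B.Split f M → ∀ᵐ ξ ∂B.μ 1, 0 < f ξ → ξ ∈ M →
      Tendsto (B.h M) (ξ.uf : Filter G) (𝓝 1) := fun M hM => by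
    have hG : B.Good (M ∩ {ξ | 0 < f ξ}) := by
      refine good_of_split hS hg ⟨hM.1.inter hm, fun t ht => ?_⟩ fun _ h => h.2
      refine (congrArg B.IsD (funext fun ξ => ?_)).mp (hM.2 t ht)
      by_cases h0 : 0 < f ξ
      · simp only [indicator, mem_inter_iff, mem_ofPred_eq, h0, and_true]
      · have h1 : max (f ξ - t) 0 = 0 := max_eq_right (by linarith)
        simp only [indicator, h1, ite_self]
    filter_upwards [hG.2] with ξ h1 h2 h3
    rw [indicator_of_mem (show ξ ∈ M ∩ {ξ | 0 < f ξ} from ⟨h3, h2⟩)] at h1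
    exact tendsto_of_tendsto_of_tendsto_of_le_of_le (h1 ▸ (B.h_bdd _).tendsto_hat ξ)
      tendsto_const_nhds (B.h_mono hS (Sub.of_subset inter_subset_left)) (B.h_le_one M)
  have hc : B.Split f Eᶜ := ⟨hE.1.compl, fun t ht => by
    rw [indicator_compl]
    exact ((hf.1.isD.sub (isD_const t)).max (isD_const 0)).sub (hE.split.2 t ht)⟩
  filter_upwards [key E hE.split, key Eᶜ hc] with ξ h1 h2 h0
  by_cases hξ : ξ ∈ E
  · rw [indicator_of_mem hξ]
    exact ⟨hat_eq_of_tendsto (h1 h0 hξ), iff_of_true hξ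
      ((h1 h0 hξ).eventually_const_le (by norm_num))⟩
  · have h3 : Tendsto (B.h E) (ξ.uf : Filter G) (𝓝 0) := by
      simpa [B.h_compl hE.1] using (h2 h0 hξ).const_sub 1
    rw [indicator_of_notMem hξ]
    refine ⟨hat_eq_of_tendsto h3, iff_of_false hξ (Ultrafilter.compl_mem_iff_notMem.1 ?_)⟩
    exact (h3.eventually_lt_const (show (0 : ℝ) < 1 / 2 by norm_num)).mono fun x hx => hx.not_ge

theorem fcap_markov {f : Bd G → ℝ} (hf : B.IsD01 f) {c : ℝ} (hc : 0 ≤ c) (x : G) :
    B.H f x ≤ c + B.h {ξ | c ≤ f ξ} x := by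
  have := B.prob x
  have hm : MeasurableSet {ξ | c ≤ f ξ} := measurableSet_le measurable_const hf.1.1
  have hi : Integrable ({ξ | c ≤ f ξ}.indicator (1 : Bd G → ℝ)) (B.μ x) :=
    (integrable_const 1).indicator hm
  have h1 := integral_mono (B.integrable hf.1.1 hf.1.2.1 x) ((integrable_const c).add hi)
    fun ξ => by
      by_cases h : c ≤ f ξ
      · simp only [Pi.add_apply, indicator_of_mem (show ξ ∈ {ξ | c ≤ f ξ} from h), Pi.one_apply]
        linarith [(hf.2 ξ).2]
      · simp only [Pi.add_apply, indicator_of_notMem (show ξ ∉ {ξ | c ≤ f ξ} from h)]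
        linarith
  rw [integral_add' (integrable_const c) hi, integral_indicator_one hm] at h1
  simpa [H, h] using h1

theorem SplitK.capV_finite (hS : Cay S) (hg : Gap S) {f : Bd G → ℝ} (hf : B.IsK01 Q f)
    {E : Set (Bd G)} (hE : B.SplitK Q f E) {t : ℝ} (ht : 0 < t) : (B.capV f E t).Finite := by
  obtain ⟨C, -, hC⟩ := var_count B hS hg
  have h1 := gl_one_le hS
  have hε : (0 : ℝ) < 1 / (2 * S.card) / 2 := by positivity
  have hK1 := (hC f hf.isD01 {ξ | f ξ ≤ t / 2} {ξ | t / 2 + t / 4 ≤ f ξ} (t / 2) (t / 4)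
    (min (1 / (2 * S.card) / 2) (t / 4)) (by positivity) (by positivity)
    (.of_forall fun _ h => h) (.of_forall fun _ h => h)).1
  have hK2 := (hC (E.indicator fun ξ => max (f ξ - t / 4) 0) ⟨hE.split.2 _ (by positivity),
    fun ξ => ⟨indicator_nonneg (fun _ _ => le_max_right _ _) ξ, indicator_apply_le'
      (fun _ => max_le (by linarith [(hf.2 ξ).2]) zero_le_one) fun _ => zero_le_one⟩⟩
    Eᶜ (E ∩ {ξ | t / 2 < f ξ}) 0 (t / 4) _ (by positivity) hε
    (.of_forall fun ξ h => (indicator_of_notMem h _).le)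
    (.of_forall fun ξ h => by
      have h2 : t / 2 < f ξ := h.2
      rw [indicator_of_mem h.1]
      exact le_max_of_le_left (by linarith))).1
  refine (hK1.union hK2).subset fun x hx => ?_
  obtain ⟨a1, a2⟩ := sees_of_wall hS hE.1 hx.1
  have a3 : t < B.H f x := hx.2
  have a4 := fcap_markov hf.isD01 (show 0 ≤ t / 2 + t / 4 by positivity) x
  have := B.prob x
  have a5 : B.h E x ≤ B.h (E ∩ {ξ | t / 2 < f ξ}) x + B.h {ξ | f ξ ≤ t / 2} x :=
    (measureReal_mono fun ξ h => (lt_or_ge (t / 2) (f ξ)).imp (fun h' => ⟨h, h'⟩) id).trans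
      (measureReal_union_le _ _)
  by_cases a6 : min (1 / (2 * S.card) / 2 : ℝ) (t / 4) ≤ B.h {ξ | f ξ ≤ t / 2} x
  · exact Or.inl ⟨a6, (min_le_right _ _).trans (by linarith)⟩
  · have a7 := (not_le.1 a6).trans_le (min_le_left _ _)
    exact Or.inr ⟨by linarith, by linarith⟩

/-- Uniform bound for the graph norm of split functions. -/
def SB (B : Bdry S) (Q : Cones S) : Prop :=
  ∀ f, B.IsK01 Q f → ∀ t : ℝ, 0 < t → ∃ K : ℝ, ∀ E, B.SplitK Q f E →
    ∃ φ, Q.KF (B.H (E.indicator fun ξ => max (f ξ - t) 0)) φ ∧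
      Q.nrm (B.H (E.indicator fun ξ => max (f ξ - t) 0)) φ ≤ K

theorem sb_of_bdd (hH : RH S l Q) (hb : B.BddCaps Q) : B.SB Q := by
  intro f hf t ht
  obtain ⟨N, hN⟩ := hb f hf (t / 2) (half_pos ht)
  obtain ⟨φ, hφ⟩ := hf.1.kf_H hH.cay hH.gap
  have bF : Bdd (B.H f) := B.H_bdd hf.1.2.1
  obtain ⟨K, hK⟩ := kcut_bound hH hφ bF (half_lt_self ht) N
  obtain ⟨C, hC0, hC⟩ := exists_nrm_H B Q hH.cay hH.gap
  refine ⟨C * K, fun E hE => ?_⟩
  obtain ⟨χ, h1, h2⟩ := hK (B.lev E) (hE.capV_finite hH.cay hH.gap hf (half_pos ht)) (hN E hE)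
  have cp : Continuous fun p : ℝ × ℝ => max (p.1 - t) 0 := by fun_prop
  have bp : Bdd (fun x => max (B.H f x - t) 0) := bF.comp₂ bF (F := fun a _ => max (a - t) 0) cp
  have e : (fun x => ind (B.lev E) x * max (B.H f x - t) 0) =
      (B.lev E).indicator fun x => max (B.H f x - t) 0 := funext fun x => by
    simp only [ind, indicator, ite_mul, one_mul, zero_mul]
  rw [e] at h1 h2
  obtain ⟨χ', h3, h4⟩ := hC _ χ (bp.imp fun c hc x =>
    (norm_indicator_le_norm_self (fun x => max (B.H f x - t) 0) x).trans (hc x)) h1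
  have hae : (E.indicator fun ξ => max (f ξ - t) 0) =ᵐ[B.μ 1]
      hat ((B.lev E).indicator fun x => max (B.H f x - t) 0) := by
    filter_upwards [hf.1.isD.hat_H hH.cay hH.gap, hE.lev_ae hH.cay hH.gap hf] with ξ a1 a2
    have a3 : hat (fun x => max (B.H f x - t) 0) ξ = max (f ξ - t) 0 := by
      rw [hat_comp₂ bF bF (F := fun a _ => max (a - t) 0) cp, a1]
    rw [hat_indicator _ bp]
    by_cases h0 : 0 < f ξ
    · simp only [indicator, (a2 h0).2, a3]
    · have a4 : max (f ξ - t) 0 = 0 := max_eq_right (by linarith)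
      simp only [indicator, a3, a4, ite_self]
  rw [B.H_congr hH.cay hae]
  exact ⟨χ', h3, h4.trans (mul_le_mul_of_nonneg_left h2 hC0)⟩

end Bdry

end Vale.Agent.P239
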