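import Vale.Agent.P239.Full.FDef4

/-! Definitions for the group level part: vertex data, cores, transport to the vertex group.
-/

noncomputable section

open Classical MeasureTheory Filter Topology Set
open scoped Pointwise ENNReal

namespace Vale.Agent.P239

universe u
variable {G : Type u} [Group G] {S : Finset G}

/-- One-endedness of the subgroup generated by `T`. -/
def OneT (T : Finset G) : Prop :=
  ∀ A : Set G, A ⊆ Subgroup.closure (T : Set G) → (edgeBd T A).Finite →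
    A.Finite ∨ ((Subgroup.closure (T : Set G) : Set G) \ A).Finite

/-- A vertex of the system of wall carrying classes. -/
structure VData (B : Bdry S) where
  V : Set (Subgroup G)
  b : Subgroup G → Set (Bd G)
  Γ : Subgroup G
  cl : ∀ s ∈ V, IsWCl B s
  two : ∃ s ∈ V, ∃ t ∈ V, s ≠ t
  good : ∀ s ∈ V, B.Good (b s) ∧ B.Two (b s)
  disj : ∀ s ∈ V, ∀ t ∈ V, s ≠ t → B.Null (b s ∩ b t)
  inv : ∀ γ ∈ Γ, ∀ s ∈ V, cjg γ s ∈ V ∧ B.AEq (b (cjg γ s)) (γ • b s)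
  cof : ∀ lam : ℝ, lam < 1 → ∃ F : Set G, F.Finite ∧
    ∀ x, (∀ s ∈ V, B.h (b s) x ≤ lam) → ∃ γ ∈ Γ, γ⁻¹ * x ∈ F
  vis : ∀ s ∈ V, ∀ ε : ℝ, 0 < ε → ∃ R, ∀ x, B.Sees ε (b s) x → x ∈ nbh S R s
  wall : ∀ s ∈ V, ∀ (P : Set G) (R : ℕ), wallV S P ⊆ nbh S R s →
    B.Sub (hatSet P) (b s) ∨ B.Sub (hatSet P)ᶜ (b s)
  clique : ∀ s ∈ V, ∀ s' ∈ V, ∀ t, IsWCl B t → t ≠ s → t ≠ s' → ∀ U, WallOf B t U →
    ((U ∩ s).Finite ↔ (U ∩ s').Finite)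

/-- The level set of the half space of `s`. -/
def VData.lv {B : Bdry S} (Z : VData B) (lam : ℝ) (s : Subgroup G) : Set G :=
  {x | lam ≤ B.h (Z.b s) x}

/-- Cores: cuts along the components of the wall of a level set. -/
def VData.IsCore {B : Bdry S} (Z : VData B) (lam : ℝ) (R : ℕ) (s : Subgroup G) (K : Set G) : Prop :=
  s ∈ Z.V ∧ ∃ x ∈ wallV S (Z.lv lam s), K = cut S (Z.lv lam s) (rc S R (wallV S (Z.lv lam s)) x)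

structure Cores (B : Bdry S) (L : ℕ) where
  Γ : Subgroup G
  𝒦 : Set (Set G)
  cls : Set G → Subgroup G
  inv : ∀ γ ∈ Γ, ∀ K ∈ 𝒦, γ • K ∈ 𝒦 ∧ cls (γ • K) = cjg γ (cls K)
  sep : ∀ K ∈ 𝒦, ∀ K' ∈ 𝒦, ∀ x ∈ K, ∀ y ∈ K', y ∈ bl S x L → K = K'
  conn : ∀ K ∈ 𝒦, ∀ x ∈ wallV S K, wallV S K ⊆ rc S (3 * L) (wallV S K) x
  cof : ∃ F : Set G, F.Finite ∧ ∀ x, (∀ K ∈ 𝒦, x ∉ K) → ∃ γ ∈ Γ, γ⁻¹ * x ∈ F
  two : ∀ K ∈ 𝒦, B.Two (hatSet K)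
  cl : ∀ K ∈ 𝒦, IsWCl B (cls K)
  nc : ∀ K ∈ 𝒦, ∀ Y : Set G, (edgeBd S Y \ edgeBd S K).Finite →
    ((wallV S K \ K) ∩ Y).Finite ∨ ((wallV S K \ K) \ Y).Finite
  clique : ∀ K ∈ 𝒦, ∀ K' ∈ 𝒦, ∀ t, IsWCl B t → t ≠ cls K → t ≠ cls K' → ∀ U, WallOf B t U →
    ((U ∩ cls K).Finite ↔ (U ∩ cls K').Finite)
  ne : ∃ K ∈ 𝒦, ∃ K' ∈ 𝒦, cls K ≠ cls K'

/-- The complement of the cores. -/
def Cores.X {B : Bdry S} {L : ℕ} (Z : Cores B L) : Set G := {x | ∀ K ∈ Z.𝒦, x ∉ K}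

/-- Transport to the vertex group: the cores become cones. -/
structure Tr {B : Bdry S} {L : ℕ} (Z : Cores B L) where
  x0 : G
  hx0 : x0 ∈ Z.X
  π : G → Z.Γ
  π_mul : ∀ (γ : Z.Γ) (x : G), π ((γ : G) * x) = γ * π x
  π_x0 : π x0 = 1
  S' : Finset Z.Γ
  Q : Cones S'
  K : Fin Q.n → Set G
  K_mem : ∀ i, K i ∈ Z.𝒦
  orbit : ∀ K' ∈ Z.𝒦, ∃ (i : Fin Q.n) (γ : Z.Γ), K' = (γ : G) • K i
  uniq : ∀ (i j : Fin Q.n) (γ γ' : Z.Γ), (γ : G) • K i = (γ' : G) • K j → i = j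
  cay : Cay S'
  H_eq : ∀ i (γ : Z.Γ), γ ∈ Q.H i ↔ (γ : G) • K i = K i
  near : ∃ R, ∀ x ∈ nbh S 1 Z.X, x ∈ bl S (π x : G) R
  edge : ∀ x ∈ nbh S 1 Z.X, ∀ y ∈ nbh S 1 Z.X, y ∈ bl S x (3 * L) → (π x)⁻¹ * π y ∈ S'
  cone : ∀ i (γ : Z.Γ), ∀ x ∈ nbh S 1 Z.X, x ∈ nbh S L (wallV S ((γ : G) • K i)) →
    π x ∈ Q.cn 1 i γ

/-- The image in `G` of a finite subset of a subgroup. -/
def upF {Γ : Subgroup G} (T : Finset Γ) : Finset G := T.map (Function.Embedding.subtype _)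

/-- The trace of a subgroup on `Γ`. -/
def trc (Γ : Subgroup G) (t : Subgroup G) : Set Γ := {γ | (γ : G) ∈ t}

end Vale.Agent.P239
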