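import Vale.Agent.P239.Full.FBas

/-! Task FKF: the algebra of the functions of class `KF`.
`val x = u x - φ i x` is constant on cones. `lip`: `φ'' i x = F (u x) (v x) - F (val x) (val' x)`, `|φ''| ≤ L (|φ| + |φ'|)`.
`dev`: `|u (y*b) - val y| ≤ osc r u y + |φ i y|` (`osc_sq`, `SqSum.ncard_le`). `tendsto_cn`: from `dev`.
`of_tendsto`: the `φ n i x` are bounded, pass to a limit along an ultrafilter (or a subsequence), Fatou for finite sums (`finEn_of_tendsto`).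
`unique`: the difference is square summable and constant on infinite cones.
-/

noncomputable section

open Classical MeasureTheory Filter Topology Set
open scoped Pointwise ENNReal

namespace Vale.Agent.P239

universe u
variable {G : Type u} [Group G] {S : Finset G} {l : ℕ} {Q : Cones S} {B : Bdry S}

theorem fkf_sq {α : Type*} {p q w : α → ℝ} (hp : SqSum p) (hq : SqSum q) {L : ℝ}
    (h : ∀ x, |w x| ≤ L * (|p x| + |q x|)) :
    SqSum w ∧ ∑' x, w x ^ 2 ≤ 2 * L ^ 2 * (∑' x, p x ^ 2 + ∑' x, q x ^ 2) := by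
  have h1 : ∀ x, w x ^ 2 ≤ 2 * L ^ 2 * (p x ^ 2 + q x ^ 2) := fun x => by
    have h3 := pow_le_pow_left₀ (abs_nonneg _) (h x) 2
    rw [sq_abs, mul_pow] at h3
    rw [← sq_abs (p x), ← sq_abs (q x)]
    nlinarith [mul_nonneg (sq_nonneg L) (sq_nonneg (|p x| - |q x|))]
  have h2 := (Summable.add hp hq).mul_left (2 * L ^ 2)
  have h3 : SqSum w := Summable.of_nonneg_of_le (fun _ => sq_nonneg _) h1 h2
  refine ⟨h3, (Summable.tsum_le_tsum h1 h3 h2).trans_eq ?_⟩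
  rw [tsum_mul_left, Summable.tsum_add hp hq]

namespace Cones

theorem KF.val_eq {u : G → ℝ} {φ : Fin Q.n → G → ℝ} (h : Q.KF u φ) {i : Fin Q.n} {γ x : G}
    (hx : x ∈ Q.cone i γ) : u x - φ i x = u γ - φ i γ :=
  const_cone (fun x => u x - φ i x) (fun x _ t ht => (h.2 i).2 x t ht) x hx

theorem KF.unique {u : G → ℝ} {φ φ' : Fin Q.n → G → ℝ} (h : Q.KF u φ) (h' : Q.KF u φ') :
    φ = φ' := by
  funext i γ
  by_contra hne
  have h1 := (fkf_sq (w := fun x => φ i x - φ' i x) (h.2 i).1 (h'.2 i).1 (L := 1) fun x => by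
    rw [one_mul]
    exact abs_sub _ _).1
  refine cone_infinite i γ ((h1.ncard_le (abs_pos.2 (sub_ne_zero.2 hne))).1.subset fun x hx => ?_)
  have e : φ i x - φ' i x = φ i γ - φ' i γ := by linarith [h.val_eq hx, h'.val_eq hx]
  exact (congrArg abs e).ge

theorem kf_const (c : ℝ) : Q.KF (fun _ => c) (fun _ _ => 0) :=
  ⟨finEn_const c, fun _ => ⟨by simpa [SqSum] using summable_zero, fun _ _ _ => rfl⟩⟩

theorem kf_sqSum {p : G → ℝ} (hp : SqSum p) : Q.KF p (fun _ => p) :=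
  ⟨hp.finEn, fun _ => ⟨hp, fun _ _ _ => by rw [sub_self, sub_self]⟩⟩

theorem KF.lip {u v : G → ℝ} {φ φ' : Fin Q.n → G → ℝ} (h : Q.KF u φ) (h' : Q.KF v φ')
    {F : ℝ → ℝ → ℝ} {L : ℝ} (hL : 0 ≤ L)
    (hF : ∀ a b a' b', |F a b - F a' b'| ≤ L * (|a - a'| + |b - b'|)) :
    Q.KF (fun x => F (u x) (v x))
      (fun i x => F (u x) (v x) - F (u x - φ i x) (v x - φ' i x)) ∧
    Q.nrm (fun x => F (u x) (v x)) (fun i x => F (u x) (v x) - F (u x - φ i x) (v x - φ' i x)) ≤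
      2 * L ^ 2 * (Q.nrm u φ + Q.nrm v φ') := by
  have h1 := finEn_of_le (u := fun x => F (u x) (v x)) h.1 h'.1 (M := 0) hL Set.finite_empty
    (fun e he => absurd he (Set.notMem_empty e)) fun x s _ _ => hF _ _ _ _
  have h2 := fun i => fkf_sq (w := fun x => F (u x) (v x) - F (u x - φ i x) (v x - φ' i x))
    (h.2 i).1 (h'.2 i).1 (L := L) fun x => by
      simpa only [sub_sub_cancel] using hF (u x) (v x) (u x - φ i x) (v x - φ' i x)
  refine ⟨⟨h1.1, fun i => ⟨(h2 i).1, fun x t ht => ?_⟩⟩, ?_⟩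
  · simp only [sub_sub_cancel, (h.2 i).2 x t ht, (h'.2 i).2 x t ht]
  · have h3 := Finset.sum_le_sum (s := Finset.univ) fun i _ => (h2 i).2
    rw [← Finset.mul_sum, Finset.sum_add_distrib] at h3
    have h4 := h1.2
    unfold nrm
    linarith

theorem KF.add {u v : G → ℝ} {φ φ' : Fin Q.n → G → ℝ} (h : Q.KF u φ) (h' : Q.KF v φ') :
    Q.KF (fun x => u x + v x) (fun i x => φ i x + φ' i x) :=
  ⟨h.1.add h'.1, fun i => ⟨(fkf_sq (h.2 i).1 (h'.2 i).1 (L := 1) fun x => by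
    rw [one_mul]
    exact abs_add_le _ _).1, fun x t ht => by
      linarith [(h.2 i).2 x t ht, (h'.2 i).2 x t ht]⟩⟩

theorem KF.sub {u v : G → ℝ} {φ φ' : Fin Q.n → G → ℝ} (h : Q.KF u φ) (h' : Q.KF v φ') :
    Q.KF (fun x => u x - v x) (fun i x => φ i x - φ' i x) :=
  ⟨h.1.sub h'.1, fun i => ⟨(fkf_sq (h.2 i).1 (h'.2 i).1 (L := 1) fun x => by
    rw [one_mul]
    exact abs_sub _ _).1, fun x t ht => by
      linarith [(h.2 i).2 x t ht, (h'.2 i).2 x t ht]⟩⟩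

theorem KF.lip₁ {u : G → ℝ} {φ : Fin Q.n → G → ℝ} (h : Q.KF u φ) {F : ℝ → ℝ} {L : ℝ}
    (hL : 0 ≤ L) (hF : ∀ a a', |F a - F a'| ≤ L * |a - a'|) :
    Q.KF (fun x => F (u x)) (fun i x => F (u x) - F (u x - φ i x)) :=
  (h.lip h (F := fun a _ => F a) hL fun a _ a' _ => (hF a a').trans
    (mul_le_mul_of_nonneg_left (le_add_of_nonneg_right (abs_nonneg _)) hL)).1

theorem KF.const_mul {u : G → ℝ} {φ : Fin Q.n → G → ℝ} (h : Q.KF u φ) (c : ℝ) :
    Q.KF (fun x => c * u x) (fun i x => c * φ i x) := by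
  have h1 := h.lip₁ (F := fun a => c * a) (abs_nonneg c) fun a a' => by
    rw [← mul_sub, abs_mul]
  simpa only [← mul_sub, sub_sub_cancel] using h1

theorem KF.translate {u : G → ℝ} {φ : Fin Q.n → G → ℝ} (h : Q.KF u φ) (g : G) :
    Q.KF (fun x => u (g * x)) (fun i x => φ i (g * x)) :=
  ⟨(h.1.translate g).1, fun i =>
    ⟨((Equiv.mulLeft g).summable_iff (f := fun x => φ i x ^ 2)).2 (h.2 i).1, fun x t ht => by
      simpa only [mul_assoc] using (h.2 i).2 (g * x) t ht⟩⟩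

theorem energy_le_nrm (u : G → ℝ) (φ : Fin Q.n → G → ℝ) : energy S u ≤ Q.nrm u φ :=
  le_add_of_nonneg_right (Finset.sum_nonneg fun _ _ => tsum_nonneg fun _ => sq_nonneg _)

theorem nrm_nonneg (u : G → ℝ) (φ : Fin Q.n → G → ℝ) : 0 ≤ Q.nrm u φ :=
  (energy_nonneg u).trans (energy_le_nrm u φ)

theorem dev (Q : Cones S) (r : ℕ) : ∃ C : ℝ, 0 ≤ C ∧ ∀ u φ, Q.KF u φ → ∀ η : ℝ, 0 < η →
    {y | ∃ i, ∃ b ∈ ball S r, η ≤ |u (y * b) - (u y - φ i y)|}.Finite ∧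
      ({y | ∃ i, ∃ b ∈ ball S r, η ≤ |u (y * b) - (u y - φ i y)|}.ncard : ℝ) * η ^ 2 ≤
        C * Q.nrm u φ := by
  obtain ⟨C, hC, H⟩ := osc_sq S r
  refine ⟨2 * (C + 1), by positivity, fun u φ h η hη => ?_⟩
  obtain ⟨h1, h2⟩ := H u h.1
  have h3 : Summable fun y => ∑ i, φ i y ^ 2 := summable_sum fun i _ => (h.2 i).1
  have e : ∀ y, √(2 * (osc S r u y ^ 2 + ∑ i, φ i y ^ 2)) ^ 2 =
      2 * (osc S r u y ^ 2 + ∑ i, φ i y ^ 2) := fun y => Real.sq_sqrt (by positivity)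
  have h4 : SqSum fun y => √(2 * (osc S r u y ^ 2 + ∑ i, φ i y ^ 2)) := by
    simp only [SqSum, e]
    exact (Summable.add h1 h3).mul_left 2
  obtain ⟨h5, h6⟩ := h4.ncard_le hη
  have hsub : {y | ∃ i, ∃ b ∈ ball S r, η ≤ |u (y * b) - (u y - φ i y)|} ⊆
      {y | η ≤ |√(2 * (osc S r u y ^ 2 + ∑ i, φ i y ^ 2))|} := by
    rintro y ⟨i, b, hb, hy⟩
    refine hy.trans ((Real.abs_le_sqrt ?_).trans (le_abs_self _))
    have a1 := abs_sub_le_osc u y hb (one_mem_ball r)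
    rw [mul_one] at a1
    have a2 := pow_le_pow_left₀ (abs_nonneg _) a1 2
    rw [sq_abs] at a2
    have a3 : φ i y ^ 2 ≤ ∑ i, φ i y ^ 2 := Finset.single_le_sum (f := fun i => φ i y ^ 2)
      (fun _ _ => sq_nonneg _) (Finset.mem_univ i)
    nlinarith [sq_nonneg (u (y * b) - u y - φ i y)]
  refine ⟨h5.subset hsub, le_trans (mul_le_mul_of_nonneg_right ?_ (sq_nonneg η)) (h6.trans ?_)⟩
  · exact_mod_cast Set.ncard_le_ncard hsub h5
  · simp only [e]
    rw [tsum_mul_left, Summable.tsum_add h1 h3, Summable.tsum_finsetSum fun i _ => (h.2 i).1]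
    have a1 := energy_nonneg (S := S) u
    have a2 : 0 ≤ ∑ i, ∑' y, φ i y ^ 2 :=
      Finset.sum_nonneg fun _ _ => tsum_nonneg fun _ => sq_nonneg _
    unfold nrm
    nlinarith [mul_nonneg hC a2]

/-- Off a finite set, a point in a cone neighbourhood has a value close to the value of the cone. -/
theorem KF.dev_finite {u : G → ℝ} {φ : Fin Q.n → G → ℝ} (h : Q.KF u φ) (r : ℕ) {η : ℝ}
    (hη : 0 < η) : {x | ∃ i γ, x ∈ Q.cn r i γ ∧ η ≤ |u x - (u γ - φ i γ)|}.Finite := by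
  obtain ⟨C, -, H⟩ := Q.dev r
  refine (nbh_finite (S := S) r (H u φ h η hη).1).subset ?_
  rintro x ⟨i, γ, ⟨a, ha, hx⟩, he⟩
  refine ⟨a, ⟨i, a⁻¹ * x, hx, ?_⟩, hx⟩
  rwa [mul_inv_cancel_left, h.val_eq ha]

theorem KF.tendsto_cn {u : G → ℝ} {φ : Fin Q.n → G → ℝ} (h : Q.KF u φ) (r : ℕ) (i : Fin Q.n)
    (γ : G) : Tendsto u (cofinite ⊓ 𝓟 (Q.cn r i γ)) (𝓝 (u γ - φ i γ)) := by
  refine Metric.tendsto_nhds.2 fun η hη => eventually_inf_principal.2 ?_
  filter_upwards [(h.dev_finite r hη).compl_mem_cofinite] with x hx hc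
  exact not_le.1 fun he => hx ⟨i, γ, hc, he⟩

theorem KF.fkf_nrm {u : G → ℝ} {φ : Fin Q.n → G → ℝ} (h : Q.KF u φ) :
    HasSum (fun x => grad2 S u x + ∑ i, φ i x ^ 2) (Q.nrm u φ) :=
  h.1.hasSum.add (hasSum_sum fun i _ => (h.2 i).1.hasSum)

theorem kf_of_tendsto {u : ℕ → G → ℝ} {φ : ℕ → Fin Q.n → G → ℝ} {v : G → ℝ} {K : ℝ}
    (h : ∀ n, Q.KF (u n) (φ n)) (hK : ∀ n, Q.nrm (u n) (φ n) ≤ K)
    (hl : ∀ x, Tendsto (fun n => u n x) atTop (𝓝 (v x))) : ∃ ψ, Q.KF v ψ ∧ Q.nrm v ψ ≤ K := by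
  have h0 : ∀ (w : G → ℝ) (χ : Fin Q.n → G → ℝ) x, 0 ≤ grad2 S w x + ∑ i, χ i x ^ 2 :=
    fun w χ x => add_nonneg (grad2_nonneg w x) (Finset.sum_nonneg fun _ _ => sq_nonneg _)
  have h1 : ∀ (w : G → ℝ) (χ : Fin Q.n → G → ℝ) i x,
      χ i x ^ 2 ≤ grad2 S w x + ∑ i, χ i x ^ 2 := fun w χ i x =>
    le_add_of_nonneg_of_le (grad2_nonneg w x) (Finset.single_le_sum (f := fun i => χ i x ^ 2)
      (fun _ _ => sq_nonneg _) (Finset.mem_univ i))
  obtain ⟨U, hU⟩ : ∃ U : Ultrafilter ℕ, (U : Filter ℕ) ≤ atTop := ⟨_, Ultrafilter.of_le _⟩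
  have hb : ∀ i x, ∃ c, Tendsto (fun n => φ n i x) U (𝓝 c) := fun i x => by
    obtain ⟨c, -, hc⟩ := (isCompact_Icc (a := -√K) (b := √K)).ultrafilter_le_nhds
      (U.map fun n => φ n i x) (by
        rw [Ultrafilter.coe_map, le_principal_iff, mem_map]
        refine univ_mem' fun n => abs_le.1 (Real.abs_le_sqrt ?_)
        exact (h1 (u n) (φ n) i x).trans
          ((le_hasSum (h n).fkf_nrm x fun y _ => h0 _ _ y).trans (hK n)))
    exact ⟨c, hc⟩
  choose ψ hψ using hb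
  have hl' : ∀ x, Tendsto (fun n => u n x) U (𝓝 (v x)) := fun x => (hl x).mono_left hU
  have h2 : ∀ W : Finset G, ∑ x ∈ W, (grad2 S v x + ∑ i, ψ i x ^ 2) ≤ K := fun W => by
    have a1 : Tendsto (fun n => ∑ x ∈ W, (grad2 S (u n) x + ∑ i, φ n i x ^ 2))
        U (𝓝 (∑ x ∈ W, (grad2 S v x + ∑ i, ψ i x ^ 2))) :=
      tendsto_finsetSum _ fun x _ =>
        (tendsto_finsetSum _ fun s _ => ((hl' _).sub (hl' _)).pow 2).add
          (tendsto_finsetSum _ fun i _ => (hψ i x).pow 2)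
    exact le_of_tendsto' a1 fun n =>
      (sum_le_hasSum W (fun y _ => h0 _ _ y) (h n).fkf_nrm).trans (hK n)
  have h3 := summable_of_sum_le (h0 v ψ) h2
  have h4 : Q.KF v ψ := ⟨(finEn_of_tendsto (fun n => (h n).1)
    (fun n => (energy_le_nrm _ _).trans (hK n)) hl).1, fun i =>
      ⟨Summable.of_nonneg_of_le (fun _ => sq_nonneg _) (h1 v ψ i) h3, fun x t ht =>
        tendsto_nhds_unique ((hl' _).sub (hψ i _))
          (((hl' x).sub (hψ i x)).congr fun n => (((h n).2 i).2 x t ht).symm)⟩⟩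
  exact ⟨ψ, h4, hasSum_le_of_sum_le h4.fkf_nrm h2⟩

end Cones

/-- A finite energy function converging along `C` converges along its neighbourhoods. -/
theorem FinEn.tendsto_nbh (hS : Cay S) {u : G → ℝ} (hu : FinEn S u) {C : Set G} {c : ℝ}
    (h : Tendsto u (cofinite ⊓ 𝓟 C) (𝓝 c)) (r : ℕ) :
    Tendsto u (cofinite ⊓ 𝓟 (nbh S r C)) (𝓝 c) := by
  obtain ⟨K, -, H⟩ := osc_sq S r
  refine Metric.tendsto_nhds.2 fun η hη => eventually_inf_principal.2 ?_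
  have h1 := eventually_cofinite.1
    (eventually_inf_principal.1 (Metric.tendsto_nhds.1 h (η / 2) (half_pos hη)))
  have h2 := ((H u hu).1.ncard_le (half_pos hη)).1
  filter_upwards [(nbh_finite (S := S) r (h1.union h2)).compl_mem_cofinite] with x hx
  rintro ⟨a, ha, hb⟩
  have a1 : dist (u a) c < η / 2 := by
    by_contra hn
    exact hx ⟨a, Or.inl fun h' => hn (h' ha), hb⟩
  have a2 : |osc S r u a| < η / 2 := not_le.1 fun hn => hx ⟨a, Or.inr hn, hb⟩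
  have a3 := abs_sub_le_osc u a hb (one_mem_ball r)
  rw [mul_inv_cancel_left, mul_one, ← Real.dist_eq] at a3
  linarith [dist_triangle (u x) (u a) c, le_abs_self (osc S r u a)]

/-- Point evaluations are bounded by the energy. -/
theorem abs_sub_le_energy (hS : Cay S) (x : G) : ∃ C : ℝ, 0 ≤ C ∧ ∀ u : G → ℝ, FinEn S u →
    (u x - u 1) ^ 2 ≤ C * energy S u := by
  obtain ⟨r, hr⟩ := hS.exists_ball x
  obtain ⟨C, hC, H⟩ := ball_shift S r
  exact ⟨C, hC, fun u hu => by simpa using H u hu x hr {1}⟩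

end Vale.Agent.P239
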