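import Vale.Agent.P239.Full.FLuck
import Vale.Agent.P239.Full.FEnv
import Vale.Agent.P239.Full.FKF

/-! Task FFrame: a frame of finite energy functions; the finite Hilbert-Schmidt bound; the weak limit argument.
`exists_frame`: in `lp (G × S)` (or `G × G` with support on `S`) the gradients of finite energy functions form a closed translation invariant subspace (`finEn_of_tendsto`, normalise `u 1 = 0`, `abs_sub_le_energy`); let `u s` have gradient `Π δ (1, s)`.
Bessel: `∑ a g Π δ (g, s) = Π (∑ a g δ (g, s))`. Totality: `w ↦ pairE T f w` is bounded by the energy (`ball_shift`), represented by a gradient `η`, and `η (g, s) = ⟨η, Π δ (g, s)⟩ = 0`.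
`w1_fin`: `luck_hs` with `ι = D`, `κ` the edges `(x, b)` with `x, x b ∈ D`, `b ∈ T`, `N` the gradient matrix, `K = 4 |T|`, `v g = u (g⁻¹ ·)` restricted to `D`; the Bessel constant comes from `ball_shift`. `tE` acts on functions supported on these edges as `1 - N Nᵀ / K`.
`pair_eq_zero`: `η k = tE^[k] (edR u)` is square summable with nonincreasing norm, `⟨f, η k⟩ = ⟨f, edR u⟩` for divergence free `f` supported on the edges, and `η (k m) → 0` pointwise, hence weakly.
-/

noncomputable section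

open Classical MeasureTheory Filter Topology Set
open scoped Pointwise ENNReal

namespace Vale.Agent.P239

universe u
variable {G : Type u} [Group G] {S : Finset G} {l : ℕ} {Q : Cones S} {B : Bdry S}

/-- Square summable functions on the edges with labels in `T`. -/
abbrev ffH (T : Finset G) : Type u := lp (fun _ : G × T => ℝ) 2

theorem ff_sq {T : Finset G} {f : G → G → ℝ} (h : SqE T f) :
    SqSum fun p : G × T => f p.1 p.2 := by
  unfold SqSum
  refine (summable_prod_of_nonneg fun p => sq_nonneg _).2 ⟨fun x => Summable.of_finite, ?_⟩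
  simp only [tsum_fintype]
  exact summable_sum fun b _ => h b b.2

theorem ff_tsum {T : Finset G} {F : G → G → ℝ} (h : Summable fun p : G × T => F p.1 p.2) :
    ∑' p : G × T, F p.1 p.2 = ∑' x, ∑ b ∈ T, F x b := by
  rw [h.tsum_prod]
  refine tsum_congr fun x => ?_
  rw [tsum_fintype]
  exact Finset.sum_coe_sort T (fun b => F x b)

/-- An edge function as a vector. -/
def ffE (T : Finset G) (f : G → G → ℝ) (h : SqE T f) : ffH T :=
  ⟨fun p => f p.1 p.2, ry_mem.2 (ff_sq h)⟩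

theorem ffE_apply {T : Finset G} {f : G → G → ℝ} (h : SqE T f) (p : G × T) :
    ffE T f h p = f p.1 p.2 := rfl

theorem ff_inner {T : Finset G} {f g : G → G → ℝ} (hf : SqE T f) (hg : SqE T g) :
    inner ℝ (ffE T f hf) (ffE T g hg) = ∑' x, ∑ b ∈ T, f x b * g x b := by
  rw [ry_inner]
  exact ff_tsum (F := fun x b => f x b * g x b) (ry_mul (ff_sq hf) (ff_sq hg))

theorem ff_norm {T : Finset G} {f : G → G → ℝ} (hf : SqE T f) :
    ‖ffE T f hf‖ ^ 2 = ∑' x, ∑ b ∈ T, f x b ^ 2 := by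
  rw [ry_norm]
  exact ff_tsum (F := fun x b => f x b ^ 2) (ff_sq hf)

theorem ff_of_le {T : Finset G} {f : G → G → ℝ} {K : ℝ}
    (h : ∀ W : Finset G, ∑ x ∈ W, ∑ b ∈ T, f x b ^ 2 ≤ K) :
    ∃ hf : SqE T f, ‖ffE T f hf‖ ^ 2 ≤ K := by
  have hf : SqE T f := fun b hb => summable_of_sum_le (fun x => sq_nonneg _) fun W =>
    le_trans (Finset.sum_le_sum fun x _ =>
      Finset.single_le_sum (f := fun b => f x b ^ 2) (fun b _ => sq_nonneg _) hb) (h W)
  refine ⟨hf, ?_⟩
  rw [ff_norm]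
  exact Real.tsum_le_of_sum_le (fun x => Finset.sum_nonneg fun b _ => sq_nonneg _) h

theorem ff_shift (hS : Cay S) (T : Finset G) : ∃ C : ℝ, 0 ≤ C ∧ ∀ u : G → ℝ, FinEn S u →
    ∀ W : Finset G, ∑ x ∈ W, ∑ b ∈ T, (u (x * b) - u x) ^ 2 ≤ C * energy S u := by
  obtain ⟨r, hr⟩ := hS.finite_subset_ball T.finite_toSet
  obtain ⟨C, hC, h⟩ := ball_shift S r
  refine ⟨T.card * C, by positivity, fun u hu W => ?_⟩
  rw [Finset.sum_comm]
  calc ∑ b ∈ T, ∑ x ∈ W, (u (x * b) - u x) ^ 2 ≤ ∑ _b ∈ T, C * energy S u :=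
        Finset.sum_le_sum fun b hb => h u hu b (hr b hb) W
    _ = T.card * C * energy S u := by rw [Finset.sum_const, nsmul_eq_mul, mul_assoc]

theorem ff_grad (hS : Cay S) (T : Finset G) {u : G → ℝ} (hu : FinEn S u) :
    SqE T fun x b => u (x * b) - u x := by
  obtain ⟨C, -, h⟩ := ff_shift hS T
  exact (ff_of_le (h u hu)).1

theorem ff_pair (hS : Cay S) {T : Finset G} {f : G → G → ℝ} (hf : SqE T f) {u : G → ℝ}
    (hu : FinEn S u) : pairE T f u = inner ℝ (ffE T f hf) (ffE T _ (ff_grad hS T hu)) := by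
  rw [ff_inner]; rfl

theorem ff_energy (hS : Cay S) {u : G → ℝ} (hu : FinEn S u) :
    ‖ffE S _ (ff_grad hS S hu)‖ ^ 2 = energy S u := by
  rw [ff_norm]; rfl

/-- `η` is the gradient of `u`. -/
def ffG (S : Finset G) (η : ffH S) (u : G → ℝ) : Prop := ∀ p : G × S, η p = u (p.1 * p.2) - u p.1

theorem ffG.finEn {η : ffH S} {u : G → ℝ} (h : ffG S η u) : FinEn S u := by
  have h1 : SqSum (η : G × S → ℝ) := ry_mem.1 (lp.memℓp η)
  have h2 := h1.prod
  unfold FinEn grad2
  refine h2.congr fun x => ?_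
  rw [tsum_fintype, ← Finset.sum_coe_sort S]
  exact Finset.sum_congr rfl fun s _ => by rw [h (x, s)]

theorem ffG.eq (hS : Cay S) {η : ffH S} {u : G → ℝ} (h : ffG S η u) :
    η = ffE S _ (ff_grad hS S h.finEn) := lp.ext (funext h)

theorem ff_eval {α : Type*} {η : ℕ → lp (fun _ : α => ℝ) 2} {ζ : lp (fun _ : α => ℝ) 2}
    (h : Tendsto η atTop (𝓝 ζ)) (p : α) : Tendsto (fun n => η n p) atTop (𝓝 (ζ p)) := by
  refine tendsto_iff_norm_sub_tendsto_zero.2
    (squeeze_zero (fun n => norm_nonneg _) (fun n => ?_) (tendsto_iff_norm_sub_tendsto_zero.1 h))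
  exact lp.norm_apply_le_norm (by norm_num) (η n - ζ) p

theorem ffG_lim (hS : Cay S) {η : ℕ → ffH S} {ζ : ffH S} (h : Tendsto η atTop (𝓝 ζ))
    {u : ℕ → G → ℝ} (hu : ∀ n, ffG S (η n) (u n)) : ∃ w, ffG S ζ w := by
  have key : ∀ x, ∃ c, Tendsto (fun n => u n x - u n 1) atTop (𝓝 c) := by
    refine fun y => fcut_ind hS (P := fun x => ∃ c, Tendsto (fun n => u n x - u n 1) atTop (𝓝 c))
      ?_ (x := 1) ⟨0, by simp⟩ y
    rintro x s hs ⟨c, hc⟩
    refine ⟨c + ζ (x, ⟨s, hs⟩), ?_⟩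
    refine (hc.add (ff_eval h (x, ⟨s, hs⟩))).congr fun n => ?_
    rw [hu n]; ring
  choose c hc using key
  refine ⟨c, fun p => tendsto_nhds_unique (ff_eval h p) ?_⟩
  refine ((hc (p.1 * p.2)).sub (hc p.1)).congr fun n => ?_
  rw [hu n]; ring

/-- Gradients of functions annihilated by `f`. -/
def ffZ (hS : Cay S) (T : Finset G) (f : G → G → ℝ) (hf : SqE T f) : Submodule ℝ (ffH S) where
  carrier := {η | ∃ u, ffG S η u ∧ pairE T f u = 0}
  zero_mem' := ⟨fun _ => 0, fun p => by simp, by simp [pairE]⟩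
  add_mem' := by
    rintro a b ⟨u, hu, hu'⟩ ⟨v, hv, hv'⟩
    refine ⟨fun x => u x + v x, fun p => ?_, ?_⟩
    · rw [lp.coeFn_add, Pi.add_apply, hu p, hv p]; ring
    · rw [ff_pair hS hf hu.finEn] at hu'
      rw [ff_pair hS hf hv.finEn] at hv'
      rw [ff_pair hS hf (hu.finEn.add hv.finEn)]
      have e : ffE T _ (ff_grad hS T (hu.finEn.add hv.finEn)) =
          ffE T _ (ff_grad hS T hu.finEn) + ffE T _ (ff_grad hS T hv.finEn) := by
        refine lp.ext (funext fun p => ?_)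
        rw [lp.coeFn_add, Pi.add_apply, ffE_apply, ffE_apply, ffE_apply]; ring
      rw [e, inner_add_right, hu', hv', add_zero]
  smul_mem' := by
    rintro c a ⟨u, hu, hu'⟩
    refine ⟨fun x => c * u x, fun p => ?_, ?_⟩
    · rw [lp.coeFn_smul, Pi.smul_apply, hu p, smul_eq_mul]; ring
    · unfold pairE at hu' ⊢
      have e : ∀ x, ∑ b ∈ T, f x b * (c * u (x * b) - c * u x) =
          c * ∑ b ∈ T, f x b * (u (x * b) - u x) := fun x => by
        rw [Finset.mul_sum]
        exact Finset.sum_congr rfl fun b _ => by ring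
      rw [tsum_congr e, tsum_mul_left, hu', mul_zero]

theorem ffZ_closed (hS : Cay S) (T : Finset G) (f : G → G → ℝ) (hf : SqE T f) :
    IsClosed (ffZ hS T f hf : Set (ffH S)) := by
  refine IsSeqClosed.isClosed fun η ζ hη h => ?_
  choose u hu hu' using hη
  obtain ⟨w, hw⟩ := ffG_lim hS h hu
  refine ⟨w, hw, ?_⟩
  obtain ⟨C, hC, hb⟩ := ff_shift hS T
  have h1 : ∀ n, |pairE T f w| ≤ ‖ffE T f hf‖ * (√C * ‖η n - ζ‖) := by
    intro n
    have hd : ffG S (η n - ζ) fun x => u n x - w x := fun p => by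
      rw [lp.coeFn_sub, Pi.sub_apply, hu n p, hw p]; ring
    have e : ffE T _ (ff_grad hS T hw.finEn) =
        ffE T _ (ff_grad hS T (hu n).finEn) - ffE T _ (ff_grad hS T hd.finEn) := by
      refine lp.ext (funext fun p => ?_)
      rw [lp.coeFn_sub, Pi.sub_apply, ffE_apply, ffE_apply, ffE_apply]; ring
    have h0 := hu' n
    rw [ff_pair hS hf (hu n).finEn] at h0
    rw [ff_pair hS hf hw.finEn, e, inner_sub_right, h0, zero_sub, abs_neg]
    refine (abs_real_inner_le_norm _ _).trans (mul_le_mul_of_nonneg_left ?_ (norm_nonneg _))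
    obtain ⟨_, h2⟩ := ff_of_le (hb _ hd.finEn)
    rw [← ff_energy hS hd.finEn, ← hd.eq hS] at h2
    refine (sq_le_sq₀ (norm_nonneg _) (by positivity)).1 ?_
    rw [mul_pow, Real.sq_sqrt hC]
    exact h2
  have h2 : Tendsto (fun n => ‖ffE T f hf‖ * (√C * ‖η n - ζ‖)) atTop
      (𝓝 (‖ffE T f hf‖ * (√C * 0))) :=
    ((tendsto_iff_norm_sub_tendsto_zero.1 h).const_mul _).const_mul _
  have h3 := ge_of_tendsto' h2 h1
  rw [mul_zero, mul_zero] at h3
  exact abs_nonpos_iff.1 h3

/-- The reproducing kernel of an edge. -/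
theorem ff_kernel (hS : Cay S) {s : G} (hs : s ∈ S) : ∃ u : G → ℝ, FinEn S u ∧
    ∀ w, FinEn S w → pairE S (fun x b => u (x * b) - u x) w = w s - w 1 := by
  have h0 : SqE S fun _ _ => (0 : ℝ) := fun b _ => by simp [SqSum, summable_zero]
  set V := ffZ hS S _ h0
  have : CompleteSpace V := (ffZ_closed hS S _ h0).completeSpace_coe
  set δ : ffH S := lp.single 2 ((1 : G), (⟨s, hs⟩ : S)) (1 : ℝ) with hδ
  obtain ⟨u, hu, -⟩ : V.starProjection δ ∈ V := V.starProjection_apply_mem δ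
  refine ⟨u, hu.finEn, fun w hw => ?_⟩
  rw [ff_pair hS (ff_grad hS S hu.finEn) hw, ← hu.eq hS]
  have hm : ffE S _ (ff_grad hS S hw) ∈ V := ⟨w, fun p => rfl, by simp [pairE]⟩
  have h1 := V.starProjection_inner_eq_zero δ _ hm
  rw [inner_sub_left, sub_eq_zero] at h1
  rw [← h1, hδ, lp.inner_single_left, ffE_apply]
  simp

theorem ff_kernel_tr (hS : Cay S) {s : G} {u : G → ℝ}
    (h : ∀ w, FinEn S w → pairE S (fun x b => u (x * b) - u x) w = w s - w 1) (g : G)
    {w : G → ℝ} (hw : FinEn S w) :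
    pairE S (fun x b => u (g⁻¹ * (x * b)) - u (g⁻¹ * x)) w = w (g * s) - w g := by
  have h1 := h _ (hw.translate g).1
  simp only [mul_one] at h1
  rw [← h1]
  unfold pairE
  rw [← (Equiv.mulLeft g).tsum_eq]
  refine tsum_congr fun x => Finset.sum_congr rfl fun b _ => ?_
  simp only [Equiv.coe_mulLeft, mul_assoc, inv_mul_cancel_left]

theorem exists_frame (hS : Cay S) : ∃ u : G → G → ℝ, (∀ s, Bessel S (u s)) ∧
    ∀ (T : Finset G) (f : G → G → ℝ), SqE T f →
      (∀ s ∈ S, ∀ g, pairE T f (fun x => u s (g⁻¹ * x)) = 0) →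
      ∀ w, FinEn S w → pairE T f w = 0 := by
  have key : ∀ s, ∃ u : G → ℝ, Bessel S u ∧ (s ∈ S →
      ∀ w, FinEn S w → pairE S (fun x b => u (x * b) - u x) w = w s - w 1) := by
    intro s
    by_cases hs : s ∈ S
    · obtain ⟨u, hu, h⟩ := ff_kernel hS hs
      refine ⟨u, ⟨hu, fun W a => ?_⟩, fun _ => h⟩
      have ht : ∀ g : G, FinEn S fun x => u (g⁻¹ * x) := fun g => (hu.translate g⁻¹).1
      have hG : ffG S (∑ g ∈ W, a g • ffE S _ (ff_grad hS S (ht g)))
          fun x => ∑ g ∈ W, a g * u (g⁻¹ * x) := fun p => by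
        rw [lp.coeFn_sum, Finset.sum_apply, ← Finset.sum_sub_distrib]
        refine Finset.sum_congr rfl fun g _ => ?_
        rw [lp.coeFn_smul, Pi.smul_apply, ffE_apply, smul_eq_mul]; ring
      set U : G → ℝ := fun x => ∑ g ∈ W, a g * u (g⁻¹ * x)
      have h1 : energy S U = ∑ g ∈ W, a g * (U (g * s) - U g) := by
        rw [← ff_energy hS hG.finEn, ← real_inner_self_eq_norm_sq]
        nth_rewrite 1 [← hG.eq hS]
        rw [sum_inner]
        refine Finset.sum_congr rfl fun g _ => ?_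
        rw [real_inner_smul_left, ← ff_pair hS _ hG.finEn, ff_kernel_tr hS h g hG.finEn]
      have h2 : ∑ g ∈ W, (U (g * s) - U g) ^ 2 ≤ energy S U :=
        le_trans (Finset.sum_le_sum fun x _ => Finset.single_le_sum
          (f := fun b => (U (x * b) - U x) ^ 2) (fun b _ => sq_nonneg _) hs)
          (ball_sum_le_energy hG.finEn W)
      have h3 : ∑ g ∈ W, 2 * (a g * (U (g * s) - U g)) ≤
          ∑ g ∈ W, (a g ^ 2 + (U (g * s) - U g) ^ 2) :=
        Finset.sum_le_sum fun g _ => by nlinarith [sq_nonneg (a g - (U (g * s) - U g))]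
      rw [← Finset.mul_sum, Finset.sum_add_distrib] at h3
      linarith
    · refine ⟨fun _ => 0, ⟨finEn_const 0, fun W a => ?_⟩, fun h => absurd h hs⟩
      simp only [energy, grad2, mul_zero, Finset.sum_const_zero, sub_self]
      simp only [ne_eq, OfNat.ofNat_ne_zero, not_false_eq_true, zero_pow, Finset.sum_const_zero,
        tsum_zero]
      exact Finset.sum_nonneg fun g _ => sq_nonneg _
  choose u hu hk using key
  refine ⟨u, hu, fun T f hf h w hw => ?_⟩
  set Z := ffZ hS T f hf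
  have : CompleteSpace Z := (ffZ_closed hS T f hf).completeSpace_coe
  set η := ffE S _ (ff_grad hS S hw) with hη
  obtain ⟨v, hv, hv'⟩ : Z.starProjection η ∈ Z := Z.starProjection_apply_mem η
  have hd : ffG S (η - Z.starProjection η) fun x => w x - v x := fun p => by
    rw [lp.coeFn_sub, Pi.sub_apply, hv p, hη, ffE_apply]; ring
  have he : ∀ x, ∀ s ∈ S, w (x * s) - v (x * s) = w x - v x := by
    intro g s hs
    have ht : FinEn S fun x => u s (g⁻¹ * x) := ((hu s).1.translate g⁻¹).1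
    have hm : ffE S _ (ff_grad hS S ht) ∈ Z := ⟨_, fun p => rfl, h s hs g⟩
    have h1 := Z.starProjection_inner_eq_zero η _ hm
    rw [real_inner_comm, hd.eq hS, ← ff_pair hS _ hd.finEn,
      ff_kernel_tr hS (hk s hs) g hd.finEn] at h1
    linarith
  rw [← hv']
  unfold pairE
  refine tsum_congr fun x => Finset.sum_congr rfl fun b _ => ?_
  have := hS.const_of_edges (fun x => w x - v x) he (x * b) x
  rw [show w (x * b) - w x = v (x * b) - v x by linarith]

/-- Functions supported on the edges inside `D`. -/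
def ffS (D : Set G) (η : G → G → ℝ) : Prop := ∀ x b, η x b ≠ 0 → x ∈ D ∧ x * b ∈ D

theorem ffS_edR (T : Finset G) (D : Set G) (w : G → ℝ) : ffS D (edR T D w) := by
  intro x b h
  unfold edR at h
  split_ifs at h with hc
  · exact hc.2
  · exact absurd rfl h

theorem ffS.tE {T : Finset G} {D : Set G} {η : G → G → ℝ} (h : ffS D η) : ffS D (tE T D η) := by
  intro x b hx
  by_contra hc
  have h1 : η x b = 0 := by
    by_contra h1
    exact hc (h x b h1)
  have h2 : edR T D (dvg T η) x b = 0 := by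
    by_contra h2
    exact hc (ffS_edR T D _ x b h2)
  exact hx (by unfold Vale.Agent.P239.tE; rw [h1, h2]; simp)

theorem ffS.iter {T : Finset G} {D : Set G} {η : G → G → ℝ} (h : ffS D η) (k : ℕ) :
    ffS D ((Vale.Agent.P239.tE T D)^[k] η) := by
  induction k with
  | zero => exact h
  | succ k ih => rw [Function.iterate_succ_apply']; exact ih.tE

theorem ff_edR_sq (T : Finset G) (D : Set G) (w : G → ℝ) (x b : G) :
    edR T D w x b ^ 2 ≤ (w (x * b) - w x) ^ 2 := by
  unfold edR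
  split_ifs
  · exact le_rfl
  · rw [zero_pow two_ne_zero]; exact sq_nonneg _

theorem ff_edR_le (T : Finset G) (D : Set G) {w : G → ℝ} (hw : SqSum w) (W : Finset G) :
    ∑ x ∈ W, ∑ b ∈ T, edR T D w x b ^ 2 ≤ 4 * T.card * ∑' x, w x ^ 2 := by
  rw [Finset.sum_comm]
  have h : ∀ b ∈ T, ∑ x ∈ W, edR T D w x b ^ 2 ≤ 4 * ∑' x, w x ^ 2 := by
    intro b _
    have h1 : ∑ x ∈ W, w x ^ 2 ≤ ∑' x, w x ^ 2 := hw.sum_le_tsum W fun x _ => sq_nonneg _
    have h2 : ∑ x ∈ W, w (x * b) ^ 2 ≤ ∑' x, w x ^ 2 := by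
      rw [← (Equiv.mulRight b).tsum_eq fun x => w x ^ 2]
      exact (ry_shift hw b).sum_le_tsum W fun x _ => sq_nonneg _
    have h3 : ∑ x ∈ W, edR T D w x b ^ 2 ≤ ∑ x ∈ W, (2 * w (x * b) ^ 2 + 2 * w x ^ 2) :=
      Finset.sum_le_sum fun x _ => (ff_edR_sq T D w x b).trans
        (by nlinarith [sq_nonneg (w (x * b) + w x)])
    rw [Finset.sum_add_distrib, ← Finset.mul_sum, ← Finset.mul_sum] at h3
    linarith
  refine (Finset.sum_le_sum h).trans (le_of_eq ?_)
  rw [Finset.sum_const, nsmul_eq_mul]; ring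

/-- The gradient matrix of the graph on `D`. -/
def ffN (T D : Finset G) : Matrix (D × T) D ℤ := fun e y =>
  if e.1.1 * e.2.1 ∈ D then (if y.1 = e.1.1 * e.2.1 then 1 else 0) - (if y = e.1 then 1 else 0)
  else 0

theorem ffN_mul (T D : Finset G) (w : G → ℝ) (e : D × T) :
    ((ffN T D).map (Int.cast : ℤ → ℝ)).mulVec (fun y => w y) e = edR T (D : Set G) w e.1 e.2 := by
  unfold edR
  simp only [Matrix.mulVec, dotProduct, Matrix.map_apply, ffN, Finset.mem_coe, e.1.2, e.2.2,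
    true_and]
  split_ifs with hc
  · have h1 : ∀ y : D, (y.1 = e.1.1 * e.2.1) = (y = ⟨_, hc⟩) := fun y => by
      rw [Subtype.ext_iff]
    simp only [h1, Int.cast_sub, Int.cast_ite, Int.cast_one, Int.cast_zero, sub_mul, ite_mul,
      one_mul, zero_mul, Finset.sum_sub_distrib, Finset.sum_ite_eq', Finset.mem_univ, if_true]
  · simp

theorem ffN_tr (T D : Finset G) {η : G → G → ℝ} (h : ffS (D : Set G) η) (y : D) :
    ((ffN T D).map (Int.cast : ℤ → ℝ)).transpose.mulVec (fun e => η e.1 e.2) y = dvg T η y := by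
  unfold dvg
  simp only [Matrix.mulVec, dotProduct, Matrix.transpose_apply, Matrix.map_apply]
  rw [Fintype.sum_prod_type_right, ← Finset.sum_coe_sort T]
  refine Finset.sum_congr rfl fun b _ => ?_
  have h1 : ∀ x : D, ((ffN T D (x, b) y : ℤ) : ℝ) * η x b =
      (if x.1 = y.1 * b.1⁻¹ then η x b else 0) - (if x = y then η x b else 0) := by
    intro x
    by_cases h0 : η x b = 0
    · simp [h0]
    · have h2 : x.1 * b.1 ∈ D := (h _ _ h0).2
      have h3 : (y.1 = x.1 * b.1) = (x.1 = y.1 * b.1⁻¹) :=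
        propext (eq_comm.trans eq_mul_inv_iff_mul_eq.symm)
      have h4 : (y = x) = (x = y) := propext eq_comm
      simp only [ffN, h2, if_true, h3, h4, Int.cast_sub, Int.cast_ite, Int.cast_one, Int.cast_zero,
        sub_mul, ite_mul, one_mul, zero_mul]
  simp only [h1, Finset.sum_sub_distrib, Finset.sum_ite_eq', Finset.mem_univ, if_true]
  rw [Finset.sum_coe_sort D (fun x => if x = y.1 * b.1⁻¹ then η x b else 0), Finset.sum_ite_eq']
  split_ifs with hc
  · rfl
  · have h5 : η (y.1 * b.1⁻¹) b = 0 := by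
      by_contra h5
      exact hc (h _ _ h5).1
    rw [h5]

theorem ffN_iter (T D : Finset G) {η : G → G → ℝ} (h : ffS (D : Set G) η) (k : ℕ) :
    ((1 - (4 * T.card : ℝ)⁻¹ • ((ffN T D).map (Int.cast : ℤ → ℝ) *
      ((ffN T D).map (Int.cast : ℤ → ℝ)).transpose)) ^ k).mulVec (fun e => η e.1 e.2) =
      fun e : D × T => (tE T (D : Set G))^[k] η e.1 e.2 := by
  induction k with
  | zero => simp
  | succ k ih =>
    rw [pow_succ', ← Matrix.mulVec_mulVec, ih, Function.iterate_succ_apply', Matrix.sub_mulVec,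
      Matrix.one_mulVec, Matrix.smul_mulVec, ← Matrix.mulVec_mulVec]
    have e : ((ffN T D).map (Int.cast : ℤ → ℝ)).transpose.mulVec
        (fun e : D × T => (tE T (D : Set G))^[k] η e.1 e.2) =
        fun y : D => dvg T ((tE T (D : Set G))^[k] η) y := funext (ffN_tr T D (h.iter k))
    rw [e]
    funext p
    rw [Pi.sub_apply, Pi.smul_apply, ffN_mul, smul_eq_mul]
    unfold tE
    ring

theorem ff_sum (T D : Finset G) (F : G → G → ℝ) :
    ∑ e : D × T, F e.1 e.2 = ∑ x ∈ D, ∑ b ∈ T, F x b := by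
  rw [Fintype.sum_prod_type, ← Finset.sum_coe_sort D]
  exact Finset.sum_congr rfl fun x _ => Finset.sum_coe_sort T (fun b => F x b)

theorem w1_fin (hS : Cay S) (T : Finset G) (hT : T.Nonempty) {ε : ℝ} (hε : 0 < ε) : ∃ k : ℕ,
    ∀ (D W : Finset G) (u : G → ℝ), Bessel S u →
      ∑ g ∈ W, ∑ x ∈ D, ∑ b ∈ T,
        ((tE T (D : Set G))^[k] (edR T (D : Set G) fun y => u (g⁻¹ * y)) x b) ^ 2 ≤ ε * D.card := by
  obtain ⟨C, hC, hb⟩ := ff_shift hS T
  have hc : (1 : ℝ) ≤ T.card := by exact_mod_cast hT.card_pos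
  obtain ⟨k, hk⟩ := luck_hs.{u} (4 * T.card) (by linarith) (ε := ε / (C + 1)) (by positivity)
  refine ⟨k, fun D W u hu => ?_⟩
  have h1 := hk D (D × T) G (ffN T D) W (fun g y => u (g⁻¹ * y)) C hC ?_ ?_
  · have h2 : ∀ g : G, ((ffN T D).map (Int.cast : ℤ → ℝ)).mulVec (fun y : D => u (g⁻¹ * y)) =
        fun e : D × T => edR T (D : Set G) (fun y => u (g⁻¹ * y)) e.1 e.2 := fun g =>
      funext (ffN_mul T D fun y => u (g⁻¹ * y))
    simp only [h2, ffN_iter T D (ffS_edR T _ _), Fintype.card_coe] at h1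
    have h3 : C * (ε / (C + 1)) ≤ ε := by
      rw [mul_div_assoc', div_le_iff₀ (by positivity)]
      nlinarith
    refine le_trans (le_of_eq ?_) (h1.trans (mul_le_mul_of_nonneg_right h3 (Nat.cast_nonneg _)))
    exact Finset.sum_congr rfl fun g _ => (ff_sum T D fun x b =>
      ((tE T (D : Set G))^[k] (edR T (D : Set G) fun y => u (g⁻¹ * y)) x b) ^ 2).symm
  · intro w
    set w' : G → ℝ := fun y => if h : y ∈ D then w ⟨y, h⟩ else 0 with hw'
    have e1 : w = fun y : D => w' y := funext fun y => by simp [hw']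
    have e2 : ∀ y, y ∉ D → w' y ^ 2 = 0 := fun y hy => by simp [hw', hy]
    have h2 := ff_edR_le T (D : Set G) (w := w') (summable_of_ne_finset_zero e2) D
    rw [tsum_eq_sum e2, ← Finset.sum_coe_sort D (fun y => w' y ^ 2),
      ← ff_sum T D fun x b => edR T (D : Set G) w' x b ^ 2] at h2
    rw [e1]
    simpa only [ffN_mul] using h2
  · intro a
    set U : G → ℝ := fun x => ∑ g ∈ W, a g * u (g⁻¹ * x) with hU
    have ht : ∀ g : G, FinEn S fun x => u (g⁻¹ * x) := fun g => (hu.1.translate g⁻¹).1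
    have hG : ffG S (∑ g ∈ W, a g • ffE S _ (ff_grad hS S (ht g))) U := fun p => by
      rw [lp.coeFn_sum, Finset.sum_apply, hU, ← Finset.sum_sub_distrib]
      refine Finset.sum_congr rfl fun g _ => ?_
      rw [lp.coeFn_smul, Pi.smul_apply, ffE_apply, smul_eq_mul]; ring
    have h2 : ∀ e : D × T, ∑ g ∈ W, a g * ((ffN T D).map (Int.cast : ℤ → ℝ)).mulVec
        (fun y : D => u (g⁻¹ * y)) e = edR T (D : Set G) U e.1 e.2 := by
      intro e
      have h3 : ∀ g : G, ((ffN T D).map (Int.cast : ℤ → ℝ)).mulVec (fun y : D => u (g⁻¹ * y)) e =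
          edR T (D : Set G) (fun y => u (g⁻¹ * y)) e.1 e.2 := fun g =>
        ffN_mul T D (fun y => u (g⁻¹ * y)) e
      simp only [h3]
      unfold edR
      split_ifs
      · rw [hU, ← Finset.sum_sub_distrib]
        exact Finset.sum_congr rfl fun g _ => by ring
      · simp
    simp only [h2]
    rw [ff_sum T D fun x b => edR T (D : Set G) U x b ^ 2]
    refine le_trans (Finset.sum_le_sum fun x _ => Finset.sum_le_sum fun b _ =>
      ff_edR_sq T _ U x b) ((hb U hG.finEn D).trans ?_)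
    exact mul_le_mul_of_nonneg_left (hu.2 W a) hC

theorem ff_edR_tr (T : Finset G) (D : Set G) (g : G) {w w' : G → ℝ} (h : ∀ x, w' (g * x) = w x)
    (x b : G) : edR T (g • D) w' (g * x) b = edR T D w x b := by
  have h1 : ∀ y, g * y ∈ g • D ↔ y ∈ D := fun y => Set.smul_mem_smul_set_iff
  unfold edR
  rw [mul_assoc, h1, h1, h, h]

theorem tE_translate (T : Finset G) (D : Set G) (u : G → ℝ) (g : G) (k : ℕ) (x b : G) :
    (tE T (g • D))^[k] (edR T (g • D) fun y => u (g⁻¹ * y)) (g * x) b =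
      (tE T D)^[k] (edR T D u) x b := by
  induction k generalizing x b with
  | zero => exact ff_edR_tr T D g (fun y => by simp) x b
  | succ k ih =>
    rw [Function.iterate_succ_apply', Function.iterate_succ_apply']
    unfold tE
    rw [ff_edR_tr T D g (w := dvg T ((tE T D)^[k] (edR T D u))) (fun y => ?_) x b]
    · exact congrArg (· - _) (ih x b)
    · unfold dvg
      refine Finset.sum_congr rfl fun c _ => ?_
      rw [mul_assoc]
      exact congrArg₂ (· - ·) (ih _ c) (ih _ c)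

theorem ff_dvg {T : Finset G} {η : G → G → ℝ} (h : SqE T η) : SqSum (dvg T η) := by
  have h1 : ∀ b ∈ T, Memℓp (fun y => η (y * b⁻¹) b - η y b) 2 := fun b hb =>
    (ry_mem.2 (ry_shift (h b hb) b⁻¹)).sub (ry_mem.2 (h b hb))
  have h2 := Memℓp.finsetSum T h1
  exact ry_mem.1 h2

/-- Summation by parts. -/
theorem ff_parts {T : Finset G} {D : Set G} {η : G → G → ℝ} (h : SqE T η) (hs : ffS D η)
    {w : G → ℝ} (hw : SqSum w) :
    ∑' x, ∑ b ∈ T, η x b * edR T D w x b = ∑' y, dvg T η y * w y := by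
  have h1 : ∀ x, ∑ b ∈ T, η x b * edR T D w x b = ∑ b ∈ T, (η x b * w (x * b) - η x b * w x) := by
    refine fun x => Finset.sum_congr rfl fun b hb => ?_
    by_cases h0 : η x b = 0
    · simp [h0]
    · unfold edR
      rw [if_pos ⟨hb, hs x b h0⟩]; ring
  have h2 : ∀ y, dvg T η y * w y = ∑ b ∈ T, (η (y * b⁻¹) b * w y - η y b * w y) := by
    intro y
    unfold dvg
    rw [Finset.sum_mul]
    exact Finset.sum_congr rfl fun b _ => by ring
  have s1 : ∀ b ∈ T, Summable fun x => η x b * w (x * b) := fun b hb =>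
    ry_mul (h b hb) (ry_shift hw b)
  have s2 : ∀ b ∈ T, Summable fun x => η x b * w x := fun b hb => ry_mul (h b hb) hw
  have s3 : ∀ b ∈ T, Summable fun x => η (x * b⁻¹) b * w x := fun b hb =>
    ry_mul (ry_shift (h b hb) b⁻¹) hw
  rw [tsum_congr h1, tsum_congr h2, Summable.tsum_finsetSum fun b hb => (s1 b hb).sub (s2 b hb),
    Summable.tsum_finsetSum fun b hb => (s3 b hb).sub (s2 b hb)]
  refine Finset.sum_congr rfl fun b hb => ?_
  rw [(s1 b hb).tsum_sub (s2 b hb), (s3 b hb).tsum_sub (s2 b hb),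
    ← (Equiv.mulRight b).tsum_eq fun x => η (x * b⁻¹) b * w x]
  simp only [Equiv.coe_mulRight, mul_inv_cancel_right]

theorem ff_step {T : Finset G} (hT : T.Nonempty) {D : Set G} {η : G → G → ℝ} (h : SqE T η)
    (hs : ffS D η) : ∃ h' : SqE T (tE T D η), ‖ffE T _ h'‖ ≤ ‖ffE T η h‖ ∧
      ∀ (f : G → G → ℝ) (hf : SqE T f), ffS D f → DivFree T f →
        inner ℝ (ffE T f hf) (ffE T _ h') = inner ℝ (ffE T f hf) (ffE T η h) := by
  have hc : (1 : ℝ) ≤ T.card := by exact_mod_cast hT.card_pos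
  have hw := ff_dvg h
  obtain ⟨hA, hA'⟩ := ff_of_le (ff_edR_le T D hw)
  have h' : SqE T (tE T D η) := fun b hb => by
    have h1 := (ry_mem.2 (h b hb)).sub ((ry_mem.2 (hA b hb)).const_smul (4 * T.card : ℝ)⁻¹)
    refine (ry_mem.1 h1).congr fun x => ?_
    unfold tE
    rw [Pi.sub_apply, Pi.smul_apply, smul_eq_mul]; ring
  have e : ffE T _ h' = ffE T η h - (4 * T.card : ℝ)⁻¹ • ffE T _ hA := by
    refine lp.ext (funext fun p => ?_)
    rw [lp.coeFn_sub, Pi.sub_apply, lp.coeFn_smul, Pi.smul_apply, ffE_apply, ffE_apply, ffE_apply,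
      smul_eq_mul]
    unfold tE
    ring
  refine ⟨h', ?_, fun f hf hfs hd => ?_⟩
  · refine (sq_le_sq₀ (norm_nonneg _) (norm_nonneg _)).1 ?_
    have h1 : inner ℝ (ffE T η h) (ffE T _ hA) = ∑' y, dvg T η y ^ 2 := by
      rw [ff_inner, ff_parts h hs hw]
      exact tsum_congr fun y => by ring
    have h0 : 0 ≤ ∑' y, dvg T η y ^ 2 := tsum_nonneg fun y => sq_nonneg _
    rw [e, norm_sub_sq_real, real_inner_smul_right, h1, norm_smul, mul_pow, Real.norm_eq_abs,
      sq_abs]
    have hK : (0 : ℝ) < 4 * T.card := by linarith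
    have h2 : (4 * T.card : ℝ)⁻¹ ^ 2 * ‖ffE T _ hA‖ ^ 2 ≤
        (4 * T.card : ℝ)⁻¹ * ∑' y, dvg T η y ^ 2 := by
      refine (mul_le_mul_of_nonneg_left hA' (sq_nonneg _)).trans (le_of_eq ?_)
      field_simp
    have h3 : 0 ≤ (4 * T.card : ℝ)⁻¹ * ∑' y, dvg T η y ^ 2 := by positivity
    linarith
  · rw [e, inner_sub_right, real_inner_smul_right, ff_inner hf hA, ff_parts hf hfs hw]
    have h1 : ∀ y, dvg T f y = 0 := hd
    simp [h1]

theorem ff_weak {α : Type*} (f : lp (fun _ : α => ℝ) 2) (η : ℕ → lp (fun _ : α => ℝ) 2) {M c : ℝ}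
    (hM : ∀ m, ‖η m‖ ≤ M) (h : ∀ p, Tendsto (fun m => η m p) atTop (𝓝 0))
    (hc : ∀ m, inner ℝ f (η m) = c) : c = 0 := by
  have h1 : ∀ F : Finset α, |c| ≤ ‖∑ p ∈ F, lp.single 2 p (f p) - f‖ * M := by
    intro F
    have h2 : ∀ m, |∑ p ∈ F, f p * η m p - c| ≤ ‖∑ p ∈ F, lp.single 2 p (f p) - f‖ * M := by
      intro m
      have e : ∑ p ∈ F, f p * η m p - c = inner ℝ (∑ p ∈ F, lp.single 2 p (f p) - f) (η m) := by
        rw [inner_sub_left, sum_inner, hc]
        simp only [lp.inner_single_left]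
        simp [mul_comm]
      rw [e]
      exact (abs_real_inner_le_norm _ _).trans (mul_le_mul_of_nonneg_left (hM m) (norm_nonneg _))
    have h3 : Tendsto (fun m => |∑ p ∈ F, f p * η m p - c|) atTop
        (𝓝 |∑ p ∈ F, f p * 0 - c|) :=
      ((tendsto_finsetSum F fun p _ => (h p).const_mul (f p)).sub_const c).abs
    have h4 := le_of_tendsto' h3 h2
    simpa using h4
  have h5 : Tendsto (fun F : Finset α => ‖∑ p ∈ F, lp.single 2 p (f p) - f‖ * M) atTop
      (𝓝 (0 * M)) :=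
    (tendsto_iff_norm_sub_tendsto_zero.1 (lp.hasSum_single (by norm_num) f)).mul_const M
  have h6 := ge_of_tendsto' h5 h1
  rw [zero_mul] at h6
  exact abs_nonpos_iff.1 h6

theorem pair_eq_zero (hS : Cay S) (T : Finset G) (hT : T.Nonempty) {D : Set G} {u : G → ℝ}
    (hu : FinEn S u) {k : ℕ → ℕ}
    (h : ∀ x ∈ D, ∀ b ∈ T, Tendsto (fun m => (tE T D)^[k m] (edR T D u) x b) atTop (𝓝 0))
    {f : G → G → ℝ} (hf : SqE T f) (hs : ∀ x b, f x b ≠ 0 → x ∈ D ∧ x * b ∈ D)
    (hd : DivFree T f) : pairE T f u = 0 := by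
  obtain ⟨C, -, hb⟩ := ff_shift hS T
  obtain ⟨h0, -⟩ := ff_of_le (T := T) (f := edR T D u) fun W =>
    le_trans (Finset.sum_le_sum fun x _ => Finset.sum_le_sum fun b _ => ff_edR_sq T D u x b)
      (hb u hu W)
  have key : ∀ n, ∃ h' : SqE T ((tE T D)^[n] (edR T D u)), ‖ffE T _ h'‖ ≤ ‖ffE T _ h0‖ ∧
      inner ℝ (ffE T f hf) (ffE T _ h') = inner ℝ (ffE T f hf) (ffE T _ h0) := by
    intro n
    induction n with
    | zero => exact ⟨h0, le_rfl, rfl⟩
    | succ n ih =>
      obtain ⟨h1, h2, h3⟩ := ih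
      obtain ⟨h4, h5, h6⟩ := ff_step hT h1 ((ffS_edR T D u).iter n)
      rw [Function.iterate_succ_apply']
      exact ⟨h4, h5.trans h2, (h6 f hf hs hd).trans h3⟩
  choose h1 h2 h3 using key
  have h4 := ff_weak (ffE T f hf) (fun m => ffE T _ (h1 (k m))) (fun m => h2 (k m)) ?_
    fun m => h3 (k m)
  · rw [← h4, ff_inner]
    unfold pairE
    refine tsum_congr fun x => Finset.sum_congr rfl fun b hb => ?_
    by_cases h5 : f x b = 0
    · simp [h5]
    · unfold edR
      rw [if_pos ⟨hb, hs x b h5⟩]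
  · intro p
    by_cases hp : p.1 ∈ D
    · exact h p.1 hp p.2 p.2.2
    · refine tendsto_const_nhds.congr fun m => ?_
      by_contra h5
      exact hp ((ffS_edR T D u).iter (k m) p.1 p.2 (Ne.symm h5)).1

end Vale.Agent.P239
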