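import Vale.Agent.P239.Full.FKF
import Vale.Agent.P239.Full.FFrame

/-! Task FPE: the pairing of edge functions with gradients.
`FinEn.of_cay`: every `b ∈ T` lies in some ball, `ball_shift`. `pairE_sqSum`: `∑_x f x b * p (x * b) = ∑_y f (y * b⁻¹) b * p y` (`Equiv.mulRight`), then the divergence vanishes.
`exists_grad_of_gap`: in the Hilbert space `lp (G × T)` (or `G × G` with support on `T`) the gradients of square summable functions form a closed subspace by `Gap T`; its orthogonal complement consists of divergence free fields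
(test with point masses); the gradient of `u` is orthogonal to these. `wd_of_harmVanish`: the gradients of finite energy functions form a closed subspace `𝒢` (`finEn_of_tendsto`, `abs_sub_le_energy`); the projection `∇ h` of `f` onto `𝒢` is orthogonal to the
gradients of point masses, so `h` is harmonic, hence `∇ h = 0`. `folner_or_gap'`: copy `Cay.folner_or_gap` (only `0 < T.card` is used).
-/

noncomputable section

open Classical MeasureTheory Filter Topology Set
open scoped Pointwise ENNReal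

namespace Vale.Agent.P239

universe u
variable {G : Type u} [Group G] {S : Finset G}

theorem FinEn.of_cay (hS : Cay S) (T : Finset G) : ∃ C : ℝ, 0 ≤ C ∧ ∀ u : G → ℝ, FinEn S u →
    FinEn T u ∧ energy T u ≤ C * energy S u := by
  obtain ⟨C, hC, h⟩ := ff_shift hS T
  exact ⟨C, hC, fun u hu => ball_finEn_of_sum_le (h u hu)⟩

theorem FinEn.shift (hS : Cay S) {u : G → ℝ} (hu : FinEn S u) (g : G) :
    FinEn S (fun x => u (x * g)) ∧ SqSum fun x => u (x * g) - u x := by
  have h : ∀ g : G, SqSum fun x => u (x * g) - u x := fun g =>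
    ff_grad hS {g} hu g (Finset.mem_singleton_self g)
  refine ⟨summable_sum fun s _ => ?_, h g⟩
  refine (ry_mem.1 ((ry_mem.2 (h (s * g))).sub (ry_mem.2 (h g)))).congr fun x => ?_
  simp only [Pi.sub_apply, mul_assoc]
  ring

theorem pairE_summable {T : Finset G} {f : G → G → ℝ} (hf : SqE T f) {u : G → ℝ} (hu : FinEn T u) :
    Summable fun x => ∑ b ∈ T, f x b * (u (x * b) - u x) :=
  summable_sum fun b hb => ry_mul (hf b hb) (ry_edge hu hb)

theorem pairE_sub {T : Finset G} {f : G → G → ℝ} (hf : SqE T f) {u v : G → ℝ} (hu : FinEn T u)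
    (hv : FinEn T v) : pairE T f (fun x => u x - v x) = pairE T f u - pairE T f v := by
  unfold pairE
  rw [← (pairE_summable hf hu).tsum_sub (pairE_summable hf hv)]
  refine tsum_congr fun x => ?_
  rw [← Finset.sum_sub_distrib]
  exact Finset.sum_congr rfl fun b _ => by ring

theorem pairE_congr {T : Finset G} {f : G → G → ℝ} {u v : G → ℝ}
    (h : ∀ x, ∀ b ∈ T, f x b ≠ 0 → u (x * b) - u x = v (x * b) - v x) :
    pairE T f u = pairE T f v := by
  refine tsum_congr fun x => Finset.sum_congr rfl fun b hb => ?_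
  by_cases h0 : f x b = 0
  · rw [h0, zero_mul, zero_mul]
  · rw [h x b hb h0]

theorem fpe_edR {T : Finset G} (p : G → ℝ) (x : G) {b : G} (hb : b ∈ T) :
    edR T univ p x b = p (x * b) - p x := if_pos ⟨hb, mem_univ _, mem_univ _⟩

theorem fpe_parts {T : Finset G} {f : G → G → ℝ} (hf : SqE T f) {p : G → ℝ} (hp : SqSum p) :
    pairE T f p = ∑' y, dvg T f y * p y := by
  rw [← ff_parts (D := univ) hf (fun _ _ _ => ⟨mem_univ _, mem_univ _⟩) hp]
  exact tsum_congr fun x => Finset.sum_congr rfl fun b hb => by rw [fpe_edR p x hb]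

theorem pairE_sqSum {T : Finset G} {f : G → G → ℝ} (hf : SqE T f) (hd : DivFree T f) {p : G → ℝ}
    (hp : SqSum p) : pairE T f p = 0 := by
  have h1 : ∀ y, dvg T f y = 0 := hd
  rw [fpe_parts hf hp]
  simp [h1]

theorem fpe_grad {T : Finset G} {u : G → ℝ} (hu : FinEn T u) : SqE T fun x b => u (x * b) - u x :=
  fun _ hb => ry_edge hu hb

theorem fpe_pair {T : Finset G} {f : G → G → ℝ} (hf : SqE T f) {u : G → ℝ} (hu : FinEn T u) :
    pairE T f u = inner ℝ (ffE T f hf) (ffE T _ (fpe_grad hu)) := by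
  rw [ff_inner]; rfl

theorem fpe_energy {T : Finset G} {u : G → ℝ} (hu : FinEn T u) :
    ‖ffE T _ (fpe_grad hu)‖ ^ 2 = energy T u := by
  rw [ff_norm]; rfl

theorem pairE_sq_le {T : Finset G} {f : G → G → ℝ} (hf : SqE T f) : ∃ C : ℝ, 0 ≤ C ∧
    ∀ u : G → ℝ, FinEn T u → pairE T f u ^ 2 ≤ C * energy T u := by
  refine ⟨‖ffE T f hf‖ ^ 2, sq_nonneg _, fun u hu => ?_⟩
  rw [fpe_pair hf hu, ← fpe_energy hu, ← mul_pow, ← sq_abs]
  exact pow_le_pow_left₀ (abs_nonneg _) (abs_real_inner_le_norm _ _) 2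

theorem pairE_of_dense (hS : Cay S) {T : Finset G} {f : G → G → ℝ} (hf : SqE T f) {u : G → ℝ}
    (hu : FinEn S u) (h : ∀ ε : ℝ, 0 < ε → ∃ u', FinEn S u' ∧
      energy S (fun x => u x - u' x) ≤ ε ∧ pairE T f u' = 0) : pairE T f u = 0 := by
  obtain ⟨C, hC, h1⟩ := pairE_sq_le hf
  obtain ⟨C', hC', h2⟩ := FinEn.of_cay hS T
  refine pow_eq_zero_iff (two_ne_zero) |>.1 (le_antisymm ?_ (sq_nonneg _))
  refine le_of_forall_pos_le_add fun ε hε => ?_
  obtain ⟨u', h3, h4, h5⟩ := h (ε / (C * C' + 1)) (by positivity)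
  have h6 := pairE_sub hf (h2 u hu).1 (h2 u' h3).1
  rw [h5, sub_zero] at h6
  obtain ⟨h7, h8⟩ := h2 _ (hu.sub h3)
  rw [← h6, zero_add]
  refine (h1 _ h7).trans ((mul_le_mul_of_nonneg_left
    (h8.trans (mul_le_mul_of_nonneg_left h4 hC')) hC).trans ?_)
  rw [← mul_assoc, mul_div_assoc', div_le_iff₀ (by positivity)]
  nlinarith

theorem fpe_pt (y : G) : SqSum fun z : G => if z = y then (1 : ℝ) else 0 :=
  summable_of_ne_finset_zero (s := {y}) fun z hz => by
    simp only [if_neg (show ¬ z = y by simpa using hz), zero_pow two_ne_zero]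

theorem fpe_tsum (a : G → ℝ) (y : G) : ∑' z, a z * (if z = y then (1 : ℝ) else 0) = a y := by
  rw [tsum_eq_single y fun z hz => by rw [if_neg hz, mul_zero], if_pos rfl, mul_one]

/-- The gradient on square summable functions. -/
def fpeA (T : Finset G) : lp (fun _ : G => ℝ) 2 →L[ℝ] ffH T :=
  LinearMap.mkContinuous
    { toFun := fun p => ffE T _ (fpe_grad (SqSum.finEn (ry_mem.1 (lp.memℓp p))))
      map_add' := fun p q => lp.ext (funext fun e => by
        change p (e.1 * e.2) + q (e.1 * e.2) - (p e.1 + q e.1) =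
          p (e.1 * e.2) - p e.1 + (q (e.1 * e.2) - q e.1)
        ring)
      map_smul' := fun c p => lp.ext (funext fun e => by
        change c * p (e.1 * e.2) - c * p e.1 = c * (p (e.1 * e.2) - p e.1)
        ring) } √(4 * T.card) fun p => by
    have hp : SqSum p := ry_mem.1 (lp.memℓp p)
    obtain ⟨_, h⟩ := ff_of_le (T := T) (f := fun x b => p (x * b) - p x) fun W =>
      le_trans (le_of_eq (Finset.sum_congr rfl fun x _ => Finset.sum_congr rfl fun b hb => by
        rw [fpe_edR p x hb])) (ff_edR_le T univ hp W)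
    refine (sq_le_sq₀ (norm_nonneg _) (by positivity)).1 ?_
    rw [mul_pow, Real.sq_sqrt (by positivity), ry_norm p]
    exact h

theorem fpeA_eq (T : Finset G) (p : lp (fun _ : G => ℝ) 2) :
    fpeA T p = ffE T _ (fpe_grad (SqSum.finEn (ry_mem.1 (lp.memℓp p)))) := rfl

theorem exists_grad_of_gap {T : Finset G} (hT : Gap T) {u : G → ℝ} (hu : FinEn T u)
    (h : ∀ f, SqE T f → DivFree T f → pairE T f u = 0) :
    ∃ p, SqSum p ∧ ∀ x, ∀ b ∈ T, u (x * b) - p (x * b) = u x - p x := by
  obtain ⟨C, hC, hg⟩ := hT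
  have ha : AntilipschitzWith (√C).toNNReal (fpeA T) := by
    refine AddMonoidHomClass.antilipschitz_of_bound _ fun p => ?_
    refine (sq_le_sq₀ (norm_nonneg _) (by positivity)).1 ?_
    rw [mul_pow, Real.coe_toNNReal _ (Real.sqrt_nonneg C), Real.sq_sqrt hC, fpeA_eq,
      fpe_energy (SqSum.finEn (ry_mem.1 (lp.memℓp p))), ry_norm]
    exact hg p (ry_mem.1 (lp.memℓp p))
  set V : Submodule ℝ (ffH T) := LinearMap.range (fpeA T).toLinearMap
  have hV : IsClosed (V : Set (ffH T)) := ha.isClosed_range (fpeA T).uniformContinuous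
  have : CompleteSpace V := hV.completeSpace_coe
  set η := ffE T _ (fpe_grad hu) with hη
  obtain ⟨p, hp⟩ : V.starProjection η ∈ V := V.starProjection_apply_mem η
  have hp2 : SqSum p := ry_mem.1 (lp.memℓp p)
  have hd := hu.sub hp2.finEn
  have e : η - V.starProjection η = ffE T _ (fpe_grad hd) := by
    refine lp.ext (funext fun e => ?_)
    rw [← hp, lp.coeFn_sub, Pi.sub_apply, hη, ContinuousLinearMap.coe_coe, fpeA_eq, ffE_apply,
      ffE_apply, ffE_apply]
    ring
  have h1 : ∀ q : lp (fun _ : G => ℝ) 2, pairE T (fun x b => u (x * b) - p (x * b) - (u x - p x))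
      q = 0 := by
    intro q
    rw [fpe_pair (fpe_grad hd) (SqSum.finEn (ry_mem.1 (lp.memℓp q))), ← e]
    exact V.starProjection_inner_eq_zero η _ ⟨q, rfl⟩
  have h2 : DivFree T fun x b => u (x * b) - p (x * b) - (u x - p x) := by
    intro y
    have h3 := h1 ⟨_, ry_mem.2 (fpe_pt y)⟩
    rw [fpe_parts (fpe_grad hd) (ry_mem.1 (lp.memℓp _))] at h3
    exact (fpe_tsum _ y).symm.trans h3
  have h3 := pairE_sub (fpe_grad hd) hu hp2.finEn
  rw [h _ (fpe_grad hd) h2, h1 p, sub_zero, fpe_pair (fpe_grad hd) hd, inner_self_eq_zero] at h3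
  refine ⟨p, hp2, fun x b hb => ?_⟩
  have h4 : ffE T _ (fpe_grad hd) (x, ⟨b, hb⟩) = 0 := by rw [h3]; rfl
  exact sub_eq_zero.1 h4

theorem wd_of_harmVanish (hS : Cay S) (h : HarmVanish S) : WD S S univ := by
  intro u hu f hf _ hd
  have h0 : SqE S fun _ _ => (0 : ℝ) := fun b _ => by simp [SqSum, summable_zero]
  set V := ffZ hS S _ h0
  have : CompleteSpace V := (ffZ_closed hS S _ h0).completeSpace_coe
  obtain ⟨w, hw, -⟩ : V.starProjection (ffE S f hf) ∈ V := V.starProjection_apply_mem _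
  have h1 : ∀ v, FinEn S v → pairE S f v = pairE S (fun x b => w (x * b) - w x) v := by
    intro v hv
    have hm : ffE S _ (ff_grad hS S hv) ∈ V := ⟨v, fun p => rfl, by simp [pairE]⟩
    have h2 := V.starProjection_inner_eq_zero (ffE S f hf) _ hm
    rw [inner_sub_left, sub_eq_zero] at h2
    rw [ff_pair hS hf hv, ff_pair hS (ff_grad hS S hw.finEn) hv, ← hw.eq hS, h2]
  have h2 : Harm S w := by
    intro y
    have h3 := h1 _ (fpe_pt y).finEn
    rw [pairE_sqSum hf hd (fpe_pt y)] at h3
    have h4 := h3.trans (ry_parts hS hw.finEn (fpe_pt y))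
    rw [fpe_tsum, ry_sum hS] at h4
    have hc : (0 : ℝ) < S.card := by exact_mod_cast hS.card_pos
    have h5 : (S.card : ℝ) * (w y - avg S w y) = 0 := by linarith
    rcases mul_eq_zero.1 h5 with h6 | h6
    · exact absurd h6 hc.ne'
    · linarith
  rw [h1 u hu]
  unfold pairE
  have h3 : ∀ x, ∑ b ∈ S, (w (x * b) - w x) * (u (x * b) - u x) = 0 := fun x =>
    Finset.sum_eq_zero fun b hb => by rw [h w hw.finEn h2 x b hb, sub_self, zero_mul]
  rw [tsum_congr h3, tsum_zero]

theorem fpe_fg {S : Finset G} (hS : S.Nonempty) : Folner S ∨ Gap S := by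
  by_cases hF : Folner S
  · exact Or.inl hF
  right
  unfold Folner at hF
  push Not at hF
  obtain ⟨ε, hε, hF⟩ := hF
  have hc : (0 : ℝ) < S.card := by exact_mod_cast hS.card_pos
  set δ := ε / (4 * S.card) with hδdef
  have hδ : 0 < δ := by positivity
  refine ⟨1 / (ε * δ), by positivity, fun p hp => ?_⟩
  set V := 1 / (2 * δ) * energy S p + 2 * δ * S.card * ∑' x, p x ^ 2 with hV
  have key : ∀ (T : Finset G) (η : ℝ), 0 < η →
      ε * ∑ x ∈ T, p x ^ 2 ≤ V + η ^ 2 * (ε * T.card) := by
    intro T η hη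
    obtain ⟨hfin, -⟩ := hp.ncard_le hη
    set U := T ∪ hfin.toFinset with hU
    set W := U ∪ (U ×ˢ S).image fun e : G × G => e.1 * e.2⁻¹ with hW
    have h1 := cheeger_coarea (fun F hF' => (hF F hF').le) W U.card U
      (fun x => max (p x ^ 2 - η ^ 2) 0) le_rfl
      (fun x s hs h => by
        rcases h with h | h
        · exact Finset.mem_union_left _ h
        · exact Finset.mem_union_right _
            (Finset.mem_image.2 ⟨(x * s, s), Finset.mem_product.2 ⟨h, hs⟩, by simp⟩))
      (fun x => le_max_right _ _)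
      (fun x hx => by
        have h2 : ¬ η ≤ |p x| := fun h => hx (Finset.mem_union_right _ (hfin.mem_toFinset.2 h))
        refine max_eq_right ?_
        have h3 := sq_lt_sq.2 ((not_le.1 h2).trans_le (le_abs_self η))
        linarith)
    have h2 : cheegerV S W (fun x => max (p x ^ 2 - η ^ 2) 0) ≤ cheegerV S W fun x => p x ^ 2 := by
      refine Finset.sum_le_sum fun x _ => Finset.sum_le_sum fun s _ => ?_
      refine (abs_max_sub_max_le_abs _ _ _).trans (le_of_eq ?_)
      rw [sub_sub_sub_cancel_right]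
    have h3 : ∑ x ∈ T, (p x ^ 2 - η ^ 2) ≤ ∑ x ∈ U, max (p x ^ 2 - η ^ 2) 0 :=
      (Finset.sum_le_sum fun x _ => le_max_left _ _).trans
        (Finset.sum_le_sum_of_subset_of_nonneg Finset.subset_union_left
          fun x _ _ => le_max_right _ _)
    rw [Finset.sum_sub_distrib, Finset.sum_const, nsmul_eq_mul] at h3
    have h4 := cheeger_V_le (S := S) hp hδ W
    have h5 := mul_le_mul_of_nonneg_left h3 hε.le
    linarith
  have key2 : ∀ T : Finset G, ∑ x ∈ T, p x ^ 2 ≤ V / ε := by
    intro T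
    rw [le_div_iff₀ hε, mul_comm]
    have h1 : Tendsto (fun η : ℝ => V + η ^ 2 * (ε * T.card)) (𝓝[>] 0)
        (𝓝 (V + 0 ^ 2 * (ε * T.card))) :=
      (Continuous.tendsto (by fun_prop) 0).mono_left nhdsWithin_le_nhds
    have h2 := ge_of_tendsto h1 (eventually_nhdsWithin_of_forall fun η hη => key T η hη)
    simpa using h2
  have h1 : ∑' x, p x ^ 2 ≤ V / ε := Summable.tsum_le_of_sum_le hp key2
  rw [le_div_iff₀ hε] at h1
  have h2 : 2 * δ * S.card = ε / 2 := by rw [hδdef]; field_simp; norm_num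
  rw [hV, h2] at h1
  have h3 : 1 / (ε * δ) * energy S p = 1 / (2 * δ) * energy S p * 2 / ε := by field_simp
  rw [h3, le_div_iff₀ hε]
  linarith

theorem folner_or_gap' {T : Finset G} (hT : T.Nonempty) : Folner T ∨ Gap T := fpe_fg hT

end Vale.Agent.P239
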