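import Vale.Agent.P239.Full.FDens
import Vale.Agent.P239.Full.FPE
import Vale.Agent.P239.Full.FDef5

/-! Task FClA: classes of wired subgroups, part 1. `KS.unique`: the difference is square summable and constant on infinite cosets. `KS.tendsto`: along the coset `φ → 0`, then `FinEn.tendsto_nbh`.
`ks_of_le`: approximate `u` by `u'` with `KS H u' φ'`, `KS t u' ψ` (`dens_cl`), `φ' = ψ` by uniqueness; pass to the limit pointwise (`abs_sub_le_energy`). `wired`: `pairE_of_dense`, `pairE_congr`, `pairE_sqSum`.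
`exists_cl`: `t = hull (closure {g})`; for `h ∈ M` the class `hull (closure {g, h})` contains `g`, so equals `t`.
-/

noncomputable section

open Classical MeasureTheory Filter Topology Set
open scoped Pointwise ENNReal

namespace Vale.Agent.P239

universe u
variable {G : Type u} [Group G] {S : Finset G}

theorem infinite_of_mem (ht : TorsionFree G) {H : Subgroup G} {g : G} (hg : g ≠ 1) (h : g ∈ H) :
    (H : Set G).Infinite :=
  (infinite_zpowers.2 fun hf => hg (ht g hf)).mono (Subgroup.zpowers_le.2 h)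

theorem KS.mono {H H' : Subgroup G} {u φ : G → ℝ} (h : KS H u φ) (h' : H' ≤ H) : KS H' u φ :=
  ⟨h.1, fun x a ha => h.2 x a (h' ha)⟩

theorem KS.unique {H : Subgroup G} (hi : (H : Set G).Infinite) {u φ φ' : G → ℝ} (h : KS H u φ)
    (h' : KS H u φ') : φ = φ' := by
  funext x
  have hd : SqSum fun y => φ y - φ' y := ry_mem.1 ((ry_mem.2 h.1).sub (ry_mem.2 h'.1))
  by_contra hne
  have h1 := (hd.ncard_le (abs_pos.2 (sub_ne_zero.2 hne))).1
  refine (hi.image (mul_right_injective x).injOn) (h1.subset ?_)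
  rintro _ ⟨a, ha, rfl⟩
  have e : φ (x * a) - φ' (x * a) = φ x - φ' x := by linarith [h.2 x a ha, h'.2 x a ha]
  exact le_of_eq (congrArg abs e.symm)

theorem KS.translate {H : Subgroup G} {u φ : G → ℝ} (h : KS H u φ) (g : G) :
    KS H (fun x => u (g * x)) (fun x => φ (g * x)) :=
  ⟨((Equiv.mulLeft g).summable_iff (f := fun x => φ x ^ 2)).2 h.1, fun x a ha => by
    simp only [← mul_assoc]
    exact h.2 (g * x) a ha⟩

theorem KS.lip₁ {H : Subgroup G} {u φ : G → ℝ} (h : KS H u φ) {F : ℝ → ℝ} {C : ℝ} (hC : 0 ≤ C)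
    (hF : ∀ a a', |F a - F a'| ≤ C * |a - a'|) :
    KS H (fun x => F (u x)) (fun x => F (u x) - F (u x - φ x)) := by
  refine ⟨(fkf_sq h.1 h.1 (L := C) fun x => (hF _ _).trans ?_).1, fun x a ha => ?_⟩
  · rw [sub_sub_cancel]
    exact mul_le_mul_of_nonneg_left (le_add_of_nonneg_right (abs_nonneg _)) hC
  · simp only [sub_sub_cancel, h.2 x a ha]

theorem FinEn.lip₁ {u : G → ℝ} (h : FinEn S u) {F : ℝ → ℝ} {C : ℝ} (hC : 0 ≤ C)
    (hF : ∀ a a', |F a - F a'| ≤ C * |a - a'|) : FinEn S fun x => F (u x) :=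
  (finEn_of_le h h (M := 0) hC Set.finite_empty (fun e he => absurd he (Set.notMem_empty e))
    fun _ _ _ _ => (hF _ _).trans
      (mul_le_mul_of_nonneg_left (le_add_of_nonneg_right (abs_nonneg _)) hC)).1

theorem KS.tendsto (hS : Cay S) {H : Subgroup G} {u φ : G → ℝ} (hu : FinEn S u) (h : KS H u φ)
    (r : ℕ) (x : G) :
    Tendsto u (cofinite ⊓ 𝓟 (nbh S r (x • (H : Set G)))) (𝓝 (u x - φ x)) := by
  refine hu.tendsto_nbh hS ?_ r
  have h1 : Tendsto (fun y => u x - φ x + φ y) (cofinite ⊓ 𝓟 (x • (H : Set G)))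
      (𝓝 (u x - φ x + 0)) := (h.1.tendsto.const_add _).mono_left inf_le_left
  rw [add_zero] at h1
  refine h1.congr' (eventually_inf_principal.2 (Eventually.of_forall ?_))
  rintro _ ⟨a, ha, rfl⟩
  have h2 := h.2 x a ha
  simp only [smul_eq_mul]
  linarith

theorem ks_closure {T : Set G} {u φ : G → ℝ} (h1 : SqSum φ)
    (h2 : ∀ x, ∀ t ∈ T, u (x * t) - φ (x * t) = u x - φ x) : KS (Subgroup.closure T) u φ := by
  refine ⟨h1, fun x a ha => ?_⟩
  induction ha using Subgroup.closure_induction generalizing x with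
  | mem t ht => exact h2 x t ht
  | one => rw [mul_one]
  | mul a b _ _ iha ihb => rw [← mul_assoc, ihb, iha]
  | inv a _ iha =>
    have h := iha (x * a⁻¹)
    rw [inv_mul_cancel_right] at h
    exact h.symm

theorem le_hull (S : Finset G) (H : Subgroup G) : H ≤ hull S H :=
  fun g hg _ _ _ h x => h.2 x g hg

theorem KS.to_hull {H : Subgroup G} {u φ : G → ℝ} (hu : FinEn S u) (h : KS H u φ) :
    KS (hull S H) u φ := ⟨h.1, fun x _ hg => hg u φ hu h x⟩

theorem IsCl.infinite {t : Subgroup G} (ht : IsCl S t) : (t : Set G).Infinite := by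
  obtain ⟨T, -, h, rfl⟩ := ht
  exact h.mono (le_hull S _)

theorem dens_cl (hS : Cay S) {n m : ℕ} (H : Fin n → Subgroup G) (t : Fin m → Subgroup G)
    (ht : ∀ k, IsCl S (t k)) {u : G → ℝ} (hu : FinEn S u) {φ : Fin n → G → ℝ}
    (hφ : ∀ i, KS (H i) u (φ i)) {ε : ℝ} (hε : 0 < ε) :
    ∃ (u' : G → ℝ) (φ' : Fin n → G → ℝ) (ψ : Fin m → G → ℝ), FinEn S u' ∧
      (∀ i, KS (H i) u' (φ' i)) ∧ (∀ k, KS (t k) u' (ψ k)) ∧
      u' 1 = u 1 ∧ energy S (fun x => u x - u' x) ≤ ε ∧ ∀ i, ∑' x, (φ i x - φ' i x) ^ 2 ≤ ε := by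
  choose T h1 h2 h3 using ht
  obtain ⟨u', φ', ψ, a1, a2, a3, a4⟩ := dens hS H T (fun k => ⟨h1 k, h2 k⟩) hu hφ hε
  exact ⟨u', φ', ψ, a1, a2, fun k => h3 k ▸ (a3 k).to_hull a1, a4⟩

theorem IsCl.ks_of_le (hS : Cay S) {t H : Subgroup G} (ht : IsCl S t) (hle : H ≤ t)
    (hi : (H : Set G).Infinite) {u φ : G → ℝ} (hu : FinEn S u) (h : KS H u φ) : KS t u φ := by
  refine ⟨h.1, fun x a ha => ?_⟩
  obtain ⟨C₁, c1, h1⟩ := abs_sub_le_energy hS x
  obtain ⟨C₂, c2, h2⟩ := abs_sub_le_energy hS (x * a)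
  refine sub_eq_zero.1 (pow_eq_zero_iff two_ne_zero |>.1 (le_antisymm ?_ (sq_nonneg _)))
  refine le_of_forall_pos_le_add fun ε hε => ?_
  obtain ⟨δ, hδ⟩ : ∃ δ, δ = ε / (4 * (C₁ + C₂ + 2)) := ⟨_, rfl⟩
  have hδ0 : 0 < δ := by rw [hδ]; positivity
  have hδ1 : 4 * (C₁ + C₂ + 2) * δ = ε := by rw [hδ]; field_simp
  obtain ⟨u', φ', ψ, a1, a2, a3, a4, a5, a6⟩ := dens_cl hS (fun _ : Fin 1 => H) (fun _ : Fin 1 => t)
    (fun _ => ht) hu (φ := fun _ => φ) (fun _ => h) hδ0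
  have e := (a2 0).unique hi ((a3 0).mono hle)
  have b1 := (h1 _ (hu.sub a1)).trans (mul_le_mul_of_nonneg_left a5 c1)
  have b2 := (h2 _ (hu.sub a1)).trans (mul_le_mul_of_nonneg_left a5 c2)
  have hd : SqSum fun y => φ y - φ' 0 y := ry_mem.1 ((ry_mem.2 h.1).sub (ry_mem.2 (a2 0).1))
  have b3 : ∀ y, (φ y - φ' 0 y) ^ 2 ≤ δ := fun y =>
    (Summable.le_tsum hd y fun _ _ => sq_nonneg _).trans (a6 0)
  have b4 := (a3 0).2 x a ha
  rw [← e] at b4
  rw [a4, sub_self, sub_zero] at b1 b2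
  have e2 : u (x * a) - φ (x * a) - (u x - φ x) = (u (x * a) - u' (x * a)) -
      (φ (x * a) - φ' 0 (x * a)) - (u x - u' x) + (φ x - φ' 0 x) := by linarith
  have key : ∀ p q r s : ℝ, (p - q - r + s) ^ 2 ≤ 4 * (p ^ 2 + q ^ 2 + r ^ 2 + s ^ 2) :=
    fun p q r s => by
      nlinarith [sq_nonneg (p + q), sq_nonneg (p + r), sq_nonneg (p - s), sq_nonneg (q - r),
        sq_nonneg (q + s), sq_nonneg (r + s)]
  rw [e2]
  refine (key _ _ _ _).trans ?_
  linarith [b3 x, b3 (x * a)]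

theorem IsCl.hull_eq (hS : Cay S) {t H : Subgroup G} (ht : IsCl S t) (hle : H ≤ t)
    (hi : (H : Set G).Infinite) : hull S H = t := by
  refine le_antisymm (fun g hg => ?_) fun g hg u φ hu h x => (ht.ks_of_le hS hle hi hu h).2 x g hg
  obtain ⟨T, -, -, rfl⟩ := ht
  exact fun u φ hu h x => hg u φ hu ((h.to_hull hu).mono hle) x

theorem IsCl.eq_of_mem (hS : Cay S) (tf : TorsionFree G) {s t : Subgroup G} (hs : IsCl S s)
    (ht : IsCl S t) {g : G} (hg : g ≠ 1) (h1 : g ∈ s) (h2 : g ∈ t) : s = t :=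
  have hi := infinite_of_mem tf hg (Subgroup.mem_zpowers g)
  (hs.hull_eq hS (Subgroup.zpowers_le.2 h1) hi).symm.trans
    (ht.hull_eq hS (Subgroup.zpowers_le.2 h2) hi)

theorem IsCl.wired (hS : Cay S) {t : Subgroup G} (ht : IsCl S t) {T : Finset G}
    (hT : (T : Set G) ⊆ t) : Wired S T := by
  intro u hu f hf _ hd
  refine pairE_of_dense hS hf hu fun ε hε => ?_
  obtain ⟨u', -, ψ, a1, -, a3, -, a5, -⟩ := dens_cl hS (n := 0) Fin.elim0 (fun _ : Fin 1 => t)
    (fun _ => ht) hu (φ := Fin.elim0) (fun i => i.elim0) hε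
  refine ⟨u', a1, a5, ?_⟩
  rw [pairE_congr (v := ψ 0) fun x b hb _ => by linarith [(a3 0).2 x b (hT hb)]]
  exact pairE_sqSum hf hd (a3 0).1

theorem exists_cl (hS : Cay S) (tf : TorsionFree G) {M : Subgroup G} (hM : ∃ g ∈ M, g ≠ 1)
    (hw : ∀ T : Finset G, (T : Set G) ⊆ M → Wired S T) : ∃ t, IsCl S t ∧ M ≤ t := by
  obtain ⟨g, hg, hg1⟩ := hM
  have key : ∀ h ∈ M, IsCl S (hull S (Subgroup.closure (({g, h} : Finset G) : Set G))) ∧
      g ∈ hull S (Subgroup.closure (({g, h} : Finset G) : Set G)) ∧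
      h ∈ hull S (Subgroup.closure (({g, h} : Finset G) : Set G)) := fun h hh => by
    have h1 : g ∈ Subgroup.closure (({g, h} : Finset G) : Set G) :=
      Subgroup.subset_closure (by simp)
    refine ⟨⟨_, hw _ ?_, infinite_of_mem tf hg1 h1, rfl⟩, le_hull S _ h1,
      le_hull S _ (Subgroup.subset_closure (by simp))⟩
    intro a ha
    simp only [Finset.coe_insert, Finset.coe_singleton, mem_insert_iff, mem_singleton_iff] at ha
    rcases ha with rfl | rfl
    · exact hg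
    · exact hh
  refine ⟨_, (key g hg).1, fun h hh => ?_⟩
  rw [(key g hg).1.eq_of_mem hS tf (key h hh).1 hg1 (key g hg).2.1 (key h hh).2.1]
  exact (key h hh).2.2

end Vale.Agent.P239
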