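import Vale.Agent.P239.Full.FMP

/-! Task FNoAtom: the boundary has no atoms; thin sets.
`noatom`: `Z c = {ξ | ∀ g, hat u (g • ξ) = c g}` is good (countable intersection of level sets of the `IsD` functions `ξ ↦ hat u (g • ξ)`; `{ψ = a}` is the complement of
`{a < ψ} ∪ {-a < -ψ}`, `good_gt`). `g • Z c = Z (fun h => c (h * g))`, and `Z c`, `Z c'` are equal or disjoint. If `Z c` is not null then `h (Z c)` has values arbitrarily close to `1`
(`Good.infinite_deep`); for `h (Z c) x > 1/2` the set `x⁻¹ • Z c` has `μ 1` measure `> 1/2`, so all these sets coincide and `h (Z c) x` has one value above `1/2`, which must be `1`.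
Then the complement is null and `hat u = c 1` a.e.
`thin_of_tendsto`: enumerate `G` as `g j`, `Z n = {ξ | ∀ j ≤ n, |hat u (g j • ξ) - c (g j)| < 1/(n+1)}` decreases to the null set, so `h (Z n) x → 0`. For fixed `n`, `j` the function
`v = (u (g j * ·) - c (g j))^2` is bounded of finite energy, `v - H (hat v)` is square summable (`sqSum_sub_H`), so `H (hat v) → 0` along `N`; Markov gives `h (Z n)ᶜ → 0` along `N`. Take `g = 2 * h (Z n)`.
`exists_nonD`: `Bdry.exists_nonconst` in CoreMain.lean.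
-/

noncomputable section

open Classical MeasureTheory Filter Topology Set
open scoped Pointwise ENNReal

namespace Vale.Agent.P239

universe u
variable {G : Type u} [Group G] {S : Finset G} {l : ℕ} {Q : Cones S} {B : Bdry S}

theorem fna_lip {u : G → ℝ} (hu : FinEn S u) {F : ℝ → ℝ} {L : ℝ} (hL : 0 ≤ L)
    (hF : ∀ a b, |F a - F b| ≤ L * |a - b|) :
    FinEn S (fun x => F (u x)) ∧ energy S (fun x => F (u x)) ≤ 4 * L ^ 2 * energy S u := by
  obtain ⟨h1, h2⟩ := finEn_of_le (u := fun x => F (u x)) hu hu (M := 0) hL Set.finite_empty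
    (fun e he => absurd he (Set.notMem_empty e)) fun x s _ _ =>
      (hF _ _).trans (mul_le_mul_of_nonneg_left (le_add_of_nonneg_right (abs_nonneg _)) hL)
  exact ⟨h1, by linarith⟩

theorem fna_clamp (lo hi a b : ℝ) : |max lo (min hi a) - max lo (min hi b)| ≤ 1 * |a - b| := by
  have h1 := abs_max_sub_max_le_max lo (min hi a) lo (min hi b)
  have h2 := abs_min_sub_min_le_max hi a hi b
  rw [sub_self, abs_zero, max_eq_right (abs_nonneg (min hi a - min hi b))] at h1
  rw [sub_self, abs_zero, max_eq_right (abs_nonneg (a - b))] at h2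
  linarith

theorem fna_clamp_bdd {α : Type*} {M : ℝ} (hM : 0 ≤ M) (v : α → ℝ) (x : α) :
    |max (-M) (min M (v x))| ≤ M :=
  abs_le.2 ⟨le_max_left _ _, max_le (by linarith) (min_le_left _ _)⟩

omit [Group G] in
theorem fna_le_tsum {p : G → ℝ} (hp : SqSum p) (x : G) : p x ^ 2 ≤ ∑' y, p y ^ 2 :=
  Summable.le_tsum hp x fun _ _ => sq_nonneg _

/-- The Green potential of a summable nonnegative function. -/
theorem fna_green (hS : Cay S) {C : ℝ} (hC0 : 0 ≤ C)
    (hC : ∀ p : G → ℝ, SqSum p → ∑' x, p x ^ 2 ≤ C * energy S p) {f : G → ℝ} (h0 : ∀ x, 0 ≤ f x)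
    (hf : Summable f) : ∃ q : G → ℝ, SqSum q ∧ (∀ x, q x - avg S q x = f x / S.card) ∧
      q 1 ≤ 2 * C * ∑' x, f x := by
  have hk : (0 : ℝ) < S.card := by exact_mod_cast hS.card_pos
  have hle : ∀ x, f x ≤ ∑' y, f y := fun x => hf.le_tsum x fun y _ => h0 y
  have hsq : SqSum fun x => f x / S.card := by
    refine Summable.of_nonneg_of_le (fun x => sq_nonneg _) (fun x => ?_)
      (hf.mul_left ((∑' y, f y) / (S.card : ℝ) ^ 2))
    rw [div_pow, div_mul_eq_mul_div, sq (f x)]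
    exact div_le_div_of_nonneg_right (mul_le_mul_of_nonneg_right (hle x) (h0 x)) (by positivity)
  obtain ⟨q, hq, he⟩ := hS.green ⟨C, hC0, hC⟩ hsq
  refine ⟨q, hq, he, ?_⟩
  obtain ⟨Q, hQ⟩ : ∃ Q, Q = √(∑' y, q y ^ 2) := ⟨_, rfl⟩
  have hQ0 : 0 ≤ Q := hQ ▸ Real.sqrt_nonneg _
  have hQ2 : Q ^ 2 = ∑' y, q y ^ 2 := hQ ▸ Real.sq_sqrt (tsum_nonneg fun _ => sq_nonneg _)
  have hqQ : ∀ x, |q x| ≤ Q := fun x => hQ ▸ Real.abs_le_sqrt (fna_le_tsum hq x)
  have e1 : energy S q = 2 * ∑' x, f x * q x := by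
    have h1 := ry_parts hS hq.finEn hq
    have h2 : ∀ x, (∑ s ∈ S, (q (x * s) - q x)) * q x = -(f x * q x) := by
      intro x
      rw [ry_sum hS, he]
      field_simp
    simp only [h2, tsum_neg, ← sq] at h1
    rw [energy]
    simp only [grad2]
    linarith
  have hb : ∀ x, f x * q x ≤ Q * f x := fun x => by
    rw [mul_comm Q]
    exact mul_le_mul_of_nonneg_left ((le_abs_self _).trans (hqQ x)) (h0 x)
  have hs : Summable fun x => f x * q x := by
    refine Summable.of_norm_bounded (hf.mul_left Q) fun x => ?_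
    rw [Real.norm_eq_abs, abs_mul, abs_of_nonneg (h0 x), mul_comm Q]
    exact mul_le_mul_of_nonneg_left (hqQ x) (h0 x)
  have h3 := hs.tsum_le_tsum hb (hf.mul_left Q)
  rw [tsum_mul_left] at h3
  have h4 := hC q hq
  have h5 : 0 ≤ ∑' x, f x := tsum_nonneg h0
  have h6 : Q ^ 2 ≤ Q * (2 * C * ∑' x, f x) := by
    rw [hQ2]
    nlinarith
  refine ((le_abs_self _).trans (hqQ 1)).trans ?_
  rcases hQ0.eq_or_lt with h | h
  · rw [← h]
    positivity
  · rw [sq] at h6
    exact le_of_mul_le_mul_left h6 h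

theorem fna_avg_sq (hS : Cay S) {h : G → ℝ} (hH : Harm S h) (x : G) :
    avg S (fun y => h y ^ 2) x = h x ^ 2 + grad2 S h x / S.card := by
  have hk : (0 : ℝ) < S.card := by exact_mod_cast hS.card_pos
  have h1 := ry_sum hS h x
  rw [hH x, sub_self, mul_zero] at h1
  have h2 : ∑ s ∈ S, h (x * s) ^ 2 =
      ∑ s ∈ S, ((h (x * s) - h x) ^ 2 + 2 * h x * (h (x * s) - h x) + h x ^ 2) :=
    Finset.sum_congr rfl fun s _ => by ring
  rw [avg, h2, Finset.sum_add_distrib, Finset.sum_add_distrib, ← Finset.mul_sum, h1,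
    Finset.sum_const, nsmul_eq_mul, grad2]
  field_simp
  ring

namespace Bdry

theorem fna_good (B : Bdry S) (hS : Cay S) (hg : Gap S) {u : G → ℝ} (hb : Bdd u) (hu : FinEn S u)
    (c : G → ℝ) : B.Good {ξ | ∀ g : G, hat u (g • ξ) = c g} := by
  have := hS.countable
  obtain ⟨e, he⟩ := exists_surjective_nat G
  have e1 : {ξ : Bd G | ∀ g : G, hat u (g • ξ) = c g} =
      ⋂ j, ({ξ | c (e j) < hat u (e j • ξ)} ∪ {ξ | -c (e j) < -1 * hat u (e j • ξ)})ᶜ := by
    ext ξ
    simp only [mem_ofPred_eq, mem_iInter, mem_compl_iff, mem_union, not_or, not_lt, he.forall]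
    refine forall_congr' fun j => ⟨fun h => ?_, fun h => ?_⟩
    · rw [h]
      constructor <;> linarith
    · linarith [h.1, h.2]
  rw [e1]
  refine good_iInter hS fun j => Good.compl (Good.union hS ?_ ?_)
  · exact good_gt hS hg ((isD_hat hb hu).smul hS (e j)) _
  · exact good_gt hS hg (((isD_hat hb hu).smul hS (e j)).const_mul (-1)) _

theorem fna_shift (B : Bdry S) (u c : G → ℝ) (x : G) :
    B.h {ξ | ∀ g : G, hat u (g • ξ) = c g} x =
      B.h {ξ | ∀ g : G, hat u (g • ξ) = c (g * x⁻¹)} 1 := by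
  rw [← B.h_smul x⁻¹ x, inv_mul_cancel]
  refine congrArg (B.h · 1) (Set.ext fun ξ => ?_)
  rw [Set.mem_inv_smul_set_iff]
  refine ⟨fun h g => ?_, fun h g => ?_⟩
  · rw [← h (g * x⁻¹), smul_smul, inv_mul_cancel_right]
  · rw [smul_smul, h, mul_inv_cancel_right]

theorem noatom (B : Bdry S) (hS : Cay S) (hg : Gap S) {u : G → ℝ} (hb : Bdd u) (hu : FinEn S u)
    (hn : ∀ c : ℝ, ¬ ∀ᵐ ξ ∂B.μ 1, hat u ξ = c) (c : G → ℝ) :
    B.Null {ξ | ∀ g : G, hat u (g • ξ) = c g} := by
  by_contra hZ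
  have hG := B.fna_good hS hg hb hu c
  have hZ' : ¬ B.Null {ξ | ∀ g : G, hat u (g • ξ) = c g}ᶜ := by
    intro h
    refine hn (c 1) ?_
    filter_upwards [(B.null_iff_ae _).1 h] with ξ hξ
    rw [← not_notMem.1 hξ 1, one_smul]
  obtain ⟨x, hx⟩ := (hG.infinite_deep hS hZ (θ := 1 / 2) (by norm_num)).nonempty
  have h1 := B.h_pos hS hZ' x
  rw [B.h_compl hG.1] at h1
  obtain ⟨y, hy⟩ := (hG.infinite_deep hS hZ (sub_pos.1 h1)).nonempty
  rw [mem_ofPred_eq] at hx hy
  rw [fna_shift B u c x] at hx hy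
  rw [fna_shift B u c y] at hy
  by_cases hd : ∃ ξ : Bd G, (∀ g : G, hat u (g • ξ) = c (g * x⁻¹)) ∧
      ∀ g : G, hat u (g • ξ) = c (g * y⁻¹)
  · obtain ⟨ξ, h2, h3⟩ := hd
    have h4 : ∀ g, c (g * y⁻¹) = c (g * x⁻¹) := fun g => by rw [← h2, ← h3]
    simp only [h4] at hy
    exact lt_irrefl _ hy
  · have h2 := B.h_mono hS (Sub.of_subset (B := B)
      (A := {ξ | ∀ g : G, hat u (g • ξ) = c (g * x⁻¹)})
      (A' := {ξ | ∀ g : G, hat u (g • ξ) = c (g * y⁻¹)}ᶜ) fun ξ h2 h3 => hd ⟨ξ, h2, h3⟩) 1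
    rw [B.h_compl (B.fna_good hS hg hb hu fun g => c (g * y⁻¹)).1] at h2
    linarith

theorem thin_of_tendsto (B : Bdry S) (hS : Cay S) (hg : Gap S) {u : G → ℝ} (hb : Bdd u)
    (hu : FinEn S u) (hn : ∀ c : ℝ, ¬ ∀ᵐ ξ ∂B.μ 1, hat u ξ = c) {N : Set G} {c : G → ℝ}
    (h : ∀ g : G, Tendsto (fun x => u (g * x)) (cofinite ⊓ 𝓟 N) (𝓝 (c g))) : Thin S N := by
  intro x ε hε
  have := hS.countable
  obtain ⟨e, he⟩ := exists_surjective_nat G
  obtain ⟨w, hw⟩ : ∃ w : ℕ → G → ℝ,
      ∀ n, w n = fun y => ∑ j ∈ Finset.range n, |u (e j * y) - c (e j)| := ⟨_, fun _ => rfl⟩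
  have hwE : ∀ n, FinEn S (w n) := by
    intro n
    rw [hw]
    induction n with
    | zero => simpa only [Finset.sum_range_zero] using finEn_const 0
    | succ n ih =>
      simp only [Finset.sum_range_succ]
      refine ih.add (fna_lip (hu.translate (e n)).1 (F := fun a => |a - c (e n)|) zero_le_one
        fun a b => ?_).1
      simpa only [one_mul, sub_sub_sub_cancel_right] using
        abs_abs_sub_abs_le_abs_sub (a - c (e n)) (b - c (e n))
  obtain ⟨v, hv⟩ : ∃ v : ℕ → G → ℝ, ∀ n, v n = fun y => max 0 (min 1 (1 - n * w n y)) :=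
    ⟨_, fun _ => rfl⟩
  have hvE : ∀ n, FinEn S (v n) := by
    intro n
    rw [hv]
    refine (fna_lip (hwE n) (F := fun a => max 0 (min 1 (1 - n * a))) (Nat.cast_nonneg n)
      fun a b => (fna_clamp _ _ _ _).trans (le_of_eq ?_)).1
    rw [one_mul, sub_sub_sub_cancel_left, ← mul_sub, abs_mul, abs_sub_comm, Nat.abs_cast]
  have hvb : ∀ n, Bdd (v n) := fun n => ⟨1, fun y => by
    rw [hv]
    exact abs_le.2 ⟨le_trans (by norm_num) (le_max_left _ _), max_le zero_le_one (min_le_left _ _)⟩⟩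
  have hlim : ∀ n, ∀ (F : Filter G) (a : G → ℝ), (∀ g, Tendsto (fun y => u (g * y)) F (𝓝 (a g))) →
      Tendsto (v n) F (𝓝 (max 0 (min 1 (1 - n * ∑ j ∈ Finset.range n, |a (e j) - c (e j)|)))) := by
    intro n F a ha
    rw [hv, hw]
    exact tendsto_const_nhds.max (tendsto_const_nhds.min (tendsto_const_nhds.sub
      ((tendsto_finsetSum _ fun j _ => ((ha (e j)).sub_const _).abs).const_mul _)))
  have hhat : ∀ n ξ, hat (v n) ξ =
      max 0 (min 1 (1 - n * ∑ j ∈ Finset.range n, |hat u (e j • ξ) - c (e j)|)) := by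
    intro n ξ
    refine hat_eq_of_tendsto (hlim n _ (fun g => hat u (g • ξ)) fun g => ?_)
    rw [hat_smul]
    obtain ⟨C, hC⟩ := hb
    exact Bdd.tendsto_hat ⟨C, fun y => hC _⟩ ξ
  have h01 : ∀ n ξ, 0 ≤ hat (v n) ξ ∧ hat (v n) ξ ≤ 1 := fun n ξ => by
    rw [hhat]
    exact ⟨le_max_left _ _, max_le zero_le_one (min_le_left _ _)⟩
  have hdc : Tendsto (fun n => ∫ ξ, hat (v n) ξ ∂B.μ x) atTop (𝓝 (∫ _, (0 : ℝ) ∂B.μ x)) := by
    refine tendsto_integral_of_dominated_convergence (fun _ => 1)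
      (fun n => (hvb n).measurable_hat.aestronglyMeasurable) (integrable_const _)
      (fun n => Eventually.of_forall fun ξ => ?_) ?_
    · rw [Real.norm_of_nonneg (h01 n ξ).1]
      exact (h01 n ξ).2
    · rw [B.ae_eq_ae hS x]
      filter_upwards [(B.null_iff_ae _).1 (B.noatom hS hg hb hu hn c)] with ξ hξ
      obtain ⟨g, hg⟩ := not_forall.1 hξ
      obtain ⟨j, rfl⟩ := he g
      have hδ : 0 < |hat u (e j • ξ) - c (e j)| := abs_pos.2 (sub_ne_zero.2 hg)
      refine tendsto_const_nhds.congr' ?_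
      filter_upwards [eventually_gt_atTop j, (tendsto_natCast_atTop_atTop.atTop_mul_const hδ).eventually
        (eventually_ge_atTop 1)] with n h1 h2
      have h3 := Finset.single_le_sum (f := fun j => |hat u (e j • ξ) - c (e j)|)
        (fun _ _ => abs_nonneg _) (Finset.mem_range.2 h1)
      have h4 := mul_le_mul_of_nonneg_left h3 (Nat.cast_nonneg (α := ℝ) n)
      rw [hhat, max_eq_left ((min_le_right _ _).trans (by linarith))]
  rw [integral_zero] at hdc
  obtain ⟨n, hn⟩ := (hdc.eventually (gt_mem_nhds (half_pos hε))).exists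
  have hsup : SupH S (B.H (hat (v n))) :=
    ⟨fun y => integral_nonneg fun ξ => (h01 n ξ).1,
      fun y => (B.H_harm hS (hvb n).measurable_hat (hvb n).bdd_hat y).le⟩
  have h1 := (hlim n _ c h).sub
    ((sqSum_sub_H (B := B) hS hg (hvb n) (hvE n)).1.tendsto.mono_left inf_le_left)
  simp only [sub_self, abs_zero, Finset.sum_const_zero, mul_zero, sub_zero, min_self,
    max_eq_right zero_le_one, sub_sub_cancel] at h1
  have h2 := h1.eventually (lt_mem_nhds (by norm_num : (1 : ℝ) / 2 < 1))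
  rw [eventually_inf_principal, eventually_cofinite] at h2
  refine ⟨_, _, h2, hsup.add hsup, fun y hy hy' => ?_, ?_⟩
  · have h3 : 1 / 2 < B.H (hat (v n)) y := not_not.1 hy' hy
    linarith
  · have h3 : B.H (hat (v n)) x < ε / 2 := hn
    linarith

/-- Boundary values depend continuously on the function in energy norm. -/
theorem exists_hat_close (B : Bdry S) (hS : Cay S) (hg : Gap S) : ∃ C : ℝ, 0 ≤ C ∧
    ∀ v : G → ℝ, Bdd v → FinEn S v → ∫ ξ, (hat v ξ - v 1) ^ 2 ∂B.μ 1 ≤ C * energy S v := by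
  obtain ⟨C, hC0, hC⟩ := id hg
  refine ⟨3 * C, by positivity, fun v hb hv => ?_⟩
  obtain ⟨w, hw⟩ : ∃ w : G → ℝ, w = fun x => v x - v 1 := ⟨_, rfl⟩
  have hwb : Bdd w := hw ▸ hb.comp₂ hb (F := fun a _ => a - v 1) (by fun_prop)
  have hwE : FinEn S w := hw ▸ hv.sub (finEn_const _)
  have hwe : energy S w = energy S v := by
    simp only [hw, energy, grad2, sub_sub_sub_cancel_right]
  obtain ⟨hp, hhE, hhe, hha⟩ := sqSum_sub_H (B := B) hS hg hwb hwE
  have hH := B.H_harm hS hwb.measurable_hat hwb.bdd_hat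
  have hhb : Bdd (B.H (hat w)) := B.H_bdd hwb.bdd_hat
  generalize B.H (hat w) = h at hp hhE hhe hha hH hhb
  have hadd := hS.energy_add hhE hH hp
  simp only [add_sub_cancel] at hadd
  have h0 := energy_nonneg (S := S) h
  have h1 : h 1 ^ 2 ≤ C * energy S v := by
    have h2 := (fna_le_tsum hp 1).trans (hC _ hp)
    have h3 : energy S (fun x => w x - h x) ≤ energy S v := by
      have : energy S w = _ := hadd
      linarith
    have h4 : w 1 = 0 := by rw [hw]; exact sub_self _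
    rw [h4, zero_sub, neg_sq] at h2
    exact h2.trans (mul_le_mul_of_nonneg_left h3 hC0)
  obtain ⟨q, hq, hqe, hq1⟩ := fna_green hS hC0 hC (grad2_nonneg h) hhE
  have hc : Continuous fun p : ℝ × ℝ => p.1 ^ 2 + p.2 := by fun_prop
  have hharm : Harm S fun x => h x ^ 2 + q x := by
    intro x
    have h2 : avg S (fun x => h x ^ 2 + q x) x = avg S (fun x => h x ^ 2) x + avg S q x := by
      simp only [avg, Finset.sum_add_distrib, add_div]
    rw [h2, fna_avg_sq hS hH]
    linarith [hqe x]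
  have h2 := congrFun (B.H_hat_of_harm (hhb.comp₂ hq.bdd (F := fun a b => a ^ 2 + b) hc) hharm) 1
  have h3 : ∫ ξ, (hat v ξ - v 1) ^ 2 ∂B.μ 1 = h 1 ^ 2 + q 1 := by
    rw [← h2]
    refine integral_congr_ae ?_
    filter_upwards [hha, B.hat_eq_zero hS hq.tendsto] with ξ h4 h5
    rw [hat_comp₂ hhb hq.bdd (F := fun a b => a ^ 2 + b) hc, h4, h5, add_zero, hw,
      hat_comp₂ hb hb (F := fun a _ => a - v 1) (by fun_prop)]
  have h4 : q 1 ≤ 2 * C * energy S h := hq1
  have h5 := mul_le_mul_of_nonneg_left (hhe.trans hwe.le) hC0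
  linarith

/-- Nonconstant boundary values persist under small perturbations (after truncation). -/
theorem nonconst_stable (B : Bdry S) (hS : Cay S) (hg : Gap S) {u : G → ℝ} (hb : Bdd u)
    (hu : FinEn S u) (hn : ∀ c : ℝ, ¬ ∀ᵐ ξ ∂B.μ 1, hat u ξ = c) : ∃ ε M : ℝ, 0 < ε ∧ 0 < M ∧
      ∀ v : G → ℝ, FinEn S v → energy S (fun x => u x - v x) ≤ ε → v 1 = u 1 →
        ∀ c : ℝ, ¬ ∀ᵐ ξ ∂B.μ 1, hat (fun x => max (-M) (min M (v x))) ξ = c := by
  obtain ⟨C, hC0, hC⟩ := B.exists_hat_close hS hg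
  obtain ⟨K, hK⟩ := id hb
  obtain ⟨K', hK'⟩ := hb.bdd_hat
  have hK0 : 0 ≤ K := (abs_nonneg _).trans (hK 1)
  have hm := hb.measurable_hat.aestronglyMeasurable (μ := B.μ 1)
  have hV : 0 < ProbabilityTheory.variance (hat u) (B.μ 1) :=
    (ProbabilityTheory.variance_nonneg _ _).lt_of_ne' fun h => hn _
      (ProbabilityTheory.ae_eq_integral_of_variance_eq_zero
        (MemLp.of_bound hm K' (Eventually.of_forall hK')) h)
  obtain ⟨V, hV'⟩ : ∃ V, V = ProbabilityTheory.variance (hat u) (B.μ 1) := ⟨_, rfl⟩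
  rw [← hV'] at hV
  refine ⟨V / (16 * (K + 1) ^ 2 * C + 1), K + 1, by positivity, by positivity,
    fun v hv hε hv1 c hc => ?_⟩
  obtain ⟨r, hr⟩ : ∃ r : G → ℝ, r = fun x => max (-1) (min 1 (u x - v x)) := ⟨_, rfl⟩
  have hrb : Bdd r := ⟨1, fun x => hr ▸ fna_clamp_bdd zero_le_one (fun x => u x - v x) x⟩
  obtain ⟨hrE, hre⟩ := fna_lip (hu.sub hv) (F := fun a => max (-1) (min 1 a)) zero_le_one
    (fna_clamp _ _)
  rw [← hr] at hrE hre
  have hr1 : r 1 = 0 := by
    rw [hr]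
    simp [hv1]
  have h2 := hC r hrb hrE
  simp only [hr1, sub_zero] at h2
  have htb : Bdd fun x => max (-(K + 1)) (min (K + 1) (v x)) :=
    ⟨K + 1, fna_clamp_bdd (by positivity) v⟩
  have h3 : ∀ x, (u x - max (-(K + 1)) (min (K + 1) (v x))) ^ 2 ≤ 4 * (K + 1) ^ 2 * r x ^ 2 := by
    intro x
    have h4 := abs_le.1 (hK x)
    have h5 := abs_le.1 (fna_clamp_bdd (M := K + 1) (by positivity) v x)
    have h6 : r x = max (-1) (min 1 (u x - v x)) := by rw [hr]
    by_cases h7 : |u x - v x| ≤ 1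
    · have h8 := abs_le.1 h7
      rw [h6, min_eq_right h8.2, max_eq_right h8.1, min_eq_right (by linarith),
        max_eq_right (by linarith)]
      nlinarith [sq_nonneg (u x - v x), mul_nonneg hK0 (sq_nonneg (u x - v x)),
        mul_nonneg (mul_nonneg hK0 hK0) (sq_nonneg (u x - v x))]
    · have h8 : r x ^ 2 = 1 := by
        rcases lt_abs.1 (not_le.1 h7) with h | h
        · rw [h6, min_eq_left h.le, max_eq_right (by norm_num), one_pow]
        · rw [h6, min_eq_right (by linarith), max_eq_left (by linarith)]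
          norm_num
      rw [h8]
      nlinarith
  have h4 : ∫ ξ, (hat u ξ - c) ^ 2 ∂B.μ 1 ≤ ∫ ξ, 4 * (K + 1) ^ 2 * hat r ξ ^ 2 ∂B.μ 1 := by
    refine integral_mono_of_nonneg (Eventually.of_forall fun _ => sq_nonneg _)
      ((B.integrable (hrb.measurable_hat.pow_const 2) (hrb.bdd_hat.comp₂ hrb.bdd_hat
        (F := fun a _ => a ^ 2) (by fun_prop)) 1).const_mul _) ?_
    filter_upwards [hc] with ξ hξ
    rw [← hξ]
    exact le_of_tendsto_of_tendsto' (((hb.tendsto_hat ξ).sub (htb.tendsto_hat ξ)).pow 2)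
      (((hrb.tendsto_hat ξ).pow 2).const_mul _) h3
  have h5 : V ≤ ∫ ξ, (hat u ξ - c) ^ 2 ∂B.μ 1 := by
    rw [hV', ← ProbabilityTheory.variance_sub_const hm c]
    exact ProbabilityTheory.variance_le_expectation_sq (hm.sub aestronglyMeasurable_const)
  rw [integral_const_mul] at h4
  have h6 : energy S r ≤ 4 * (V / (16 * (K + 1) ^ 2 * C + 1)) := by linarith
  have h7 := mul_le_mul_of_nonneg_left (h2.trans (mul_le_mul_of_nonneg_left h6 hC0))
    (by positivity : 0 ≤ 4 * (K + 1) ^ 2)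
  have h8 : V / (16 * (K + 1) ^ 2 * C + 1) * (16 * (K + 1) ^ 2 * C + 1) = V :=
    div_mul_cancel₀ _ (by positivity)
  have h9 : 0 < V / (16 * (K + 1) ^ 2 * C + 1) := by positivity
  linarith

end Bdry

end Vale.Agent.P239
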