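import Vale.Agent.P239.Full.FClA
import Vale.Agent.P239.Full.FNoAtom

/-! Task FClB: classes, part 2. `IsCl.conj`: use the right translation `y = x * g`: `KS (cjg g H) u φ ↔ KS H (u (· * g⁻¹)) (φ (· * g⁻¹))`, `FinEn.shift`; edges `x → x * (g τ g⁻¹)` correspond to `y → y * τ`.
`mem_of_cjg`: for `KS t u φ`, `x g t = x t g` is infinite and lies in a neighbourhood of `x t`, so the two limits (`KS.tendsto`) agree; `hull t = t`. `nbh_inter_finite`: two points with the same pair `(b, b')` give a nontrivial element of `s ⊓ t`.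
`exists_sep`: if all `v` with `KS s v φ`, `KS t v ψ` had `φ 1 = ψ 1` then (translate) `φ = ψ`; approximating a function with `KS t` gives `s ≤ hull t = t`. Then approximate once more (`dens_cl`) and truncate (`KS.lip₁`).
`thin`: `nonconst_stable`, `dens_cl`, truncate, `thin_of_tendsto`, `Thin.nbh`. `ne_top`: `Thin.null` for `univ`.
-/

noncomputable section

open Classical MeasureTheory Filter Topology Set
open scoped Pointwise ENNReal

namespace Vale.Agent.P239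

universe u
variable {G : Type u} [Group G] {S : Finset G} {l : ℕ} {B : Bdry S}

theorem mem_cjg {g x : G} {t : Subgroup G} : x ∈ cjg g t ↔ g⁻¹ * x * g ∈ t := by
  refine Subgroup.mem_map.trans ⟨?_, fun h => ⟨_, h, ?_⟩⟩
  · rintro ⟨y, hy, rfl⟩
    simpa [mul_assoc] using hy
  · simp [mul_assoc]

theorem cjg_one (t : Subgroup G) : cjg 1 t = t := by
  ext x
  simp [mem_cjg]

theorem cjg_mul (g h : G) (t : Subgroup G) : cjg (g * h) t = cjg g (cjg h t) := by
  ext x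
  simp [mem_cjg, mul_assoc]

theorem cjg_eq_of_mem {g : G} {t : Subgroup G} (h : g ∈ t) : cjg g t = t := by
  ext x
  rw [mem_cjg, t.mul_mem_cancel_right h, t.mul_mem_cancel_left (t.inv_mem h)]

theorem cjg_closure (g : G) (T : Set G) :
    cjg g (Subgroup.closure T) = Subgroup.closure ((fun x => g * x * g⁻¹) '' T) :=
  MonoidHom.map_closure _ T

theorem exists_nbh_cjg (hS : Cay S) (g : G) : ∃ r, ∀ t : Subgroup G,
    g • (t : Set G) ⊆ nbh S r (cjg g t) ∧ (cjg g t : Set G) ⊆ nbh S r (g • (t : Set G)) := by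
  obtain ⟨r, hr⟩ := hS.exists_ball g
  refine ⟨r, fun t => ⟨?_, fun x hx => ⟨x * g, ⟨_, mem_cjg.1 hx, ?_⟩, ?_⟩⟩⟩
  · rintro _ ⟨y, hy, rfl⟩
    refine ⟨g * y * g⁻¹, mem_cjg.2 ?_, ?_⟩
    · simpa [mul_assoc] using hy
    · simpa [mul_assoc] using hr
  · simp [mul_assoc]
  · simpa using hS.inv_mem_ball hr

theorem fcb_ks {H : Subgroup G} {u φ : G → ℝ} (h : KS H u φ) (g : G) :
    KS (cjg g H) (fun x => u (x * g)) fun x => φ (x * g) := by
  refine ⟨ry_shift h.1 g, fun x k hk => ?_⟩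
  have h1 := h.2 (x * g) _ (mem_cjg.1 hk)
  simpa [mul_assoc] using h1

theorem fcb_hull (hS : Cay S) (g : G) (H : Subgroup G) :
    cjg g (hull S H) ≤ hull S (cjg g H) := by
  intro k hk u φ hu hφ x
  have h1 := fcb_ks hφ g⁻¹
  rw [← cjg_mul, inv_mul_cancel, cjg_one] at h1
  have h2 := mem_cjg.1 hk _ _ (hu.shift hS g⁻¹).1 h1 (x * g)
  simpa [mul_assoc] using h2

theorem IsCl.conj (hS : Cay S) {t : Subgroup G} (ht : IsCl S t) (g : G) : IsCl S (cjg g t) := by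
  obtain ⟨T, hw, hi, rfl⟩ := ht
  have e : Subgroup.closure ((T.image fun x => g * x * g⁻¹ : Finset G) : Set G) =
      cjg g (Subgroup.closure T) := by
    rw [Finset.coe_image, cjg_closure]
  have hinj : Function.Injective fun x : G => g * x * g⁻¹ := (MulAut.conj g).injective
  refine ⟨T.image fun x => g * x * g⁻¹, fun u hu f hf _ hd => ?_, ?_, ?_⟩
  · have h1 := hw (fun y => u (y * g⁻¹)) (hu.shift hS g⁻¹).1
      (fun y τ => f (y * g⁻¹) (g * τ * g⁻¹))
      (fun τ hτ => ry_shift (hf _ (Finset.mem_image_of_mem _ hτ)) g⁻¹)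
      (fun _ _ _ => ⟨trivial, trivial⟩) fun y => by
        have h2 := hd (y * g⁻¹)
        rw [Finset.sum_image hinj.injOn] at h2
        simpa [mul_assoc] using h2
    rw [← h1, pairE, pairE, ← (Equiv.mulRight g⁻¹).tsum_eq]
    refine tsum_congr fun y => ?_
    rw [Finset.sum_image hinj.injOn]
    simp [mul_assoc]
  · rw [e]
    exact hi.image hinj.injOn
  · rw [e]
    refine le_antisymm (fcb_hull hS g _) fun x hx => mem_cjg.2 ?_
    have h1 := fcb_hull hS g⁻¹ (cjg g (Subgroup.closure (T : Set G))) (x := g⁻¹ * x * g)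
      (mem_cjg.2 (by simpa [mul_assoc] using hx))
    rwa [← cjg_mul, inv_mul_cancel, cjg_one] at h1

theorem IsCl.mem_of_cjg (hS : Cay S) {t : Subgroup G} (ht : IsCl S t) {g : G} (h : cjg g t = t) :
    g ∈ t := by
  have hi := ht.infinite
  obtain ⟨r, hr⟩ := exists_nbh_cjg hS g
  have h1 := (hr t).1
  rw [h] at h1
  obtain ⟨T, -, -, rfl⟩ := ht
  intro u φ hu hφ x
  have h2 := hφ.to_hull hu
  generalize hull S (Subgroup.closure (T : Set G)) = t at hi h1 h2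
  have h3 : (cofinite ⊓ 𝓟 ((x * g) • (t : Set G))).NeBot :=
    Set.Infinite.cofinite_inf_principal_neBot (infinite_smul_set.2 hi)
  refine tendsto_nhds_unique' h3
    ((h2.tendsto hS hu 0 (x * g)).mono_left
      (inf_le_inf_left _ (principal_mono.2 (subset_nbh _ _))))
    ((h2.tendsto hS hu r x).mono_left (inf_le_inf_left _ (principal_mono.2 ?_)))
  rw [nbh_smul, mul_smul]
  exact smul_set_mono h1

theorem WallOf.mono {H H' : Subgroup G} {U : Set G} (h : WallOf B H U) (h' : H ≤ H') :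
    WallOf B H' U :=
  ⟨h.1, h.2.imp fun _ hR => hR.trans (nbh_mono le_rfl h')⟩

theorem WallOf.conj (hS : Cay S) {H : Subgroup G} {U : Set G} (h : WallOf B H U) (g : G) :
    WallOf B (cjg g H) (g • U) := by
  obtain ⟨h1, R, hR⟩ := h
  obtain ⟨r, hr⟩ := exists_nbh_cjg hS g
  refine ⟨smul_hatSet g U ▸ h1.smul hS g, r + R, ?_⟩
  rw [wallV_smul]
  refine (smul_set_mono hR).trans ?_
  rw [← nbh_smul]
  exact (nbh_mono le_rfl (hr H).1).trans (nbh_nbh _ _ _)

theorem IsWCl.conj (hS : Cay S) {t : Subgroup G} (ht : IsWCl B t) (g : G) : IsWCl B (cjg g t) := by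
  obtain ⟨h1, T, hT, U, hU⟩ := ht
  refine ⟨h1.conj hS g, T.image fun x => g * x * g⁻¹, ?_, g • U, ?_⟩
  · rw [Finset.coe_image]
    rintro _ ⟨x, hx, rfl⟩
    exact mem_cjg.2 (by simpa [mul_assoc] using hT hx)
  · rw [Finset.coe_image, ← cjg_closure]
    exact hU.conj hS g

theorem IsCl.nbh_inter_finite (hS : Cay S) (tf : TorsionFree G) {s t : Subgroup G} (hs : IsCl S s)
    (ht : IsCl S t) (hne : s ≠ t) (r r' : ℕ) : (nbh S r s ∩ nbh S r' t).Finite := by
  refine ((ball S r).finite_toSet.biUnion fun b _ => (ball S r').finite_toSet.biUnion fun b' _ =>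
    Set.Subsingleton.finite (s := {x | x * b⁻¹ ∈ s ∧ x * b'⁻¹ ∈ t}) ?_).subset ?_
  · intro x hx y hy
    by_contra hxy
    refine hne (hs.eq_of_mem hS tf ht (g := x * y⁻¹) (mt mul_inv_eq_one.1 hxy) ?_ ?_)
    · simpa [mul_assoc] using s.mul_mem hx.1 (s.inv_mem hy.1)
    · simpa [mul_assoc] using t.mul_mem hx.2 (t.inv_mem hy.2)
  · rintro x ⟨⟨a, ha, hb⟩, a', ha', hb'⟩
    refine mem_biUnion hb (mem_biUnion hb' ⟨?_, ?_⟩)
    · simpa using ha
    · simpa using ha'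

omit [Group G] in
theorem fcb_sub {p q : G → ℝ} (hp : SqSum p) (hq : SqSum q) : SqSum fun x => p x - q x :=
  ry_mem.1 ((ry_mem.2 hp).sub (ry_mem.2 hq))

theorem fcb_sep (hS : Cay S) (tf : TorsionFree G) {s t : Subgroup G} (hs : IsCl S s)
    (ht : IsCl S t) (hne : s ≠ t) :
    ∃ v φ ψ : G → ℝ, FinEn S v ∧ KS s v φ ∧ KS t v ψ ∧ φ 1 ≠ ψ 1 := by
  by_contra hh
  push Not at hh
  obtain ⟨g, hg, hg1⟩ := hs.infinite.exists_notMem_finite (finite_singleton 1)
  refine hne (hs.eq_of_mem hS tf ht hg1 hg ?_)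
  obtain ⟨T, -, -, rfl⟩ := ht
  intro u φ hu hφ x
  have h2 := hφ.to_hull hu
  generalize hull S (Subgroup.closure (T : Set G)) = t at hh h2
  obtain ⟨C, hC0, hC⟩ := abs_sub_le_energy hS x
  obtain ⟨D, hD0, hD⟩ := abs_sub_le_energy hS (x * g)
  rw [← sub_eq_zero, ← sq_eq_zero_iff]
  refine le_antisymm (le_of_forall_pos_le_add fun η hη => ?_) (sq_nonneg _)
  have hε : 0 < η / (4 * (C + D + 2)) := by positivity
  have e : η / (4 * (C + D + 2)) * (4 * (C + D + 2)) = η := div_mul_cancel₀ _ (by positivity)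
  generalize η / (4 * (C + D + 2)) = ε at hε e
  obtain ⟨w, φ', ψ, hw, h4, h5, h6, h7, h8⟩ := dens_cl hS (fun _ : Fin 1 => t)
    (fun _ : Fin 1 => s) (fun _ => hs) hu (φ := fun _ => φ) (fun _ => h2) hε
  have h9 : ∀ y, ψ 0 y = φ' 0 y := fun y => by
    simpa only [mul_one] using
      hh _ _ _ (hw.translate y).1 ((h5 0).translate y) ((h4 0).translate y)
  have b1 := (h5 0).2 x g hg
  rw [h9, h9] at b1
  have b2 := (hC _ (hu.sub hw)).trans (mul_le_mul_of_nonneg_left h7 hC0)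
  have b3 := (hD _ (hu.sub hw)).trans (mul_le_mul_of_nonneg_left h7 hD0)
  have b4 := (fna_le_tsum (fcb_sub h2.1 (h4 0).1) x).trans (h8 0)
  have b5 := (fna_le_tsum (fcb_sub h2.1 (h4 0).1) (x * g)).trans (h8 0)
  simp only [h6, sub_self, sub_zero] at b2 b3
  have b6 : u (x * g) - φ (x * g) - (u x - φ x) = (u (x * g) - w (x * g)) - (u x - w x) -
      (φ (x * g) - φ' 0 (x * g)) + (φ x - φ' 0 x) := by linarith
  rw [b6]
  generalize u (x * g) - w (x * g) = a at b3 ⊢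
  generalize u x - w x = b at b2 ⊢
  generalize φ (x * g) - φ' 0 (x * g) = c at b5 ⊢
  generalize φ x - φ' 0 x = d at b4 ⊢
  nlinarith [sq_nonneg (a + b), sq_nonneg (a + c), sq_nonneg (a - d), sq_nonneg (b - c),
    sq_nonneg (b + d), sq_nonneg (c + d)]

theorem exists_sep (hS : Cay S) (tf : TorsionFree G) {s t : Subgroup G} (hs : IsCl S s)
    (ht : IsCl S t) (hne : s ≠ t) {m : ℕ} (c : Fin m → Subgroup G) (hc : ∀ k, IsCl S (c k)) :
    ∃ (v φ ψ : G → ℝ) (χ : Fin m → G → ℝ), Bdd v ∧ FinEn S v ∧ KS s v φ ∧ KS t v ψ ∧ φ 1 ≠ ψ 1 ∧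
      ∀ k, KS (c k) v (χ k) := by
  obtain ⟨v, φ, ψ, hv, h1, h2, h3⟩ := fcb_sep hS tf hs ht hne
  have hδ : 0 < (φ 1 - ψ 1) ^ 2 / 16 := by
    have := sub_ne_zero.2 h3
    positivity
  obtain ⟨w, φ', χ, hw, h4, h5, -, -, h6⟩ := dens_cl hS ![s, t] c hc hv (φ := ![φ, ψ])
    (Fin.forall_fin_two.2 ⟨h1, h2⟩) hδ
  have h7 : (φ 1 - φ' 0 1) ^ 2 ≤ _ := (fna_le_tsum (fcb_sub h1.1 (h4 0).1) 1).trans (h6 0)
  have h8 : (ψ 1 - φ' 1 1) ^ 2 ≤ _ := (fna_le_tsum (fcb_sub h2.1 (h4 1).1) 1).trans (h6 1)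
  have k0 : KS s w (φ' 0) := h4 0
  have k1 : KS t w (φ' 1) := h4 1
  clear h4 h6
  obtain ⟨M, hM⟩ : ∃ M, M = |w 1| + |w 1 - φ' 0 1| + |w 1 - φ' 1 1| := ⟨_, rfl⟩
  have hM0 : 0 ≤ M := by
    rw [hM]
    positivity
  have hF : ∀ a, |a| ≤ M → max (-M) (min M a) = a := fun a ha => by
    rw [min_eq_right (abs_le.1 ha).2, max_eq_right (abs_le.1 ha).1]
  have a1 := abs_nonneg (w 1)
  have a2 := abs_nonneg (w 1 - φ' 0 1)
  have a3 := abs_nonneg (w 1 - φ' 1 1)
  have k2 := fun k => (h5 k).lip₁ zero_le_one (fna_clamp (-M) M)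
  have k5 := k0.lip₁ zero_le_one (fna_clamp (-M) M)
  have k6 := k1.lip₁ zero_le_one (fna_clamp (-M) M)
  have k7 := hw.lip₁ zero_le_one (fna_clamp (-M) M)
  refine ⟨fun x => max (-M) (min M (w x)), _, _,
    fun k x => max (-M) (min M (w x)) - max (-M) (min M (w x - χ k x)),
    ⟨M, fna_clamp_bdd hM0 w⟩, k7, k5, k6, ?_, k2⟩
  have k3 := hF (w 1 - φ' 0 1) (by linarith)
  have k4 := hF (w 1 - φ' 1 1) (by linarith)
  intro e
  have e' : φ' 0 1 = φ' 1 1 := sub_right_injective (k3.symm.trans ((sub_right_injective e).trans k4))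
  rw [e'] at h7
  linarith [sq_nonneg (φ 1 - φ' 1 1 + (ψ 1 - φ' 1 1))]

theorem IsCl.thin (hS : Cay S) (hg : Gap S) (hn : B.NonD) {t : Subgroup G} (ht : IsCl S t) (r : ℕ) :
    Thin S (nbh S r t) := by
  obtain ⟨u, hb, hu, hn⟩ := hn
  obtain ⟨ε, M, hε, hM, h1⟩ := B.nonconst_stable hS hg hb hu hn
  obtain ⟨w, -, ψ, hw, -, h5, h6, h7, -⟩ := dens_cl hS (n := 0) Fin.elim0 (fun _ : Fin 1 => t)
    (fun _ => ht) hu (φ := Fin.elim0) (fun i => i.elim0) hε
  have h2 := hw.lip₁ zero_le_one (fna_clamp (-M) M)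
  have h3 := (h5 0).lip₁ zero_le_one (fna_clamp (-M) M)
  have h4 := B.thin_of_tendsto hS hg ⟨M, fna_clamp_bdd hM.le w⟩ h2 (h1 w hw h7 h6)
    fun g => (h3.translate g).tendsto hS (h2.translate g).1 r 1
  rwa [one_smul] at h4

theorem IsCl.ne_top (hS : Cay S) (hg : Gap S) (hn : B.NonD) {t : Subgroup G} (ht : IsCl S t) :
    t ≠ ⊤ := by
  rintro rfl
  have h1 := ((ht.thin hS hg hn 0).mono (subset_nbh _ _)).null B hS
  have h2 : hatSet ((⊤ : Subgroup G) : Set G) = univ :=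
    eq_univ_of_forall fun _ => Filter.univ_mem
  have := B.prob 1
  rw [h2, Bdry.Null, measure_univ] at h1
  exact one_ne_zero h1

end Vale.Agent.P239
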