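import Vale.Agent.P239.Full.FAcc

/-! Task FCls: class systems. Write `d s t = (a s t)ᶜ ⊇ a t s` (nonnull). `act g` is injective.
`t1`: if `Btw q s r` and `Btw s q r` then `fvp r q s r` gives `FVP (d q r) (d s r)`; these contain `a r q`, `a r s`; if these are a.e. equal they are null (`FVP.null_inter`), otherwise they cover everything so `d s r = (d q r)ᶜ` a.e.,
contradicting `not_fvp_compl`. `no_three`: let `A = a sᵢ tᵢ`. For `s ≠ s'` among the three, one of `A, Aᶜ` is in `a s s'` and one in `a s' s` (`dir`), so `s → s'` (`A ⊆ a s s'`, `Aᶜ ⊆ a s' s`, hence equalities) or the reverse. A tournament on three vertices has a path `s → s' → s''`;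
`fvp s s' s'' t''` gives `FVP A Aᶜ`. The family `𝓛 = {X | Good X ∧ ∃ s t, AEq X (a s t) ∨ AEq X (a s t)ᶜ}` is an `NFam`. If `X ⊊ X'` have classes `s ≠ s'` then `X ⊆ a s s'` and `X'ᶜ ⊆ a s' s`. A strict chain has at most two elements of one class
and they are consecutive, so `b 0, b 2, b 4, b 6` have consecutively different classes `s₁..s₄`; then `b 0 ⊆ d s₂ s₁ ⊆ b 2 ⊆ a s₂ s₃`, `(b 6)ᶜ ⊆ d s₃ s₄ ⊆ (b 4)ᶜ ⊆ a s₃ s₂` and `fvp s₁ s₂ s₃ s₄` applies: `acc` with `k = 6` gives `finite_h`.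
`finite_vis`: fix one visible class `s₀`; for every other visible `s`, `a s s₀` is seen from `1`; `finite_h` and `no_three` (`Good.aeq_of_h`). `cofinite`: `act x⁻¹ s` is visible for every `x` seeing `A` (`Wall.smul`).
`finite_sep`: take `x` with `h (a s t) x > 3/4`, `y` with `h (a t s) y > 3/4`, `y ∈ bl x n`. For `r` between, `a s t = a s r ⊆ d r s` and `a t s = a t r ⊆ d r t ⊆ a r s` (`t1`), so the wall of `lev (a r s)` meets `bl x n` (`exists_wall_path`),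
and `a r s` is a wall of `r` seen from that point.
-/

noncomputable section

open Classical MeasureTheory Filter Topology Set
open scoped Pointwise ENNReal

namespace Vale.Agent.P239

universe u
variable {G : Type u} [Group G] {S : Finset G} {l : ℕ} {Q : Cones S} {B : Bdry S}

namespace Bdry

theorem fcl_null {X Z : Set (Bd G)} (h : B.Sub X Z) (h' : B.Sub X Zᶜ) : B.Null X := by
  refine (B.null_iff_ae _).2 ?_
  filter_upwards [(B.sub_iff _ _).1 h, (B.sub_iff _ _).1 h'] with ξ a1 a2 a3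
  exact a2 a3 (a1 a3)

theorem fcl_both {X Z : Set (Bd G)} (h : B.Sub X Z) (h' : B.Sub Xᶜ Z) : B.Null Zᶜ := by
  refine (B.null_iff_ae _).2 ?_
  filter_upwards [(B.sub_iff _ _).1 h, (B.sub_iff _ _).1 h'] with ξ a1 a2 a3
  by_cases a : ξ ∈ X
  · exact a3 (a1 a)
  · exact a3 (a2 a)

theorem fcl_cl {X Z : Set (Bd G)} (h : B.Sub Xᶜ Z) : B.Sub Zᶜ X := by
  have := h.compl
  rwa [compl_compl] at this

theorem fcl_cr {X Z : Set (Bd G)} (h : B.Sub X Zᶜ) : B.Sub Z Xᶜ := by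
  have := h.compl
  rwa [compl_compl] at this

theorem fcl_inter {X X' Z : Set (Bd G)} (h : B.Sub X Z) (h' : B.Sub X' Zᶜ) : B.Null (X ∩ X') :=
  fcl_null ((Sub.of_subset inter_subset_left).trans h) ((Sub.of_subset inter_subset_right).trans h')

theorem fcl_ssub_trans {X X' X'' : Set (Bd G)} (h : B.SSub X X') (h' : B.SSub X' X'') :
    B.SSub X X'' :=
  ⟨h.1.trans h'.1, fun k => h.2 (h'.1.trans k)⟩

theorem fcl_refl (X : Set (Bd G)) : B.AEq X X := ⟨Sub.refl _, Sub.refl _⟩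

namespace ClassSys
variable {α : Type*} (Y : B.ClassSys Q α)

theorem act_inj (g : G) {s t : α} (h : Y.act g s = Y.act g t) : s = t := by
  rw [← Y.act_one s, ← Y.act_one t, ← inv_mul_cancel g, Y.act_mul, Y.act_mul, h]

theorem fcl_disj {s t : α} (hs : s ∈ Y.C) (ht : t ∈ Y.C) (h : s ≠ t) :
    B.Sub (Y.a s t) (Y.a t s)ᶜ := by
  rw [sub_iff_null, compl_compl]
  exact Y.disj s hs t ht h

theorem fcl_dir {s t t' : α} (hs : s ∈ Y.C) (ht : t ∈ Y.C) (ht' : t' ∈ Y.C) (h : s ≠ t)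
    (h' : s ≠ t') : B.AEq (Y.a s t) (Y.a s t') ∨ B.Sub (Y.a s t)ᶜ (Y.a s t') :=
  (Y.dir s hs t ht t' ht' h h').imp id fun k => (sub_iff_null _ _).2 k

theorem two_a {s t : α} (hs : s ∈ Y.C) (ht : t ∈ Y.C) (h : s ≠ t) : B.Two (Y.a s t) :=
  ⟨(Y.good s hs t ht h).2,
    fun k => (Y.good t ht s hs h.symm).2 (k.of_sub (Y.fcl_disj ht hs h.symm))⟩

theorem btw_symm {r s t : α} (h : Y.Btw r s t) : Y.Btw r t s :=
  ⟨h.2.1, h.1, fun k => h.2.2 k.symm⟩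

theorem btw_ne {r s t : α} (h : Y.Btw r s t) : s ≠ t := by
  rintro rfl
  exact h.2.2 (fcl_refl _)

theorem t2 {q s r w : α} (h : Y.Btw q s r) (hw : q ≠ w) : Y.Btw q s w ∨ Y.Btw q w r := by
  by_cases k : B.AEq (Y.a q s) (Y.a q w)
  · exact Or.inr ⟨hw, h.2.1, fun k' => h.2.2 (k.trans k')⟩
  · exact Or.inl ⟨h.1, hw, k⟩

theorem btw_act (hS : Cay S) (g : G) {r s t : α} (hr : r ∈ Y.C) (hs : s ∈ Y.C) (ht : t ∈ Y.C)
    (h : Y.Btw r s t) : Y.Btw (Y.act g r) (Y.act g s) (Y.act g t) := by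
  refine ⟨fun k => h.1 (Y.act_inj g k), fun k => h.2.1 (Y.act_inj g k), fun k => h.2.2 ?_⟩
  have h1 := (((Y.equi g r hr s hs h.1).symm.trans k).trans (Y.equi g r hr t ht h.2.1)).smul hS g⁻¹
  rwa [inv_smul_smul, inv_smul_smul] at h1

theorem t1 (hH : RH S l Q) {q s r : α} (hq : q ∈ Y.C) (hs : s ∈ Y.C) (hr : r ∈ Y.C)
    (h : Y.Btw q s r) : ¬ Y.Btw s q r := by
  intro h'
  have hf := Y.fvp r hr q hq s hs r hr h.2.1.symm h.1 h'.2.1 (fun k => h.2.2 k.symm)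
    fun k => h'.2.2 k.symm
  have a1 := Y.fcl_disj hr hq h.2.1.symm
  have a2 := Y.fcl_disj hr hs h'.2.1.symm
  have g1 := Y.good r hr q hq h.2.1.symm
  rcases Y.fcl_dir hr hq hs h.2.1.symm h'.2.1.symm with k | k
  · have h1 := (hf.mono hH.cay a1 (k.1.trans a2)).null_inter hH.cay g1.1 g1.1
    rw [inter_self] at h1
    exact g1.2 h1
  · exact not_fvp_compl hH.cay hH.one g1.1 (Y.two_a hr hq h.2.1.symm)
      (hf.mono hH.cay a1 (k.trans a2))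

theorem fcl_arrow {A : Set (Bd G)} (h2 : B.Two A) {s s' t t' : α} (hs : s ∈ Y.C) (hs' : s' ∈ Y.C)
    (ht : t ∈ Y.C) (ht' : t' ∈ Y.C) (n : s ≠ t) (n' : s' ≠ t') (d : s ≠ s')
    (e : B.AEq A (Y.a s t)) (e' : B.AEq A (Y.a s' t')) :
    (B.AEq A (Y.a s s') ∧ B.Sub Aᶜ (Y.a s' s)) ∨ (B.AEq A (Y.a s' s) ∧ B.Sub Aᶜ (Y.a s s')) := by
  have a1 := Y.fcl_disj hs hs' d
  rcases Y.fcl_dir hs ht hs' n d with k | k <;> rcases Y.fcl_dir hs' ht' hs n' d.symm with k' | k'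
  · exact absurd (fcl_null (e'.1.trans k'.1) ((e.1.trans k.1).trans a1)) h2.1
  · exact Or.inl ⟨e.trans k, e'.compl.1.trans k'⟩
  · exact Or.inr ⟨e'.trans k', e.compl.1.trans k⟩
  · exact absurd (fcl_null (e'.compl.1.trans k') ((e.compl.1.trans k).trans a1)) h2.2

theorem fcl_path (hH : RH S l Q) {A : Set (Bd G)} (hA : B.Good A) (h2 : B.Two A) {s s' s'' t : α}
    (hs : s ∈ Y.C) (hs' : s' ∈ Y.C) (hs'' : s'' ∈ Y.C) (ht : t ∈ Y.C) (d : s ≠ s') (d' : s' ≠ s'')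
    (n : s'' ≠ t) (e : B.AEq A (Y.a s'' t))
    (p : B.AEq A (Y.a s s') ∧ B.Sub Aᶜ (Y.a s' s))
    (p' : B.AEq A (Y.a s' s'') ∧ B.Sub Aᶜ (Y.a s'' s')) : False := by
  have hf := Y.fvp s hs s' hs' s'' hs'' t ht d d' n
    (fun k => h2.2 (fcl_both (Sub.refl A) ((p.2.trans k.1).trans p'.1.2)))
    fun k => h2.2 (fcl_both (Sub.refl A) ((p'.2.trans k.2).trans e.2))
  exact not_fvp_compl hH.cay hH.one hA h2
    (hf.mono hH.cay (p.1.1.trans (Y.fcl_disj hs hs' d)) e.compl.1)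

theorem no_three (hH : RH S l Q) {s₁ s₂ s₃ t₁ t₂ t₃ : α} (h1 : s₁ ∈ Y.C) (h2 : s₂ ∈ Y.C)
    (h3 : s₃ ∈ Y.C) (k1 : t₁ ∈ Y.C) (k2 : t₂ ∈ Y.C) (k3 : t₃ ∈ Y.C) (n1 : s₁ ≠ t₁) (n2 : s₂ ≠ t₂)
    (n3 : s₃ ≠ t₃) (d1 : s₁ ≠ s₂) (d2 : s₁ ≠ s₃) (d3 : s₂ ≠ s₃)
    (e1 : B.AEq (Y.a s₁ t₁) (Y.a s₂ t₂)) (e2 : B.AEq (Y.a s₁ t₁) (Y.a s₃ t₃)) : False := by
  have hA := (Y.good s₁ h1 t₁ k1 n1).1
  have hT := Y.two_a h1 k1 n1
  have e0 := fcl_refl (B := B) (Y.a s₁ t₁)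
  rcases Y.fcl_arrow hT h1 h2 k1 k2 n1 n2 d1 e0 e1 with p | p <;>
    rcases Y.fcl_arrow hT h1 h3 k1 k3 n1 n3 d2 e0 e2 with q | q <;>
    rcases Y.fcl_arrow hT h2 h3 k2 k3 n2 n3 d3 e1 e2 with r | r
  · exact Y.fcl_path hH hA hT h1 h2 h3 k3 d1 d3 n3 e2 p r
  · exact Y.fcl_path hH hA hT h1 h3 h2 k2 d2 d3.symm n2 e1 q r
  · exact Y.fcl_path hH hA hT h1 h2 h3 k3 d1 d3 n3 e2 p r
  · exact Y.fcl_path hH hA hT h3 h1 h2 k2 d2.symm d1 n2 e1 q p
  · exact Y.fcl_path hH hA hT h2 h1 h3 k3 d1.symm d2 n3 e2 p q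
  · exact Y.fcl_path hH hA hT h2 h1 h3 k3 d1.symm d2 n3 e2 p q
  · exact Y.fcl_path hH hA hT h2 h3 h1 k1 d3 d2.symm n1 e0 r q
  · exact Y.fcl_path hH hA hT h3 h2 h1 k1 d3.symm d1.symm n1 e0 r p

/-- `X` is a half space of the class `s` or the complement of one. -/
def FclCl (s : α) (X : Set (Bd G)) : Prop :=
  s ∈ Y.C ∧ ∃ t ∈ Y.C, s ≠ t ∧ (B.AEq X (Y.a s t) ∨ B.AEq X (Y.a s t)ᶜ)

variable {Y} in
theorem FclCl.wall {s : α} {X : Set (Bd G)} (h : Y.FclCl s X) {u : α} (hu : u ∈ Y.C) (n : s ≠ u) :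
    B.Sub X (Y.a s u) ∨ B.Sub Xᶜ (Y.a s u) := by
  obtain ⟨hs, t, ht, n', e | e⟩ := h
  · exact (Y.fcl_dir hs ht hu n' n).imp (fun k => e.1.trans k.1) fun k => e.compl.1.trans k
  · exact (Y.fcl_dir hs ht hu n' n).symm.imp (fun k => e.1.trans k) fun k => (fcl_cl e.2).trans k.1

/-- The nested family of a class system. -/
def fclFam (hS : Cay S) : B.NFam where
  𝓛 := {X | B.Good X ∧ ∃ s, Y.FclCl s X}
  smul := by
    rintro g X ⟨hX, s, hs, t, ht, n, e⟩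
    have k := (Y.equi g s hs t ht n).symm
    refine ⟨hX.smul hS g, Y.act g s, Y.act_mem g s hs, Y.act g t, Y.act_mem g t ht,
      fun k => n (Y.act_inj g k), e.imp (fun e => (e.smul hS g).trans k) fun e => ?_⟩
    have k' := k.compl
    rw [← smul_set_compl] at k'
    exact (e.smul hS g).trans k'
  compl := by
    rintro X ⟨hX, s, hs, t, ht, n, e⟩
    refine ⟨hX.compl, s, hs, t, ht, n, e.symm.imp (fun e => ?_) fun e => e.compl⟩
    have := e.compl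
    rwa [compl_compl] at this
  good := fun _ h => h.1
  nested := by
    rintro X ⟨-, s, hs⟩ X' ⟨-, s', hs'⟩
    by_cases d : s = s'
    · subst d
      obtain ⟨-, t, ht, n, e | e⟩ := hs'
      · rcases hs.wall ht n with k | k
        · exact Or.inr (Or.inl (fcl_inter k e.compl.1))
        · exact Or.inr (Or.inr (Or.inr (fcl_inter k e.compl.1)))
      · rcases hs.wall ht n with k | k
        · exact Or.inl (fcl_inter k e.1)
        · exact Or.inr (Or.inr (Or.inl (fcl_inter k e.1)))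
    · have a1 := Y.fcl_disj hs'.1 hs.1 (Ne.symm d)
      rcases hs.wall hs'.1 d with k | k <;> rcases hs'.wall hs.1 (Ne.symm d) with k' | k'
      · exact Or.inl (fcl_inter k (k'.trans a1))
      · exact Or.inr (Or.inl (fcl_inter k (k'.trans a1)))
      · exact Or.inr (Or.inr (Or.inl (fcl_inter k (k'.trans a1))))
      · exact Or.inr (Or.inr (Or.inr (fcl_inter k (k'.trans a1))))

variable {Y} in
theorem fcl_diff {s s' : α} {X X' : Set (Bd G)} (h : Y.FclCl s X) (h' : Y.FclCl s' X') (d : s ≠ s')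
    (t : B.Two X) (t' : B.Two X') (hs : B.SSub X X') :
    B.Sub X (Y.a s s') ∧ B.Sub X'ᶜ (Y.a s' s) := by
  have a1 := Y.fcl_disj h'.1 h.1 d.symm
  rcases h.wall h'.1 d with k | k <;> rcases h'.wall h.1 d.symm with k' | k'
  · exact absurd (fcl_null k ((hs.1.trans k').trans a1)) t.1
  · exact ⟨k, k'⟩
  · exact absurd ((k'.trans a1).trans (fcl_cl k)) hs.2
  · exact absurd (fcl_null (hs.1.compl.trans k) (k'.trans a1)) t'.2

variable {Y} in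
theorem fcl_same_a {s u : α} {X X' : Set (Bd G)} (hu : u ∈ Y.C) (n : s ≠ u)
    (e : B.AEq X (Y.a s u)) (h' : Y.FclCl s X') (t' : B.Two X') (hs : B.SSub X X') : False := by
  rcases h'.wall hu n with k | k
  · exact hs.2 (k.trans e.2)
  · exact t'.2 (fcl_both (Sub.refl X') ((k.trans e.2).trans hs.1))

variable {Y} in
theorem fcl_same_d {s u : α} {X X' : Set (Bd G)} (hu : u ∈ Y.C) (n : s ≠ u)
    (e : B.AEq X' (Y.a s u)ᶜ) (h : Y.FclCl s X) (t : B.Two X) (hs : B.SSub X X') : False := by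
  rcases h.wall hu n with k | k
  · exact t.1 (fcl_null k (hs.1.trans e.1))
  · exact hs.2 (e.1.trans (fcl_cl k))

variable {Y} in
theorem fcl_ne {s s' s'' : α} {X X' X'' : Set (Bd G)} (h : Y.FclCl s X) (h' : Y.FclCl s' X')
    (h'' : Y.FclCl s'' X'') (t : B.Two X) (t' : B.Two X') (t'' : B.Two X'') (k : B.SSub X X')
    (k' : B.SSub X' X'') : s ≠ s'' := by
  rintro rfl
  by_cases d : s = s'
  · subst d
    obtain ⟨-, u, hu, n, e | e⟩ := h'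
    · exact fcl_same_a hu n e h'' t'' k'
    · exact fcl_same_d hu n e h t k
  · exact (Y.two_a h'.1 h.1 (Ne.symm d)).2
      (fcl_both (fcl_diff h' h'' (Ne.symm d) t' t'' k').1 (fcl_diff h h' d t t' k).2)

theorem finite_h (hH : RH S l Q) {ε : ℝ} (hε : 0 < ε) :
    {f : G → ℝ | ∃ s ∈ Y.C, ∃ t ∈ Y.C, s ≠ t ∧ B.Sees ε (Y.a s t) 1 ∧ f = B.h (Y.a s t)}.Finite := by
  refine ((Y.fclFam hH.cay).acc hH 6 (fun b hb ht hs => ?_) hε).subset ?_
  · choose c hc using fun i => (hb i).2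
    have n : ∀ i, c i ≠ c (i + 2) := fun i =>
      fcl_ne (hc i) (hc (i + 1)) (hc (i + 2)) (ht _) (ht _) (ht _) (hs i) (hs (i + 1))
    have k : ∀ i, B.Sub (b i) (Y.a (c i) (c (i + 2))) ∧
        B.Sub (b (i + 2))ᶜ (Y.a (c (i + 2)) (c i)) := fun i =>
      fcl_diff (hc i) (hc (i + 2)) (n i) (ht _) (ht _) (fcl_ssub_trans (hs i) (hs (i + 1)))
    have hf := Y.fvp (c 0) (hc 0).1 (c 2) (hc 2).1 (c 4) (hc 4).1 (c 6) (hc 6).1 (n 0) (n 2) (n 4)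
      (fun e => (Y.two_a (hc 2).1 (hc 4).1 (n 2)).2 (fcl_both (k 2).1 ((k 0).2.trans e.1)))
      fun e => (Y.two_a (hc 4).1 (hc 6).1 (n 4)).2 (fcl_both (k 4).1 ((k 2).2.trans e.2))
    exact hf.mono hH.cay ((k 0).1.trans (Y.fcl_disj (hc 0).1 (hc 2).1 (n 0)))
      ((k 4).2.trans (Y.fcl_disj (hc 6).1 (hc 4).1 (n 4).symm))
  · rintro f ⟨s, hs, t, ht, n, h1, h2⟩
    exact ⟨Y.a s t, ⟨(Y.good s hs t ht n).1, s, hs, t, ht, n, Or.inl (fcl_refl _)⟩, h1, h2⟩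

theorem wall_a {s t : α} (hs : s ∈ Y.C) (ht : t ∈ Y.C) (h : s ≠ t) : Y.Wall s (Y.a s t) :=
  ⟨(Y.good s hs t ht h).1.1, fun _ hu n => (Y.fcl_dir hs ht hu h n.symm).imp (fun k => k.1) id⟩

theorem Wall.smul (hS : Cay S) {s : α} (hs : s ∈ Y.C) {A : Set (Bd G)} (h : Y.Wall s A) (g : G) :
    Y.Wall (Y.act g s) (g • A) := by
  refine ⟨measurableSet_smul_bd g h.1, fun t ht n => ?_⟩
  have e : Y.act g (Y.act g⁻¹ t) = t := by rw [← Y.act_mul, mul_inv_cancel, Y.act_one]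
  have n' : Y.act g⁻¹ t ≠ s := fun k => n (by rw [← k, e])
  have k := Y.equi g s hs _ (Y.act_mem g⁻¹ t ht) n'.symm
  rw [e] at k
  rw [← smul_set_compl]
  exact (h.2 _ (Y.act_mem g⁻¹ t ht) n').imp (fun a => ((B.sub_smul hS g _ _).2 a).trans k.2)
    fun a => ((B.sub_smul hS g _ _).2 a).trans k.2

variable {Y} in
theorem fcl_le (hS : Cay S) {s t : α} (ht : t ∈ Y.C) (n : t ≠ s) {A : Set (Bd G)} (h : Y.Wall s A)
    {ε : ℝ} {x : G} (hx : B.Sees ε A x) : ε ≤ B.h (Y.a s t) x := by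
  rcases h.2 t ht n with k | k
  · exact hx.1.trans (B.h_mono hS k x)
  · exact hx.2.trans (B.h_mono hS k x)

theorem finite_vis (hH : RH S l Q) {ε : ℝ} (hε : 0 < ε) :
    {s | s ∈ Y.C ∧ ∃ A, Y.Wall s A ∧ B.Sees ε A 1}.Finite := by
  set V := {s | s ∈ Y.C ∧ ∃ A, Y.Wall s A ∧ B.Sees ε A 1} with hV
  rcases V.eq_empty_or_nonempty with h | ⟨s₀, h₀, A₀, hA₀, hx₀⟩
  · rw [h]
    exact finite_empty
  refine Set.Finite.of_sdiff (t := {s₀}) ?_ (finite_singleton s₀)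
  refine Set.Finite.of_finite_fibers (fun s => B.h (Y.a s s₀)) ((Y.finite_h hH hε).subset ?_) ?_
  · rintro _ ⟨s, ⟨⟨hs, A, hA, hx⟩, n⟩, rfl⟩
    have n' : s ≠ s₀ := n
    exact ⟨s, hs, s₀, h₀, n', ⟨fcl_le hH.cay h₀ n'.symm hA hx, (fcl_le hH.cay hs n' hA₀ hx₀).trans
      (B.h_mono hH.cay (Y.fcl_disj h₀ hs n'.symm) 1)⟩, rfl⟩
  · intro f _
    by_contra hi
    obtain ⟨T, hT, hc⟩ := Set.Infinite.exists_subset_card_eq hi 3
    obtain ⟨x, y, z, d1, d2, d3, rfl⟩ := Finset.card_eq_three.1 hc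
    have hx := hT (show x ∈ (({x, y, z} : Finset α) : Set α) by simp)
    have hy := hT (show y ∈ (({x, y, z} : Finset α) : Set α) by simp)
    have hz := hT (show z ∈ (({x, y, z} : Finset α) : Set α) by simp)
    have ex : B.h (Y.a x s₀) = f := hx.2
    have ey : B.h (Y.a y s₀) = f := hy.2
    have ez : B.h (Y.a z s₀) = f := hz.2
    have gx := (Y.good x hx.1.1.1 s₀ h₀ hx.1.2).1
    exact Y.no_three hH hx.1.1.1 hy.1.1.1 hz.1.1.1 h₀ h₀ h₀ hx.1.2 hy.1.2 hz.1.2 d1 d2 d3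
      (gx.aeq_of_h (Y.good y hy.1.1.1 s₀ h₀ hy.1.2).1 (ex.trans ey.symm))
      (gx.aeq_of_h (Y.good z hz.1.1.1 s₀ h₀ hz.1.2).1 (ex.trans ez.symm))

variable {Y} in
theorem fcl_vis (hS : Cay S) {s : α} (hs : s ∈ Y.C) {A : Set (Bd G)} (hA : Y.Wall s A) {ε : ℝ}
    {x : G} (hx : B.Sees ε A x) :
    Y.act x⁻¹ s ∈ {s | s ∈ Y.C ∧ ∃ A, Y.Wall s A ∧ B.Sees ε A 1} := by
  refine ⟨Y.act_mem _ s hs, x⁻¹ • A, hA.smul Y hS hs _, ?_⟩
  have := hx.smul x⁻¹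
  rwa [inv_mul_cancel] at this

theorem cofinite_vis (hH : RH S l Q) {s : α} (hs : s ∈ Y.C) {A : Set (Bd G)} (hA : Y.Wall s A)
    {ε : ℝ} (hε : 0 < ε) :
    ∃ F : Set G, F.Finite ∧ ∀ x, B.Sees ε A x → ∃ m, Y.act m s = s ∧ m⁻¹ * x ∈ F := by
  have h1 : ∀ v : α, ∃ y : G, ∀ x : G, Y.act x⁻¹ s = v → Y.act y⁻¹ s = v := by
    intro v
    by_cases h : ∃ x : G, Y.act x⁻¹ s = v
    · obtain ⟨y, hy⟩ := h
      exact ⟨y, fun _ _ => hy⟩
    · exact ⟨1, fun x hx => absurd ⟨x, hx⟩ h⟩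
  choose y hy using h1
  refine ⟨y '' _, (Y.finite_vis hH hε).image y, fun x hx => ⟨x * (y (Y.act x⁻¹ s))⁻¹, ?_, ?_⟩⟩
  · rw [Y.act_mul, hy _ x rfl, ← Y.act_mul, mul_inv_cancel, Y.act_one]
  · rw [mul_inv_rev, inv_inv, inv_mul_cancel_right]
    exact mem_image_of_mem y (fcl_vis hH.cay hs hA hx)

theorem finite_sep (hH : RH S l Q) {s t : α} (hs : s ∈ Y.C) (ht : t ∈ Y.C) :
    {r | r ∈ Y.C ∧ Y.Btw r s t}.Finite := by
  by_cases n : s = t
  · exact finite_empty.subset fun r hr => Y.btw_ne hr.2 n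
  have n' : t ≠ s := Ne.symm n
  have hS := hH.cay
  have h0 : (0 : ℝ) < S.card := by exact_mod_cast hS.card_pos
  obtain ⟨x, hx⟩ := ((Y.good s hs t ht n).1.infinite_deep hS (Y.good s hs t ht n).2
    (θ := 3 / 4) (by norm_num)).nonempty
  obtain ⟨y, hy⟩ := ((Y.good t ht s hs n').1.infinite_deep hS (Y.good t ht s hs n').2
    (θ := 3 / 4) (by norm_num)).nonempty
  have hx' : 3 / 4 < B.h (Y.a s t) x := hx
  have hy' : 3 / 4 < B.h (Y.a t s) y := hy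
  obtain ⟨m, hm⟩ := hS.exists_ball (y⁻¹ * x)
  refine ((bl_finite (S := S) y m).biUnion fun z _ =>
    (Y.finite_vis hH (ε := 1 / (2 * S.card)) (by positivity)).image (Y.act z)).subset ?_
  rintro r ⟨hr, hb⟩
  have e1 : B.AEq (Y.a s r) (Y.a s t) := by
    by_contra k
    exact Y.t1 hH hr hs ht hb ⟨hb.1.symm, n, k⟩
  have e2 : B.AEq (Y.a t r) (Y.a t s) := by
    by_contra k
    exact Y.t1 hH hr ht hs (Y.btw_symm hb) ⟨hb.2.1.symm, n', k⟩
  have gr := (Y.good r hr s hs hb.1).1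
  have a1 := B.h_mono hS (e1.2.trans (Y.fcl_disj hs hr hb.1.symm)) x
  rw [B.h_compl gr.1] at a1
  have a2 := B.h_mono hS ((e2.2.trans (Y.fcl_disj ht hr hb.2.1.symm)).trans
    ((Y.fcl_dir hr ht hs hb.2.1 hb.1).resolve_left fun k => hb.2.2 k.symm)) y
  have b1 : y ∈ B.lev (Y.a r s) := by
    change 1 / 2 ≤ B.h (Y.a r s) y
    linarith
  have b2 : x ∉ B.lev (Y.a r s) := by
    change ¬ 1 / 2 ≤ B.h (Y.a r s) x
    linarith
  obtain ⟨z, hz, u, hu, hzu, hzb, -⟩ := exists_wall_path hS b1 b2 hm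
  have hw : z ∈ wallV S (B.lev (Y.a r s)) := ⟨u, hu, fun k => hzu (k.1 hz)⟩
  refine mem_biUnion hzb ⟨_, fcl_vis hS hr (Y.wall_a hr hs hb.1) (sees_of_wall hS gr.1 hw), ?_⟩
  rw [← Y.act_mul, mul_inv_cancel, Y.act_one]

end ClassSys
end Bdry

end Vale.Agent.P239
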