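import Vale.Agent.P239.Full.FNest

/-! Task FSys: essential suprema and construction of class systems.
`exists_essSup`: minimise `μ 1 E` over measurable `E` with `∀ᶠ w in 𝔽, Sub (A w) E` (closed under countable intersections; `univ` qualifies). Goodness: `E₁ = {ξ | hat (h E) ξ = 1}` is measurable and contains `A w` a.e.
(`gs_up`-like argument: `h (A w) ≤ h E`), so `E ⊆ E₁` a.e., `gs_good`.
`exists_classSys`: `a s t` = essential supremum of `side s t`. `disj`: for eventually all `w`, minimality gives `a t s ⊆ (side s t w)ᶜ`, so `side s t w ⊆ (a t s)ᶜ`, minimality again.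
`dir`: if eventually `side s t w = side s t' w` the suprema agree, otherwise some typical `w` has complementary sides. `fvp`: pick a typical separating `w` for `t₁`, then a typical separating `w'` for `t₂`
(`Frequently.and_eventually`); `(a t₁ t₀)ᶜ ⊆ side t₁ t₂ w`, `(a t₂ t₃)ᶜ ⊆ side t₂ t₁ w'`. `equi`: minimality in both directions using `wact g⁻¹`.
-/

noncomputable section

open Classical MeasureTheory Filter Topology Set
open scoped Pointwise ENNReal

namespace Vale.Agent.P239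

universe u
variable {G : Type u} [Group G] {S : Finset G} {l : ℕ} {Q : Cones S} {B : Bdry S}

namespace Bdry

theorem exists_essSup (hS : Cay S) {W : Type*} (𝔽 : Filter W) [CountableInterFilter 𝔽]
    (A : W → Set (Bd G)) (hA : ∀ᶠ w in 𝔽, B.Good (A w)) :
    ∃ E, B.Good E ∧ (∀ᶠ w in 𝔽, B.Sub (A w) E) ∧
      ∀ E', MeasurableSet E' → (∀ᶠ w in 𝔽, B.Sub (A w) E') → B.Sub E E' := by
  have := B.prob 1
  obtain ⟨u, -, hu, hE⟩ := exists_seq_tendsto_sInf
    (S := B.μ 1 '' {E | MeasurableSet E ∧ ∀ᶠ w in 𝔽, B.Sub (A w) E})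
    ⟨_, univ, ⟨MeasurableSet.univ, Eventually.of_forall fun _ => Sub.of_subset (subset_univ _)⟩, rfl⟩
    (OrderBot.bddBelow _)
  choose E hE he using hE
  have hm : MeasurableSet (⋂ n, E n) := MeasurableSet.iInter fun n => (hE n).1
  have h1 : ∀ᶠ w in 𝔽, B.Sub (A w) (⋂ n, E n) := by
    filter_upwards [eventually_countable_forall.2 fun n => (hE n).2] with w hw
    rw [sub_iff]
    filter_upwards [ae_all_iff.2 fun n => (B.sub_iff _ _).1 (hw n)] with ξ h h'
    exact mem_iInter.2 fun n => h n h'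
  have h2 : ∀ E', MeasurableSet E' → (∀ᶠ w in 𝔽, B.Sub (A w) E') → B.Sub (⋂ n, E n) E' := by
    intro E' hm' h'
    have h3 : B.μ 1 (⋂ n, E n) ≤ B.μ 1 ((⋂ n, E n) ∩ E') := by
      refine (ge_of_tendsto' hu fun n => he n ▸ measure_mono (iInter_subset _ n)).trans
        (sInf_le ⟨_, ⟨hm.inter hm', ?_⟩, rfl⟩)
      filter_upwards [h1, h'] with w a b
      rw [sub_iff] at a b ⊢
      filter_upwards [a, b] with ξ a b h using ⟨a h, b h⟩
    rw [← measure_inter_add_sdiff (⋂ n, E n) hm'] at h3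
    exact le_zero_iff.1 ((ENNReal.add_le_add_iff_left (measure_ne_top _ _)).1
      (h3.trans_eq (add_zero _).symm))
  refine ⟨_, gs_good hS hm ((B.sub_iff _ {ξ | 1 ≤ hat (B.h (⋂ n, E n)) ξ}).1 (h2 _
    (measurableSet_le measurable_const (B.h_bdd _).measurable_hat) ?_)), h1, h2⟩
  filter_upwards [hA, h1] with w hg hw
  rw [sub_iff]
  filter_upwards [hg.2] with ξ hξ h
  rw [indicator_of_mem h] at hξ
  exact hξ.ge.trans (hat_mono (B.h_bdd _) (B.h_bdd _) (Eventually.of_forall (B.h_mono hS hw)))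


theorem exists_classSys (hS : Cay S) {α W : Type*} (C : Set α) (act : G → α → α)
    (act_one : ∀ s, act 1 s = s) (act_mul : ∀ g h s, act (g * h) s = act g (act h s))
    (act_mem : ∀ g, ∀ s ∈ C, act g s ∈ C) (𝔽 : α → Filter W)
    (hc : ∀ s, CountableInterFilter (𝔽 s)) (hne : ∀ s ∈ C, (𝔽 s).NeBot)
    (side : α → α → W → Set (Bd G)) (wact : G → W → W)
    (h1 : ∀ s ∈ C, ∀ t ∈ C, s ≠ t → ∀ᶠ w in 𝔽 s, B.Good (side s t w) ∧ B.Two (side s t w))
    (h2 : ∀ s ∈ C, ∀ t ∈ C, ∀ t' ∈ C, s ≠ t → s ≠ t' →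
      ∀ᶠ w in 𝔽 s, side s t w = side s t' w ∨ side s t w = (side s t' w)ᶜ)
    (h3 : ∀ s ∈ C, ∀ t ∈ C, s ≠ t →
      ∀ᶠ w in 𝔽 s, ∀ᶠ w' in 𝔽 t, B.FVP Q (side s t w) (side t s w'))
    (h4 : ∀ g, ∀ s ∈ C, Tendsto (wact g) (𝔽 s) (𝔽 (act g s)))
    (h5 : ∀ g, ∀ s ∈ C, ∀ t ∈ C, s ≠ t →
      ∀ᶠ w in 𝔽 s, side (act g s) (act g t) (wact g w) = g • side s t w)
    (h6 : ∀ g w, wact g (wact g⁻¹ w) = w) :
    ∃ Y : B.ClassSys Q α, Y.C = C ∧ Y.act = act ∧
      ∀ s ∈ C, ∀ t ∈ C, s ≠ t → ∀ᶠ w in 𝔽 s, B.Sub (side s t w) (Y.a s t) := by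
  have _ := h6
  choose! a ha1 ha2 ha3 using fun s (hs : s ∈ C) t (ht : t ∈ C) (hst : s ≠ t) =>
    exists_essSup hS (𝔽 s) (side s t) ((h1 s hs t ht hst).mono fun w h => h.1)
  have sep : ∀ s ∈ C, ∀ t ∈ C, ∀ t' ∈ C, s ≠ t → s ≠ t' → ¬ B.AEq (a s t) (a s t') →
      ∃ᶠ w in 𝔽 s, B.Sub (a s t)ᶜ (side s t' w) := by
    intro s hs t ht t' ht' hst hst' hn
    have H : ∃ᶠ w in 𝔽 s, side s t w ≠ side s t' w := by
      refine not_eventually.1 fun H => hn ⟨ha3 s hs t ht hst _ (ha1 s hs t' ht' hst').1 ?_,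
        ha3 s hs t' ht' hst' _ (ha1 s hs t ht hst).1 ?_⟩
      · filter_upwards [H, ha2 s hs t' ht' hst'] with w e h using e ▸ h
      · filter_upwards [H, ha2 s hs t ht hst] with w e h using e ▸ h
    refine (H.and_eventually ((h2 s hs t ht t' ht' hst hst').and (ha2 s hs t ht hst))).mono
      fun w ⟨e, e', h⟩ => ?_
    have h' := h.compl
    rwa [e'.resolve_left e, compl_compl] at h'
  have inv : ∀ g s, act g⁻¹ (act g s) = s := fun g s => by rw [← act_mul, inv_mul_cancel, act_one]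
  have ne : ∀ g s t, s ≠ t → act g s ≠ act g t := fun g s t h e =>
    h (by rw [← inv g s, e, inv])
  have eq1 : ∀ g, ∀ s ∈ C, ∀ t ∈ C, s ≠ t → B.Sub (a s t) (g⁻¹ • a (act g s) (act g t)) := by
    intro g s hs t ht hst
    have hs' := act_mem g s hs
    have ht' := act_mem g t ht
    refine ha3 s hs t ht hst _ (measurableSet_smul_bd _ (ha1 _ hs' _ ht' (ne g s t hst)).1) ?_
    filter_upwards [(h4 g s hs).eventually (ha2 _ hs' _ ht' (ne g s t hst)), h5 g s hs t ht hst]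
      with w h e
    rwa [← B.sub_smul hS g, smul_inv_smul, ← e]
  refine ⟨⟨C, act, act_one, act_mul, act_mem, a, fun s hs t ht hst => ⟨ha1 s hs t ht hst, ?_⟩,
    fun s hs t ht hst => ?_, fun s hs t ht t' ht' hst hst' => ?_, fun g s hs t ht hst => ⟨?_, ?_⟩,
    fun t₀ m₀ t₁ m₁ t₂ m₂ t₃ m₃ n₀ n₁ n₂ e₁ e₂ => ?_⟩, rfl, rfl, ha2⟩
  · have := hne s hs
    obtain ⟨w, h, h'⟩ := ((h1 s hs t ht hst).and (ha2 s hs t ht hst)).exists
    exact fun h0 => h.2.1 (h0.of_sub h')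
  · have h : B.Sub (a s t) (a t s)ᶜ := by
      refine ha3 s hs t ht hst _ (ha1 t ht s hs hst.symm).1.compl ?_
      filter_upwards [h1 s hs t ht hst, h3 s hs t ht hst] with w hw hf
      have h : B.Sub (a t s) (side s t w)ᶜ := by
        refine ha3 t ht s hs hst.symm _ hw.1.1.compl ?_
        filter_upwards [h1 t ht s hs hst.symm, hf] with w' hw' hf'
        rw [Sub, sdiff_compl]
        exact hf'.symm.null_inter hS hw'.1 hw.1
      exact compl_compl (side s t w) ▸ h.compl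
    rwa [Sub, sdiff_compl] at h
  · refine or_iff_not_imp_left.2 fun hn => ?_
    obtain ⟨w, h, h'⟩ := ((sep s hs t ht t' ht' hst hst' hn).and_eventually
      (ha2 s hs t' ht' hst')).exists
    exact h.trans h'
  · have h := eq1 g⁻¹ _ (act_mem g s hs) _ (act_mem g t ht) (ne g s t hst)
    rwa [inv_inv, inv, inv] at h
  · rw [← B.sub_smul hS g⁻¹, inv_smul_smul]
    exact eq1 g s hs t ht hst
  · obtain ⟨w, h, hf⟩ := ((sep t₁ m₁ t₀ m₀ t₂ m₂ n₀.symm n₁ e₁).and_eventually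
      (h3 t₁ m₁ t₂ m₂ n₁)).exists
    obtain ⟨w', h', hf'⟩ := ((sep t₂ m₂ t₃ m₃ t₁ m₁ n₂ n₁.symm e₂).and_eventually hf).exists
    exact hf'.mono hS h h'


end Bdry

end Vale.Agent.P239
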