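import Vale.Agent.P239.Full.FAE3
import Vale.Agent.P239.Full.FAEQ
import Vale.Agent.P239.Full.FSys
import Vale.Agent.P239.Full.FCls

/-! Task FClsE: the class system of an environment. `N g = act g⁻¹ ⁻¹' N`; `N (g * h) = act g⁻¹ ⁻¹' N h`. `M = {g | N g =ᵐ N}` is a subgroup (`mp_act`), `N g =ᵐ N h ↔ g⁻¹ * h ∈ M`. Classes `α = G ⧸ M`, `act = (· • ·)`, `C = univ`,
`𝔽 s = ae m ⊓ 𝓟 (N s.out)`, `side s t w = hatSet (if ∀ᶠ w' in 𝔽 t, Fn w w' then U w else (U w)ᶜ)`, `wact = E.act`. `aeq_preimage` with `bad_act`, `aeq_eq_or`: points of different classes are typically not `Bad`, points of one class typically `Bad`.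
`h3`: for typical `w ∈ 𝔽 s`, `w' ∈ 𝔽 t`, `ae_dir` (first part for `side s t w`, second part for `side t s w'`) identifies the sides with `away`, then `ae_fvp`. `h5`: `map (act g) (𝔽 t) = 𝔽 (g • t)`, `fn_act`.
For typical `w ∈ 𝔽 [1]` (`α` is countable) `A = hatSet (U w)` is a `Wall` of `[1]`; `cofinite_vis`, `sees_of_wall`; the stabiliser of `[1]` is `M`.
-/

noncomputable section

open Classical MeasureTheory Filter Topology Set
open scoped Pointwise ENNReal

namespace Vale.Agent.P239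

universe u
variable {G : Type u} [Group G] {S : Finset G} {l : ℕ} {Q : Cones S} {B : Bdry S}
  {X : Type u} [MeasurableSpace X]

namespace REnv
variable (E : REnv G X)

/-- Translates of `N`. -/
def ceN (N : Set (X × Pt G)) (g : G) : Set (X × Pt G) := E.act g⁻¹ ⁻¹' N

variable [Countable G]

theorem ceN_one (N : Set (X × Pt G)) : E.ceN N 1 = N := by
  ext z
  rw [ceN, mem_preimage, inv_one, E.act_one]

theorem ceN_mul (N : Set (X × Pt G)) (g h : G) : E.ceN N (g * h) = E.ceN (E.ceN N h) g := by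
  ext z
  rw [ceN, mem_preimage, mul_inv_rev, E.act_mul]
  rfl

theorem ceN_congr {N N' : Set (X × Pt G)} (h : N =ᵐ[E.m] N') (g : G) :
    E.ceN N g =ᵐ[E.m] E.ceN N' g := (E.mp_act g⁻¹).quasiMeasurePreserving.preimage_ae_eq h

/-- The stabiliser of the class of `N`. -/
def ceM (N : Set (X × Pt G)) : Subgroup G where
  carrier := {g | E.ceN N g =ᵐ[E.m] N}
  one_mem' := by
    change E.ceN N 1 =ᵐ[E.m] N
    rw [ceN_one]
    exact EventuallyEq.rfl
  mul_mem' := fun {a b} ha hb => by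
    change E.ceN N (a * b) =ᵐ[E.m] N
    rw [ceN_mul]
    exact (E.ceN_congr hb a).trans ha
  inv_mem' := fun {a} ha => by
    have h := E.ceN_congr ha a⁻¹
    rw [← ceN_mul, inv_mul_cancel, ceN_one] at h
    exact h.symm

theorem ceN_eq_iff (N : Set (X × Pt G)) (g h : G) :
    E.ceN N g =ᵐ[E.m] E.ceN N h ↔ g⁻¹ * h ∈ E.ceM N := by
  constructor
  · intro e
    have h1 := E.ceN_congr e g⁻¹
    rw [← ceN_mul, ← ceN_mul, inv_mul_cancel, ceN_one] at h1
    exact h1.symm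
  · intro e
    have h1 := E.ceN_congr e g
    rw [← ceN_mul, mul_inv_cancel_left] at h1
    exact h1.symm

/-- The filter of typical points of a class. -/
def ceF (N : Set (X × Pt G)) (s : G ⧸ E.ceM N) : Filter (X × Pt G) :=
  ae E.m ⊓ 𝓟 (E.ceN N s.out)

theorem ceF_iff {N : Set (X × Pt G)} (g : G) {p : X × Pt G → Prop} :
    (∀ᶠ z in E.ceF N g, p z) ↔ ∀ᵐ z ∂E.m, z ∈ E.ceN N g → p z := by
  have h := (E.ceN_eq_iff N _ g).2 (QuotientGroup.eq.1 (QuotientGroup.out_eq' (g : G ⧸ E.ceM N)))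
  rw [ceF, eventually_inf_principal]
  refine eventually_congr ?_
  filter_upwards [h.mem_iff] with z hz
  rw [hz]

theorem ceF_ae {N : Set (X × Pt G)} (s : G ⧸ E.ceM N) {p : X × Pt G → Prop}
    (h : ∀ᵐ z ∂E.m, p z) : ∀ᶠ z in E.ceF N s, p z := h.filter_mono inf_le_left

theorem ceF_tendsto (N : Set (X × Pt G)) (g : G) (s : G ⧸ E.ceM N) :
    Tendsto (E.act g) (E.ceF N s) (E.ceF N (g • s)) := by
  induction s using QuotientGroup.induction_on with | H h => ?_
  intro A hA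
  have h1 : ∀ᶠ z in E.ceF N ((g * h : G) : G ⧸ E.ceM N), z ∈ A := hA
  have h2 := (E.mp_act g).quasiMeasurePreserving.ae ((E.ceF_iff _).1 h1)
  refine (E.ceF_iff h (p := fun z => E.act g z ∈ A)).2 ?_
  filter_upwards [h2] with z hz hz'
  refine hz ?_
  rw [ceN_mul, ceN, mem_preimage, ← E.act_mul, inv_mul_cancel, E.act_one]
  exact hz'

theorem ceF_neBot {N : Set (X × Pt G)} (hm : MeasurableSet N) (h0 : E.m N ≠ 0)
    (s : G ⧸ E.ceM N) : (E.ceF N s).NeBot := by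
  refine ⟨fun h => h0 ?_⟩
  rw [ceF, inf_principal_eq_bot, compl_mem_ae_iff, ceN,
    (E.mp_act _).measure_preimage hm.nullMeasurableSet] at h
  exact h

variable {N : Set (X × Pt G)}
  (hN : ∀ᵐ a ∂E.m, a ∈ N → ∀ᵐ b ∂E.m, (E.Bad Q a b ↔ b ∈ N))
include hN

theorem ce_typ (g : G) :
    ∀ᵐ a ∂E.m, a ∈ E.ceN N g → ∀ᵐ b ∂E.m, (E.Bad Q a b ↔ b ∈ E.ceN N g) :=
  aeq_preimage (E.mp_act g⁻¹) (E.bad_act g⁻¹) hN

theorem ce_same (s : G ⧸ E.ceM N) : ∀ᶠ a in E.ceF N s, ∀ᶠ b in E.ceF N s, E.Bad Q a b := by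
  induction s using QuotientGroup.induction_on with | H g => ?_
  rw [ceF_iff]
  filter_upwards [E.ce_typ hN g] with a ha ha'
  rw [ceF_iff]
  filter_upwards [ha ha'] with b hb
  exact hb.2

theorem ce_diff {s t : G ⧸ E.ceM N} (h : s ≠ t) :
    ∀ᶠ a in E.ceF N s, ∀ᶠ b in E.ceF N t, ¬ E.Bad Q a b := by
  induction s using QuotientGroup.induction_on with | H g => ?_
  induction t using QuotientGroup.induction_on with | H g' => ?_
  rcases aeq_eq_or (E.ce_typ hN g) (E.ce_typ hN g') with e | e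
  · exact absurd (QuotientGroup.eq.2 ((E.ceN_eq_iff N g g').1 e)) h
  · simp only [ceF_iff]
    exact e

end REnv

theorem ce_iff {Z : Type*} {F : Filter Z} [F.NeBot] {p : Z → Prop} {q : Prop}
    (h : ∀ᶠ c in F, (q ↔ p c)) : (∀ᶠ c in F, p c) ↔ q :=
  ⟨fun h1 => by
    obtain ⟨c, h2, h3⟩ := (h.and h1).exists
    exact h2.2 h3, fun h1 => h.mono fun _ h2 => h2.1 h1⟩

/-- The side of the wall at `w` away from the typical walls of `F`. -/
def TEnv.ceS (E : TEnv B Q l X) (F : Filter (X × Pt G)) (w : X × Pt G) : Set (Bd G) :=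
  hatSet (if ∀ᶠ w' in F, E.Fn w w' then E.U w.1 w.2 else (E.U w.1 w.2)ᶜ)

theorem TEnv.ceS_or (E : TEnv B Q l X) (F : Filter (X × Pt G)) (w : X × Pt G) :
    E.ceS F w = hatSet (E.U w.1 w.2) ∨ E.ceS F w = (hatSet (E.U w.1 w.2))ᶜ := by
  unfold TEnv.ceS
  split_ifs
  · exact Or.inl rfl
  · exact Or.inr (hatSet_compl _)

theorem TEnv.ceS_eq (E : TEnv B Q l X) {F : Filter (X × Pt G)} [F.NeBot] {w w' : X × Pt G}
    (h : ∀ᶠ c in F, (E.Fn w w' ↔ E.Fn w c)) :
    E.ceS F w = hatSet (away (E.U w.1 w.2) (wallV S (E.U w'.1 w'.2))) := by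
  unfold TEnv.ceS away
  rw [if_congr (ce_iff h) rfl rfl]
  rfl

theorem TEnv.exists_M (hH : RH S l Q) (E : TEnv B Q l X) {N : Set (X × Pt G)}
    (hm : MeasurableSet N) (h0 : E.m N ≠ 0)
    (hN : ∀ᵐ a ∂E.m, a ∈ N → ∀ᵐ b ∂E.m, (E.Bad Q a b ↔ b ∈ N)) :
    ∃ (M : Subgroup G) (A : Set (Bd G)) (R : ℕ), B.Good A ∧ B.Two A ∧
      wallV S (B.lev A) ⊆ nbh S R M ∧ ∀ t ∈ M, E.act t⁻¹ ⁻¹' N =ᵐ[E.m] N := by
  have hS := hH.cay
  have := hS.countable
  have hne := E.ceF_neBot hm h0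
  have hc : ∀ s, CountableInterFilter (E.ceF N s) := fun s => by
    unfold REnv.ceF
    infer_instance
  have hw : ∀ s, ∀ᶠ w in E.ceF N s, B.Good (hatSet (E.U w.1 w.2)) ∧ B.Two (hatSet (E.U w.1 w.2)) :=
    fun s => (E.ceF_ae s (E.ae_wok hS)).mono fun w h => ⟨h.thin.good B hS hH.gap, h.two⟩
  have h6 : ∀ g w, E.act g (E.act g⁻¹ w) = w := fun g w => by
    rw [← E.act_mul, mul_inv_cancel, E.act_one]
  obtain ⟨Y, hC, hact, hY⟩ := B.exists_classSys (Q := Q) hS (univ : Set (G ⧸ E.ceM N)) (· • ·)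
    (one_smul G) mul_smul (fun _ _ _ => trivial) (E.ceF N) hc (fun s _ => hne s)
    (fun _ t => E.ceS (E.ceF N t)) E.act
    (fun s _ t _ _ => (hw s).mono fun w h => by
      rcases E.ceS_or (E.ceF N t) w with e | e <;> rw [e]
      exacts [h, ⟨h.1.compl, h.2.compl⟩])
    (fun s _ t _ t' _ _ _ => Eventually.of_forall fun w => by
      rcases E.ceS_or (E.ceF N t) w with e | e <;> rcases E.ceS_or (E.ceF N t') w with e' | e' <;>
        simp [e, e'])
    (fun s _ t _ hst => by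
      filter_upwards [E.ce_diff hN hst, E.ce_same hN s, E.ceF_ae s (E.ae_dir hH),
        E.ceF_ae s (E.ae_fvp hH)] with w a1 a2 a3 a4
      filter_upwards [a1, E.ce_same hN t, E.ceF_ae t a3, E.ceF_ae t a4] with w' b1 b2 b3 b4
      have := hne s
      have := hne t
      rw [E.ceS_eq (w' := w') ((b2.and (E.ceF_ae t b3)).mono fun c h => h.2.1 b1 h.1),
        E.ceS_eq (w' := w) ((a2.and (E.ceF_ae s b3)).mono fun c h =>
          h.2.2 (fun h' => b1 (E.bad_symm h')) h.1)]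
      exact b4 b1)
    (fun g s _ => E.ceF_tendsto N g s)
    (fun g s _ t _ _ => Eventually.of_forall fun w => by
      have e : (∀ᶠ w' in E.ceF N (g • t), E.Fn (E.act g w) w') ↔ ∀ᶠ w' in E.ceF N t, E.Fn w w' := by
        refine ⟨fun h => ((E.ceF_tendsto N g t).eventually h).mono fun c h' =>
          (E.fn_act g w c).1 h', fun h => ?_⟩
        have h1 := E.ceF_tendsto N g⁻¹ (g • t)
        rw [inv_smul_smul] at h1
        refine (h1.eventually h).mono fun c h' => ?_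
        rw [← E.fn_act g, h6] at h'
        exact h'
      unfold TEnv.ceS
      rw [if_congr e rfl rfl, smul_hatSet, E.U_act]
      split_ifs
      · rfl
      · rw [smul_set_compl]) h6
  have := hne ((1 : G) : G ⧸ E.ceM N)
  have := hc ((1 : G) : G ⧸ E.ceM N)
  have : Countable (G ⧸ E.ceM N) := QuotientGroup.mk_surjective.countable
  have h1 : ∀ᶠ w in E.ceF N ((1 : G) : G ⧸ E.ceM N), ∀ t, t ≠ ((1 : G) : G ⧸ E.ceM N) →
      B.Sub (E.ceS (E.ceF N t) w) (Y.a ((1 : G) : G ⧸ E.ceM N) t) :=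
    eventually_countable_forall.2 fun t => eventually_imp_distrib_left.2 fun ht =>
      hY _ trivial t trivial ht.symm
  obtain ⟨w, w1, w2⟩ := (h1.and (hw _)).exists
  have hW : Y.Wall ((1 : G) : G ⧸ E.ceM N) (hatSet (E.U w.1 w.2)) :=
    ⟨measurableSet_hatSet _, fun t _ ht => by
      have h2 := w1 t ht
      rcases E.ceS_or (E.ceF N t) w with e | e <;> rw [e] at h2
      exacts [Or.inl h2, Or.inr h2]⟩
  have hp : (0 : ℝ) < 1 / (2 * S.card) := by
    have : (0 : ℝ) < S.card := by exact_mod_cast hS.card_pos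
    positivity
  obtain ⟨F, hF, hv⟩ := Y.cofinite_vis hH (hC ▸ trivial) hW hp
  obtain ⟨R, hR⟩ := hS.finite_subset_ball hF
  refine ⟨E.ceM N, _, R, w2.1, w2.2, fun x hx => ?_, fun t ht => ht⟩
  obtain ⟨g, g1, g2⟩ := hv x (B.sees_of_wall hS (measurableSet_hatSet _) hx)
  rw [hact] at g1
  have g3 : (g * 1)⁻¹ * 1 ∈ E.ceM N := QuotientGroup.eq.1 g1
  rw [mul_one, mul_one, inv_mem_iff] at g3
  exact ⟨g, g3, hR _ g2⟩

end Vale.Agent.P239
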