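import Vale.Agent.P239.Full.FPE
import Vale.Agent.P239.Full.FFib2

/-! Task FCob: limits of coboundaries. `T = ball S ρ`; an edge `(x, b)` is inner if `b ∈ T`, `x ∈ C`, `x * b ∈ C`.
`cobLim_of_wd`: `mem_closure_span` with `α = G × G`, `b k` = gradient of the point mass at the `k`-th group element restricted to inner edges (finitely supported), `K = univ`, `e` = gradient of `ind A` on inner edges (support in `crossE`).
If `v` is square summable and orthogonal to all `b k`, its restriction `f` to inner edges is divergence free, `pairE T f u = 0` by `WD`; `p = (u - ind A) 1_C` has finite support so `pairE T f p = 0` (`pairE_sqSum`), hence `prF e v = pairE T f (ind A) = 0`.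
`coblim_orth`: Cauchy-Schwarz: `|pairE f (ind A) - pairE f φ|² ≤ ‖f‖² / (m+1)` and `pairE f φ = 0`.
-/

noncomputable section

open Classical MeasureTheory Filter Topology Set
open scoped Pointwise ENNReal

namespace Vale.Agent.P239

universe u
variable {G : Type u} [Group G] {S : Finset G}

/-- The gradient on inner edges as a function on `G × G`. -/
def cobE (T : Finset G) (C : Set G) (w : G → ℝ) (e : G × G) : ℝ := edR T C w e.1 e.2

theorem cob_sq {α : Type*} {v : α → ℝ} (h : (Function.support v).Finite) : SqSum v :=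
  summable_of_hasFiniteSupport (h.subset fun x hx h0 => hx (by simp only [h0]; norm_num))

theorem cob_pair {T : Finset G} {C : Set G} {f : G → G → ℝ} (hf : SqE T f)
    (hs : ∀ x b, f x b ≠ 0 → x ∈ C ∧ x * b ∈ C) {w : G → ℝ} (hw : SqSum (cobE T C w)) :
    pairE T f w = ∑' e, cobE T C w e * f2unc T f e := by
  have h1 : SqE T (edR T C w) := fun b _ =>
    hw.comp_injective (i := fun x : G => (x, b)) fun x y h => (Prod.ext_iff.1 h).1
  have h2 : ∀ e, cobE T C w e = f2unc T (edR T C w) e := by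
    intro e
    unfold cobE f2unc
    split_ifs with h
    · rfl
    · exact if_neg fun h' => h h'.1
  simp only [h2]
  rw [f2_unc_mul hf h1]
  refine tsum_congr fun x => Finset.sum_congr rfl fun b hb => ?_
  by_cases h0 : f x b = 0
  · rw [h0, zero_mul, zero_mul]
  · rw [edR, if_pos ⟨hb, hs x b h0⟩]

theorem cob_fin (T : Finset G) (C : Set G) {w : G → ℝ} (hw : (Function.support w).Finite) :
    (Function.support (cobE T C w)).Finite := by
  have h1 := hw.prod T.finite_toSet
  refine (h1.union (h1.image fun e => (e.1 * e.2⁻¹, e.2))).subset fun e he => ?_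
  have h2 : e.2 ∈ T ∧ e.1 ∈ C ∧ e.1 * e.2 ∈ C := by
    by_contra h3
    exact he (if_neg h3)
  by_cases h3 : w e.1 = 0
  · refine Or.inr ⟨(e.1 * e.2, e.2), ⟨fun h4 => he ?_, h2.1⟩, by simp⟩
    rw [cobE, edR, if_pos h2, h3, sub_zero]
    exact h4
  · exact Or.inl ⟨h3, h2.1⟩

theorem cob_fin_ind {ρ : ℕ} {C A : Set G} (hc : (crossE S ρ C A).Finite) :
    (Function.support (cobE (ball S ρ) C (ind A))).Finite := by
  refine hc.subset fun e he => ?_
  have h2 : e.2 ∈ ball S ρ ∧ e.1 ∈ C ∧ e.1 * e.2 ∈ C := by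
    by_contra h3
    exact he (if_neg h3)
  refine ⟨h2.1, h2.2.1, h2.2.2, fun h3 => he ?_⟩
  rw [cobE, edR, if_pos h2, sub_eq_zero]
  exact if_congr h3.symm rfl rfl

theorem cob_point (T : Finset G) (f : G → G → ℝ) (y : G) :
    pairE T f (ind {y}) = ∑ b ∈ T, (f (y * b⁻¹) b - f y b) := by
  have h1 : ∀ b, HasSum (fun x => f x b * (ind {y} (x * b) - ind {y} x))
      (f (y * b⁻¹) b - f y b) := by
    intro b
    have h2 := (hasSum_ite_eq (y * b⁻¹) (f (y * b⁻¹) b)).sub (hasSum_ite_eq y (f y b))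
    refine (congrArg (fun F => HasSum F (f (y * b⁻¹) b - f y b)) (funext fun x => ?_)).mp h2
    have h3 : x * b ∈ ({y} : Set G) ↔ x = y * b⁻¹ := by rw [mem_singleton_iff, eq_mul_inv_iff_mul_eq]
    unfold ind
    rw [mul_sub, mul_ite, mul_ite, mul_one, mul_zero]
    refine congrArg₂ (· - ·) ?_ ?_
    · by_cases h4 : x = y * b⁻¹
      · rw [if_pos h4, if_pos (h3.2 h4), h4]
      · rw [if_neg h4, if_neg fun h5 => h4 (h3.1 h5)]
    · by_cases h4 : x = y
      · rw [if_pos h4, if_pos (show x ∈ ({y} : Set G) from h4), h4]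
      · rw [if_neg h4, if_neg (show x ∉ ({y} : Set G) from h4)]
  exact (hasSum_sum fun b _ => h1 b).tsum_eq

theorem cobLim_of_wd (hS : Cay S) {ρ : ℕ} {C A : Set G} (h : WD S (ball S ρ) C) {u : G → ℝ}
    (hu : FinEn S u) (he : {x | x ∈ C ∧ u x ≠ ind A x}.Finite) (hc : (crossE S ρ C A).Finite) :
    CobLim S ρ C A := by
  have := hS.countable
  obtain ⟨g, hg⟩ := exists_surjective_nat G
  have hpt : ∀ y : G, (Function.support (ind ({y} : Set G))).Finite := fun y =>
    (finite_singleton y).subset fun x hx => by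
      by_contra h1
      exact hx (if_neg h1)
  set T := ball S ρ with hT
  let b : ℕ → G × G →₀ ℝ := fun k => Finsupp.ofSupportFinite _ (cob_fin T C (hpt (g k)))
  let e : G × G →₀ ℝ := Finsupp.ofSupportFinite _ (cob_fin_ind hc)
  have key := (mem_closure_span b univ e).1 (by
    intro v hv hb
    let f : G → G → ℝ := fun x b => if b ∈ T ∧ x ∈ C ∧ x * b ∈ C then v (x, b) else 0
    have hf : SqE T f := fun b _ => Summable.of_nonneg_of_le (fun _ => sq_nonneg _)
      (fun x => by
        simp only [f]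
        split_ifs
        · exact le_rfl
        · rw [zero_pow two_ne_zero]
          exact sq_nonneg _)
      (hv.comp_injective (i := fun x : G => (x, b)) fun x y h => (Prod.ext_iff.1 h).1)
    have hs : ∀ x b, f x b ≠ 0 → x ∈ C ∧ x * b ∈ C := fun x b h0 => by
      by_contra h1
      exact h0 (if_neg fun h2 => h1 h2.2)
    have hp : ∀ (w : G → ℝ) (hw : (Function.support (cobE T C w)).Finite),
        prF (Finsupp.ofSupportFinite _ hw) v = pairE T f w := by
      intro w hw
      rw [cob_pair hf hs (cob_sq hw), ← f2_tsum]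
      refine tsum_congr fun ε => ?_
      change cobE T C w ε * v ε = _
      by_cases h1 : ε.2 ∈ T ∧ ε.1 ∈ C ∧ ε.1 * ε.2 ∈ C
      · simp only [f2unc, f, if_pos h1, if_pos h1.1]
      · rw [cobE, edR, if_neg h1, zero_mul, zero_mul]
    have hd : DivFree T f := fun y => by
      obtain ⟨k, rfl⟩ := hg y
      rw [← cob_point, ← hp _ (cob_fin T C (hpt (g k)))]
      exact hb k (mem_univ k)
    have hq : SqSum fun x => if x ∈ C then u x - ind A x else 0 :=
      cob_sq (he.subset fun x hx => by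
        by_cases h1 : x ∈ C
        · exact ⟨h1, fun h2 => hx (by simp only [if_pos h1, h2, sub_self])⟩
        · exact absurd (if_neg h1) hx)
    obtain ⟨K, -, hK⟩ := FinEn.of_cay hS T
    have h1 := pairE_sub hf (hK u hu).1 hq.finEn
    rw [h u hu f hf hs hd, pairE_sqSum hf hd hq, sub_zero] at h1
    rw [hp _ (cob_fin_ind hc), ← h1]
    refine pairE_congr fun x b _ h0 => ?_
    rw [if_pos (hs x b h0).1, if_pos (hs x b h0).2]
    ring)
  intro m
  obtain ⟨c, -, hc'⟩ := key m
  refine ⟨c.sum fun k a => Finsupp.single (g k) a, fun W => ?_⟩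
  refine le_trans ?_ hc'.le
  rw [← f2fs_norm, ry_norm]
  refine le_trans (le_of_eq (Finset.sum_congr rfl fun ε _ => ?_))
    ((f2_sq _).sum_le_tsum W fun _ _ => sq_nonneg _)
  have h1 : ∀ y, (((c.sum fun k a => Finsupp.single (g k) a) y : ℚ) : ℝ) =
      ∑ k ∈ c.support, (c k : ℝ) * ind {g k} y := by
    intro y
    rw [Finsupp.sum, Finsupp.finsetSum_apply, Rat.cast_sum]
    refine Finset.sum_congr rfl fun k _ => ?_
    by_cases h2 : y = g k
    · simp [ind, h2]
    · simp [ind, h2]
  rw [h1, h1, f2fs_apply, Finsupp.sub_apply, Finsupp.sum, Finsupp.finsetSum_apply]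
  change _ = (cobE T C (ind A) ε - ∑ k ∈ c.support, (c k : ℝ) * cobE T C (ind {g k}) ε) ^ 2
  unfold cobE edR
  split_ifs
  · simp only [mul_sub, Finset.sum_sub_distrib]
  · simp

theorem coblim_orth {ρ : ℕ} {C A : Set G} (h : CobLim S ρ C A) (hc : (crossE S ρ C A).Finite)
    {f : G → G → ℝ} (hf : SqE (ball S ρ) f) (hs : ∀ x b, f x b ≠ 0 → x ∈ C ∧ x * b ∈ C)
    (hd : DivFree (ball S ρ) f) : pairE (ball S ρ) f (ind A) = 0 := by
  set T := ball S ρ with hT
  have hA := cob_sq (cob_fin_ind hc)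
  have key : ∀ m : ℕ, pairE T f (ind A) ^ 2 ≤
      1 / ((m : ℝ) + 1) * ‖f2to _ (f2_unc_sq hf)‖ ^ 2 := by
    intro m
    obtain ⟨φ, hφ⟩ := h m
    have h1 : (Function.support fun x => (φ x : ℝ)).Finite :=
      φ.support.finite_toSet.subset fun x hx => Finsupp.mem_support_iff.2 fun h0 =>
        hx (by simp only [h0, Rat.cast_zero])
    have h2 := cob_sq (cob_fin T C h1)
    have h3 : inner ℝ (f2to _ h2) (f2to _ (f2_unc_sq hf)) = 0 := by
      rw [ry_inner, ← pairE_sqSum hf hd (cob_sq h1), cob_pair hf hs h2]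
      rfl
    have h4 : pairE T f (ind A) = inner ℝ (f2to _ hA - f2to _ h2) (f2to _ (f2_unc_sq hf)) := by
      rw [inner_sub_left, h3, sub_zero, ry_inner, cob_pair hf hs hA]
      rfl
    have h5 : ‖f2to _ hA - f2to _ h2‖ ^ 2 ≤ 1 / ((m : ℝ) + 1) := by
      rw [← f2_dist]
      refine Real.tsum_le_of_sum_le (fun _ => sq_nonneg _) fun W => le_trans (le_of_eq ?_) (hφ W)
      refine Finset.sum_congr rfl fun ε _ => ?_
      simp only [f2to_apply, cobE, edR]
      split_ifs
      · rfl
      · simp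
    rw [h4, ← sq_abs]
    calc _ ≤ (‖f2to _ hA - f2to _ h2‖ * ‖f2to _ (f2_unc_sq hf)‖) ^ 2 :=
          pow_le_pow_left₀ (abs_nonneg _) (abs_real_inner_le_norm _ _) 2
      _ ≤ _ := by
          rw [mul_pow]
          exact mul_le_mul_of_nonneg_right h5 (sq_nonneg _)
  have h1 := (tendsto_one_div_add_atTop_nhds_zero_nat (𝕜 := ℝ)).mul_const
    (‖f2to _ (f2_unc_sq hf)‖ ^ 2)
  rw [zero_mul] at h1
  exact pow_eq_zero_iff two_ne_zero |>.1 (le_antisymm (ge_of_tendsto' h1 key) (sq_nonneg _))

end Vale.Agent.P239
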