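import Vale.Agent.P239.Full.FNest
import Vale.Agent.P239.LimC

/-! Task FCoreA: limits of translates of the complement of the union of a chain.
`f1`: translate by `g⁻¹`, `sub_of_ssub` with `b = J.a` gives `E ⊆ a j`, then `FVP.mono`.
`Lim.appr`: `R = lim g k • Aᶜ`, these are seen from `1` eventually; take a monotone subsequence (`exists_mono_subseq`). If the sets `g k • A` increase to `Rᶜ`, approximate `Rᶜ` from inside by
`g k • a (j k)` (choose `j k` with measure of `g k • (A \ a (j k))` less than `1/(k+1)`), `FVP (g k • a j) (g k • Aᶜ)` and `R ⊆ g k • Aᶜ`. If `g k • Aᶜ` increases to `R`: either `g k • Aᶜ` is a.e. equal to `R` for some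
`k` (then use `g k • a j`, first case) or all are strictly smaller than `R`, so `Rᶜ` is strictly contained in `g k • A` and `f1` gives `FVP Rᶜ (g k • Aᶜ)`.
`Appr.stab`: for large `k`, `E k ∩ g • E k` and the intersection of the complements are nonnull, so `g • E k ⊆ E k` or `g⁻¹ • E k ⊆ E k`; then (`limC_pow`) all powers of `g` (or `g⁻¹`) see `E k` and `X`, contradiction with `FVP`
as `g` has infinite order. `Appr.fvp`: `sub_of_ssub`. `Lim.of_cv`: diagonal sequence.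
-/

noncomputable section

open Classical MeasureTheory Filter Topology Set
open scoped Pointwise ENNReal

namespace Vale.Agent.P239

universe u
variable {G : Type u} [Group G] {S : Finset G} {l : ℕ} {Q : Cones S} {B : Bdry S}

namespace Bdry
variable {Φ : B.NFam}

/-- `Xᶜ` is approximated from inside by events with finite visibility towards `X`. -/
def NFam.In (Φ : B.NFam) (Q : Cones S) (X : Set (Bd G)) : Prop :=
  ∃ E : ℕ → Set (Bd G), (∀ k, Φ.Clo (E k)) ∧ (∀ k, B.Sub (E k) Xᶜ) ∧ (∀ k, B.FVP Q (E k) X) ∧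
    B.Cv E Xᶜ

def NFam.Appr (Φ : B.NFam) (Q : Cones S) (X : Set (Bd G)) : Prop := Φ.In Q X ∨ Φ.In Q Xᶜ

theorem fca_diag {b : ℕ → ℕ → Set (Bd G)} {R : ℕ → Set (Bd G)} {X : Set (Bd G)}
    (h : ∀ k, B.Cv (b k) (R k)) (hc : B.Cv R X) : ∃ j : ℕ → ℕ, B.Cv (fun k => b k (j k)) X := by
  have h1 : ∀ k : ℕ, ∃ j, B.μ 1 (symmDiff (b k j) (R k)) < (k : ℝ≥0∞)⁻¹ := fun k =>
    ((h k).eventually (gt_mem_nhds (ENNReal.inv_pos.2 (ENNReal.natCast_ne_top k)))).exists
  choose j hj using h1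
  refine ⟨j, ?_⟩
  have t := ENNReal.tendsto_inv_nat_nhds_zero.add hc
  rw [add_zero] at t
  refine tendsto_of_tendsto_of_tendsto_of_le_of_le tendsto_const_nhds t (fun _ => zero_le)
    fun k => ?_
  exact (measure_symmDiff_le _ (R k) _).trans (add_le_add (hj k).le le_rfl)

theorem fca_cv_const {A L : Set (Bd G)} (h : B.AEq A L) : B.Cv (fun _ => A) L := by
  have h1 : B.μ 1 (symmDiff A L) = 0 := measure_union_null h.1 h.2
  exact tendsto_const_nhds.congr fun _ => h1.symm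

theorem fca_compl {A A' : Set (Bd G)} (h : B.Sub Aᶜ A'ᶜ) : B.Sub A' A := by
  have := h.compl
  rwa [compl_compl, compl_compl] at this

theorem fca_ssub_compl {A A' : Set (Bd G)} (h : B.SSub A A') : B.SSub A'ᶜ Aᶜ :=
  ⟨h.1.compl, fun h' => h.2 (fca_compl h')⟩

theorem fca_one (hH : RH S l Q) {E X : Set (Bd G)} {γ : G} (h1 : B.Sub (γ • E) E)
    (h2 : B.Sub (γ • X) X) (hE : ¬ B.Null E) (hX : ¬ B.Null X) (hf : B.FVP Q E X) : γ = 1 := by
  have h3 := hf.1 _ (lt_min (B.h_pos hH.cay hE 1) (B.h_pos hH.cay hX 1))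
  refine hH.tf γ (finite_powers.1 (h3.subset ?_))
  rintro _ ⟨k, rfl⟩
  exact ⟨(min_le_left _ _).trans (limC_pow hH.cay h1 k),
    (min_le_right _ _).trans (limC_pow hH.cay h2 k)⟩

theorem fca_stab (hH : RH S l Q) {X : Set (Bd G)} (h : Φ.In Q X) (h2 : B.Two X) {g : G}
    (hg : B.AEq (g • X) X) : g = 1 := by
  obtain ⟨E, hE1, hE2, hE3, hE4⟩ := h
  have hg' := hg.compl
  rw [← smul_set_compl] at hg'
  have h3 : ¬ B.Null (Xᶜ ∩ g • Xᶜ) := by
    refine lb_pos h2.2 ?_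
    filter_upwards [(B.sub_iff _ _).1 hg'.2] with ξ a1 a2
    exact ⟨a2, a1 a2⟩
  obtain ⟨k, hk⟩ := ((hE4.inter (hE4.smul hH.cay g)).eventually_not_null h3).exists
  have hE : ¬ B.Null (E k) := fun h5 => hk (h5.of_sub (Sub.of_subset inter_subset_left))
  have h4 : ¬ B.Null ((E k)ᶜ ∩ (g • E k)ᶜ) := by
    refine lb_pos h2.1 ?_
    filter_upwards [(B.sub_iff _ _).1 (hE2 k),
      (B.sub_iff _ _).1 (((B.sub_smul hH.cay g _ _).2 (hE2 k)).trans hg'.1)] with ξ a1 a2 a3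
    exact ⟨fun a => a1 a a3, fun a => a2 a a3⟩
  rcases ((hE1 k).nested ((hE1 k).smul hH.cay g)).sub_or hk h4 with h5 | h5
  · exact inv_eq_one.1
      (fca_one hH (limC_inv hH.cay h5) (limC_inv hH.cay hg.2) hE h2.1 (hE3 k))
  · exact fca_one hH h5 hg.1 hE h2.1 (hE3 k)

theorem NFam.Appr.compl {X : Set (Bd G)} (h : Φ.Appr Q X) : Φ.Appr Q Xᶜ := by
  rcases h with h | h
  · right
    rwa [compl_compl]
  · exact Or.inl h

theorem NFam.Appr.stab (hH : RH S l Q) {X : Set (Bd G)} (h : Φ.Appr Q X) (h2 : B.Two X) {g : G}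
    (hg : B.AEq (g • X) X) : g = 1 := by
  rcases h with h | h
  · exact fca_stab hH h h2 hg
  · refine fca_stab hH h h2.compl ?_
    rw [smul_set_compl]
    exact hg.compl

theorem NFam.Appr.fvp (hS : Cay S) {X Y W : Set (Bd G)} (h : Φ.Appr Q Y) (h2 : B.Two Y)
    (hX : Φ.Clo X) (hW : Φ.Clo W) (h1 : B.SSub X Y) (h3 : B.SSub Y W) : B.FVP Q X Wᶜ := by
  rcases h with ⟨E, hE1, hE2, hE3, hE4⟩ | ⟨E, hE1, hE2, hE3, hE4⟩
  · obtain ⟨k, hk⟩ := (sub_of_ssub (fun k => hW.compl.nested (hE1 k)) hE4 hE2 (fca_ssub_compl h3)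
      (by rw [compl_compl]; exact h2.1)).exists
    exact ((hE3 k).mono hS hk h1.1).symm
  · rw [compl_compl] at hE2 hE4
    obtain ⟨k, hk⟩ := (sub_of_ssub (fun k => hX.nested (hE1 k)) hE4 hE2 h1 h2.2).exists
    exact (hE3 k).mono hS hk h3.1.compl

namespace Chain
variable (J : B.Chain Q Φ)

theorem cv_A : B.Cv J.a J.A := cv_iUnion (fun k => (Φ.good _ (J.mem k)).1) J.mono

theorem good_A (hS : Cay S) : B.Good J.A := good_iUnion hS fun k => Φ.good _ (J.mem k)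

theorem two_A : B.Two J.A :=
  ⟨fun h => J.pos (h.of_sub (Sub.of_subset (subset_iUnion J.a 0))), J.pos'⟩

theorem clo_A (hS : Cay S) : Φ.Clo J.A := ⟨J.good_A hS, J.a, J.mem, J.cv_A⟩

theorem lim_smul_A (hS : Cay S) (g : G) : J.Lim (g • J.Aᶜ) :=
  ⟨(J.good_A hS).compl.smul hS g, J.two_A.compl.smul hS g, fun _ => g,
    fca_cv_const ⟨Sub.refl _, Sub.refl _⟩⟩

theorem f1 (hS : Cay S) {E : Set (Bd G)} (hE : Φ.Clo E) {g : G} (h : B.SSub E (g • J.A)) :
    B.FVP Q E (g • J.Aᶜ) := by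
  have h1 : B.SSub (g⁻¹ • E) J.A := by
    refine ⟨?_, fun h' => h.2 ?_⟩
    · have := (B.sub_smul hS g⁻¹ _ _).2 h.1
      rwa [inv_smul_smul] at this
    · have := (B.sub_smul hS g _ _).2 h'
      rwa [smul_inv_smul] at this
  obtain ⟨k, hk⟩ := (sub_of_ssub (fun k => (hE.smul hS g⁻¹).nested (Φ.clo_of_mem (J.mem k)))
    J.cv_A (fun k => Sub.of_subset (subset_iUnion J.a k)) h1 J.pos').exists
  have h2 := ((J.fvp k).mono hS hk (Sub.refl _)).smul g
  rwa [smul_inv_smul] at h2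

theorem fca_in (hS : Cay S) {R : Set (Bd G)} {γ : ℕ → G} (hc : B.Cv (fun k => γ k • J.Aᶜ) R)
    (hs : ∀ k, B.Sub R (γ k • J.Aᶜ)) : Φ.In Q R := by
  have h1 := hc.compl
  simp only [← smul_set_compl, compl_compl] at h1
  obtain ⟨j, hj⟩ := fca_diag (b := fun k j => γ k • J.a j) (fun k => J.cv_A.smul hS (γ k)) h1
  refine ⟨_, fun k => Φ.clo_of_mem (Φ.smul _ _ (J.mem _)), fun k => ?_, fun k => ?_, hj⟩
  · have h2 := (hs k).compl
    rw [← smul_set_compl, compl_compl] at h2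
    exact (Sub.of_subset (smul_set_mono (subset_iUnion J.a (j k)))).trans h2
  · exact ((J.fvp (j k)).smul (γ k)).mono hS (Sub.refl _) (hs k)

variable {J}

theorem Lim.clo (hS : Cay S) {R : Set (Bd G)} (h : J.Lim R) : Φ.Clo R := by
  obtain ⟨h1, -, g, hg⟩ := h
  exact NFam.Clo.of_cv (fun k => (J.clo_A hS).compl.smul hS (g k)) h1 hg

theorem Lim.smul (hS : Cay S) {R : Set (Bd G)} (h : J.Lim R) (g : G) : J.Lim (g • R) := by
  obtain ⟨h1, h2, γ, hγ⟩ := h
  refine ⟨h1.smul hS g, h2.smul hS g, fun k => g * γ k, ?_⟩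
  simp only [mul_smul]
  exact hγ.smul hS g

theorem Lim.of_cv {R : ℕ → Set (Bd G)} {X : Set (Bd G)} (h : ∀ k, J.Lim (R k)) (hX : B.Good X)
    (h2 : B.Two X) (hc : B.Cv R X) : J.Lim X := by
  choose γ hγ using fun k => (h k).2.2
  obtain ⟨j, hj⟩ := fca_diag (b := fun k j => γ k j • J.Aᶜ) hγ hc
  exact ⟨hX, h2, fun k => γ k (j k), hj⟩

theorem Lim.appr (hS : Cay S) {R : Set (Bd G)} (h : J.Lim R) : Φ.Appr Q R := by
  have hclo := h.clo hS
  obtain ⟨h1, h2, g, hg⟩ := h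
  obtain ⟨ε, hε, hs⟩ := h2.exists_sees hS 1
  have e1 := (hg.tendsto_h hS 1).eventually (lt_mem_nhds ((half_lt_self hε).trans_le hs.1))
  have e2 := (hg.compl.tendsto_h hS 1).eventually (lt_mem_nhds ((half_lt_self hε).trans_le hs.2))
  obtain ⟨N, hN⟩ := eventually_atTop.1 (e1.and e2)
  have hC : ∀ x : G, Φ.Clo (x • J.Aᶜ) := fun x => (J.clo_A hS).compl.smul hS x
  obtain ⟨φ, hφ, hm⟩ := exists_mono_subseq (B := B) (A := fun k => g (k + N) • J.Aᶜ)
    (fun k => (hC _).1.1) (fun i j _ => (hC _).nested (hC _)) (half_pos hε)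
    fun k => ⟨(hN _ (Nat.le_add_left N k)).1.le, (hN _ (Nat.le_add_left N k)).2.le⟩
  have hc : B.Cv (fun k => g (φ k + N) • J.Aᶜ) R :=
    hg.comp ((tendsto_add_atTop_nat N).comp hφ.tendsto_atTop)
  rcases hm with hm | hm
  · have h3 : ∀ k, B.Sub (g (φ k + N) • J.Aᶜ) R := fun k =>
      hc.sub_of_frequently' ((eventually_gt_atTop k).mono fun j hj => hm k j hj).frequently
    by_cases h4 : ∃ k, B.Sub R (g (φ k + N) • J.Aᶜ)
    · obtain ⟨k, hk⟩ := h4
      exact Or.inl (J.fca_in hS (γ := fun _ => g (φ k + N)) (fca_cv_const ⟨h3 k, hk⟩) fun _ => hk)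
    · refine Or.inr ⟨fun k => g (φ k + N) • J.Aᶜ, fun k => hC _, fun k => ?_, fun k => ?_, ?_⟩
      · rw [compl_compl]
        exact h3 k
      · have h5 := fca_ssub_compl (B := B) ⟨h3 k, fun h => h4 ⟨k, h⟩⟩
        rw [← smul_set_compl, compl_compl] at h5
        exact (J.f1 hS hclo.compl h5).symm
      · rw [compl_compl]
        exact hc
  · exact Or.inl (J.fca_in hS hc fun k =>
      hc.sub_of_frequently ((eventually_gt_atTop k).mono fun j hj => hm k j hj).frequently)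

theorem Lim.stab (hH : RH S l Q) {R : Set (Bd G)} (h : J.Lim R) {g g' : G}
    (hg : B.AEq (g • R) (g' • R)) : g = g' := by
  have h1 := hg.smul hH.cay g'⁻¹
  rw [inv_smul_smul, ← mul_smul] at h1
  exact (inv_mul_eq_one.1 ((h.appr hH.cay).stab hH h.2.1 h1)).symm

end Chain

end Bdry

end Vale.Agent.P239
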