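import Vale.Agent.P239.Full.FCoreA

/-! Task FCoreC: limit triples. Write `L k = (x k)⁻¹ • a (n k)`, `W k = (x k)⁻¹ • A`, `R k = (W k)ᶜ`, `Z k = W k \ L k`. All these (not `Z`) are in `Φ.Clo`, hence pairwise nested.
Since `h (A \ a n) x → 0` for fixed `x` while `Z k` has measure bounded below, every value of `x k` is taken finitely often.
`eventually_sub`: otherwise `R ⊊ R k` frequently; take a subsequence with distinct `x k` and monotone `R k`; increasing is impossible, so `W k` is strictly increasing (`Lim.stab` for `Aᶜ`). Fix large `k < k'`;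
`f1` gives `FVP (W k) (R k')`. For large `m` the corners `L m ∩ W k`, `(L m)ᶜ ∩ (W k)ᶜ ⊇ R m`, `(L m)ᶜ ∩ W k ⊇ Z m ∩ Z k` are nonnull so `L m ⊆ W k`; also `R m ⊆ R k'`. The infinitely many points
`(x m)⁻¹` see `L m` (at least `h (a 0) 1`) and `R m` (exactly `h Aᶜ 1`), contradiction.
`rigid`: `R, R'` are nested so comparable; say `R ⊊ R'`. Choose `m < m'` large with `R ⊆ R' m ⊊ R' m'` (`sub_of_ssub`, `eventually_sub`, `Lim.stab`) and `Z' m' ∩ Z`, `L' m' ∩ L` nonnull. `f1` gives `FVP (W' m') (R' m)`;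
as above `L k ⊆ W' m'` and `R k ⊆ R ⊆ R' m` for large `k`, the points `(x k)⁻¹` give the contradiction.
`finite_types`: counting as in `Slab.card_le` (LimC.lean): the boxes `L × Z × R` of triples with different `h R` are a.e. disjoint for the threefold product measure.
`cluster_lim`: if `1` and `x` are visible then `R` and `x⁻¹ • R` are among finitely many types, and each pair of types determines `x` (`Lim.stab`). `cluster`: by contradiction with `D` from `cluster_lim`, `exists_LT`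
(the displacement `x⁻¹ y ∈ ball r` is constant along a subsequence).
-/

noncomputable section

open Classical MeasureTheory Filter Topology Set
open scoped Pointwise ENNReal

namespace Vale.Agent.P239

universe u
variable {G : Type u} [Group G] {S : Finset G} {l : ℕ} {Q : Cones S} {B : Bdry S}

namespace Bdry
variable {Φ : B.NFam} {J : B.Chain Q Φ}

theorem cc_const (L : Set (Bd G)) : B.Cv (fun _ => L) L := lbCv_const L

theorem cc_null (g : G) (j : ℕ) : B.μ 1 (g • J.a j ∩ g • J.Aᶜ) = 0 := by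
  rw [← smul_set_inter, Chain.A,
    (disjoint_compl_right_iff_subset.2 (subset_iUnion J.a j)).inter_eq, smul_set_empty,
    measure_empty]

theorem cc_cloL (g : G) (j : ℕ) : Φ.Clo (g • J.a j) := NFam.clo_of_mem (Φ.smul g _ (J.mem j))

theorem cc_cloR (hS : Cay S) (g : G) : Φ.Clo (g • J.Aᶜ) := (J.clo_A hS).compl.smul hS g

theorem cc_h (x b : G) (A : Set (Bd G)) : B.h (x⁻¹ • A) b = B.h A (x * b) := by
  rw [← B.h_smul x⁻¹ (x * b) A, inv_mul_cancel_left]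

theorem cc_vis (hS : Cay S) {A C : ℕ → Set (Bd G)} {L R : Set (Bd G)} (ha : B.Cv A L)
    (hc : B.Cv C R) {ε : ℝ} {b : G} (hv : ∀ k, Vis ε (B.h (A k)) (B.h (C k)) b) :
    Vis ε (B.h L) (B.h R) b :=
  ⟨ge_of_tendsto' (ha.tendsto_h hS b) fun k => (hv k).1,
    ge_of_tendsto' (hc.tendsto_h hS b) fun k => (hv k).2.1,
    ge_of_tendsto' (((ha.tendsto_h hS b).const_sub 1).sub (hc.tendsto_h hS b))
      fun k => (hv k).2.2⟩

theorem cc_vis_iff {A C : Set (Bd G)} {ε : ℝ} (x b : G) :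
    Vis ε (B.h (x⁻¹ • A)) (B.h (x⁻¹ • C)) b ↔ Vis ε (B.h A) (B.h C) (x * b) := by
  simp only [Vis, cc_h]

theorem cc_ssub' {A C : ℕ → Set (Bd G)} {X Y : Set (Bd G)} (ha : B.Cv A X) (hc : B.Cv C Y)
    (hn : ∀ k, B.Nested (A k) (C k)) (h1 : ¬ B.Null (X ∩ Y)) (h2 : ¬ B.Null (Xᶜ ∩ Yᶜ))
    (h3 : ¬ B.Null (Xᶜ ∩ Y)) : ∀ᶠ k in atTop, B.SSub (A k) (C k) := by
  filter_upwards [(ha.inter hc).eventually_not_null h1,
    (ha.compl.inter hc.compl).eventually_not_null h2,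
    (ha.compl.inter hc).eventually_not_null h3] with k f1 f2 f3
  have f4 : ¬ B.Sub (C k) (A k) := by rwa [sub_iff_null, inter_comm]
  exact ⟨((hn k).sub_or f1 f2).resolve_right f4, f4⟩

theorem cc_ssub {A C : ℕ → Set (Bd G)} {X Y : Set (Bd G)} (ha : B.Cv A X) (hc : B.Cv C Y)
    (hn : ∀ k, B.Nested (A k) (C k)) (h : B.SSub X Y) (h1 : ¬ B.Null X) (h2 : ¬ B.Null Yᶜ) :
    ∀ᶠ k in atTop, B.SSub (A k) (C k) := by
  have h3 := (B.sub_iff _ _).1 h.1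
  refine cc_ssub' ha hc hn (lb_pos h1 ?_) (lb_pos h2 ?_) ?_
  · filter_upwards [h3] with ξ a1 a2
    exact ⟨a2, a1 a2⟩
  · filter_upwards [h3] with ξ a1 a2
    exact ⟨fun a3 => a2 (a1 a3), a2⟩
  · rw [inter_comm, ← sub_iff_null]
    exact h.2

theorem Chain.exists_LT (hS : Cay S) (J : B.Chain Q Φ) {ε : ℝ} (hε : 0 < ε) (n : ℕ → ℕ)
    (x : ℕ → G) (hn : Tendsto n atTop atTop)
    (hv : ∀ k, Vis ε (B.h (J.a (n k))) (B.h J.Aᶜ) (x k)) :
    ∃ (φ : ℕ → ℕ) (L R : Set (Bd G)), StrictMono φ ∧ J.LT L R ∧ Vis ε (B.h L) (B.h R) 1 ∧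
      B.Cv (fun k => (x (φ k))⁻¹ • J.a (n (φ k))) L ∧ B.Cv (fun k => (x (φ k))⁻¹ • J.Aᶜ) R := by
  obtain ⟨φ, L, hφ, hL, -, h1⟩ := exists_cv hS (A := fun k => (x k)⁻¹ • J.a (n k))
    (fun k => (cc_cloL _ _).1) (fun i j _ => (cc_cloL _ _).nested (cc_cloL _ _)) hε fun k => by
      rw [Sees, B.h_compl (cc_cloL _ _).1.1, limA_inv]
      obtain ⟨h2, h3, h4⟩ := hv k
      exact ⟨h2, by linarith⟩
  obtain ⟨ψ, R, hψ, hR, -, h2⟩ := exists_cv hS (A := fun k => (x (φ k))⁻¹ • J.Aᶜ)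
    (fun k => (cc_cloR hS _).1) (fun i j _ => (cc_cloR hS _).nested (cc_cloR hS _)) hε
    fun k => by
      rw [Sees, B.h_compl (cc_cloR hS _).1.1, limA_inv]
      obtain ⟨h2, h3, h4⟩ := hv (φ k)
      exact ⟨h3, by linarith⟩
  have h3 := h1.comp hψ.tendsto_atTop
  have h6 : Vis ε (B.h L) (B.h R) 1 :=
    cc_vis hS h3 h2 fun k => (cc_vis_iff _ _).2 (by rw [mul_one]; exact hv _)
  have h7 : B.Null (L ∩ R) := limA_null (B.μ 1) (fun k => cc_null _ _) h3 h2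
  refine ⟨fun k => φ (ψ k), L, R, hφ.comp hψ, ⟨hL, hR, limA_not_null hε h6.1,
    limA_not_null hε h6.2.1, limA_not_null hε ?_, fun k => n (φ (ψ k)), fun k => x (φ (ψ k)),
    hn.comp (hφ.comp hψ).tendsto_atTop, h3, h2⟩, h6, h3, h2⟩
  rw [B.h_compl_union hS hL.1 hR.1 h7]
  exact h6.2.2

theorem Chain.LT.null_inter (hS : Cay S) {L R : Set (Bd G)} (h : J.LT L R) : B.Null (L ∩ R) := by
  have _ := hS
  obtain ⟨-, -, -, -, -, n, x, -, h1, h2⟩ := h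
  exact limA_null (B.μ 1) (fun k => cc_null _ _) h1 h2

theorem Chain.LT.smul (hS : Cay S) {L R : Set (Bd G)} (h : J.LT L R) (g : G) :
    J.LT (g • L) (g • R) := by
  obtain ⟨a1, a2, a3, a4, a5, n, x, h0, h1, h2⟩ := h
  refine ⟨a1.smul hS g, a2.smul hS g, fun h3 => a3 ((B.null_smul hS _ _).1 h3),
    fun h3 => a4 ((B.null_smul hS _ _).1 h3), fun h3 => a5 ?_,
    n, fun k => x k * g⁻¹, h0, ?_, ?_⟩
  · rw [← smul_set_union, ← smul_set_compl] at h3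
    exact (B.null_smul hS _ _).1 h3
  · simpa only [mul_inv_rev, inv_inv, mul_smul] using h1.smul hS g
  · simpa only [mul_inv_rev, inv_inv, mul_smul] using h2.smul hS g

theorem Chain.LT.lim {L R : Set (Bd G)} (h : J.LT L R) : J.Lim R := by
  obtain ⟨-, a2, -, a4, a5, n, x, -, -, h2⟩ := h
  exact ⟨a2, ⟨a4, lb_pos a5 (Eventually.of_forall fun ξ hξ h => hξ (Or.inr h))⟩, _, h2⟩

theorem cc_cof (hS : Cay S) {L R : Set (Bd G)} (h : J.LT L R) {n : ℕ → ℕ}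
    {x : ℕ → G} (hn : Tendsto n atTop atTop) (ha : B.Cv (fun k => (x k)⁻¹ • J.a (n k)) L)
    (hc : B.Cv (fun k => (x k)⁻¹ • J.Aᶜ) R) : Tendsto x atTop cofinite := by
  refine le_cofinite_iff_eventually_ne.2 fun g => ?_
  rw [eventually_map]
  by_contra h1
  obtain ⟨φ, hφ, h2⟩ := extraction_of_frequently_atTop (not_eventually.1 h1)
  simp only [ne_eq, not_not] at h2
  have h3 := (ha.union hc).compl.comp hφ.tendsto_atTop
  have h4 := (((J.cv_A.comp (hn.comp hφ.tendsto_atTop)).smul hS g⁻¹).union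
    (cc_const (g⁻¹ • J.Aᶜ))).compl
  simp only [h2] at h3
  have h5 := (h3.unique h4).1
  rw [← smul_set_union, union_compl_self, smul_set_univ, compl_univ] at h5
  exact h.2.2.2.2.1 (Null.of_sub measure_empty h5)

theorem cc_contra (hS : Cay S) {L R : Set (Bd G)} (h : J.LT L R) {n : ℕ → ℕ}
    {x : ℕ → G} (hn : Tendsto n atTop atTop) (ha : B.Cv (fun k => (x k)⁻¹ • J.a (n k)) L)
    (hc : B.Cv (fun k => (x k)⁻¹ • J.Aᶜ) R) {g g' : G} (h1 : B.SSub (g' • J.Aᶜ) (g • J.Aᶜ))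
    (h2 : ∀ᶠ m in atTop, B.Sub ((x m)⁻¹ • J.Aᶜ) (g' • J.Aᶜ))
    (h3 : ¬ B.Null (L ∩ (g • J.Aᶜ)ᶜ)) (h4 : ¬ B.Null (Lᶜ ∩ g • J.Aᶜ))
    (h5 : ¬ B.Null (Lᶜ ∩ (g • J.Aᶜ)ᶜ)) : False := by
  have hW := (cc_cloR (J := J) hS g).compl
  have e : g' • J.A = (g' • J.Aᶜ)ᶜ := by rw [smul_set_compl, compl_compl]
  have h6 := J.f1 hS hW (g := g') (by
    rw [e]
    exact ⟨h1.1.compl, fun a => h1.2 (by simpa only [compl_compl] using a.compl)⟩)
  have hε : 0 < min (B.h (J.a 0) 1) (B.h J.Aᶜ 1) :=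
    lt_min (B.h_pos hS J.pos 1) (B.h_pos hS J.pos' 1)
  have hF := (h6.1 _ hε).inv
  obtain ⟨k, ⟨f1, f2⟩, f3⟩ := (((cc_ssub' ha (cc_const _) (fun k => (cc_cloL _ _).nested hW) h3
    (by rwa [compl_compl]) h5).and h2).and
    ((cc_cof hS h hn ha hc).eventually hF.compl_mem_cofinite)).exists
  have g3 : ∀ A : Set (Bd G), B.h ((x k)⁻¹ • A) (x k)⁻¹ = B.h A 1 := fun A => by
    rw [cc_h, mul_inv_cancel]
  refine f3 ⟨(min_le_left _ _).trans ?_, (min_le_right _ _).trans ?_⟩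
  · exact (B.h_mono hS (limA_chain J.mono (Nat.zero_le (n k))) 1).trans
      ((g3 _).ge.trans (B.h_mono hS f1.1 _))
  · exact (g3 _).ge.trans (B.h_mono hS f2 _)

theorem cc_corners {L R' : Set (Bd G)} {C : ℕ → Set (Bd G)} (hc : B.Cv C R')
    (h1 : ¬ B.Null (L ∩ R'ᶜ)) (h2 : ¬ B.Null (Lᶜ ∩ R')) (h3 : ¬ B.Null (Lᶜ ∩ R'ᶜ)) :
    ∀ᶠ k in atTop, ¬ B.Null (L ∩ (C k)ᶜ) ∧ ¬ B.Null (Lᶜ ∩ C k) ∧ ¬ B.Null (Lᶜ ∩ (C k)ᶜ) :=
  (((cc_const L).inter hc.compl).eventually_not_null h1).and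
    ((((cc_const Lᶜ).inter hc).eventually_not_null h2).and
      (((cc_const Lᶜ).inter hc.compl).eventually_not_null h3))

theorem cc_two (hS : Cay S) (g : G) : B.Two (g • J.Aᶜ) := J.two_A.compl.smul hS g

theorem Chain.eventually_sub (hH : RH S l Q) {L R : Set (Bd G)} (h : J.LT L R) {n : ℕ → ℕ}
    {x : ℕ → G} (hn : Tendsto n atTop atTop) (ha : B.Cv (fun k => (x k)⁻¹ • J.a (n k)) L)
    (hc : B.Cv (fun k => (x k)⁻¹ • J.Aᶜ) R) : ∀ᶠ k in atTop, B.Sub ((x k)⁻¹ • J.Aᶜ) R := by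
  have hS := hH.cay
  have hR := h.lim
  have hLR := (B.null_iff_ae _).1 (h.null_inter hS)
  by_contra h1
  have h2 : ∃ᶠ k in atTop, B.SSub R ((x k)⁻¹ • J.Aᶜ) := by
    refine ((not_eventually.1 h1).and_eventually
      (((hc.inter (cc_const R)).eventually_not_null (by rw [inter_self]; exact hR.2.1.1)).and
        ((hc.compl.inter (cc_const Rᶜ)).eventually_not_null
          (by rw [inter_self]; exact hR.2.1.2)))).mono ?_
    rintro k ⟨a1, a2, a3⟩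
    exact ⟨(((cc_cloR hS _).nested (hR.clo hS)).sub_or a2 a3).resolve_left a1, a1⟩
  have h3 : ∀ k, B.SSub R ((x k)⁻¹ • J.Aᶜ) →
      ∀ᶠ m in atTop, B.SSub ((x m)⁻¹ • J.Aᶜ) ((x k)⁻¹ • J.Aᶜ) := fun k hk =>
    cc_ssub hc (cc_const _) (fun m => (cc_cloR hS _).nested (cc_cloR hS _)) hk hR.2.1.1
      (cc_two hS _).2
  obtain ⟨k, a1, a2, a3, a4⟩ := (h2.and_eventually (cc_corners (L := L) hc
    (lb_pos h.2.2.1 (by
      filter_upwards [hLR] with ξ b1 b2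
      exact ⟨b2, fun b3 => b1 ⟨b2, b3⟩⟩))
    (lb_pos h.2.2.2.1 (by
      filter_upwards [hLR] with ξ b1 b2
      exact ⟨fun b3 => b1 ⟨b3, b2⟩, b2⟩))
    (by rw [← compl_union]; exact h.2.2.2.2.1))).exists
  obtain ⟨k', a5, a6⟩ := (h2.and_eventually (h3 k a1)).exists
  exact cc_contra hS h hn ha hc a6 ((h3 k' a5).mono fun m hm => hm.1) a2 a3 a4

theorem cc_rigid (hH : RH S l Q) {L R L' R' : Set (Bd G)} (h : J.LT L R) (h' : J.LT L' R')
    (hL : ¬ B.Null (L ∩ L')) (hR : ¬ B.Null (R ∩ R'))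
    (hZ : ¬ B.Null ((L ∪ R)ᶜ ∩ (L' ∪ R')ᶜ)) (h1 : B.Sub R R') : B.Sub R' R := by
  have hS := hH.cay
  by_contra h2
  obtain ⟨n, x, hn, ha, hc⟩ := h.2.2.2.2.2
  obtain ⟨n', x', hn', ha', hc'⟩ := h'.2.2.2.2.2
  have h3 : ∀ᶠ m in atTop, ¬ B.AEq ((x' m)⁻¹ • J.Aᶜ) R' := by
    by_cases e : ∃ m, B.AEq ((x' m)⁻¹ • J.Aᶜ) R'
    · obtain ⟨m₀, e⟩ := e
      filter_upwards [(cc_cof hS h' hn' ha' hc').eventually
        (finite_singleton (x' m₀)).compl_mem_cofinite] with m a1 a2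
      have a3 := J.lim_smul_A hS 1
      rw [one_smul] at a3
      exact a1 (inv_injective (a3.stab hH (a2.trans e.symm)))
    · exact Eventually.of_forall fun m a => e ⟨m, a⟩
  obtain ⟨m, ⟨a1, a2⟩, a3⟩ := ((h3.and (Chain.eventually_sub hH h' hn' ha' hc')).and
    (cc_ssub (cc_const R) hc' (fun m => (h.lim.clo hS).nested (cc_cloR hS _)) ⟨h1, h2⟩
      h.2.2.2.1 h'.lim.2.1.2)).exists
  obtain ⟨m', a4, a5, a6, a7⟩ := ((cc_ssub (cc_const _) hc'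
    (fun m => (cc_cloR hS _).nested (cc_cloR hS _)) ⟨a2, fun a => a1 ⟨a2, a⟩⟩ (cc_two hS _).1
      h'.lim.2.1.2).and (cc_corners (L := L) hc'
    (lb_pos hL (by
      filter_upwards [(B.null_iff_ae _).1 (h'.null_inter hS)] with ξ b1 b2
      exact ⟨b2.1, fun b3 => b1 ⟨b2.2, b3⟩⟩))
    (lb_pos hR (by
      filter_upwards [(B.null_iff_ae _).1 (h.null_inter hS)] with ξ b1 b2
      exact ⟨fun b3 => b1 ⟨b3, b2.1⟩, b2.2⟩))
    (lb_pos hZ (Eventually.of_forall fun ξ b =>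
      ⟨fun b1 => b.1 (Or.inl b1), fun b1 => b.2 (Or.inr b1)⟩)))).exists
  exact cc_contra hS h hn ha hc a4
    ((Chain.eventually_sub hH h hn ha hc).mono fun k hk => hk.trans a3.1) a5 a6 a7

theorem Chain.LT.rigid (hH : RH S l Q) {L R L' R' : Set (Bd G)} (h : J.LT L R) (h' : J.LT L' R')
    (hL : ¬ B.Null (L ∩ L')) (hR : ¬ B.Null (R ∩ R'))
    (hZ : ¬ B.Null ((L ∪ R)ᶜ ∩ (L' ∪ R')ᶜ)) : B.AEq R R' := by
  rcases ((h.lim.clo hH.cay).nested (h'.lim.clo hH.cay)).sub_or hR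
    (lb_pos hZ (Eventually.of_forall fun ξ b =>
      ⟨fun b1 => b.1 (Or.inr b1), fun b1 => b.2 (Or.inr b1)⟩)) with h1 | h1
  · exact ⟨h1, cc_rigid hH h h' hL hR hZ h1⟩
  · exact ⟨cc_rigid hH h' h (by rwa [inter_comm]) (by rwa [inter_comm]) (by rwa [inter_comm]) h1,
      h1⟩

theorem cc_card_le (hH : RH S l Q) {θ : ℝ} (hθ : 0 < θ) {ι : Type*}
    (s : Finset ι) (L R : ι → Set (Bd G))
    (hL : ∀ i ∈ s, J.LT (L i) (R i) ∧ Vis θ (B.h (L i)) (B.h (R i)) 1)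
    (hne : ∀ i ∈ s, ∀ j ∈ s, i ≠ j → ¬ B.AEq (R i) (R j)) : (s.card : ℝ) * θ ^ 3 ≤ 1 := by
  have := B.prob 1
  have h1 := measure_biUnion_finset₀ (μ := (B.μ 1).prod ((B.μ 1).prod (B.μ 1))) (s := s)
    (f := fun i => L i ×ˢ (R i ×ˢ (L i ∪ R i)ᶜ))
    (fun i hi j hj hij => by
      rw [Function.onFun, AEDisjoint, prod_inter_prod, prod_inter_prod, Measure.prod_prod,
        Measure.prod_prod, mul_eq_zero, mul_eq_zero]
      by_contra h2
      rw [not_or, not_or] at h2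
      exact hne i hi j hj hij ((hL i hi).1.rigid hH (hL j hj).1 h2.1 h2.2.1 h2.2.2))
    (fun i hi => ((hL i hi).1.1.1.prod ((hL i hi).1.2.1.1.prod
      ((hL i hi).1.1.1.union (hL i hi).1.2.1.1).compl)).nullMeasurableSet)
  have h2 : ∑ _i ∈ s, ENNReal.ofReal (θ ^ 3) ≤ 1 := by
    refine le_trans (Finset.sum_le_sum fun i hi => ?_) (h1 ▸ prob_le_one)
    obtain ⟨a1, a2, a3, a4⟩ := hL i hi
    rw [← B.h_compl_union hH.cay a1.1.1 a1.2.1.1 (a1.null_inter hH.cay)] at a4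
    rw [Measure.prod_prod, Measure.prod_prod, show θ ^ 3 = θ * (θ * θ) by ring,
      ENNReal.ofReal_mul hθ.le, ENNReal.ofReal_mul hθ.le]
    exact mul_le_mul' (ENNReal.ofReal_le_of_le_toReal a2)
      (mul_le_mul' (ENNReal.ofReal_le_of_le_toReal a3) (ENNReal.ofReal_le_of_le_toReal a4))
  rw [Finset.sum_const, nsmul_eq_mul, ← ENNReal.ofReal_natCast,
    ← ENNReal.ofReal_mul (Nat.cast_nonneg _)] at h2
  exact ENNReal.ofReal_le_one.1 h2

theorem Chain.finite_types (hH : RH S l Q) (J : B.Chain Q Φ) {θ : ℝ} (hθ : 0 < θ) :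
    {f : G → ℝ | ∃ L R, J.LT L R ∧ Vis θ (B.h L) (B.h R) 1 ∧ f = B.h R}.Finite := by
  by_contra h1
  obtain ⟨n, hn⟩ := exists_nat_gt (1 / θ ^ 3)
  obtain ⟨s, hs, hc⟩ := Set.Infinite.exists_subset_card_eq h1 n
  choose! L R h2 h3 h4 using fun f (hf : f ∈ s) => hs hf
  have h5 := cc_card_le hH hθ s L R (fun f hf => ⟨h2 f hf, h3 f hf⟩) fun i hi j hj hij a =>
    hij ((h4 i hi).trans ((B.h_congr hH.cay a.1 a.2).trans (h4 j hj).symm))
  rw [hc] at h5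
  rw [div_lt_iff₀ (by positivity)] at hn
  linarith

theorem Chain.cluster_lim (hH : RH S l Q) (J : B.Chain Q Φ) {θ : ℝ} (hθ : 0 < θ) :
    ∃ D : ℕ, ∀ L R, J.LT L R → Vis θ (B.h L) (B.h R) 1 → ∀ x, Vis θ (B.h L) (B.h R) x →
      x ∈ ball S D := by
  have hS := hH.cay
  have hT := J.finite_types hH hθ
  have h1 := (hT.prod hT).biUnion
    (t := fun p => {x : G | ∃ R, J.Lim R ∧ B.h R = p.1 ∧ B.h (x⁻¹ • R) = p.2})
    fun p _ => Set.Subsingleton.finite (by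
      rintro x ⟨R, a1, a2, a3⟩ y ⟨R', a4, a5, a6⟩
      have b1 := a4.1.aeq_of_h a1.1 (a5.trans a2.symm)
      have b2 := (a1.1.smul hS x⁻¹).aeq_of_h (a4.1.smul hS y⁻¹) (a3.trans a6.symm)
      exact inv_injective (a1.stab hH (b2.trans (b1.smul hS _))))
  obtain ⟨D, hD⟩ := hS.finite_subset_ball h1
  refine ⟨D, fun L R h h2 x h3 => hD x (mem_biUnion (x := (B.h R, B.h (x⁻¹ • R)))
    ⟨⟨L, R, h, h2, rfl⟩, x⁻¹ • L, x⁻¹ • R, h.smul hS _, ?_, rfl⟩ ⟨R, h.lim, rfl, rfl⟩)⟩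
  rw [cc_vis_iff, mul_one]
  exact h3

theorem Chain.cluster (hH : RH S l Q) (J : B.Chain Q Φ) {θ : ℝ} (hθ : 0 < θ) :
    ∃ D : ℕ, ∀ r : ℕ, ∀ᶠ j in atTop, ∀ x y, Vis θ (B.h (J.a j)) (B.h J.Aᶜ) x →
      Vis θ (B.h (J.a j)) (B.h J.Aᶜ) y → y ∈ bl S x r → y ∈ bl S x D := by
  obtain ⟨D, hD⟩ := J.cluster_lim hH hθ
  refine ⟨D, fun r => ?_⟩
  have key : ∀ b ∈ ball S r, ∀ᶠ j in atTop, ∀ x, Vis θ (B.h (J.a j)) (B.h J.Aᶜ) x →
      Vis θ (B.h (J.a j)) (B.h J.Aᶜ) (x * b) → b ∈ ball S D := by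
    intro b _
    by_contra h1
    obtain ⟨φ, hφ, h2⟩ := extraction_of_frequently_atTop (not_eventually.1 h1)
    push Not at h2
    choose x h3 h4 h5 using h2
    obtain ⟨ψ, L, R, -, a1, a2, a3, a4⟩ := J.exists_LT hH.cay hθ φ x hφ.tendsto_atTop h3
    exact h5 0 (hD L R a1 a2 b (cc_vis hH.cay a3 a4 fun k => (cc_vis_iff _ _).2 (h4 _)))
  filter_upwards [(eventually_all_finset _).2 key] with j hj x y h1 h2 h3
  exact hj (x⁻¹ * y) h3 x h1 (by rwa [mul_inv_cancel_left])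

end Bdry

end Vale.Agent.P239
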