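import Vale.Agent.P239.Full.FLab
import Vale.Agent.P239.Full.FCoreC

/-! Task FCoreD: uniform local repair at the visible points. Suppose not: for every `k` there are `j k ≥ k` and a visible `x k` without repair of radius `≤ k`.
Translate: `cs k y s = J.lc (j k) (x k * y) s = labC (Z k) (χ k) y s` with `Z k = (x k)⁻¹ • labZ`, `χ k = (x k)⁻¹ • labR`. Along a subsequence `Z k → Z`, `χ k → χ` pointwise (compactness, `G` countable) and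
`(x k)⁻¹ • Aᶜ → R` in measure with `J.Lim R` (`exists_cv`, `lim_smul_A`, `Lim.of_cv`); `χ` is admissible for `R` (`lab_adm`, `Cv.tendsto_h`). `c = labC Z χ` has finite support on every `cn`
(`labC_ne_zero`, `sees_of_adm`, `Lim.finite_cone`). For `y ∉ ball D`, eventually `x k * y` is not visible (`hD`), so `c` is locally exact at `y` and has a cluster of radius `≤ D₁` at `y` (one radius occurs
frequently; `Clus.translate`, `Clus.congr`). `rlr` with `m = 3 D₁ + 1 + l`, `Rep.translate` back with `(x k)⁻¹`.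
-/

noncomputable section

open Classical MeasureTheory Filter Topology Set
open scoped Pointwise ENNReal

namespace Vale.Agent.P239

universe u
variable {G : Type u} [Group G] {S : Finset G} {l : ℕ} {Q : Cones S} {B : Bdry S}

theorem fcd_sub (hS : Cay S) (Z χ : ℕ → Set G) : ∃ (ψ : ℕ → ℕ) (Z' χ' : Set G), StrictMono ψ ∧
    ∀ y, ∀ᶠ k in atTop, (y ∈ Z (ψ k) ↔ y ∈ Z') ∧ (y ∈ χ (ψ k) ↔ y ∈ χ') := by
  have := hS.countable
  obtain ⟨f, ψ, h1, h2⟩ := CompactSpace.tendsto_subseq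
    (fun k y => (decide (y ∈ Z k), decide (y ∈ χ k)) : ℕ → G → Bool × Bool)
  refine ⟨ψ, {y | (f y).1 = true}, {y | (f y).2 = true}, h1, fun y => ?_⟩
  have h3 := tendsto_pi_nhds.1 h2 y
  rw [nhds_discrete, tendsto_pure] at h3
  filter_upwards [h3] with k hk
  simp only [← hk, Function.comp, decide_eq_true_eq, and_self]

namespace Bdry
variable {Φ : B.NFam}

/-- The label cochain of the `j`-th triple. -/
def Chain.lc (J : B.Chain Q Φ) (j : ℕ) : G → G → ℤ :=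
  labC (labZ (B.h (J.a j)) (B.h J.Aᶜ)) (labR (B.h (J.a j)) (B.h J.Aᶜ))

theorem fcd_h (g y : G) (A : Set (Bd G)) : B.h (g⁻¹ • A) y = B.h A (g * y) := by
  rw [← B.h_smul g⁻¹ (g * y) A, inv_mul_cancel_left]

theorem Chain.fcd_main (hH : RH S l Q) (J : B.Chain Q Φ) {θ : ℝ} {D D₁ : ℕ}
    (hD : ∀ r : ℕ, ∀ᶠ j in atTop, ∀ x y, Vis θ (B.h (J.a j)) (B.h J.Aᶜ) x →
      Vis θ (B.h (J.a j)) (B.h J.Aᶜ) y → y ∈ bl S x r → y ∈ bl S x D)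
    (hb : ∀ j y, ¬ Vis θ (B.h (J.a j)) (B.h J.Aᶜ) y → LocExact S l (J.lc j) y)
    (hT : ∀ j, Q.Tame l (J.lc j) {y | Vis θ (B.h (J.a j)) (B.h J.Aᶜ) y} D₁)
    {j : ℕ → ℕ} {x : ℕ → G} (hj : Tendsto j atTop atTop)
    (hx : ∀ k, Vis θ (B.h (J.a (j k))) (B.h J.Aᶜ) (x k)) {Z χ : Set G} {R : Set (Bd G)}
    (hZ : ∀ y, ∀ᶠ k in atTop, (x k * y ∈ labZ (B.h (J.a (j k))) (B.h J.Aᶜ) ↔ y ∈ Z) ∧
      (x k * y ∈ labR (B.h (J.a (j k))) (B.h J.Aᶜ) ↔ y ∈ χ))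
    (hR : J.Lim R) (hc : B.Cv (fun k => (x k)⁻¹ • J.Aᶜ) R) (m : ℕ) :
    ∃ ρ ρ₁ ρ₂ : ℕ, ρ + m ≤ ρ₁ ∧ D ≤ ρ ∧ ρ₁ ≤ ρ₂ ∧
      ∀ᶠ k in atTop, ∃ κ, Q.Rep l (J.lc (j k)) κ (x k) ρ ρ₁ ρ₂ := by
  have hS := hH.cay
  have hl : ∀ y s, ∀ᶠ k in atTop, J.lc (j k) (x k * y) s = labC Z χ y s := fun y s => by
    filter_upwards [hZ y, hZ (y * s)] with k h1 h2
    simp only [Chain.lc, labC, dZ, indZ, mul_assoc, h1.1, h1.2, h2.1, h2.2]
  have hpq : ∀ n y, B.h (J.a n) y + B.h J.Aᶜ y ≤ 1 := fun n y => by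
    rw [B.h_compl (J.good_A hS).1]
    linarith [B.h_mono hS (Sub.of_subset (subset_iUnion J.a n)) y,
      show B.h (⋃ n, J.a n) y = B.h J.A y from rfl]
  have hadm : B.AdmS R χ := fun y => by
    have h1 := hc.tendsto_h hS y
    simp only [fcd_h] at h1
    refine ⟨fun hy => ge_of_tendsto h1 ?_, fun hy => le_of_tendsto h1 ?_⟩
    · filter_upwards [hZ y] with k hk
      exact (lab_adm (B.h_nonneg _) (hpq _) _).1 (hk.2.2 hy)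
    · filter_upwards [hZ y] with k hk
      exact (lab_adm (B.h_nonneg _) (hpq _) _).2 fun h => hy (hk.2.1 h)
  have hN : (0 : ℝ) < 1 / (4 * S.card) := by
    have := gl_one_le hS
    positivity
  have nv : ∀ y, y ∉ ball S D → ∀ᶠ k in atTop,
      ¬ Vis θ (B.h (J.a (j k))) (B.h J.Aᶜ) (x k * y) := fun y hy => by
    obtain ⟨r, hr⟩ := hS.exists_ball y
    filter_upwards [hj.eventually (hD r)] with k hk hv
    have h1 : (x k)⁻¹ * (x k * y) ∈ ball S D := hk _ _ (hx k) hv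
      (show (x k)⁻¹ * (x k * y) ∈ ball S r by rwa [inv_mul_cancel_left])
    rw [inv_mul_cancel_left] at h1
    exact hy h1
  obtain ⟨κ, ρ, ρ₁, ρ₂, h1, h2, h3, h4⟩ := hH.rlr (D₀ := D) (D₁ := D₁)
    (cs := fun k y s => J.lc (j k) (x k * y) s) hl
    (fun i γ => (hR.finite_cone hH hN l i γ).subset fun y ⟨hy, s, hs, h⟩ =>
      ⟨hy, sees_of_adm hS hR.1.1 hadm (labC_ne_zero hs h)⟩)
    (fun y hy => by
      refine (locExact_iff _ _).2 (exOn_of_tendsto hl ?_)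
      filter_upwards [nv y hy] with k hk
      refine ExOn.translate (x k) ?_
      rw [bl_smul]
      exact (locExact_iff _ _).1 (hb _ _ hk))
    (fun i γ y hy hyD ⟨s, hs, h⟩ => by
      have a1 : ∀ᶠ k in atTop, ∀ z ∈ bl S y (3 * D₁ + 1), ∀ t ∈ S,
          J.lc (j k) (x k * z) t = labC Z χ z t :=
        (eventually_all_finite (bl_finite y _)).2 fun z _ =>
          (eventually_all_finset S).2 fun t _ => hl z t
      obtain ⟨k, a2, a3⟩ := (a1.and (nv y hyD)).exists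
      obtain ⟨D', a4, a5⟩ := hT (j k) i (x k * γ) (x k * y)
        (Cones.cn_smul l (x k) i γ ▸ ⟨y, hy, rfl⟩) a3
        ⟨s, hs, by rwa [a2 y (mem_bl_self y _) s hs]⟩
      exact ⟨D', a4, (a5.translate (x k)).congr fun z _ hz t ht =>
        (a2 z (bl_mono y (by omega) hz) t ht).symm⟩) m
  refine ⟨ρ, ρ₁, ρ₂, h1, h2, h3, h4.mono fun k hk => ?_⟩
  rw [← inv_mul_cancel (x k)] at hk
  have h5 := hk.translate (x k)⁻¹
  simp only [mul_inv_cancel_left] at h5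
  exact ⟨_, h5⟩

theorem Chain.uniform_rep (hH : RH S l Q) (J : B.Chain Q Φ) {θ : ℝ} (hθ : 0 < θ) {D D₁ : ℕ}
    (hD : ∀ r : ℕ, ∀ᶠ j in atTop, ∀ x y, Vis θ (B.h (J.a j)) (B.h J.Aᶜ) x →
      Vis θ (B.h (J.a j)) (B.h J.Aᶜ) y → y ∈ bl S x r → y ∈ bl S x D)
    (hb : ∀ j y, ¬ Vis θ (B.h (J.a j)) (B.h J.Aᶜ) y → LocExact S l (J.lc j) y)
    (hT : ∀ j, Q.Tame l (J.lc j) {y | Vis θ (B.h (J.a j)) (B.h J.Aᶜ) y} D₁) :
    ∃ ρs : ℕ, ∀ᶠ j in atTop, ∀ x, Vis θ (B.h (J.a j)) (B.h J.Aᶜ) x →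
      ∃ (κ : G → G → ℤ) (ρ ρ₁ ρ₂ : ℕ), ρ + (3 * D₁ + 1 + l) ≤ ρ₁ ∧ D ≤ ρ ∧ ρ₁ ≤ ρ₂ ∧ ρ₂ ≤ ρs ∧
        Q.Rep l (J.lc j) κ x ρ ρ₁ ρ₂ := by
  have hS := hH.cay
  by_contra hc
  have h1 : ∀ k : ℕ, ∃ j, k ≤ j ∧ ∃ x, Vis θ (B.h (J.a j)) (B.h J.Aᶜ) x ∧
      ¬ ∃ (κ : G → G → ℤ) (ρ ρ₁ ρ₂ : ℕ), ρ + (3 * D₁ + 1 + l) ≤ ρ₁ ∧ D ≤ ρ ∧ ρ₁ ≤ ρ₂ ∧ ρ₂ ≤ k ∧
        Q.Rep l (J.lc j) κ x ρ ρ₁ ρ₂ := fun k => by
    by_contra h
    refine hc ⟨k, eventually_atTop.2 ⟨k, fun j hj x hx => ?_⟩⟩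
    by_contra h'
    exact h ⟨j, hj, x, hx, h'⟩
  choose j hj x hx hn using h1
  obtain ⟨ψ, Z, χ, hψ, hZ⟩ := fcd_sub hS
    (fun k => {y | x k * y ∈ labZ (B.h (J.a (j k))) (B.h J.Aᶜ)})
    (fun k => {y | x k * y ∈ labR (B.h (J.a (j k))) (B.h J.Aᶜ)})
  have hL := fun k => J.lim_smul_A hS (x (ψ k))⁻¹
  obtain ⟨φ, R, hφ, r1, r2, r3⟩ := exists_cv hS (A := fun k => (x (ψ k))⁻¹ • J.Aᶜ)
    (fun k => (hL k).1) (fun a b _ => ((hL a).clo hS).nested ((hL b).clo hS)) hθ fun k => by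
      obtain ⟨a1, a2, a3⟩ := hx (ψ k)
      refine ⟨by rwa [fcd_h, mul_one], ?_⟩
      rw [B.h_compl (hL k).1.1, fcd_h, mul_one]
      linarith
  have ht := (hψ.comp hφ).tendsto_atTop
  obtain ⟨ρ, ρ₁, ρ₂, h1, h2, h3, h4⟩ := J.fcd_main hH hD hb hT (j := fun k => j (ψ (φ k)))
    (x := fun k => x (ψ (φ k))) (tendsto_atTop_mono (fun k => hj _) ht) (fun k => hx _)
    (fun y => hφ.tendsto_atTop.eventually (hZ y))
    (Chain.Lim.of_cv (fun k => hL (φ k)) r1 (r2.two hS hθ) r3) r3 (3 * D₁ + 1 + l)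
  obtain ⟨k, ⟨κ, h5⟩, h6⟩ := (h4.and (ht.eventually (eventually_ge_atTop ρ₂))).exists
  exact hn _ ⟨κ, ρ, ρ₁, ρ₂, h1, h2, h3, h6, h5⟩

end Bdry

end Vale.Agent.P239
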