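import Vale.Agent.P239.Full.FMP

/-! Task FCut: the cut defined by a component of a wall.
`cut_spec`: `c x s = if x ∈ C then indZ Y (x*s) - indZ Y x else 0`. If `N` is a ball of radius `l` or a cone neighbourhood, all wall vertices in `N` are in `C` or none is
(`comp_step`), so `c` is the gradient of `indZ Y` or of `0` on edges from `N`. `ax2` gives `w`. `w - indZ Y` is constant on `C`: along a step of length `≤ R` follow a geodesic,
all wall vertices on it are in `C` so `c` is the gradient of `indZ Y` there; inside a cone neighbourhood use `const_cn`. Let `k` be the constant. `w` is constant along edges that are not `C`-wall edges,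
every vertex reaches a vertex of `C` along such edges (stop at the first `C`-wall edge on a path to `x₀`, note `x₀ ∈ C`), so `cut = {w = k + 1}` and `w ∈ {k, k+1}`.
`exists_odd`: induction along a path from `x` to `y`: only finitely many components meet the path, and along an edge membership in `Y` changes iff exactly one of the cuts changes
(the number of components `C` with `¬ (x ∈ cut C ↔ y ∈ cut C)` is finite and odd iff `¬ (x ∈ Y ↔ y ∈ Y)`).
`exists_two_comp`: otherwise each cut (good by `Thin.good`) has a null side `N C`. Given `ε`, take `F, g` from `Thin` at `1`; for components `C` disjoint from `F`, `mp` with `p = 1` on `N C \ C`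
gives `1 ≤ g` on `N C`; the finitely many other `N C` are null; so `hatSet (⋃ N C)` is null (`h_hatSet_le`). Off `⋃ N C` membership in `Y` is constant (`exists_odd`).
-/

noncomputable section

open Classical MeasureTheory Filter Topology Set
open scoped Pointwise ENNReal

namespace Vale.Agent.P239

universe u
variable {G : Type u} [Group G] {S : Finset G} {l : ℕ} {Q : Cones S} {B : Bdry S}

theorem fcut_smul (g : G) {Y C : Set G} {x : G} (h : x ∈ cut S Y C) :
    g * x ∈ cut S (g • Y) (g • C) := by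
  obtain ⟨y, hy, hr⟩ := h
  have e : ∀ (A : Set G) (a : G), g * a ∈ g • A ↔ a ∈ A := fun A a => smul_mem_smul_set_iff
  refine ⟨g * y, ⟨(e _ _).2 hy.1, (e _ _).2 hy.2⟩, hr.lift (fun a => g * a) ?_⟩
  rintro a b ⟨s, hs, rfl, h⟩
  exact ⟨s, hs, (mul_assoc _ _ _).symm, by simpa only [e] using h⟩

theorem fcut_ind (hS : Cay S) {P : G → Prop} (h : ∀ x, ∀ s ∈ S, P x → P (x * s)) {x : G}
    (hx : P x) (y : G) : P y := by
  refine (hS.const_of_edges P (fun a s hs => propext ⟨fun h1 => ?_, h a s hs⟩) x y).mp hx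
  simpa using h _ _ (hS.symm s hs) h1

theorem fcut_indZ {U : Set G} {x y : G} : indZ U y - indZ U x = 0 ↔ (x ∈ U ↔ y ∈ U) := by
  unfold indZ
  by_cases hx : x ∈ U <;> by_cases hy : y ∈ U <;> simp [hx, hy]

theorem fcut_pot (hH : RH S l Q) {R : ℕ} (hR : 2 * l + 1 ≤ R) {Y : Set G} {x₀ : G}
    (hx : x₀ ∈ wallV S Y) : ∃ w : G → ℤ, (∀ x, ∀ s ∈ S, w (x * s) - w x =
      if x ∈ Q.comp l R (wallV S Y) x₀ then indZ Y (x * s) - indZ Y x else 0) ∧
      ∀ x ∈ Q.comp l R (wallV S Y) x₀, w x = indZ Y x := by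
  obtain ⟨c, hc⟩ : ∃ c : G → G → ℤ, ∀ x s, c x s =
    if x ∈ Q.comp l R (wallV S Y) x₀ then indZ Y (x * s) - indZ Y x else 0 := ⟨_, fun _ _ => rfl⟩
  have key : ∀ y ∈ Q.comp l R (wallV S Y) x₀, ∀ x, Q.Step l R y x → ∀ s ∈ S,
      c x s = indZ Y (x * s) - indZ Y x := by
    intro y hy x hs s hs'
    rw [hc]
    split_ifs with h
    · rfl
    · refine (fcut_indZ.2 ?_).symm
      by_contra h'
      exact h (Cones.comp_step hy ⟨s, hs', h'⟩ hs)
  have ex : ∀ N : Set G, (∀ y ∈ N, ∀ x ∈ N, Q.Step l R y x) → ExOn S c N := by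
    intro N hN
    by_cases h : ∃ y ∈ N, y ∈ Q.comp l R (wallV S Y) x₀
    · obtain ⟨y, hy, hy'⟩ := h
      exact ⟨indZ Y, fun x hx' => key y hy' x (hN y hy x hx')⟩
    · exact ⟨0, fun x hx' s _ => by rw [hc, if_neg fun h' => h ⟨x, hx', h'⟩]; rfl⟩
  obtain ⟨w, hw⟩ := hH.ax2 c (fun y => (locExact_iff c y).2 (ex _ fun a ha b hb => Or.inl
    (bl_mono a (by omega) (mem_bl_trans (mem_bl_symm hH.cay ha) hb))))
    fun i γ => ex _ fun a ha b hb => Or.inr ⟨i, γ, ha, hb⟩
  have h1 : ∀ y ∈ Q.comp l R (wallV S Y) x₀, ∀ x, Q.Step l R y x → ∀ s ∈ S,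
      w (x * s) - indZ Y (x * s) = w x - indZ Y x := by
    intro y hy x hs s hs'
    have := key y hy x hs s hs'
    rw [hw x (mem_univ x) s hs'] at this
    omega
  have h2 : ∀ y ∈ Q.comp l R (wallV S Y) x₀, ∀ x, Q.Step l R y x →
      w x - indZ Y x = w y - indZ Y y := by
    rintro y hy x (hs | ⟨i, γ, ha, hb⟩)
    · have := const_on_ball (fun a => w a - indZ Y a) y R
        (fun b hb s hs' => h1 y hy _ (Or.inl (by simpa using hb)) s hs') _
        (ball_mono (Nat.le_succ R) hs)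
      simpa using this
    · have := Cones.const_cn (fun a => w a - indZ Y a)
        fun a ha' s hs' => h1 y hy a (Or.inr ⟨i, γ, ha, ha'⟩) s hs'
      exact (this x (nbh_mono (Nat.le_succ l) subset_rfl hb)).trans
        (this y (nbh_mono (Nat.le_succ l) subset_rfl ha)).symm
  refine ⟨fun x => w x - (w x₀ - indZ Y x₀), fun x s hs => ?_, fun x hx' => ?_⟩
  · rw [← hc, hw x (mem_univ x) s hs]
    ring
  · have h3 : w x - indZ Y x = w x₀ - indZ Y x₀ := by
      obtain ⟨_, hr⟩ := hx'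
      induction hr with
      | refl => rfl
      | tail hr h ih => exact (h2 _ ⟨hx, hr⟩ _ h.2.2).trans ih
    show w x - (w x₀ - indZ Y x₀) = indZ Y x
    omega

theorem cut_smul (g : G) (Y C : Set G) : cut S (g • Y) (g • C) = g • cut S Y C := by
  ext x
  rw [mem_smul_set_iff_inv_smul_mem]
  refine ⟨fun h => ?_, fun h => ?_⟩
  · simpa using fcut_smul g⁻¹ h
  · simpa using fcut_smul g h

theorem cut_spec (hH : RH S l Q) {R : ℕ} (hR : 2 * l + 1 ≤ R) {Y : Set G} {x₀ : G}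
    (hx : x₀ ∈ wallV S Y) :
    (∀ x, ∀ s ∈ S, ¬ (x ∈ cut S Y (Q.comp l R (wallV S Y) x₀) ↔
        x * s ∈ cut S Y (Q.comp l R (wallV S Y) x₀)) ↔
      (x ∈ Q.comp l R (wallV S Y) x₀ ∧ ¬ (x ∈ Y ↔ x * s ∈ Y))) ∧
    ∀ x ∈ Q.comp l R (wallV S Y) x₀, (x ∈ cut S Y (Q.comp l R (wallV S Y) x₀) ↔ x ∈ Y) := by
  obtain ⟨w, h1, h2⟩ := fcut_pot hH hR hx
  have h0 : x₀ ∈ Q.comp l R (wallV S Y) x₀ := Cones.mem_comp_self R hx
  generalize Q.comp l R (wallV S Y) x₀ = C at *
  have h3 : ∀ x y, Relation.ReflTransGen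
      (fun a b => ∃ s ∈ S, b = a * s ∧ ¬ (a ∈ C ∧ ¬ (a ∈ Y ↔ b ∈ Y))) x y → w y = w x := by
    intro x y hr
    induction hr with
    | refl => rfl
    | tail _ h ih =>
      obtain ⟨s, hs, rfl, h⟩ := h
      rw [← ih, ← sub_eq_zero, h1 _ s hs]
      split_ifs with h'
      · exact fcut_indZ.2 (by tauto)
      · rfl
  have h4 : ∀ x, ∃ y ∈ C, Relation.ReflTransGen
      (fun a b => ∃ s ∈ S, b = a * s ∧ ¬ (a ∈ C ∧ ¬ (a ∈ Y ↔ b ∈ Y))) x y := by
    refine fcut_ind hH.cay (x := x₀) ?_ ⟨x₀, h0, .refl⟩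
    rintro x s hs ⟨y, hy, hr⟩
    by_cases h : x * s ∈ C
    · exact ⟨_, h, .refl⟩
    · exact ⟨y, hy, hr.head ⟨s⁻¹, hH.cay.symm s hs, by simp, fun h' => h h'.1⟩⟩
  have h5 : ∀ x, indZ (cut S Y C) x = w x := by
    intro x
    by_cases h : x ∈ cut S Y C
    · obtain ⟨y, hy, hr⟩ := id h
      rw [← h3 x y hr, h2 y hy.1, indZ, indZ, if_pos h, if_pos hy.2]
    · obtain ⟨y, hy, hr⟩ := h4 x
      rw [← h3 x y hr, h2 y hy, indZ, indZ, if_neg h, if_neg fun h' => h ⟨y, ⟨hy, h'⟩, hr⟩]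
  refine ⟨fun x s hs => ?_, fun x hx' => ?_⟩
  · rw [← fcut_indZ, h5, h5, h1 x s hs]
    by_cases h : x ∈ C
    · rw [if_pos h, fcut_indZ]
      exact ⟨fun h' => ⟨h, h'⟩, fun h' => h'.2⟩
    · simp [h]
  · have h6 := (h5 x).trans (h2 x hx')
    unfold indZ at h6
    by_cases ha : x ∈ cut S Y C <;> by_cases hb : x ∈ Y <;> simp_all

theorem wallV_cut (hH : RH S l Q) {R : ℕ} (hR : 2 * l + 1 ≤ R) {Y : Set G} {x₀ : G}
    (hx : x₀ ∈ wallV S Y) :
    wallV S (cut S Y (Q.comp l R (wallV S Y) x₀)) = Q.comp l R (wallV S Y) x₀ := by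
  have h := (cut_spec (Q := Q) hH hR hx).1
  ext x
  constructor
  · rintro ⟨s, hs, h'⟩
    exact ((h x s hs).1 h').1
  · intro h'
    obtain ⟨s, hs, h''⟩ := Cones.comp_subset R _ _ h'
    exact ⟨s, hs, (h x s hs).2 ⟨h', h''⟩⟩

theorem exists_odd (hH : RH S l Q) {R : ℕ} (hR : 2 * l + 1 ≤ R) {Y : Set G} {x y : G}
    (hx : x ∈ Y) (hy : y ∉ Y) : ∃ z ∈ wallV S Y,
      ¬ (x ∈ cut S Y (Q.comp l R (wallV S Y) z) ↔ y ∈ cut S Y (Q.comp l R (wallV S Y) z)) := by
  have key : ∀ y, ∃ φ : Set G →₀ ℤ, (∀ z ∈ wallV S Y, φ (Q.comp l R (wallV S Y) z) =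
      indZ (cut S Y (Q.comp l R (wallV S Y) z)) y - indZ (cut S Y (Q.comp l R (wallV S Y) z)) x) ∧
      (∀ C, φ C ≠ 0 → ∃ z ∈ wallV S Y, C = Q.comp l R (wallV S Y) z) ∧
      Finsupp.degree φ = indZ Y y - indZ Y x := by
    refine fcut_ind hH.cay (x := x) ?_ ⟨0, by simp, by simp, by simp⟩
    rintro a s hs ⟨φ, h1, h2, h3⟩
    by_cases h : a ∈ Y ↔ a * s ∈ Y
    · refine ⟨φ, fun z hz => ?_, h2, ?_⟩
      · have := fcut_indZ.2 (not_not.1 fun h' => (((cut_spec hH hR hz).1 a s hs).1 h').2 h)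
        rw [h1 z hz]
        omega
      · have := fcut_indZ.2 h
        omega
    have ha : a ∈ wallV S Y := ⟨s, hs, h⟩
    refine ⟨φ + Finsupp.single (Q.comp l R (wallV S Y) a) (indZ Y (a * s) - indZ Y a),
      fun z hz => ?_, fun C hC => ?_, ?_⟩
    · rw [Finsupp.add_apply, h1 z hz]
      by_cases h' : a ∈ Q.comp l R (wallV S Y) z
      · have h4 : a * s ∈ Q.comp l R (wallV S Y) z := Cones.comp_step h'
          (hH.cay.mul_mem_wallV hs h)
          (Or.inl (ball_mono (r := 1) (by omega) (by simpa using mem_ball_one hs)))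
        have h5 := (cut_spec hH hR hz).2
        rw [Cones.comp_eq hH.cay h', Finsupp.single_eq_same]
        simp only [indZ, h5 a h', h5 _ h4]
        ring
      · have h4 := fcut_indZ.2 (not_not.1 fun h'' => h' (((cut_spec hH hR hz).1 a s hs).1 h'').1)
        have h5 : Q.comp l R (wallV S Y) z ≠ Q.comp l R (wallV S Y) a := fun h'' =>
          h' (h'' ▸ Cones.mem_comp_self R ha)
        rw [Finsupp.single_eq_of_ne h5]
        omega
    · by_cases h' : C = Q.comp l R (wallV S Y) a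
      · exact ⟨a, ha, h'⟩
      · rw [Finsupp.add_apply, Finsupp.single_eq_of_ne h', add_zero] at hC
        exact h2 C hC
    · rw [map_add, Finsupp.degree_single, h3]
      ring
  obtain ⟨φ, h1, h2, h3⟩ := key y
  by_contra hc
  have h4 : φ = 0 := by
    ext C
    by_contra h
    obtain ⟨z, hz, rfl⟩ := h2 C h
    exact h ((h1 z hz).trans (fcut_indZ.2 (not_not.1 fun h' => hc ⟨z, hz, h'⟩)))
  rw [h4, map_zero, eq_comm, fcut_indZ] at h3
  exact hy (h3.1 hx)

theorem exists_two_comp (B : Bdry S) (hH : RH S l Q) {R : ℕ} (hR : 2 * l + 1 ≤ R) {Y : Set G}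
    (hT : Thin S (wallV S Y)) (h2 : B.Two (hatSet Y)) :
    ∃ z ∈ wallV S Y, B.Two (hatSet (cut S Y (Q.comp l R (wallV S Y) z))) := by
  have hS := hH.cay
  by_contra hc
  obtain ⟨N, hN⟩ : ∃ N : Set G → Set G, ∀ C, N C =
    if B.Null (hatSet (cut S Y C)) then cut S Y C else (cut S Y C)ᶜ := ⟨_, fun _ => rfl⟩
  have n1 : ∀ z ∈ wallV S Y, B.Null (hatSet (N (Q.comp l R (wallV S Y) z))) := by
    intro z hz
    rw [hN]
    split_ifs with h
    · exact h
    · rw [hatSet_compl]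
      exact not_not.1 fun h' => hc ⟨z, hz, h, h'⟩
  have n2 : ∀ z ∈ wallV S Y, wallV S (N (Q.comp l R (wallV S Y) z)) =
      Q.comp l R (wallV S Y) z := by
    intro z hz
    rw [hN]
    split_ifs
    · exact wallV_cut hH hR hz
    · rw [wallV_compl, wallV_cut hH hR hz]
  have hm : ∀ {A A' : Set G}, A ⊆ A' → hatSet A ⊆ hatSet A' := fun h ξ hξ =>
    Filter.mem_of_superset hξ h
  have n3 : B.Null (hatSet (⋃ z ∈ wallV S Y, N (Q.comp l R (wallV S Y) z))) := by
    have := B.prob 1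
    refine (measureReal_eq_zero_iff (measure_ne_top _ _)).1
      (le_antisymm (le_of_forall_pos_le_add fun ε hε => ?_) measureReal_nonneg)
    obtain ⟨F, g, hF, hg, h1, h3⟩ := hT 1 ε hε
    have a1 : ∀ z ∈ wallV S Y, Disjoint (Q.comp l R (wallV S Y) z) F →
        ∀ y ∈ N (Q.comp l R (wallV S Y) z), 1 ≤ g y := by
      intro z hz hd y hy
      have b1 : ∀ y ∈ Q.comp l R (wallV S Y) z, 1 ≤ g y := fun y hy =>
        h1 y (Cones.comp_subset R _ _ hy) (disjoint_left.1 hd hy)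
      by_cases h : y ∈ Q.comp l R (wallV S Y) z
      · exact b1 y h
      refine B.mp hS (p := fun _ => 1) ⟨1, fun _ => by simp⟩ hg.1
        (U₀ := N (Q.comp l R (wallV S Y) z) \ Q.comp l R (wallV S Y) z) (fun a _ => ?_)
        (fun a ha s hs => ?_) ?_ y ⟨hy, h⟩
      · have : (S.card : ℝ) ≠ 0 := Nat.cast_ne_zero.2 hS.card_pos.ne'
        have e : avg S (fun _ => (1 : ℝ)) a = 1 := by simp [avg, this]
        rw [e]
        linarith [hg.2 a]
      · by_cases h' : a * s ∈ Q.comp l R (wallV S Y) z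
        · exact Or.inr (b1 _ h')
        · refine Or.inl ⟨?_, h'⟩
          by_contra h''
          exact ha.2 (n2 z hz ▸ ⟨s, hs, fun e => h'' (e.1 ha.1)⟩)
      · filter_upwards [(B.null_iff_ae _).1 (n1 z hz)] with ξ hξ h'
        exact absurd (hm sdiff_subset h') hξ
    have a2 := B.h_hatSet_le hS hg (N := {y | 1 ≤ g y}) finite_empty (fun y hy _ => hy) 1
    have a3 : ∀ᵐ ξ ∂B.μ 1, ∀ z ∈ wallV S Y ∩ F, ξ ∉ hatSet (N (Q.comp l R (wallV S Y) z)) :=
      (ae_ball_iff (hF.inter_of_right _).countable).2 fun z hz => (B.null_iff_ae _).1 (n1 z hz.1)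
    have a4 : B.Sub (hatSet (⋃ z ∈ wallV S Y, N (Q.comp l R (wallV S Y) z)))
        (hatSet {y | 1 ≤ g y}) := by
      rw [Bdry.sub_iff]
      filter_upwards [a3] with ξ hξ h
      have b1 : (⋃ z ∈ wallV S Y, N (Q.comp l R (wallV S Y) z)) ⊆ {y | 1 ≤ g y} ∪
          ⋃ z ∈ wallV S Y ∩ F, N (Q.comp l R (wallV S Y) z) := by
        intro y hy
        obtain ⟨z, hz, hy⟩ := mem_iUnion₂.1 hy
        by_cases hd : Disjoint (Q.comp l R (wallV S Y) z) F
        · exact Or.inl (a1 z hz hd y hy)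
        · obtain ⟨a, ha, ha'⟩ := not_disjoint_iff.1 hd
          refine Or.inr (mem_iUnion₂.2 ⟨a, ⟨Cones.comp_subset R _ _ ha, ha'⟩, ?_⟩)
          rwa [Cones.comp_eq hS ha]
      have b2 := hm b1 h
      rw [hatSet_union] at b2
      refine b2.resolve_right fun b3 => ?_
      obtain ⟨z, hz, b4⟩ := (Ultrafilter.finite_biUnion_mem_iff (hF.inter_of_right _)).1 b3
      exact hξ z hz b4
    exact ((B.h_mono hS a4 1).trans (a2.trans h3)).trans_eq (zero_add ε).symm
  by_cases h : Y ⊆ ⋃ z ∈ wallV S Y, N (Q.comp l R (wallV S Y) z)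
  · exact h2.1 (measure_mono_null (hm h) n3)
  obtain ⟨x, hx, hx'⟩ := not_subset.1 h
  refine h2.2 ?_
  rw [← hatSet_compl]
  refine measure_mono_null (hm fun y hy => ?_) n3
  obtain ⟨z, hz, h4⟩ := exists_odd hH hR hx hy
  have h5 : x ∉ N (Q.comp l R (wallV S Y) z) := fun h' => hx' (mem_iUnion₂.2 ⟨z, hz, h'⟩)
  refine mem_iUnion₂.2 ⟨z, hz, ?_⟩
  rw [hN] at h5 ⊢
  split_ifs at h5 ⊢
  · tauto
  · rw [mem_compl_iff] at h5 ⊢
    tauto

end Vale.Agent.P239
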