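import Vale.Agent.P239.Full.FDef5
import Vale.Agent.P239.Full.FCut

/-! Task FCoresA: properties of cores. `cut_spec`, `wallV_cut` for `hH.rh`. `lv_wall`: both ends of a wall edge see `b s` (Harnack), `vis`. `sub`: by `wall` one side of `K` is in `b s`; `level_out` excludes the complement; `level_sub`.
`two`: `level_in`, `level_out`. `cover`: stop at the first vertex of a path from `x` where it leaves the level set (the level set is not everything: `Good.infinite_deep` for the complement).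
`eq_of_near`: a common point of two cores leads (same path) to a common wall vertex; otherwise `exists_wall_path` twice gives wall vertices at distance `≤ 3 L`, in the same component.
-/

noncomputable section

open Classical MeasureTheory Filter Topology Set
open scoped Pointwise ENNReal

namespace Vale.Agent.P239

universe u
variable {G : Type u} [Group G] {S : Finset G} {l : ℕ} {B : Bdry S}

theorem rc_eq (l R : ℕ) (D : Set G) (x : G) : (Cones.empty S).comp l R D x = rc S R D x := by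
  have : (Cones.empty S).Step l R = (Cones.empty S).Step 0 R := by
    funext a b
    apply propext
    constructor <;> rintro (h | ⟨i, -⟩)
    exacts [Or.inl h, i.elim0, Or.inl h, i.elim0]
  unfold rc Cones.comp
  rw [this]

theorem fcoresA_path (hS : Cay S) {Y : Set G} {x y : G} (hx : x ∈ Y) (hy : y ∉ Y) :
    ∃ z ∈ Y, (∃ a ∈ S, z * a ∉ Y) ∧
      Relation.ReflTransGen (fun a b => ∃ s ∈ S, b = a * s ∧ a ∈ Y ∧ b ∈ Y) x z := by
  refine (fcut_ind hS (P := fun y => (y ∈ Y ∧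
    Relation.ReflTransGen (fun a b => ∃ s ∈ S, b = a * s ∧ a ∈ Y ∧ b ∈ Y) x y) ∨
    ∃ z ∈ Y, (∃ a ∈ S, z * a ∉ Y) ∧
      Relation.ReflTransGen (fun a b => ∃ s ∈ S, b = a * s ∧ a ∈ Y ∧ b ∈ Y) x z) ?_
    (Or.inl ⟨hx, .refl⟩) y).resolve_left fun h => hy h.1
  rintro z a ha (⟨hz, hr⟩ | h)
  · by_cases h : z * a ∈ Y
    · exact Or.inl ⟨h, hr.tail ⟨a, ha, rfl, hz, h⟩⟩
    · exact Or.inr ⟨z, hz, ⟨a, ha, h⟩, hr⟩
  · exact Or.inr h

namespace VData
variable {Z : VData B} {lam : ℝ} {R : ℕ} {s : Subgroup G} {K : Set G}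

theorem lv_wall (hS : Cay S) (h0 : 0 < lam) (h1 : lam < 1) (hs : s ∈ Z.V) :
    ∃ R', wallV S (Z.lv lam s) ⊆ nbh S R' s := by
  have hc : (1 : ℝ) ≤ S.card := by exact_mod_cast hS.card_pos
  have hm : 0 < min lam (1 - lam) := lt_min h0 (sub_pos.2 h1)
  obtain ⟨R', hR⟩ := Z.vis s hs (min lam (1 - lam) / S.card) (by positivity)
  refine ⟨R', fun x ⟨a, ha, hx⟩ => hR x ?_⟩
  have e := B.h_compl (Z.good s hs).1.1
  have k1 := B.h_harnack hS x (mem_ball_one ha) (Z.b s)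
  have k2 := B.h_harnack hS x (mem_ball_one ha) (Z.b s)ᶜ
  have k3 := min_le_left lam (1 - lam)
  have k4 := min_le_right lam (1 - lam)
  have k5 := le_mul_of_one_le_left (B.h_nonneg (Z.b s) x) hc
  have k6 := le_mul_of_one_le_left (B.h_nonneg (Z.b s)ᶜ x) hc
  rw [pow_one] at k1 k2
  simp only [lv, mem_ofPred_eq] at hx
  unfold Bdry.Sees
  rw [div_le_iff₀' (by positivity), div_le_iff₀' (by positivity)]
  have e1 := e x
  have e2 := e (x * a)
  by_cases h : lam ≤ B.h (Z.b s) x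
  · have h' : B.h (Z.b s) (x * a) < lam := not_le.1 fun h' => hx (iff_of_true h h')
    constructor <;> linarith
  · have h' : lam ≤ B.h (Z.b s) (x * a) := not_not.1 fun h' => hx (iff_of_false h h')
    constructor <;> linarith

theorem lv_smul (hS : Cay S) (hs : s ∈ Z.V) {γ : G} (hγ : γ ∈ Z.Γ) :
    Z.lv lam (cjg γ s) = γ • Z.lv lam s := by
  ext x
  have h := (Z.inv γ hγ s hs).2
  rw [mem_smul_set_iff_inv_smul_mem]
  simp only [lv, mem_ofPred_eq]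
  rw [B.h_congr hS h.1 h.2, ← B.h_smul γ (γ⁻¹ • x), smul_eq_mul, mul_inv_cancel_left]

theorem lv_sep (hS : Cay S) {L : ℕ} (hl : (S.card : ℝ) ^ L * (1 - lam) < lam) (hs : s ∈ Z.V)
    {t : Subgroup G} (ht : t ∈ Z.V) {x y : G} (hx : x ∈ Z.lv lam s) (hy : y ∈ Z.lv lam t)
    (h : y ∈ bl S x L) : s = t := by
  by_contra hne
  have h1 := B.h_mono hS ((Bdry.sub_iff_null (Z.b t) (Z.b s)ᶜ).2
    (by rw [compl_compl, inter_comm]; exact Z.disj s hs t ht hne)) x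
  rw [B.h_compl (Z.good s hs).1.1] at h1
  have h2 := Bdry.h_harnack_bl (B := B) hS h (Z.b t)
  have h3 : (S.card : ℝ) ^ L * B.h (Z.b t) x ≤ (S.card : ℝ) ^ L * (1 - lam) :=
    mul_le_mul_of_nonneg_left (h1.trans (sub_le_sub_left hx 1)) (by positivity)
  exact (hy.trans (h2.trans h3)).not_gt hl

theorem IsCore.fcoresA_spec (hH : HypQ S l) (hR : 2 * l + 1 ≤ R) (h : Z.IsCore lam R s K) :
    ∃ x₀ ∈ wallV S (Z.lv lam s), wallV S K = rc S R (wallV S (Z.lv lam s)) x₀ ∧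
      K = cut S (Z.lv lam s) (wallV S K) ∧
      (∀ x, ∀ a ∈ S, ¬ (x ∈ K ↔ x * a ∈ K) → ¬ (x ∈ Z.lv lam s ↔ x * a ∈ Z.lv lam s)) ∧
      ∀ x ∈ wallV S K, (x ∈ K ↔ x ∈ Z.lv lam s) := by
  obtain ⟨-, x, hx, rfl⟩ := h
  have h1 := wallV_cut hH.rh hR hx
  have h2 := cut_spec hH.rh hR hx
  rw [rc_eq] at h1 h2
  rw [h1]
  exact ⟨x, hx, rfl, rfl, fun y a ha h => ((h2.1 y a ha).1 h).2, h2.2⟩

theorem fcoresA_out (hS : Cay S) (h0 : 0 < lam) (hs : s ∈ Z.V) : ∃ y, y ∉ Z.lv lam s := by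
  obtain ⟨y, hy⟩ := (Bdry.Good.infinite_deep hS (Z.good s hs).1.compl (Z.good s hs).2.2
    (θ := 1 - lam) (by linarith)).nonempty
  rw [mem_ofPred_eq, B.h_compl (Z.good s hs).1.1] at hy
  exact ⟨y, fun h => (sub_le_sub_left h 1).not_gt hy⟩

theorem IsCore.edge (hH : HypQ S l) (hR : 2 * l + 1 ≤ R) (h : Z.IsCore lam R s K) :
    ∀ x ∈ K, ∀ a ∈ S, x * a ∉ K → lam ≤ B.h (Z.b s) x ∧ B.h (Z.b s) (x * a) < lam := by
  obtain ⟨-, -, -, -, h1, h2⟩ := h.fcoresA_spec hH hR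
  intro x hx a ha hn
  have h3 : ¬ (x ∈ K ↔ x * a ∈ K) := fun h => hn (h.1 hx)
  have h4 := (h2 x ⟨a, ha, h3⟩).1 hx
  exact ⟨h4, not_le.1 fun h => h1 x a ha h3 (iff_of_true h4 h)⟩

theorem IsCore.wall_ne (hH : HypQ S l) (hR : 2 * l + 1 ≤ R) (h : Z.IsCore lam R s K) :
    (wallV S K).Nonempty := by
  obtain ⟨x, hx, h1, -⟩ := h.fcoresA_spec hH hR
  exact ⟨x, h1 ▸ Cones.mem_comp_self R hx⟩

theorem IsCore.wall_sub (hH : HypQ S l) (hR : 2 * l + 1 ≤ R) (h : Z.IsCore lam R s K) :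
    wallV S K ⊆ wallV S (Z.lv lam s) := by
  obtain ⟨x, -, h1, -⟩ := h.fcoresA_spec hH hR
  exact h1 ▸ Cones.comp_subset R _ x

theorem IsCore.conn (hH : HypQ S l) (hR : 2 * l + 1 ≤ R) (h : Z.IsCore lam R s K) :
    ∀ x ∈ wallV S K, wallV S K ⊆ rc S R (wallV S K) x := by
  obtain ⟨x, -, h1, -⟩ := h.fcoresA_spec hH hR
  rw [h1]
  intro y hy
  unfold rc at hy ⊢
  rw [← Cones.comp_eq hH.cay hy, Cones.comp_comp]

theorem IsCore.sub (hH : HypQ S l) (hR : 2 * l + 1 ≤ R) (h0 : 0 < lam) (h1 : lam < 1)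
    (h : Z.IsCore lam R s K) : K ⊆ Z.lv lam s := by
  obtain ⟨R', hR'⟩ := lv_wall hH.cay h0 h1 h.1
  exact Bdry.level_sub hH.cay (Z.good s h.1).1 h1.le (fun x hx a ha hn => (h.edge hH hR x hx a ha hn).1)
    ((Z.wall s h.1 K R' ((h.wall_sub hH hR).trans hR')).resolve_right
      (Bdry.level_out hH.cay (Z.good s h.1).1 h1.le (h.edge hH hR) (h.wall_ne hH hR)))

theorem IsCore.two (hH : HypQ S l) (hR : 2 * l + 1 ≤ R) (h0 : 0 < lam) (h1 : lam < 1)
    (h : Z.IsCore lam R s K) : B.Two (hatSet K) :=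
  ⟨fun hn => Bdry.level_in hH.cay (Z.good s h.1).1 h0.le (h.edge hH hR) (h.wall_ne hH hR)
      (measure_mono_null sdiff_subset hn),
    fun hn => Bdry.level_out hH.cay (Z.good s h.1).1 h1.le (h.edge hH hR) (h.wall_ne hH hR)
      (measure_mono_null sdiff_subset hn)⟩

theorem cover (hS : Cay S) (h0 : 0 < lam) (hs : s ∈ Z.V) (R : ℕ) {x : G}
    (hx : x ∈ Z.lv lam s) : ∃ K, Z.IsCore lam R s K ∧ x ∈ K := by
  obtain ⟨y, hy⟩ := fcoresA_out hS h0 hs
  obtain ⟨z, hz, ⟨a, ha, hn⟩, hr⟩ := fcoresA_path hS hx hy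
  have hw : z ∈ wallV S (Z.lv lam s) := ⟨a, ha, fun h => hn (h.1 hz)⟩
  refine ⟨_, ⟨hs, z, hw, rfl⟩, z, ⟨Cones.mem_comp_self R hw, hz⟩,
    Relation.ReflTransGen.mono ?_ _ _ hr⟩
  rintro p q ⟨b, hb, e, hp, hq⟩
  exact ⟨b, hb, e, fun h => h.2 (iff_of_true hp hq)⟩

theorem exists_core (hS : Cay S) (h0 : 0 < lam) (h1 : lam < 1) (hs : s ∈ Z.V) (R : ℕ) :
    ∃ K, Z.IsCore lam R s K := by
  obtain ⟨y, hy⟩ := (Bdry.Good.infinite_deep hS (Z.good s hs).1 (Z.good s hs).2.1 h1).nonempty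
  obtain ⟨K, hK, -⟩ := cover hS h0 hs R (x := y) (show lam ≤ _ from le_of_lt hy)
  exact ⟨K, hK⟩

theorem IsCore.eq_of_near (hH : HypQ S l) (hR : 2 * l + 1 ≤ R) (h0 : 0 < lam) (h1 : lam < 1)
    {L : ℕ} (hL : 3 * L ≤ R) (h : Z.IsCore lam R s K) {K' : Set G} (h' : Z.IsCore lam R s K')
    {x y : G} (hx : x ∈ K) (hy : y ∈ K') (hxy : y ∈ bl S x L) : K = K' := by
  have hS := hH.cay
  obtain ⟨z, hz, z', hz', hd⟩ : ∃ z ∈ wallV S K, ∃ z' ∈ wallV S K', z' ∈ bl S z R := by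
    by_cases hc : ∃ p ∈ K, p ∈ K'
    · obtain ⟨p, hp, hp'⟩ := hc
      obtain ⟨w, hw⟩ := fcoresA_out hS h0 h.1
      obtain ⟨z, -, ⟨a, ha, hn⟩, hr⟩ := fcoresA_path hS (h.sub hH hR h0 h1 hp) hw
      have key : ∀ K, Z.IsCore lam R s K → p ∈ K → z ∈ wallV S K := fun K h hp => by
        obtain ⟨-, -, -, -, h2, -⟩ := h.fcoresA_spec hH hR
        have hz : z ∈ K := by
          clear hn
          induction hr with
          | refl => exact hp
          | tail _ e ih =>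
            obtain ⟨b, hb, rfl, e1, e2⟩ := e
            exact (not_not.1 fun hn => h2 _ b hb hn (iff_of_true e1 e2)).1 ih
        exact ⟨a, ha, fun e => hn (h.sub hH hR h0 h1 (e.1 hz))⟩
      exact ⟨z, key K h hp, z, key K' h' hp', mem_bl_self z R⟩
    · obtain ⟨z, hz, a, ha, hn, hb, -⟩ := exists_wall_path hS hx (fun e => hc ⟨y, e, hy⟩) hxy
      obtain ⟨z', hz', a', ha', hn', hb', -⟩ :=
        exists_wall_path hS hy (fun e => hc ⟨x, hx, e⟩) (mem_bl_symm hS hxy)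
      exact ⟨z, ⟨a, ha, fun e => hn (e.1 hz)⟩, z', ⟨a', ha', fun e => hn' (e.1 hz')⟩,
        bl_mono z (by omega) (mem_bl_trans (mem_bl_trans (mem_bl_symm hS hb) hxy) hb')⟩
  have hw := h'.wall_sub hH hR hz'
  obtain ⟨u, -, e1, e2, -⟩ := h.fcoresA_spec hH hR
  obtain ⟨u', -, e1', e2', -⟩ := h'.fcoresA_spec hH hR
  rw [e1] at hz
  rw [e1'] at hz'
  rw [e2, e2', e1, e1']
  unfold rc
  rw [← Cones.comp_eq hS hz', Cones.comp_eq hS (Cones.comp_step hz hw (Or.inl hd))]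

theorem IsCore.smul (hS : Cay S) (h : Z.IsCore lam R s K) {γ : G} (hγ : γ ∈ Z.Γ) :
    Z.IsCore lam R (cjg γ s) (γ • K) := by
  obtain ⟨hs, x, hx, rfl⟩ := h
  refine ⟨(Z.inv γ hγ s hs).1, γ * x, ?_, ?_⟩ <;> rw [lv_smul hS hs hγ, wallV_smul]
  · exact smul_mem_smul_set hx
  · unfold rc
    rw [Cones.comp_smul, cut_smul]

end VData

end Vale.Agent.P239
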