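import Vale.Agent.P239.Full.FCoresA
import Vale.Agent.P239.Full.FClB

/-! Task FCoresB: the cores exist. `IsCore.nc`: `P = Kᶜ ∩ Y`, `P' = Kᶜ \ Y` have walls in `wallV K ∪ finite ⊆ nbh R' s`; by `wall` and `two` (of `b s`) one of `hatSet P`, `hatSet P'` lies in `b s`, say `P`. `mp` on `P` with `p = h (b s)ᶜ` and the majorant `1 - lam + g`,
`g` from `pot_finite` for the endpoints of the finitely many edges; on outer wall vertices `p ≥ 1 - lam + δ`, and `g → 0`. `exists_cores`: `lam = 1 - 1/(4 N^L)`, `R = 3 L`, `𝒦 = {K | ∃ s, IsCore lam R s K}`, `cls K` the unique `s` (`lv_sep`, cores are nonempty).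
The points outside all cores have all `h (b s) < lam` (`cover`), `cof`. The uniform `δ`: an outer wall vertex is `γ f` with `f ∈ F` adjacent to the core `γ⁻¹ • K` whose class `s'` is determined by `f` (`lv_sep`, `2 ≤ L`), `h (b s) (γ f) = h (b s') f < lam`; finitely many values.
-/

noncomputable section

open Classical MeasureTheory Filter Topology Set
open scoped Pointwise ENNReal

namespace Vale.Agent.P239

universe u
variable {G : Type u} [Group G] {S : Finset G} {l : ℕ} {B : Bdry S}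

theorem fcb_edge_compl (Y : Set G) : edgeBd S Yᶜ = edgeBd S Y := by
  ext e
  simp only [edgeBd, Set.mem_ofPred_eq, Set.mem_compl_iff, not_iff_not]

theorem fcb_wall (hH : HypQ S l) {Z : VData B} {lam : ℝ} {R : ℕ} {s : Subgroup G}
    {K : Set G} (hR : 2 * l + 1 ≤ R) (h0 : 0 < lam) (h1 : lam < 1) (h : Z.IsCore lam R s K)
    {Y : Set G} (hY : (edgeBd S Y \ edgeBd S K).Finite) :
    B.Sub (hatSet (Kᶜ ∩ Y)) (Z.b s) ∨ B.Sub (hatSet (Kᶜ ∩ Y))ᶜ (Z.b s) := by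
  have hS := hH.cay
  obtain ⟨R', hR'⟩ := VData.lv_wall (Z := Z) hS h0 h1 h.1
  obtain ⟨r, hr⟩ := hS.finite_subset_bl (hY.image Prod.fst) 1
  refine Z.wall s h.1 _ (max R' r) fun x hx => ?_
  obtain ⟨a, ha, hxa⟩ := hx
  by_cases hK : x ∈ K ↔ x * a ∈ K
  · have hE : (x, a) ∈ edgeBd S Y \ edgeBd S K := by
      refine ⟨⟨ha, fun e => hxa ?_⟩, fun e => e.2 hK⟩
      simp only [Set.mem_inter_iff, Set.mem_compl_iff]
      rw [hK, e]
    exact nbh_mono (le_max_right _ _) subset_rfl ⟨1, s.one_mem, hr ⟨_, hE, rfl⟩⟩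
  · exact nbh_mono (le_max_left _ _) subset_rfl (hR' (h.wall_sub hH hR ⟨a, ha, hK⟩))

theorem fcb_fin (hH : HypQ S l) {Z : VData B} {lam : ℝ} {R : ℕ} {s : Subgroup G}
    {K : Set G} (hR : 2 * l + 1 ≤ R) (h1 : lam < 1) (h : Z.IsCore lam R s K)
    {δ : ℝ} (hδ : 0 < δ) (hd : ∀ x ∈ wallV S K \ K, B.h (Z.b s) x ≤ lam - δ) {Y : Set G}
    (hY : (edgeBd S Y \ edgeBd S K).Finite) (hs : B.Sub (hatSet (Kᶜ ∩ Y)) (Z.b s)) :
    ((wallV S K \ K) ∩ Y).Finite := by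
  have hS := hH.cay
  have hg := (Z.good s h.1).1
  obtain ⟨g, g1, g2, g3⟩ := pot_finite hS hH.gap (hY.image fun e => e.1 * e.2)
  have key := Bdry.fmp_good_le hS hg.compl ((fmp_supH_const hS (sub_nonneg.2 h1.le)).add g1)
    (U₀ := Kᶜ ∩ Y) (fun y hy a ha => by
      by_cases hK : y * a ∈ K
      · right
        have := (h.edge hH hR _ hK a⁻¹ (hS.symm a ha) (by
          rw [mul_inv_cancel_right]
          exact hy.1)).1
        rw [B.h_compl hg.1]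
        linarith [g1.1 (y * a)]
      by_cases hy' : y * a ∈ Y
      · exact Or.inl ⟨hK, hy'⟩
      · right
        have hE : (y, a) ∈ edgeBd S Y \ edgeBd S K :=
          ⟨⟨ha, fun e => hy' (e.1 hy.2)⟩, fun e => e.2 (iff_of_false hy.1 hK)⟩
        have := g3 _ ⟨_, hE, rfl⟩
        linarith [B.h_le_one (Z.b s)ᶜ (y * a)]) (by
      filter_upwards [(B.sub_iff _ _).1 hs] with ξ e hξ hn
      exact hn (e hξ))
  have hf : {x | ¬ g x ^ 2 < δ ^ 2}.Finite :=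
    eventually_cofinite.1 (g2.tendsto_cofinite_zero.eventually (gt_mem_nhds (by positivity)))
  refine hf.subset fun x hx => ?_
  have h2 := key x ⟨hx.1.2, hx.2⟩
  rw [B.h_compl hg.1] at h2
  have h3 := hd x hx.1
  have h4 : δ ≤ g x := by linarith
  exact not_lt.2 (pow_le_pow_left₀ hδ.le h4 2)

theorem VData.IsCore.nc (hH : HypQ S l) {Z : VData B} {lam : ℝ} {R : ℕ} {s : Subgroup G}
    {K : Set G} (hR : 2 * l + 1 ≤ R) (h0 : 0 < lam) (h1 : lam < 1) (h : Z.IsCore lam R s K)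
    {δ : ℝ} (hδ : 0 < δ) (hd : ∀ x ∈ wallV S K \ K, B.h (Z.b s) x ≤ lam - δ) {Y : Set G}
    (hY : (edgeBd S Y \ edgeBd S K).Finite) :
    ((wallV S K \ K) ∩ Y).Finite ∨ ((wallV S K \ K) \ Y).Finite := by
  have hS := hH.cay
  have hY' : (edgeBd S Yᶜ \ edgeBd S K).Finite := by rwa [fcb_edge_compl]
  have hg := Z.good s h.1
  rcases fcb_wall hH hR h0 h1 h hY with a | a
  · exact Or.inl (fcb_fin hH hR h1 h hδ hd hY a)
  rcases fcb_wall hH hR h0 h1 h hY' with a' | a'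
  · exact Or.inr (fcb_fin hH hR h1 h hδ hd hY' a')
  refine absurd ?_ hg.2.2
  refine (B.null_iff_ae _).2 ?_
  filter_upwards [(B.sub_iff _ _).1 a, (B.sub_iff _ _).1 a'] with ξ e e' hn
  by_cases hξ : ξ ∈ hatSet (Kᶜ ∩ Y)
  · refine hn (e' fun hξ' => ?_)
    have h2 : ξ ∈ hatSet (Kᶜ ∩ Y ∩ (Kᶜ ∩ Yᶜ)) := by
      rw [hatSet_inter]
      exact ⟨hξ, hξ'⟩
    have h3 : Kᶜ ∩ Y ∩ (Kᶜ ∩ Yᶜ) = ∅ :=
      Set.eq_empty_of_forall_notMem fun x hx => hx.2.2 hx.1.2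
    rw [h3] at h2
    exact Ultrafilter.empty_notMem h2
  · exact hn (e hξ)

theorem fcb_delta (hS : Cay S) (Z : VData B) {L : ℕ} (hL : 2 ≤ L) {lam : ℝ}
    (hl : (S.card : ℝ) ^ L * (1 - lam) < lam) {F : Set G} (hF : F.Finite) :
    ∃ δ : ℝ, 0 < δ ∧ ∀ f ∈ F, ∀ t ∈ Z.V, ∀ a ∈ S, lam ≤ B.h (Z.b t) (f * a) →
      B.h (Z.b t) f < lam → B.h (Z.b t) f ≤ lam - δ := by
  have key : ∀ᶠ δ in 𝓝[>] (0 : ℝ), ∀ f ∈ F, ∀ t ∈ Z.V, ∀ a ∈ S, lam ≤ B.h (Z.b t) (f * a) →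
      B.h (Z.b t) f < lam → B.h (Z.b t) f ≤ lam - δ := by
    refine (eventually_all_finite hF).2 fun f _ => ?_
    by_cases h : ∃ t ∈ Z.V, ∃ a ∈ S, lam ≤ B.h (Z.b t) (f * a) ∧ B.h (Z.b t) f < lam
    · obtain ⟨t, ht, a, ha, h1, h2⟩ := h
      filter_upwards [Ioo_mem_nhdsGT (sub_pos.2 h2)] with δ hδ t' ht' a' ha' h1' _
      have hb : f * a' ∈ bl S (f * a) L :=
        bl_mono _ (by omega) (mul_mem_bl (mem_bl_symm hS (mul_mem_bl (mem_bl_self f 0) ha)) ha')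
      obtain rfl := VData.lv_sep hS hl ht ht' (x := f * a) (y := f * a') h1 h1' hb
      linarith [hδ.2]
    · exact Eventually.of_forall fun δ t ht a ha h1 h2 => (h ⟨t, ht, a, ha, h1, h2⟩).elim
  obtain ⟨δ, h1, h2⟩ := (key.and self_mem_nhdsWithin).exists
  exact ⟨δ, h2, h1⟩

theorem VData.exists_cores (hH : HypQ S l) (Z : VData B) {L : ℕ} (hL : 2 * l + 2 ≤ L) :
    Nonempty (Cores B L) := by
  have hS := hH.cay
  have hN : (1 : ℝ) ≤ (S.card : ℝ) ^ L := one_le_pow₀ (by exact_mod_cast hS.card_pos)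
  obtain ⟨lam, h0, h1, hl⟩ : ∃ lam : ℝ, 0 < lam ∧ lam < 1 ∧ (S.card : ℝ) ^ L * (1 - lam) < lam := by
    have e1 : 1 / (4 * (S.card : ℝ) ^ L) ≤ 1 / 4 := one_div_le_one_div_of_le (by norm_num) (by linarith)
    have e2 : 0 < 1 / (4 * (S.card : ℝ) ^ L) := by positivity
    refine ⟨1 - 1 / (4 * (S.card : ℝ) ^ L), by linarith, by linarith, ?_⟩
    have e3 : (S.card : ℝ) ^ L * (1 - (1 - 1 / (4 * (S.card : ℝ) ^ L))) = 1 / 4 := by
      field_simp
      ring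
    linarith
  have hR : 2 * l + 1 ≤ 3 * L := by omega
  have uniq : ∀ {s t : Subgroup G} {K : Set G}, Z.IsCore lam (3 * L) s K →
      Z.IsCore lam (3 * L) t K → s = t := fun h h' => by
    obtain ⟨x, hx, -⟩ := fmp_wall_edge hS (h.wall_ne hH hR)
    exact VData.lv_sep hS hl h.1 h'.1 (h.sub hH hR h0 h1 hx) (h'.sub hH hR h0 h1 hx)
      (mem_bl_self _ _)
  let cls : Set G → Subgroup G := fun K =>
    if h : ∃ s, Z.IsCore lam (3 * L) s K then h.choose else ⊥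
  have hcls : ∀ {K : Set G}, (∃ s, Z.IsCore lam (3 * L) s K) → Z.IsCore lam (3 * L) (cls K) K :=
    fun {K} h => by
      have e : cls K = h.choose := dif_pos h
      rw [e]
      exact h.choose_spec
  obtain ⟨F, hF, hF'⟩ := Z.cof lam h1
  obtain ⟨δ, hδ, hd⟩ := fcb_delta hS Z (by omega : 2 ≤ L) hl hF
  refine ⟨{
    Γ := Z.Γ
    𝒦 := {K | ∃ s, Z.IsCore lam (3 * L) s K}
    cls := cls
    inv := fun γ hγ K hK => ⟨⟨_, (hcls hK).smul hS hγ⟩,
      uniq (hcls ⟨_, (hcls hK).smul hS hγ⟩) ((hcls hK).smul hS hγ)⟩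
    sep := fun K hK K' hK' x hx y hy hxy => ?_
    conn := fun K hK => (hcls hK).conn hH hR
    cof := ⟨F, hF, fun x hx => hF' x fun s hs => ?_⟩
    two := fun K hK => (hcls hK).two hH hR h0 h1
    cl := fun K hK => Z.cl _ (hcls hK).1
    nc := fun K hK Y hY => (hcls hK).nc hH hR h0 h1 hδ (fun x hx => ?_) hY
    clique := fun K hK K' hK' => Z.clique _ (hcls hK).1 _ (hcls hK').1
    ne := ?_ }⟩
  · obtain ⟨s, hs⟩ := hK
    obtain ⟨t, ht⟩ := hK'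
    obtain rfl := VData.lv_sep hS hl hs.1 ht.1 (hs.sub hH hR h0 h1 hx) (ht.sub hH hR h0 h1 hy) hxy
    exact hs.eq_of_near hH hR h0 h1 le_rfl ht hx hy hxy
  · by_contra hn
    obtain ⟨K, hK, hxK⟩ := VData.cover hS h0 hs (3 * L) (x := x) (le_of_not_ge hn)
    exact hx K ⟨s, hK⟩ hxK
  · have h := hcls hK
    obtain ⟨⟨a, ha, hxa⟩, hx⟩ := hx
    have hK' : x * a ∈ K := by
      by_contra hn
      exact hxa (iff_of_false hx hn)
    have e := h.edge hH hR _ hK' a⁻¹ (hS.symm a ha) (by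
      rw [mul_inv_cancel_right]
      exact hx)
    rw [mul_inv_cancel_right] at e
    obtain ⟨γ, hγ, hf⟩ := hF' x fun t ht => by
      by_contra hn
      have hb : x * a ∈ bl S x L := bl_mono x (by omega) (mul_mem_bl (mem_bl_self x 0) ha)
      obtain rfl := VData.lv_sep hS hl ht h.1 (x := x) (le_of_not_ge hn) e.1 hb
      exact hn e.2.le
    obtain ⟨i1, i2⟩ := Z.inv γ⁻¹ (Z.Γ.inv_mem hγ) _ h.1
    have e' : ∀ y, B.h (Z.b (cjg γ⁻¹ (cls K))) (γ⁻¹ * y) = B.h (Z.b (cls K)) y := fun y => by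
      rw [B.h_congr hS i2.1 i2.2, B.h_smul]
    rw [← e']
    refine hd _ hf _ i1 a ha ?_ ?_
    · rw [mul_assoc, e']
      exact e.1
    · rw [e']
      exact e.2
  · obtain ⟨s, hs, t, ht, hst⟩ := Z.two
    obtain ⟨K, hK⟩ := VData.exists_core hS h0 h1 hs (3 * L)
    obtain ⟨K', hK'⟩ := VData.exists_core hS h0 h1 ht (3 * L)
    refine ⟨K, ⟨s, hK⟩, K', ⟨t, hK'⟩, ?_⟩
    rw [uniq (hcls ⟨s, hK⟩) hK, uniq (hcls ⟨t, hK'⟩) hK']
    exact hst

end Vale.Agent.P239
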