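import Vale.Agent.P239.GoodSet
import Vale.Agent.P239.Visib
import Vale.Agent.P239.Royden
import Vale.Agent.P239.Cheeger
import Vale.Agent.P239.Amenable
import Vale.Agent.P239.BdExist
import Vale.Agent.P239.CapC
import Vale.Agent.P239.FinePart

/-! Definitions for the full theorem (no filling hypothesis). Overview in Full/PROOF.md.
-/

noncomputable section

open Classical MeasureTheory Filter Topology Set
open scoped Pointwise ENNReal

namespace Vale.Agent.P239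

universe u
variable {G : Type u} [Group G] {S : Finset G}

/-! ### Walls, neighbourhoods, potentials -/

/-- Vertices with a neighbour on the other side of `U`. -/
def wallV (S : Finset G) (U : Set G) : Set G := {x | ∃ s ∈ S, ¬ (x ∈ U ↔ x * s ∈ U)}

/-- `r`-neighbourhood. -/
def nbh (S : Finset G) (r : ℕ) (A : Set G) : Set G := {x | ∃ a ∈ A, a⁻¹ * x ∈ ball S r}

/-- Ball with centre `z`. -/
def bl (S : Finset G) (z : G) (r : ℕ) : Set G := {x | z⁻¹ * x ∈ ball S r}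

/-- Real indicator. -/
def ind (U : Set G) (x : G) : ℝ := if x ∈ U then 1 else 0

/-- Integer indicator. -/
def indZ (U : Set G) (x : G) : ℤ := if x ∈ U then 1 else 0

/-- `k` steps of the random walk. -/
def Pk (S : Finset G) (k : ℕ) (u : G → ℝ) : G → ℝ := (avg S)^[k] u

/-- The Green potential of `D` is finite. -/
def Tail (S : Finset G) (D : Set G) : Prop := ∀ x, Summable fun k => Pk S k (ind D) x

/-- Tail of the Green potential (`tail S D 0` is the Green potential of `D`). -/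
def tail (S : Finset G) (D : Set G) (k : ℕ) (x : G) : ℝ := ∑' m, Pk S (k + m) (ind D) x

/-- Nonnegative superharmonic function. -/
def SupH (S : Finset G) (g : G → ℝ) : Prop := (∀ x, 0 ≤ g x) ∧ ∀ x, avg S g x ≤ g x

/-- The far part of `N` has small superharmonic majorants. -/
def Thin (S : Finset G) (N : Set G) : Prop :=
  ∀ (x : G) (ε : ℝ), 0 < ε → ∃ (F : Set G) (g : G → ℝ), F.Finite ∧ SupH S g ∧
    (∀ y ∈ N, y ∉ F → 1 ≤ g y) ∧ g x ≤ ε

/-- Bounded boundary implies bounded size (edges labelled by `T`). -/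
def Iso (T : Finset G) : Prop :=
  ∀ K : ℕ, ∃ K' : ℕ, ∀ A : Set G, A.Finite → (edgeBd T A).ncard ≤ K → A.ncard ≤ K'

/-! ### Cochains -/

/-- `c` is a gradient on the edges starting in `N`. -/
def ExOn (S : Finset G) (c : G → G → ℤ) (N : Set G) : Prop :=
  ∃ D : G → ℤ, ∀ x ∈ N, ∀ s ∈ S, c x s = D (x * s) - D x

/-- The absolute hypotheses. -/
structure HypQ (S : Finset G) (l : ℕ) : Prop where
  cay : Cay S
  gap : Gap S
  one : OneEnded S
  tf : TorsionFree G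
  sc : ∀ c : G → G → ℤ, (∀ y, LocExact S l c y) → ExOn S c univ
  cof : ∀ c : G → G → ℤ, {y | ¬ LocExact S l c y}.Finite → ∃ w, (defect S c w).Finite

/-- Finitely many infinite finitely generated subgroups; their left cosets are the cones. -/
structure Cones (S : Finset G) where
  n : ℕ
  T : Fin n → Finset G
  sub : ∀ i, T i ⊆ S
  symm : ∀ i, ∀ t ∈ T i, t⁻¹ ∈ T i
  inf : ∀ i, (Subgroup.closure (T i : Set G) : Set G).Infinite

/-- No cones. -/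
def Cones.empty (S : Finset G) : Cones S where
  n := 0
  T := Fin.elim0
  sub := fun i => i.elim0
  symm := fun i => i.elim0
  inf := fun i => i.elim0

namespace Cones
variable (Q : Cones S)

def H (i : Fin Q.n) : Subgroup G := Subgroup.closure (Q.T i : Set G)

def cone (i : Fin Q.n) (γ : G) : Set G := {x | γ⁻¹ * x ∈ Q.H i}

/-- Neighbourhood of a cone. -/
def cn (l : ℕ) (i : Fin Q.n) (γ : G) : Set G := nbh S l (Q.cone i γ)

/-- Finite energy functions that are square summably close to a constant on the cones;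
the value on the cone through `x` is `u x - φ i x`. -/
def KF (u : G → ℝ) (φ : Fin Q.n → G → ℝ) : Prop :=
  FinEn S u ∧ ∀ i, SqSum (φ i) ∧ ∀ x, ∀ t ∈ Q.T i, u (x * t) - φ i (x * t) = u x - φ i x

/-- Square of the graph norm. -/
def nrm (u : G → ℝ) (φ : Fin Q.n → G → ℝ) : ℝ := energy S u + ∑ i, ∑' x, φ i x ^ 2

/-- Steps of length at most `R` or inside one cone neighbourhood. -/
def Step (l R : ℕ) (x y : G) : Prop :=
  x⁻¹ * y ∈ ball S R ∨ ∃ i γ, x ∈ Q.cn l i γ ∧ y ∈ Q.cn l i γ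

/-- Component of `x` in `D` (empty if `x ∉ D`). -/
def comp (l R : ℕ) (D : Set G) (x : G) : Set G :=
  {y | x ∈ D ∧ Relation.ReflTransGen (fun a b => a ∈ D ∧ b ∈ D ∧ Q.Step l R a b) x y}

/-- `C` cannot be split by a cut on which some converging function is low. -/
def End (C : Set G) : Prop :=
  ∀ v φ, Q.KF v φ → ∀ c a : ℝ, a < c → Tendsto v (cofinite ⊓ 𝓟 C) (𝓝 c) →
    ∀ U : Set G, (wallV S U ∩ {x | a < v x}).Finite → (U ∩ C).Finite ∨ (C \ U).Finite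

/-- An isolated cluster of the support of `c` near the cone, exact on the cone neighbourhood. -/
def Clus (l : ℕ) (c : G → G → ℤ) (i : Fin Q.n) (γ z : G) (D : ℕ) : Prop :=
  (∀ x ∈ Q.cn l i γ, x ∈ bl S z (3 * D + 1) → (∃ s ∈ S, c x s ≠ 0) → x ∈ bl S z D) ∧
    ExOn S (fun x s => if x ∈ bl S z D then c x s else 0) (Q.cn l i γ)

/-- Outside `K` the support of `c` near every cone lies in clusters of radius at most `D₀`. -/
def Tame (l : ℕ) (c : G → G → ℤ) (K : Set G) (D₀ : ℕ) : Prop :=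
  ∀ i γ, ∀ y ∈ Q.cn l i γ, y ∉ K → (∃ s ∈ S, c y s ≠ 0) → ∃ D ≤ D₀, Q.Clus l c i γ y D

/-- `κ` repairs `c` near `z`. -/
def Rep (l : ℕ) (c κ : G → G → ℤ) (z : G) (ρ ρ₁ ρ₂ : ℕ) : Prop :=
  (∀ x s, κ x s ≠ 0 → x ∈ bl S z ρ) ∧
  (∀ y ∈ bl S z ρ₁, LocExact S l (fun x s => c x s - κ x s) y) ∧
  ∀ i γ, (Q.cn l i γ ∩ bl S z ρ₁).Nonempty → Q.Clus l (fun x s => c x s - κ x s) i γ z ρ₂

end Cones

/-- The relative hypotheses. -/
structure RH (S : Finset G) (l : ℕ) (Q : Cones S) : Prop where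
  cay : Cay S
  gap : Gap S
  one : OneEnded S
  tf : TorsionFree G
  ax2 : ∀ c : G → G → ℤ, (∀ y, LocExact S l c y) → (∀ i γ, ExOn S c (Q.cn l i γ)) → ExOn S c univ
  ax3 : ∀ (c : G → G → ℤ) (F : Set G), F.Finite → (∀ y, y ∉ F → LocExact S l c y) →
    (∀ i γ, Disjoint (Q.cn l i γ) F → ExOn S c (Q.cn l i γ)) →
    (∀ i γ, ExOn S c (Q.cn l i γ \ F)) → ∃ w, (defect S c w).Finite
  ax6 : ∀ i γ, Q.End (Q.cone i γ)
  iso : ∀ i, Iso (Q.T i)

/-- The cut determined by a component `C` of the wall of `Y`. -/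
def cut (S : Finset G) (Y C : Set G) : Set G :=
  {x | ∃ y ∈ C ∩ Y, Relation.ReflTransGen
    (fun a b => ∃ s ∈ S, b = a * s ∧ ¬ (a ∈ C ∧ ¬ (a ∈ Y ↔ b ∈ Y))) x y}

/-! ### Edge functions (edges `x → x * b`, `b ∈ T`) -/

def SqE (T : Finset G) (f : G → G → ℝ) : Prop := ∀ b ∈ T, SqSum fun x => f x b

def DivFree (T : Finset G) (f : G → G → ℝ) : Prop := ∀ y, ∑ b ∈ T, (f (y * b⁻¹) b - f y b) = 0

def pairE (T : Finset G) (f : G → G → ℝ) (u : G → ℝ) : ℝ :=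
  ∑' x, ∑ b ∈ T, f x b * (u (x * b) - u x)

/-- On the graph on `C` with edge labels `T` the gradient of every finite energy function of `G`
is orthogonal to the divergence free fields, i.e. a limit of gradients of finitely supported
functions. -/
def WD (S T : Finset G) (C : Set G) : Prop :=
  ∀ u, FinEn S u → ∀ f, SqE T f → (∀ x b, f x b ≠ 0 → x ∈ C ∧ x * b ∈ C) → DivFree T f →
    pairE T f u = 0

/-- The same for the functions of class `KF`, on the whole group. -/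
def Cones.WK (Q : Cones S) (T : Finset G) : Prop :=
  ∀ u φ, Q.KF u φ → ∀ f, SqE T f → DivFree T f → pairE T f u = 0

namespace Bdry
variable (B : Bdry S) (Q : Cones S)

def Two (A : Set (Bd G)) : Prop := ¬ B.Null A ∧ ¬ B.Null Aᶜ

def AEq (A A' : Set (Bd G)) : Prop := B.Sub A A' ∧ B.Sub A' A

def SSub (A A' : Set (Bd G)) : Prop := B.Sub A A' ∧ ¬ B.Sub A' A

/-- Convergence in measure. -/
def Cv (A : ℕ → Set (Bd G)) (L : Set (Bd G)) : Prop :=
  Tendsto (fun k => B.μ 1 (symmDiff (A k) L)) atTop (𝓝 0)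

/-- `A` is seen from `x` together with its complement. -/
def Sees (ε : ℝ) (A : Set (Bd G)) (x : G) : Prop := ε ≤ B.h A x ∧ ε ≤ B.h Aᶜ x

/-- Finite visibility: finitely many points see both events, and on every cone one of the two
events is seen from finitely many points only. -/
def FVP (E E' : Set (Bd G)) : Prop :=
  (∀ ε : ℝ, 0 < ε → {x | ε ≤ B.h E x ∧ ε ≤ B.h E' x}.Finite) ∧
    ∀ i γ, (∀ ε : ℝ, 0 < ε → {x | x ∈ Q.cone i γ ∧ ε ≤ B.h E x}.Finite) ∨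
      (∀ ε : ℝ, 0 < ε → {x | x ∈ Q.cone i γ ∧ ε ≤ B.h E' x}.Finite)

def IsK (ψ : Bd G → ℝ) : Prop :=
  Measurable ψ ∧ Bdd ψ ∧ ∃ u φ, Bdd u ∧ Q.KF u φ ∧ ψ =ᵐ[B.μ 1] hat u

def IsK01 (ψ : Bd G → ℝ) : Prop := B.IsK Q ψ ∧ ∀ ξ, 0 ≤ ψ ξ ∧ ψ ξ ≤ 1

def IrrK (A : Set (Bd G)) : Prop :=
  ∀ θ, B.IsK Q θ → (∀ᵐ ξ ∂B.μ 1, ξ ∈ A → θ ξ = 0 ∨ θ ξ = 1) →
    (∀ᵐ ξ ∂B.μ 1, ξ ∈ A → θ ξ = 0) ∨ (∀ᵐ ξ ∂B.μ 1, ξ ∈ A → θ ξ = 1)

def SepK (A A' : Set (Bd G)) : Prop :=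
  ∃ θ, B.IsK01 Q θ ∧ (∀ᵐ ξ ∂B.μ 1, ξ ∈ A → θ ξ = 0) ∧ (∀ᵐ ξ ∂B.μ 1, ξ ∈ A' → θ ξ = 1)

def SplitK (f : Bd G → ℝ) (E : Set (Bd G)) : Prop :=
  MeasurableSet E ∧ ∀ t : ℝ, 0 < t → B.IsK Q (E.indicator fun ξ => max (f ξ - t) 0)

/-- The canonical vertex set of an event. -/
def lev (E : Set (Bd G)) : Set G := {x | 1 / 2 ≤ B.h E x}

/-- The canonical cap of `E` above the level `t`. -/
def capV (f : Bd G → ℝ) (E : Set (Bd G)) (t : ℝ) : Set G :=
  wallV S (B.lev E) ∩ {x | t < B.H f x}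

/-- Uniformly bounded caps for all functions of class `IsK01`. -/
def BddCaps : Prop :=
  ∀ f, B.IsK01 Q f → ∀ t : ℝ, 0 < t → ∃ N : ℕ, ∀ E, B.SplitK Q f E → (B.capV f E t).ncard ≤ N

/-- A nonconstant function of class `IsK`. -/
def NonK : Prop :=
  ∃ f, B.IsK01 Q f ∧ ¬ B.Null {ξ | f ξ < 1 / 4} ∧ ¬ B.Null {ξ | 3 / 4 < f ξ}

/-- An invariant nested family of good events. -/
structure NFam where
  𝓛 : Set (Set (Bd G))
  smul : ∀ (g : G), ∀ A ∈ 𝓛, g • A ∈ 𝓛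
  compl : ∀ A ∈ 𝓛, Aᶜ ∈ 𝓛
  good : ∀ A ∈ 𝓛, B.Good A
  nested : ∀ A ∈ 𝓛, ∀ A' ∈ 𝓛, B.Nested A A'

/-- An increasing sequence in the family with finite visibility towards the complement of the
union. -/
structure Chain (Φ : B.NFam) where
  a : ℕ → Set (Bd G)
  mem : ∀ j, a j ∈ Φ.𝓛
  mono : ∀ j, B.Sub (a j) (a (j + 1))
  pos : ¬ B.Null (a 0)
  pos' : ¬ B.Null (⋃ j, a j)ᶜ
  fvp : ∀ j, B.FVP Q (a j) (⋃ j, a j)ᶜ

variable {B Q}

/-- The union. -/
def Chain.A {Φ : B.NFam} (J : B.Chain Q Φ) : Set (Bd G) := ⋃ j, J.a j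

/-- Two-sided limits of translates of the complement of the union. -/
def Chain.Lim {Φ : B.NFam} (J : B.Chain Q Φ) (R : Set (Bd G)) : Prop :=
  B.Good R ∧ B.Two R ∧ ∃ g : ℕ → G, B.Cv (fun k => g k • J.Aᶜ) R

/-- Limit triples `(L, (L ∪ R)ᶜ, R)`. -/
def Chain.LT {Φ : B.NFam} (J : B.Chain Q Φ) (L R : Set (Bd G)) : Prop :=
  B.Good L ∧ B.Good R ∧ ¬ B.Null L ∧ ¬ B.Null R ∧ ¬ B.Null (L ∪ R)ᶜ ∧
    ∃ (n : ℕ → ℕ) (x : ℕ → G), Tendsto n atTop atTop ∧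
      B.Cv (fun k => (x k)⁻¹ • J.a (n k)) L ∧ B.Cv (fun k => (x k)⁻¹ • J.Aᶜ) R

variable (B Q)

/-- A system of classes with half spaces `a s t` (what lies behind `s` as seen from `t`). -/
structure ClassSys (α : Type*) where
  C : Set α
  act : G → α → α
  act_one : ∀ s, act 1 s = s
  act_mul : ∀ g h s, act (g * h) s = act g (act h s)
  act_mem : ∀ g, ∀ s ∈ C, act g s ∈ C
  a : α → α → Set (Bd G)
  good : ∀ s ∈ C, ∀ t ∈ C, s ≠ t → B.Good (a s t) ∧ ¬ B.Null (a s t)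
  disj : ∀ s ∈ C, ∀ t ∈ C, s ≠ t → B.Null (a s t ∩ a t s)
  dir : ∀ s ∈ C, ∀ t ∈ C, ∀ t' ∈ C, s ≠ t → s ≠ t' →
    B.AEq (a s t) (a s t') ∨ B.Null ((a s t)ᶜ ∩ (a s t')ᶜ)
  equi : ∀ g, ∀ s ∈ C, ∀ t ∈ C, s ≠ t → B.AEq (a (act g s) (act g t)) (g • a s t)
  fvp : ∀ t₀ ∈ C, ∀ t₁ ∈ C, ∀ t₂ ∈ C, ∀ t₃ ∈ C, t₀ ≠ t₁ → t₁ ≠ t₂ → t₂ ≠ t₃ →
    ¬ B.AEq (a t₁ t₀) (a t₁ t₂) → ¬ B.AEq (a t₂ t₃) (a t₂ t₁) → B.FVP Q (a t₁ t₀)ᶜ (a t₂ t₃)ᶜ

variable {B Q}

/-- `r` separates `s` from `t`. -/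
def ClassSys.Btw {α : Type*} (Y : B.ClassSys Q α) (r s t : α) : Prop :=
  r ≠ s ∧ r ≠ t ∧ ¬ B.AEq (Y.a r s) (Y.a r t)

/-- Walls of the class `s`. -/
def ClassSys.Wall {α : Type*} (Y : B.ClassSys Q α) (s : α) (A : Set (Bd G)) : Prop :=
  MeasurableSet A ∧ ∀ t ∈ Y.C, t ≠ s → B.Sub A (Y.a s t) ∨ B.Sub Aᶜ (Y.a s t)

/-- A vertex: a set of pairwise adjacent classes with a cofinite stabiliser. -/
structure ClassSys.Vertex {α : Type*} (Y : B.ClassSys Q α) where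
  V : Set α
  b : α → Set (Bd G)
  Γ : Subgroup G
  sub : V ⊆ Y.C
  two : ∃ s ∈ V, ∃ t ∈ V, s ≠ t
  b_eq : ∀ s ∈ V, ∀ t ∈ V, s ≠ t → B.AEq (b s) (Y.a s t)
  b_good : ∀ s ∈ V, B.Good (b s)
  clique : ∀ s ∈ V, ∀ t ∈ V, ∀ r ∈ Y.C, ¬ Y.Btw r s t
  inv : ∀ γ ∈ Γ, ∀ s ∈ V, Y.act γ s ∈ V
  cof : ∀ lam : ℝ, lam < 1 → ∃ F : Set G, F.Finite ∧
    ∀ x, (∀ s ∈ V, B.h (b s) x ≤ lam) → ∃ γ ∈ Γ, γ⁻¹ * x ∈ F

end Bdry

/-- Conclusion of the relative theorem. -/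
def ThmR (B : Bdry S) (Q : Cones S) : Prop :=
  ∃ (M : Subgroup G) (A : Set (Bd G)) (R : ℕ), B.Good A ∧ B.Two A ∧
    wallV S (B.lev A) ⊆ nbh S R M ∧ ∀ T : Finset G, (T : Set G) ⊆ M → Q.WK T

/-! ### Wired subgroups -/

/-- `u - φ` is constant on the left cosets of `H`. -/
def KS (H : Subgroup G) (u φ : G → ℝ) : Prop :=
  SqSum φ ∧ ∀ x, ∀ h ∈ H, u (x * h) - φ (x * h) = u x - φ x

def Wired (S T : Finset G) : Prop := WD S T univ

/-- The largest subgroup with the same functions as `H`. -/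
def hull (S : Finset G) (H : Subgroup G) : Subgroup G where
  carrier := {g | ∀ u φ, FinEn S u → KS H u φ → ∀ x, u (x * g) - φ (x * g) = u x - φ x}
  one_mem' := fun u φ _ _ x => by rw [mul_one]
  mul_mem' := fun {a b} ha hb u φ hu hφ x => by
    rw [← mul_assoc, hb u φ hu hφ (x * a), ha u φ hu hφ x]
  inv_mem' := fun {a} ha u φ hu hφ x => by
    have h := ha u φ hu hφ (x * a⁻¹)
    rw [inv_mul_cancel_right] at h
    exact h.symm

/-- Classes: maximal wired infinite subgroups. -/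
def IsCl (S : Finset G) (t : Subgroup G) : Prop :=
  ∃ T : Finset G, Wired S T ∧ (Subgroup.closure (T : Set G) : Set G).Infinite ∧
    t = hull S (Subgroup.closure (T : Set G))

def cjg (g : G) (t : Subgroup G) : Subgroup G := t.map (MulAut.conj g).toMonoidHom

/-- `U` is a two-sided cut along the subgroup `H`. -/
def WallOf (B : Bdry S) (H : Subgroup G) (U : Set G) : Prop :=
  B.Two (hatSet U) ∧ ∃ R, wallV S U ⊆ nbh S R H

/-- Classes containing a finitely generated subgroup that carries a wall. -/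
def IsWCl (B : Bdry S) (t : Subgroup G) : Prop :=
  IsCl S t ∧ ∃ T : Finset G, (T : Set G) ⊆ t ∧ ∃ U, WallOf B (Subgroup.closure (T : Set G)) U

/-- A nonconstant boundary function of finite energy. -/
def Bdry.NonD (B : Bdry S) : Prop := ∃ u, Bdd u ∧ FinEn S u ∧ ∀ c : ℝ, ¬ ∀ᵐ ξ ∂B.μ 1, hat u ξ = c

end Vale.Agent.P239
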