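import Vale.Agent.P239.Full.FGreen
import Vale.Agent.P239.Full.FCut

/-! Definitions: invariant random collections of walls, necks and blocks.
-/

noncomputable section

open Classical MeasureTheory Filter Topology Set
open scoped Pointwise ENNReal

namespace Vale.Agent.P239

universe u
variable {G : Type u} [Group G] {S : Finset G}

/-- A measure preserving action on a probability space. -/
structure PAct (G : Type u) [Group G] (X : Type u) [MeasurableSpace X] where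
  P : Measure X
  prob : IsProbabilityMeasure P
  sh : G → X → X
  sh_one : ∀ ξ, sh 1 ξ = ξ
  sh_mul : ∀ g h ξ, sh (g * h) ξ = sh g (sh h ξ)
  mp : ∀ g, MeasurePreserving (sh g) P P

instance {X : Type u} [MeasurableSpace X] (A : PAct G X) : IsProbabilityMeasure A.P := A.prob

/-- Independent copies. -/
def PAct.pi {X : Type u} [MeasurableSpace X] (A : PAct G X) (L : Type) [Fintype L] :
    PAct G (L → X) where
  P := Measure.pi fun _ => A.P
  prob := inferInstance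
  sh g ξ := fun i => A.sh g (ξ i)
  sh_one ξ := funext fun i => A.sh_one (ξ i)
  sh_mul g h ξ := funext fun i => A.sh_mul g h (ξ i)
  mp g := measurePreserving_pi (fun _ => A.P) (fun _ => A.P) fun _ => A.mp g

/-- A partial equivalence relation on `G × ℕ` with at most one point of a class over each vertex. -/
structure EqvOK (r : G × ℕ → G × ℕ → Prop) : Prop where
  symm : ∀ p q, r p q → r q p
  trans : ∀ p q s, r p q → r q s → r p s
  func : ∀ p x j j', r p (x, j) → r p (x, j') → j = j'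

/-- The set of vertices of the class of `p`. -/
def fibR (r : G × ℕ → G × ℕ → Prop) (p : G × ℕ) : Set G := {x | ∃ j, r p (x, j)}

/-- `u - ψ` is constant on the classes. -/
def ClsC (r : G × ℕ → G × ℕ → Prop) (u : G → ℝ) (ψ : G × ℕ → ℝ) : Prop :=
  SqSum ψ ∧ ∀ p q, r p q → u p.1 - ψ p = u q.1 - ψ q

/-- An invariant random partial equivalence relation of finite intensity. -/
structure REnv (G : Type u) [Group G] (X : Type u) [MeasurableSpace X] where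
  A : PAct G X
  r : X → G × ℕ → G × ℕ → Prop
  meas : ∀ p q, MeasurableSet {ξ | r ξ p q}
  equi : ∀ g ξ p q, r (A.sh g ξ) (g * p.1, p.2) (g * q.1, q.2) ↔ r ξ p q
  fin : ∑' j : ℕ, A.P {ξ | r ξ (1, j) (1, j)} ≠ ⊤
  ok : ∀ᵐ ξ ∂A.P, EqvOK (r ξ)

/-! ### Configurations -/

abbrev Lb : Type := Bool ⊕ ℕ × ℕ

/-- A side `Y`, a set `D`, and colour classes `Z σ q`. -/
abbrev Cf (G : Type u) : Type u := G → Lb → Bool

def cfY (ω : Cf G) : Set G := {x | ω x (Sum.inl false) = true}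

def cfD (ω : Cf G) : Set G := {x | ω x (Sum.inl true) = true}

def cfZ (ω : Cf G) (σ q : ℕ) : Set G := {x | ω x (Sum.inr (σ, q)) = true}

def cfSh (g : G) (ω : Cf G) : Cf G := fun x => ω (g⁻¹ * x)

structure CfOK (S : Finset G) (ω : Cf G) : Prop where
  wall : cfD ω = wallV S (cfY ω)
  sep : ∀ σ q, ∀ x ∈ cfZ ω σ q, ∀ y ∈ cfZ ω σ q, y ∈ bl S x σ → x = y
  cov : ∀ σ x, ∃ q, x ∈ cfZ ω σ q
  tl : Tail S (cfD ω)
  wd : ∀ ρ, WD S (ball S ρ) (cfD ω)

/-- Every class carries a configuration whose set `D` is the vertex set of the class. -/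
structure MEnv (G : Type u) [Group G] (X : Type u) [MeasurableSpace X] extends REnv G X where
  cfg : X → G × ℕ → Cf G
  meas_cfg : ∀ p, Measurable fun ξ => cfg ξ p
  cfg_sh : ∀ g ξ p, cfg (A.sh g ξ) (g * p.1, p.2) = cfSh g (cfg ξ p)
  str : ∀ᵐ ξ ∂A.P, (∀ p q, r ξ p q → cfg ξ p = cfg ξ q) ∧
    ∀ p, r ξ p p → cfD (cfg ξ p) = fibR (r ξ) p

structure PEnv (B : Bdry S) (X : Type u) [MeasurableSpace X] extends MEnv G X where
  cok : ∀ᵐ ξ ∂A.P, ∀ p, r ξ p p → CfOK S (cfg ξ p)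
  pos : ¬ ∀ᵐ ξ ∂A.P, ∀ p, r ξ p p → ¬ B.Two (hatSet (cfY (cfg ξ p)))

/-- Average of `f` over the configuration seen from the points of `D`. -/
def av (D : Finset G) (ω : Cf G) (f : Cf G → ℝ) : ℝ := (∑ d ∈ D, f (cfSh d⁻¹ ω)) / D.card

def MEnv.Up {X : Type u} [MeasurableSpace X] (E : MEnv G X) (D : ℕ → Finset G) (ω : ℕ → Cf G) :
    Prop :=
  ∀ f : Cf G → ℝ, Continuous f → (∀ a, 0 ≤ f a) → ∀ c : ℝ, (∀ᶠ n in atTop, av (D n) (ω n) f ≤ c) →
    ∑' j : ℕ, ∫⁻ ξ, (if E.r ξ (1, j) (1, j) then ENNReal.ofReal (f (E.cfg ξ (1, j))) else 0) ∂E.A.P ≤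
      ENNReal.ofReal c

def MEnv.Low {X : Type u} [MeasurableSpace X] (E : MEnv G X) (D : ℕ → Finset G) (ω : ℕ → Cf G) :
    Prop :=
  ∀ f : Cf G → ℝ, Continuous f → (∀ a, 0 ≤ f a) → ∀ c : ℝ, (∀ᶠ n in atTop, c ≤ av (D n) (ω n) f) →
    ENNReal.ofReal (c / 4) ≤
      ∫⁻ ξ, (if E.r ξ (1, 0) (1, 0) then ENNReal.ofReal (f (E.cfg ξ (1, 0))) else 0) ∂E.A.P

/-- The compact space of collections of configurations: at the vertex `x` the `i`-th copy through
`x` is recorded in relative coordinates, together with its index at the other vertices. -/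
abbrev SX (G : Type u) : Type u := G → ℕ × G × (Lb ⊕ ℕ) → Bool

def sxSh (g : G) (ξ : SX G) : SX G := fun x => ξ (g⁻¹ * x)

def sxMt (ξ : SX G) (p q : G × ℕ) : Prop := ξ p.1 (p.2, p.1⁻¹ * q.1, Sum.inr q.2) = true

def sxCfg (ξ : SX G) (p : G × ℕ) : Cf G := fun y a => ξ p.1 (p.2, p.1⁻¹ * y, Sum.inl a)

/-- The closed structural conditions. -/
def StrC (ξ : SX G) : Prop :=
  EqvOK (sxMt ξ) ∧ ∀ p q, sxMt ξ p q → sxCfg ξ p = sxCfg ξ q ∧ q.1 ∈ cfD (sxCfg ξ p)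

/-- An almost closed finite piece `D` of the wall of `Y`, from most of whose points both sides are
seen. -/
def Sel (S : Finset G) (δ : ℝ) (r : ℕ) (D : Finset G) (Y : Set G) : Prop :=
  D.Nonempty ∧ (D : Set G) ⊆ wallV S Y ∧ ∃ Dg ⊆ D, ((D \ Dg).card : ℝ) ≤ δ * D.card ∧
    ∀ x ∈ Dg, (∀ y ∈ bl S x r, y ∈ wallV S Y → y ∈ D) ∧ ∀ k,
      1 / (2 * S.card) - tail S (D : Set G) k x - δ ≤ Pk S k (ind Y) x ∧
        Pk S k (ind Y) x ≤ 1 - 1 / (2 * S.card) + tail S (D : Set G) k x + δ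

/-! ### Necks and blocks -/

/-- Edges with label in `ball ρ` inside `C` that cross `A`. -/
def crossE (S : Finset G) (ρ : ℕ) (C A : Set G) : Set (G × G) :=
  {e | e.2 ∈ ball S ρ ∧ e.1 ∈ C ∧ e.1 * e.2 ∈ C ∧ ¬ (e.1 ∈ A ↔ e.1 * e.2 ∈ A)}

/-- The gradient of the indicator of `A` on the `ρ`-graph on `C` is a limit of gradients of
finitely supported functions. -/
def CobLim (S : Finset G) (ρ : ℕ) (C A : Set G) : Prop :=
  ∀ m : ℕ, ∃ φ : G →₀ ℚ, ∀ W : Finset (G × G),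
    ∑ e ∈ W, (if e.2 ∈ ball S ρ ∧ e.1 ∈ C ∧ e.1 * e.2 ∈ C then
      (ind A (e.1 * e.2) - ind A e.1 - ((φ (e.1 * e.2) : ℝ) - (φ e.1 : ℝ))) ^ 2 else 0) ≤
      1 / ((m : ℝ) + 1)

/-- Types of necks: three radii and a set of ports. -/
abbrev NT (G : Type u) : Type u := ℕ × ℕ × ℕ × Finset G

/-- Component for steps of length at most `ρ` only. -/
def rc (S : Finset G) (ρ : ℕ) (β : Set G) (x : G) : Set G := (Cones.empty S).comp 0 ρ β x

namespace Cones
variable (Q : Cones S)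

def cp (l : ℕ) (D : Set G) (x : G) : Set G := Q.comp l (2 * l + 1) D x

def side (l : ℕ) (D : Set G) (τ : NT G) (z : G) : Set G :=
  {y | ∃ π ∈ τ.2.2.2, y ∈ Q.cp l (D \ bl S z τ.1) (z * π)}

def Neck (l : ℕ) (D : Set G) (τ : NT G) (z : G) : Prop :=
  z ∈ D ∧ τ.1 ≤ τ.2.1 ∧ τ.2.1 ≤ τ.2.2.1 ∧ (∀ π ∈ τ.2.2.2, π ∈ ball S τ.2.1 ∧ z * π ∈ Q.cp l D z) ∧
    (Q.side l D τ z).Infinite ∧ (Q.cp l D z \ Q.side l D τ z).Infinite ∧
    (∀ y ∈ Q.cp l D z, y ∈ bl S z τ.2.1 → y ∈ Q.cp l (Q.cp l D z ∩ bl S z τ.2.2.1) z) ∧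
    ∀ ρ, (crossE S ρ (Q.cp l D z) (Q.side l D τ z)).Finite ∧
      CobLim S ρ (Q.cp l D z) (Q.side l D τ z)

/-- Necks of type `τ` and colour `(σ, q)`. -/
def NX (l : ℕ) (ω : Cf G) (τ : NT G) (σ q : ℕ) : Set G :=
  {z | z ∈ cfZ ω σ q ∧ Q.Neck l (cfD ω) τ z}

/-- The block of `x`. -/
def blk (l : ℕ) (D : Set G) (τ : NT G) (X : Set G) (x : G) : Set G :=
  {y | y ∈ Q.cp l D x ∧ ∀ z ∈ X, z ∈ Q.cp l D x → (x ∈ Q.side l D τ z ↔ y ∈ Q.side l D τ z)}

/-- All blocks in components with necks are finite. -/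
def FBok (l : ℕ) (ω : Cf G) : Prop :=
  ∀ (τ : NT G) (σ q : ℕ), 2 * τ.2.2.1 ≤ σ → ∀ x ∈ cfD ω,
    (Q.NX l ω τ σ q ∩ Q.cp l (cfD ω) x).Nonempty →
      (Q.blk l (cfD ω) τ (Q.NX l ω τ σ q) x).Finite

end Cones

/-- A good wall: connected, two-sided, thin, wired, without necks. -/
structure WOK (B : Bdry S) (Q : Cones S) (l : ℕ) (U : Set G) : Prop where
  conn : ∀ x ∈ wallV S U, wallV S U ⊆ Q.cp l (wallV S U) x
  two : B.Two (hatSet U)
  thin : Thin S (wallV S U)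
  wd : ∀ ρ, WD S (ball S ρ) (wallV S U)
  ends : Q.End (wallV S U)

/-- An invariant random collection of good walls. -/
structure TEnv (B : Bdry S) (Q : Cones S) (l : ℕ) (X : Type u) [MeasurableSpace X]
    extends REnv G X where
  U : X → G × ℕ → Set G
  U_sh : ∀ g ξ p, U (A.sh g ξ) (g * p.1, p.2) = g • U ξ p
  wok : ∀ᵐ ξ ∂A.P, ∀ p, r ξ p p → wallV S (U ξ p) = fibR (r ξ) p ∧ WOK B Q l (U ξ p)
  pos : ¬ ∀ᵐ ξ ∂A.P, ∀ p, ¬ r ξ p p

/-- Points, with the discrete sigma algebra. -/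
def Pt (G : Type u) : Type u := G × ℕ

instance : MeasurableSpace (Pt G) := ⊤

instance : DiscreteMeasurableSpace (Pt G) := ⟨fun _ => trivial⟩

/-- The invariant measure on pointed environments. -/
def REnv.m {X : Type u} [MeasurableSpace X] (E : REnv G X) : Measure (X × Pt G) :=
  (E.A.P.prod Measure.count).restrict {z | E.r z.1 z.2 z.2}

def REnv.act {X : Type u} [MeasurableSpace X] (E : REnv G X) (g : G) (z : X × Pt G) : X × Pt G :=
  (E.A.sh g z.1, ((g * z.2.1, z.2.2) : G × ℕ))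

/-- The two classes give the same value to all functions that are nearly constant on all classes
of both environments. -/
def REnv.Bad {X : Type u} [MeasurableSpace X] (E : REnv G X) (Q : Cones S) (z z' : X × Pt G) :
    Prop :=
  ∀ u φ ψ ψ', Q.KF u φ → ClsC (E.r z.1) u ψ → ClsC (E.r z'.1) u ψ' →
    u z.2.1 - ψ z.2 = u z'.2.1 - ψ' z'.2

/-- Functions nearly constant on the classes of all layers are dense among those nearly constant
on the classes of the layers in `A`. -/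
def GDens (Q : Cones S) {L : Type} (r : L → G × ℕ → G × ℕ → Prop) (A : Set L) : Prop :=
  ∀ (u : G → ℝ) (φ : Fin Q.n → G → ℝ) (ψ : L → G × ℕ → ℝ), Q.KF u φ →
    (∀ a ∈ A, ClsC (r a) u (ψ a)) → ∀ ε : ℝ, 0 < ε →
      ∃ (u' : G → ℝ) (φ' : Fin Q.n → G → ℝ) (ψ' : L → G × ℕ → ℝ), Q.KF u' φ' ∧
        (∀ a, ClsC (r a) u' (ψ' a)) ∧ u' 1 = u 1 ∧ energy S (fun x => u x - u' x) ≤ ε ∧
        ∀ a ∈ A, ∑' p, (ψ a p - ψ' a p) ^ 2 ≤ ε

/-! ### The operator `1 - ∇∇* / K` on edge functions -/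

def edR (T : Finset G) (D : Set G) (u : G → ℝ) (x b : G) : ℝ :=
  if b ∈ T ∧ x ∈ D ∧ x * b ∈ D then u (x * b) - u x else 0

def dvg (T : Finset G) (η : G → G → ℝ) (y : G) : ℝ := ∑ b ∈ T, (η (y * b⁻¹) b - η y b)

def tE (T : Finset G) (D : Set G) (η : G → G → ℝ) (x b : G) : ℝ :=
  η x b - edR T D (dvg T η) x b / (4 * T.card)

/-- The translates of `u` form a Bessel family for the energy. -/
def Bessel (S : Finset G) (u : G → ℝ) : Prop :=
  FinEn S u ∧ ∀ (W : Finset G) (a : G → ℝ),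
    energy S (fun x => ∑ g ∈ W, a g * u (g⁻¹ * x)) ≤ ∑ g ∈ W, a g ^ 2

end Vale.Agent.P239
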