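import Vale.Agent.P239.Full.FDef2

/-! Definitions: abstract von Neumann dimension, fields of square summable functions.
-/

noncomputable section

open Classical MeasureTheory Filter Topology Set
open scoped Pointwise ENNReal

namespace Vale.Agent.P239

universe u
variable {G : Type u} [Group G] {S : Finset G}

/-- A Hilbert space with a family of symmetries and trace vectors. -/
structure TS (H : Type*) [NormedAddCommGroup H] [InnerProductSpace ℝ H] [CompleteSpace H]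
    (I : Type*) where
  M : Set (H →L[ℝ] H)
  adj : ∀ m ∈ M, ContinuousLinearMap.adjoint m ∈ M
  δ : I → H
  tr : ∀ T : H →L[ℝ] H, (∀ m ∈ M, ∀ x, T (m x) = m (T x)) →
    ∑' i, ‖T (δ i)‖ₑ ^ 2 = ∑' i, ‖ContinuousLinearMap.adjoint T (δ i)‖ₑ ^ 2
  faith : ∀ T : H →L[ℝ] H, (∀ m ∈ M, ∀ x, T (m x) = m (T x)) → (∀ i, T (δ i) = 0) → T = 0

namespace TS
variable {H : Type*} [NormedAddCommGroup H] [InnerProductSpace ℝ H] [CompleteSpace H] {I : Type*}
  (τ : TS H I)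

def Comm (T : H →L[ℝ] H) : Prop := ∀ m ∈ τ.M, ∀ x, T (m x) = m (T x)

/-- Invariant (not necessarily closed) subspace. -/
def Stab (W : Submodule ℝ H) : Prop := ∀ m ∈ τ.M, ∀ w ∈ W, m w ∈ W

/-- Closed invariant subspace. -/
def Inv (W : Submodule ℝ H) : Prop := IsClosed (W : Set H) ∧ τ.Stab W

/-- Dimension of the closure of `W`. -/
def dim (W : Submodule ℝ H) : ℝ≥0∞ := ∑' i, ‖W.topologicalClosure.starProjection (τ.δ i)‖ₑ ^ 2

end TS

/-- Square integrable fields of square summable functions on `G × I`. -/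
abbrev FH {X : Type u} [MeasurableSpace X] (A : PAct G X) (I : Type u) : Type u :=
  lp (fun _ : G × I => Lp ℝ 2 A.P) 2

/-- The fibre of a field. -/
def fibv {X : Type u} [MeasurableSpace X] {A : PAct G X} {I : Type u} (f : FH A I) (ξ : X)
    (p : G × I) : ℝ := (f p : X → ℝ) ξ

/-- The standard trace structure on fields: multiplications by indicators and translations. -/
structure IsTS {X : Type u} [MeasurableSpace X] (A : PAct G X) {I : Type u} (τ : TS (FH A I) I) :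
    Prop where
  δ : ∀ i, ∀ᵐ ξ ∂A.P, ∀ p, fibv (τ.δ i) ξ p = if p = (1, i) then 1 else 0
  mem : ∀ m ∈ τ.M, (∃ E, MeasurableSet E ∧ ∀ f, ∀ᵐ ξ ∂A.P, ∀ p,
      fibv (m f) ξ p = if ξ ∈ E then fibv f ξ p else 0) ∨
    ∃ g : G, ∀ f, ∀ᵐ ξ ∂A.P, ∀ p, fibv (m f) ξ p = fibv f (A.sh g⁻¹ ξ) (g⁻¹ * p.1, p.2)
  mul : ∀ E, MeasurableSet E → ∃ m ∈ τ.M, ∀ f, ∀ᵐ ξ ∂A.P, ∀ p,
    fibv (m f) ξ p = if ξ ∈ E then fibv f ξ p else 0

/-- Fields whose fibres lie in the given subspaces. -/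
def fibSub [Countable G] {X : Type u} [MeasurableSpace X] (A : PAct G X) {I : Type u} [Countable I]
    (Φ : X → Submodule ℝ (G × I → ℝ)) : Submodule ℝ (FH A I) where
  carrier := {f | ∀ᵐ ξ ∂A.P, fibv f ξ ∈ Φ ξ}
  zero_mem' := by
    have h : ∀ᵐ ξ ∂A.P, ((0 : Lp ℝ 2 A.P) : X → ℝ) ξ = 0 := Lp.coeFn_zero ℝ 2 A.P
    change ∀ᵐ ξ ∂A.P, fibv (0 : FH A I) ξ ∈ Φ ξ
    filter_upwards [h] with ξ hξ
    have e : fibv (0 : FH A I) ξ = 0 := funext fun p => hξ
    rw [e]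
    exact (Φ ξ).zero_mem
  add_mem' := fun {a b} ha hb => by
    have h : ∀ᵐ ξ ∂A.P, ∀ p, ((a p + b p : Lp ℝ 2 A.P) : X → ℝ) ξ = (a p : X → ℝ) ξ + (b p : X → ℝ) ξ :=
      ae_all_iff.2 fun p => Lp.coeFn_add (a p) (b p)
    change ∀ᵐ ξ ∂A.P, fibv (a + b) ξ ∈ Φ ξ
    filter_upwards [h, ha, hb] with ξ hξ h1 h2
    have e : fibv (a + b) ξ = fibv a ξ + fibv b ξ := funext fun p => hξ p
    rw [e]
    exact (Φ ξ).add_mem h1 h2
  smul_mem' := fun c {a} ha => by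
    have h : ∀ᵐ ξ ∂A.P, ∀ p, ((c • a p : Lp ℝ 2 A.P) : X → ℝ) ξ = c * (a p : X → ℝ) ξ :=
      ae_all_iff.2 fun p => Lp.coeFn_smul c (a p)
    change ∀ᵐ ξ ∂A.P, fibv (c • a) ξ ∈ Φ ξ
    filter_upwards [h, ha] with ξ hξ h1
    have e : fibv (c • a) ξ = c • fibv a ξ := funext fun p => hξ p
    rw [e]
    exact (Φ ξ).smul_mem c h1

/-- Functions vanishing where `E` fails. -/
def suppM {α : Type*} (E : α → Prop) : Submodule ℝ (α → ℝ) where
  carrier := {v | ∀ p, ¬ E p → v p = 0}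
  zero_mem' := fun _ _ => rfl
  add_mem' := fun {a b} ha hb p hp => by simp [ha p hp, hb p hp]
  smul_mem' := fun c {a} ha p hp => by simp [ha p hp]

/-- Pairing with a finitely supported function. -/
def prF {α : Type*} (b : α →₀ ℝ) (v : α → ℝ) : ℝ := b.sum fun p a => a * v p

/-- Coordinates: gradient, cone parts, class parts, edges between points of classes. -/
abbrev EI (Q : Cones S) (L : Type) : Type u := G ⊕ Fin Q.n ⊕ (L × ℕ) ⊕ (L × ℕ × G)

def enc (Q : Cones S) {L : Type} (A : Set L) (u : G → ℝ) (φ : Fin Q.n → G → ℝ)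
    (ψ : L → G × ℕ → ℝ) : G × EI Q L → ℝ
  | (x, Sum.inl s) => if s ∈ S then u (x * s) - u x else 0
  | (x, Sum.inr (Sum.inl i)) => φ i x
  | (x, Sum.inr (Sum.inr (Sum.inl (a, j)))) => if a ∈ A then ψ a (x, j) else 0
  | (_, Sum.inr (Sum.inr (Sum.inr _))) => 0

/-- The set of encoded triples. -/
def encSet (Q : Cones S) {L : Type} (r : L → G × ℕ → G × ℕ → Prop) (A : Set L) :
    Set (G × EI Q L → ℝ) :=
  {v | ∃ u φ ψ, Q.KF u φ ∧ (∀ a ∈ A, ClsC (r a) u (ψ a)) ∧ v = enc Q A u φ ψ}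

end Vale.Agent.P239
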