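import Vale.Agent.P239.Full.FDef3

/-! Definitions: zones and incident necks, abstract neck data, layered environments.
-/

noncomputable section

open Classical MeasureTheory Filter Topology Set
open scoped Pointwise ENNReal

namespace Vale.Agent.P239

universe u
variable {G : Type u} [Group G] {S : Finset G}

namespace Cones
variable (Q : Cones S)

/-- The zone of a neck. -/
def zone (l : ℕ) (D : Set G) (τ : NT G) (z : G) : Set G := Q.cp l D z ∩ bl S z τ.2.1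

/-- A separated set of necks. -/
def SepN (l : ℕ) (D : Set G) (τ : NT G) (X : Set G) : Prop :=
  (∀ z ∈ X, Q.Neck l D τ z) ∧ ∀ z ∈ X, ∀ z' ∈ X, z' ∈ bl S z (2 * τ.2.2.1) → z = z'

/-- The necks incident to the block of `x`. -/
def Inc (l : ℕ) (D : Set G) (τ : NT G) (X : Set G) (x : G) : Set G :=
  {z | z ∈ X ∧ z ∈ Q.cp l D x ∧ (Q.zone l D τ z ∩ Q.blk l D τ X x).Nonempty}

end Cones

/-- Abstract structure of components `C`, necks `N` with sides `A`, and blocks `β`. -/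
structure NStr (S : Finset G) (ρ r : ℕ) (R : G × ℕ → G × ℕ → Prop) (C A β : G × ℕ → Set G)
    (V N : G × ℕ → Prop) : Prop where
  ex : ∀ p, V p → R p p
  sub : ∀ p, V p → C p ⊆ fibR R p
  self : ∀ p, V p → p.1 ∈ β p ∧ β p ⊆ C p
  same : ∀ p q, V p → R p q → q.1 ∈ C p → V q ∧ C q = C p
  sameβ : ∀ p q, V p → R p q → q.1 ∈ β p → β q = β p
  nv : ∀ p, N p → V p
  cross : ∀ p, N p → ∀ e ∈ crossE S ρ (C p) (A p), e.1 ∈ bl S p.1 r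
  cob : ∀ p, N p → CobLim S ρ (C p) (A p)
  blk : ∀ p q, V p → N q → R p q → q.1 ∈ C p → ∀ y ∈ β p, (p.1 ∈ A q ↔ y ∈ A q)
  port : ∀ p, N p → ∃ b ∈ ball S ρ, p.1 * b ∈ C p ∧ ¬ (p.1 ∈ A p ↔ p.1 * b ∈ A p) ∧
    ∀ q, N q → R p q → q.1 ∈ C p → q ≠ p → (p.1 ∈ A q ↔ p.1 * b ∈ A q)

structure NData (S : Finset G) {X : Type u} [MeasurableSpace X] (E : REnv G X) (ρ : ℕ) where
  C : X → G × ℕ → Set G
  A : X → G × ℕ → Set G
  β : X → G × ℕ → Set G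
  V : X → G × ℕ → Prop
  N : X → G × ℕ → Prop
  r : ℕ
  mC : ∀ p y, MeasurableSet {ξ | y ∈ C ξ p}
  mA : ∀ p y, MeasurableSet {ξ | y ∈ A ξ p}
  mβ : ∀ p y, MeasurableSet {ξ | y ∈ β ξ p}
  mV : ∀ p, MeasurableSet {ξ | V ξ p}
  mN : ∀ p, MeasurableSet {ξ | N ξ p}
  eC : ∀ g ξ p, C (E.A.sh g ξ) (g * p.1, p.2) = g • C ξ p
  eA : ∀ g ξ p, A (E.A.sh g ξ) (g * p.1, p.2) = g • A ξ p
  eβ : ∀ g ξ p, β (E.A.sh g ξ) (g * p.1, p.2) = g • β ξ p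
  eV : ∀ g ξ p, V (E.A.sh g ξ) (g * p.1, p.2) ↔ V ξ p
  eN : ∀ g ξ p, N (E.A.sh g ξ) (g * p.1, p.2) ↔ N ξ p
  str : ∀ᵐ ξ ∂E.A.P, NStr S ρ r (E.r ξ) (C ξ) (A ξ) (β ξ) (V ξ) (N ξ)

namespace NData
variable [Countable G] {X : Type u} [MeasurableSpace X] {E : REnv G X} {ρ : ℕ} (Z : NData S E ρ)

/-- Edges inside components. -/
def Ed (ξ : X) (p : G × ℕ) (b : G) : Prop := Z.V ξ p ∧ b ∈ ball S ρ ∧ p.1 * b ∈ Z.C ξ p

def subV : Submodule ℝ (FH E.A (ℕ ⊕ ℕ × G)) :=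
  fibSub E.A fun ξ => suppM fun p => ∃ j, p.2 = Sum.inl j ∧ Z.V ξ (p.1, j)

def subN : Submodule ℝ (FH E.A (ℕ ⊕ ℕ × G)) :=
  fibSub E.A fun ξ => suppM fun p => ∃ j, p.2 = Sum.inl j ∧ Z.N ξ (p.1, j)

/-- The gradient. -/
def IsDg (T : FH E.A (ℕ ⊕ ℕ × G) →L[ℝ] FH E.A (ℕ ⊕ ℕ × G)) : Prop :=
  ∀ f, ∀ᵐ ξ ∂E.A.P, (∀ x j, fibv (T f) ξ (x, Sum.inl j) = 0) ∧
    (∀ x j b, ¬ Z.Ed ξ (x, j) b → fibv (T f) ξ (x, Sum.inr (j, b)) = 0) ∧
    ∀ x j b i, Z.Ed ξ (x, j) b → E.r ξ (x, j) (x * b, i) →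
      fibv (T f) ξ (x, Sum.inr (j, b)) = fibv f ξ (x * b, Sum.inl i) - fibv f ξ (x, Sum.inl j)

/-- A neck is sent to the gradient of the indicator of its side. -/
def IsJ (T : FH E.A (ℕ ⊕ ℕ × G) →L[ℝ] FH E.A (ℕ ⊕ ℕ × G)) : Prop :=
  ∀ f, ∀ᵐ ξ ∂E.A.P, (∀ x j, fibv (T f) ξ (x, Sum.inl j) = 0) ∧
    ∀ x j b, fibv (T f) ξ (x, Sum.inr (j, b)) = ∑' q : G × ℕ,
      if Z.Ed ξ (x, j) b ∧ Z.N ξ q ∧ E.r ξ (x, j) q ∧ q.1 ∈ Z.C ξ (x, j) then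
        (ind (Z.A ξ q) (x * b) - ind (Z.A ξ q) x) * fibv f ξ (q.1, Sum.inl q.2) else 0

/-- Restriction to the edges inside blocks. -/
def IsR (T : FH E.A (ℕ ⊕ ℕ × G) →L[ℝ] FH E.A (ℕ ⊕ ℕ × G)) : Prop :=
  ∀ f, ∀ᵐ ξ ∂E.A.P, (∀ x j, fibv (T f) ξ (x, Sum.inl j) = 0) ∧
    ∀ x j b, fibv (T f) ξ (x, Sum.inr (j, b)) =
      if x * b ∈ Z.β ξ (x, j) then fibv f ξ (x, Sum.inr (j, b)) else 0

end NData

/-- Several random partial equivalence relations on the same space. -/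
structure LEnv (G : Type u) [Group G] (X : Type u) [MeasurableSpace X] (L : Type) where
  A : PAct G X
  r : X → L → G × ℕ → G × ℕ → Prop
  meas : ∀ a p q, MeasurableSet {ξ | r ξ a p q}
  equi : ∀ g ξ a p q, r (A.sh g ξ) a (g * p.1, p.2) (g * q.1, q.2) ↔ r ξ a p q
  fin : ∀ a, ∑' j : ℕ, A.P {ξ | r ξ a (1, j) (1, j)} ≠ ⊤
  ok : ∀ᵐ ξ ∂A.P, ∀ a, EqvOK (r ξ a)

/-- An infinite set that is wired and connected for the labels `T n`. -/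
def ClsW (S : Finset G) (T : ℕ → Finset G) (C : Set G) : Prop :=
  C.Infinite ∧ (∀ n, WD S (T n) C) ∧ ∀ f : G → ℝ,
    (∀ n, ∀ x ∈ C, ∀ b ∈ T n, x * b ∈ C → f (x * b) = f x) → ∀ x ∈ C, ∀ y ∈ C, f x = f y

/-- Encoded triples, nearly constant on the classes of the layers in `A'`, class parts supported
where `e` holds; only the layers in `A` are recorded. -/
def encW (Q : Cones S) {L : Type} (r : L → G × ℕ → G × ℕ → Prop) (e : L → G × ℕ → Prop)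
    (A A' : Set L) : Set (G × EI Q L → ℝ) :=
  {v | ∃ u φ ψ, Q.KF u φ ∧ (∀ a ∈ A', ClsC (r a) u (ψ a)) ∧ (∀ a p, ¬ e a p → ψ a p = 0) ∧
    v = enc Q A u φ ψ}

namespace LEnv
variable {X : Type u} [MeasurableSpace X] {L : Type} (E : LEnv G X L)

/-- Edges inside classes of the layers outside `A₀`. -/
def Ed (A₀ : Set L) (T : L → Finset G) (ξ : X) (a : L) (p : G × ℕ) (b : G) : Prop :=
  a ∉ A₀ ∧ E.r ξ a p p ∧ b ∈ T a ∧ p.1 * b ∈ fibR (E.r ξ a) p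

def wt (ξ : X) (a : L) (x : G) : ℝ :=
  (Real.sqrt (1 + ({j | E.r ξ a (x, j) (x, j)}.ncard : ℝ)))⁻¹

/-- Vanishing outside the edge coordinates. -/
def EdSupp (Q : Cones S) (A₀ : Set L) (T : L → Finset G) (ξ : X) (v : G × EI Q L → ℝ) : Prop :=
  ∀ p, v p ≠ 0 → ∃ a j b, p.2 = Sum.inr (Sum.inr (Sum.inr (a, j, b))) ∧ E.Ed A₀ T ξ a (p.1, j) b

/-- The weighted gradient of the function whose gradient is recorded. -/
def IsAo (Q : Cones S) (A₀ : Set L) (T : L → Finset G)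
    (M : FH E.A (EI Q L) →L[ℝ] FH E.A (EI Q L)) : Prop :=
  ∀ f, ∀ᵐ ξ ∂E.A.P, E.EdSupp Q A₀ T ξ (fibv (M f) ξ) ∧
    ∀ u : G → ℝ, (∀ x, ∀ s ∈ S, fibv f ξ (x, Sum.inl s) = u (x * s) - u x) →
      ∀ a x j b, E.Ed A₀ T ξ a (x, j) b →
        fibv (M f) ξ (x, Sum.inr (Sum.inr (Sum.inr (a, j, b)))) = E.wt ξ a x * (u (x * b) - u x)

/-- The weighted gradient of the class coordinates. -/
def IsDg (Q : Cones S) (A₀ : Set L) (T : L → Finset G)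
    (M : FH E.A (EI Q L) →L[ℝ] FH E.A (EI Q L)) : Prop :=
  ∀ f, ∀ᵐ ξ ∂E.A.P, E.EdSupp Q A₀ T ξ (fibv (M f) ξ) ∧
    ∀ a x j b i, E.Ed A₀ T ξ a (x, j) b → E.r ξ a (x, j) (x * b, i) →
      fibv (M f) ξ (x, Sum.inr (Sum.inr (Sum.inr (a, j, b)))) = E.wt ξ a x *
        (fibv f ξ (x * b, Sum.inr (Sum.inr (Sum.inl (a, i)))) -
          fibv f ξ (x, Sum.inr (Sum.inr (Sum.inl (a, j)))))

/-- Fields supported on the existing points of the layers outside `A₀`. -/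
def subV [Countable G] [Countable L] (Q : Cones S) (A₀ : Set L) : Submodule ℝ (FH E.A (EI Q L)) :=
  fibSub E.A fun ξ => suppM fun p => ∃ a j, p.2 = Sum.inr (Sum.inr (Sum.inl (a, j))) ∧ a ∉ A₀ ∧
    E.r ξ a (p.1, j) (p.1, j)

end LEnv

/-- The side of `U` that meets `W` in a finite set. -/
def away (U W : Set G) : Set G := if (U ∩ W).Finite then U else Uᶜ

/-- Equal values for all admissible functions. -/
def BadR (Q : Cones S) (r : G × ℕ → G × ℕ → Prop) (p : G × ℕ) (r' : G × ℕ → G × ℕ → Prop)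
    (p' : G × ℕ) : Prop :=
  ∀ u φ ψ ψ', Q.KF u φ → ClsC r u ψ → ClsC r' u ψ' → u p.1 - ψ p = u p'.1 - ψ' p'

/-- Locally finitely many infinite connected classes without necks. -/
structure ClsOK (Q : Cones S) (l : ℕ) (r : G × ℕ → G × ℕ → Prop) : Prop where
  eqv : EqvOK r
  loc : ∀ x, {j | r (x, j) (x, j)}.Finite
  inf : ∀ p, r p p → (fibR r p).Infinite
  conn : ∀ p, r p p → ∀ x ∈ fibR r p, fibR r p ⊆ Q.cp l (fibR r p) x
  ends : ∀ p, r p p → Q.End (fibR r p)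

end Vale.Agent.P239
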