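import Vale.Agent.P239.Full.FDef5

/-! Definitions: lifting cochains from the vertex group.
-/

noncomputable section

open Classical MeasureTheory Filter Topology Set
open scoped Pointwise ENNReal

namespace Vale.Agent.P239

universe u
variable {G : Type u} [Group G] {S : Finset G} {l L : ℕ} {B : Bdry S} {Z : Cores B L}
  (Y : Tr Z)

/-- The core containing `x` (empty outside the cores). -/
def Cores.core (Z : Cores B L) (x : G) : Set G := ⋃₀ {K | K ∈ Z.𝒦 ∧ x ∈ K}

/-- The lift of a cochain; `D K` is a potential near the cone of the core `K`. -/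
def Tr.lift (c : Z.Γ → Z.Γ → ℤ) (D : Set G → Z.Γ → ℤ) (x s : G) : ℤ :=
  if x ∈ Z.X then
    (if x * s ∈ Z.X then c (Y.π x) ((Y.π x)⁻¹ * Y.π (x * s)) else - D (Z.core (x * s)) (Y.π x))
  else (if x * s ∈ Z.X then D (Z.core x) (Y.π (x * s)) else 0)

/-- `D` gives potentials on the cone neighbourhoods outside `F`. -/
def Tr.Pot (l' : ℕ) (c : Z.Γ → Z.Γ → ℤ) (D : Set G → Z.Γ → ℤ) (F : Set Z.Γ) : Prop :=
  ∀ i (γ : Z.Γ), ∀ y ∈ Y.Q.cn l' i γ \ F, ∀ s ∈ Y.S',
    c y s = D ((γ : G) • Y.K i) (y * s) - D ((γ : G) • Y.K i) y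

end Vale.Agent.P239
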