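import Vale.Agent.P239.Full.FGD2c

/-! Task FDens: density for wired subgroups. Apply `LEnv.ae_gdens` with the one point space (`X = PUnit`, Dirac measure, trivial action), `Q = Cones.empty S`, layers `L = Fin n ⊕ Fin m`, `A₀ = range inl`,
`r a p q = p.2 = 0 ∧ q.2 = 0 ∧ p.1⁻¹ * q.1 ∈ (H i, resp. closure (T k))`, labels `T k` (independent of `n`). The classes are left cosets (`WD.mono`, `Subgroup.closure_induction`). `KS H u φ` corresponds to `ClsC` with `ψ (x, j) = if j = 0 then φ x else 0`.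
-/

noncomputable section

open Classical MeasureTheory Filter Topology Set
open scoped Pointwise ENNReal

namespace Vale.Agent.P239

universe u
variable {G : Type u} [Group G] {S : Finset G}

/-- Left cosets of `K` as classes on the level `0`. -/
def densR (K : Subgroup G) (p q : G × ℕ) : Prop := p.2 = 0 ∧ q.2 = 0 ∧ p.1⁻¹ * q.1 ∈ K

theorem dens_fib {K : Subgroup G} {p : G × ℕ} (hp : densR K p p) {x : G} :
    x ∈ fibR (densR K) p ↔ p.1⁻¹ * x ∈ K :=
  ⟨fun ⟨_, h⟩ => h.2.2, fun h => ⟨0, hp.1, rfl, h⟩⟩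

omit [Group G] in
theorem dens_inj : Function.Injective fun x : G => (x, (0 : ℕ)) := fun _ _ e => congrArg Prod.fst e

theorem dens_ks {K : Subgroup G} {u : G → ℝ} {ψ : G × ℕ → ℝ} (h : ClsC (densR K) u ψ) :
    KS K u fun x => ψ (x, 0) :=
  ⟨Summable.comp_injective (f := fun p => ψ p ^ 2) h.1 dens_inj, fun x g hg =>
    (h.2 (x, 0) (x * g, 0) ⟨rfl, rfl, by rwa [inv_mul_cancel_left]⟩).symm⟩

theorem dens_cls {K : Subgroup G} {u φ : G → ℝ} (h : KS K u φ) :
    ClsC (densR K) u fun p => if p.2 = 0 then φ p.1 else 0 := by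
  refine ⟨(dens_inj.summable_iff fun p hp => ?_).1 h.1, fun p q hpq => ?_⟩
  · exact sq_eq_zero_iff.2 (if_neg fun e => hp ⟨p.1, Prod.ext rfl (Eq.symm e)⟩)
  · have h1 := h.2 p.1 _ hpq.2.2
    rw [mul_inv_cancel_left] at h1
    simp only [if_pos hpq.1, if_pos hpq.2.1, h1]

theorem dens_clsW {T : Finset G} (h1 : Wired S T)
    (h2 : (Subgroup.closure (T : Set G) : Set G).Infinite) {p : G × ℕ}
    (hp : densR (Subgroup.closure (T : Set G)) p p) :
    ClsW S (fun _ => T) (fibR (densR (Subgroup.closure (T : Set G))) p) := by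
  refine ⟨(h2.image (mul_right_injective p.1).injOn).mono ?_,
    fun _ => WD.mono h1 (subset_univ _), fun f hf x hx y hy => ?_⟩
  · rintro _ ⟨g, hg, rfl⟩
    exact (dens_fib hp).2 (by rwa [inv_mul_cancel_left])
  have hm : ∀ x ∈ fibR (densR (Subgroup.closure (T : Set G))) p,
      ∀ g ∈ Subgroup.closure (T : Set G), x * g ∈ fibR (densR (Subgroup.closure (T : Set G))) p :=
    fun x hx g hg => (dens_fib hp).2 (mul_assoc _ x g ▸ mul_mem ((dens_fib hp).1 hx) hg)
  have key : ∀ g ∈ Subgroup.closure (T : Set G),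
      ∀ x ∈ fibR (densR (Subgroup.closure (T : Set G))) p, f (x * g) = f x := by
    intro g hg
    induction hg using Subgroup.closure_induction with
    | mem b hb => exact fun x hx => hf 0 x hx b hb (hm x hx b (Subgroup.subset_closure hb))
    | one => exact fun x _ => by rw [mul_one]
    | mul a b ha _ h3 h4 => exact fun x hx => by rw [← mul_assoc, h4 _ (hm x hx a ha), h3 x hx]
    | inv a ha h3 =>
      exact fun x hx => by rw [← h3 _ (hm x hx _ (inv_mem ha)), inv_mul_cancel_right]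
  have h3 := key _ ((dens_fib hp).1 hx) p.1 ⟨_, hp⟩
  have h4 := key _ ((dens_fib hp).1 hy) p.1 ⟨_, hp⟩
  rw [mul_inv_cancel_left] at h3 h4
  rw [h3, h4]

/-- The deterministic environment given by finitely many subgroups. -/
def densE {L : Type} (K : L → Subgroup G) : LEnv G PUnit.{u + 1} L where
  A :=
    { P := Measure.dirac PUnit.unit
      prob := inferInstance
      sh := fun _ ξ => ξ
      sh_one := fun _ => rfl
      sh_mul := fun _ _ _ => rfl
      mp := fun _ => MeasurePreserving.id _ }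
  r := fun _ a => densR (K a)
  meas := fun _ _ _ => MeasurableSet.const _
  equi := fun g _ a p q => by simp [densR, mul_assoc]
  fin := fun a => by
    rw [tsum_eq_single 0 fun j hj => by simp [densR, hj]]
    exact measure_ne_top _ _
  ok := Eventually.of_forall fun _ a =>
    { symm := fun p q h => ⟨h.2.1, h.1, by simpa using inv_mem h.2.2⟩
      trans := fun p q s h h' => ⟨h.1, h'.2.1, by simpa [mul_assoc] using mul_mem h.2.2 h'.2.2⟩
      func := fun p x j j' h h' => h.2.1.trans h'.2.1.symm }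

theorem dens (hS : Cay S) {n m : ℕ} (H : Fin n → Subgroup G) (T : Fin m → Finset G)
    (hT : ∀ k, Wired S (T k) ∧ (Subgroup.closure (T k : Set G) : Set G).Infinite) {u : G → ℝ}
    (hu : FinEn S u) {φ : Fin n → G → ℝ} (hφ : ∀ i, KS (H i) u (φ i)) {ε : ℝ} (hε : 0 < ε) :
    ∃ (u' : G → ℝ) (φ' : Fin n → G → ℝ) (ψ : Fin m → G → ℝ), FinEn S u' ∧
      (∀ i, KS (H i) u' (φ' i)) ∧ (∀ k, KS (Subgroup.closure (T k : Set G)) u' (ψ k)) ∧
      u' 1 = u 1 ∧ energy S (fun x => u x - u' x) ≤ ε ∧ ∀ i, ∑' x, (φ i x - φ' i x) ^ 2 ≤ ε := by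
  have := hS.countable
  obtain ⟨_, h1⟩ := ((densE (Sum.elim H fun k => Subgroup.closure (T k : Set G))).ae_gdens hS
    (Cones.empty S) (range Sum.inl) (fun _ => Sum.elim (fun _ => ∅) T) (fun _ _ => subset_rfl)
    (Eventually.of_forall fun _ a ha p hp => by
      rcases a with i | k
      · exact absurd (mem_range_self i) ha
      · exact dens_clsW (hT k).1 (hT k).2 hp)).exists
  obtain ⟨u', φ', ψ', h2, h3, h4, h5, h6⟩ := h1 u Fin.elim0
    (Sum.elim (fun i p => if p.2 = 0 then φ i p.1 else 0) 0) ⟨hu, fun i => i.elim0⟩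
    (by
      rintro _ ⟨i, rfl⟩
      exact dens_cls (hφ i)) ε hε
  refine ⟨u', fun i x => ψ' (Sum.inl i) (x, 0), fun k x => ψ' (Sum.inr k) (x, 0), h2.1,
    fun i => dens_ks (h3 (Sum.inl i)), fun k => dens_ks (h3 (Sum.inr k)), h4, h5, fun i => ?_⟩
  exact (tsum_comp_le_tsum_of_inj (fenc_sub (dens_cls (hφ i)).1 (h3 (Sum.inl i)).1)
    (fun _ => sq_nonneg _) dens_inj).trans (h6 _ (mem_range_self i))

end Vale.Agent.P239
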