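import Vale.Agent.P239.Full.FAcc

/-! Task FDiff: the diffuse case is impossible. `𝓛 = {A | Good A ∧ ∀ ε > 0, ∃ᶠ w in 𝔽, h (symmDiff A (hatSet (U w))) 1 ≤ ε ∨ h (symmDiff A (hatSet (U w))ᶜ) 1 ≤ ε}`.
`ae_freq`: cells `(n, r, P)`, `P ⊆ ball (r+1)`: the `w` with a superharmonic `g ≥ 1` on the wall off `ball r`, `g 1 ≤ 1/(n+1)` (`Thin.far`) and `U w ∩ ball (r+1) = P`. Countably many cells, so eventually all cells containing `w` are frequent; `close_of_thin`.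
`𝓛` is an `NFam`: invariance by `h_harnack_bl` and `Tendsto.frequently`; nestedness: approximate by a typical pair (`Frequently.and_eventually` twice), `FVP.null_inter`, one corner is null for infinitely many approximations (as `Clo.nested`).
`acc` with `k = 3`: approximate `b 1`, `b 2` by `V`, `V'` (sides of a typical pair with `hatSet (U w) ∈ 𝓛`); counting nonnull corners gives `b 0 ⊆ V`, `V' ⊆ b 3` and `FVP V V'ᶜ`. So there are countably many functions `h A`, `A ∈ 𝓛` two-sided;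
one of them is `h (hatSet (U w))` frequently; a typical pair from this set has a.e. equal events, contradicting `FVP.null_inter` or `not_fvp_compl`.
-/

noncomputable section

open Classical MeasureTheory Filter Topology Set
open scoped Pointwise ENNReal

namespace Vale.Agent.P239

universe u
variable {G : Type u} [Group G] {S : Finset G} {l : ℕ} {Q : Cones S} {B : Bdry S}

theorem fdiff_cells {W : Type*} (𝔽 : Filter W) [CountableInterFilter 𝔽] {ι : Type*} [Countable ι]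
    (C : ι → W → Prop) : ∀ᶠ w in 𝔽, ∀ i, C i w → ∃ᶠ w' in 𝔽, C i w' := by
  refine eventually_countable_forall.2 fun i => ?_
  by_cases h : ∃ᶠ w' in 𝔽, C i w'
  · exact Eventually.of_forall fun _ _ => h
  · exact (not_frequently.1 h).mono fun _ h1 h2 => absurd h2 h1

theorem ae_freq (B : Bdry S) (hS : Cay S) (hg : Gap S) {W : Type*} (𝔽 : Filter W)
    [CountableInterFilter 𝔽] (U : W → Set G) (h : ∀ᶠ w in 𝔽, Thin S (wallV S (U w))) :
    ∀ᶠ w in 𝔽, ∀ ε : ℝ, 0 < ε →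
      ∃ᶠ w' in 𝔽, B.h (symmDiff (hatSet (U w)) (hatSet (U w'))) 1 ≤ ε := by
  have := hS.countable
  filter_upwards [h, fdiff_cells 𝔽 fun (i : ℕ × ℕ × Finset G) w =>
    (∃ g, SupH S g ∧ (∀ y ∈ wallV S (U w), y ∉ ball S i.2.1 → 1 ≤ g y) ∧
      g 1 ≤ 1 / ((i.1 : ℝ) + 1)) ∧ ∀ x ∈ ball S (i.2.1 + 1), x ∈ U w ↔ x ∈ i.2.2] with w h1 h2 ε hε
  obtain ⟨n, hn⟩ := exists_nat_one_div_lt (half_pos hε)
  obtain ⟨r, g, g1, g2, g3⟩ := h1.far hS 1 (ε := 1 / ((n : ℝ) + 1)) (by positivity)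
  have g2' : ∀ y ∈ wallV S (U w), y ∉ ball S r → 1 ≤ g y := fun y hy hb =>
    g2 y hy (by simpa [bl] using hb)
  have h3 := h2 (n, r, (ball S (r + 1)).filter (· ∈ U w))
    ⟨⟨g, g1, g2', g3⟩, fun x hx => by simp [hx]⟩
  refine (h3.and_eventually h).mono ?_
  rintro w' ⟨⟨⟨g', g1', g4, g5⟩, h4⟩, h5⟩
  refine (Bdry.close_of_thin hS (h1.good B hS hg) (h5.good B hS hg) g1 g1' g2' g4
    fun x hx => ?_).trans (by linarith)
  rw [h4 x hx]
  simp [hx]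

/-- Finite visibility for some choice of sides. -/
def Bdry.FRel (B : Bdry S) (Q : Cones S) (a a' : Set (Bd G)) : Prop :=
  B.FVP Q a a' ∨ B.FVP Q a a'ᶜ ∨ B.FVP Q aᶜ a' ∨ B.FVP Q aᶜ a'ᶜ

theorem fdiff_rel {d d' a a' : Set (Bd G)} (h : B.FRel Q d d') (h1 : a = d ∨ a = dᶜ)
    (h2 : a' = d' ∨ a' = d'ᶜ) : B.FRel Q a a' := by
  unfold Bdry.FRel at h ⊢
  rcases h1 with rfl | rfl <;> rcases h2 with rfl | rfl <;> (try simp only [compl_compl]) <;>
    rcases h with h | h | h | h <;> simp only [h, true_or, or_true]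

theorem fdiff_corner {x y : ℕ → Set (Bd G)} {X Y : Set (Bd G)} (hx : B.Cv x X) (hy : B.Cv y Y)
    (h : B.SSub X Y) (h1 : ¬ B.Null X) (h2 : ¬ B.Null Yᶜ) :
    ∀ᶠ k in atTop, ¬ B.Null (x k ∩ y k) ∧ ¬ B.Null ((x k)ᶜ ∩ y k) ∧
      ¬ B.Null ((x k)ᶜ ∩ (y k)ᶜ) := by
  have hs := (B.sub_iff _ _).1 h.1
  refine ((hx.inter hy).eventually_not_null fun c => h1 (c.of_sub ((B.sub_iff _ _).2 ?_))).and
    (((hx.compl.inter hy).eventually_not_null fun c => h.2 ?_).and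
      ((hx.compl.inter hy.compl).eventually_not_null fun c =>
        h2 (c.of_sub ((B.sub_iff _ _).2 ?_))))
  · filter_upwards [hs] with ξ hξ hX using ⟨hX, hξ hX⟩
  · rw [Bdry.sub_iff_null, inter_comm]
    exact c
  · filter_upwards [hs] with ξ hξ hY using ⟨fun hX => hY (hξ hX), hY⟩

theorem fdiff_cv {a : ℕ → Set (Bd G)} {A : Set (Bd G)}
    (h : ∀ k, B.h (symmDiff A (a k)) 1 ≤ 1 / ((k : ℝ) + 1)) : B.Cv a A := by
  refine (ENNReal.tendsto_toReal_zero_iff fun k => measure_ne_top _ _).1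
    (squeeze_zero (fun _ => ENNReal.toReal_nonneg) (fun k => ?_)
      tendsto_one_div_add_atTop_nhds_zero_nat)
  rw [symmDiff_comm]
  exact h k

theorem diffuse_false (B : Bdry S) (hH : RH S l Q) {W : Type*} (𝔽 : Filter W)
    [CountableInterFilter 𝔽] [𝔽.NeBot] (U : W → Set G) (act : G → W → W)
    (h1 : ∀ g, Tendsto (act g) 𝔽 𝔽) (h2 : ∀ g w, U (act g w) = g • U w)
    (h3 : ∀ᶠ w in 𝔽, Thin S (wallV S (U w)) ∧ B.Two (hatSet (U w)))
    (h4 : ∀ᶠ w in 𝔽, ∀ᶠ w' in 𝔽, ∃ V V' : Set G, (V = U w ∨ V = (U w)ᶜ) ∧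
      (V' = U w' ∨ V' = (U w')ᶜ) ∧ B.FVP Q (hatSet V) (hatSet V')) : False := by
  have hS := hH.cay
  obtain ⟨𝓛, h𝓛⟩ : ∃ 𝓛 : Set (Set (Bd G)), ∀ A, A ∈ 𝓛 ↔ B.Good A ∧ ∀ ε : ℝ, 0 < ε → ∃ᶠ w in 𝔽,
      ∃ a, (a = hatSet (U w) ∨ a = (hatSet (U w))ᶜ) ∧ B.h (symmDiff A a) 1 ≤ ε :=
    ⟨{A | _}, fun _ => Iff.rfl⟩
  have hgood : ∀ A ∈ 𝓛, B.Good A := fun A hA => ((h𝓛 A).1 hA).1
  have hcompl : ∀ A ∈ 𝓛, Aᶜ ∈ 𝓛 := fun A hA => (h𝓛 _).2 ⟨(hgood A hA).compl, fun ε hε =>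
    (((h𝓛 A).1 hA).2 ε hε).mono fun w ⟨a, ha, hb⟩ => ⟨aᶜ, by
      rcases ha with rfl | rfl
      · exact Or.inr rfl
      · exact Or.inl (compl_compl _), by rwa [compl_symmDiff_compl]⟩⟩
  have hsmul : ∀ (g : G), ∀ A ∈ 𝓛, g • A ∈ 𝓛 := by
    refine fun g A hA => (h𝓛 _).2 ⟨(hgood A hA).smul hS g, fun ε hε => ?_⟩
    obtain ⟨r, hr⟩ := hS.exists_ball g⁻¹
    have hc : (0 : ℝ) < (S.card : ℝ) ^ r := pow_pos (Nat.cast_pos.2 hS.card_pos) r
    refine (h1 g).frequently ((((h𝓛 A).1 hA).2 _ (div_pos hε hc)).mono ?_)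
    rintro w ⟨a, ha, hb⟩
    refine ⟨g • a, ?_, ?_⟩
    · rw [h2, ← smul_hatSet, ← smul_set_compl]
      exact ha.imp (congrArg _) (congrArg _)
    · have e := B.h_smul g g⁻¹ (symmDiff A a)
      rw [mul_inv_cancel, smul_set_symmDiff] at e
      have e' := B.h_harnack hS 1 hr (symmDiff A a)
      rw [one_mul] at e'
      rw [e]
      exact e'.trans ((le_div_iff₀' hc).1 hb)
  have hD : ∀ᶠ w in 𝔽, hatSet (U w) ∈ 𝓛 := by
    filter_upwards [h3, ae_freq B hS hH.gap 𝔽 U (h3.mono fun _ h => h.1)] with w a b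
    exact (h𝓛 _).2 ⟨a.1.good B hS hH.gap, fun ε hε => (b ε hε).mono fun w' h => ⟨_, Or.inl rfl, h⟩⟩
  have hR : ∀ᶠ w in 𝔽, ∀ᶠ w' in 𝔽, B.FRel Q (hatSet (U w)) (hatSet (U w')) := by
    refine h4.mono fun w h => h.mono ?_
    rintro w' ⟨V, V', a, b, c⟩
    refine fdiff_rel (Or.inl c) ?_ ?_
    · rcases a with rfl | rfl
      · exact Or.inl rfl
      · exact Or.inr (by rw [hatSet_compl, compl_compl])
    · rcases b with rfl | rfl
      · exact Or.inl rfl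
      · exact Or.inr (by rw [hatSet_compl, compl_compl])
  have hseq : ∀ A ∈ 𝓛, ∀ A' ∈ 𝓛, ∃ a a' : ℕ → Set (Bd G), B.Cv a A ∧ B.Cv a' A' ∧
      ∀ k, a k ∈ 𝓛 ∧ a' k ∈ 𝓛 ∧ B.FRel Q (a k) (a' k) := by
    intro A hA A' hA'
    have key : ∀ k : ℕ, ∃ a a' : Set (Bd G), B.h (symmDiff A a) 1 ≤ 1 / ((k : ℝ) + 1) ∧
        B.h (symmDiff A' a') 1 ≤ 1 / ((k : ℝ) + 1) ∧ a ∈ 𝓛 ∧ a' ∈ 𝓛 ∧ B.FRel Q a a' := by
      intro k
      have hk : (0 : ℝ) < 1 / ((k : ℝ) + 1) := by positivity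
      obtain ⟨w, ⟨a, p1, p2⟩, p3, p4⟩ :=
        ((((h𝓛 A).1 hA).2 _ hk).and_eventually (hD.and hR)).exists
      obtain ⟨w', ⟨a', q1, q2⟩, q3, q4⟩ :=
        ((((h𝓛 A').1 hA').2 _ hk).and_eventually (hD.and p4)).exists
      refine ⟨a, a', p2, q2, ?_, ?_, fdiff_rel q4 p1 q1⟩
      · rcases p1 with rfl | rfl
        exacts [p3, hcompl _ p3]
      · rcases q1 with rfl | rfl
        exacts [q3, hcompl _ q3]
    choose a a' p1 p2 p3 using key
    exact ⟨a, a', fdiff_cv p1, fdiff_cv p2, p3⟩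
  have hnest : ∀ A ∈ 𝓛, ∀ A' ∈ 𝓛, B.Nested A A' := by
    intro A hA A' hA'
    obtain ⟨a, a', p1, p2, p3⟩ := hseq A hA A' hA'
    by_contra hne
    simp only [Bdry.Nested, not_or] at hne
    obtain ⟨c1, c2, c3, c4⟩ := hne
    obtain ⟨k, k1, k2, k3, k4⟩ := (((p1.inter p2).eventually_not_null c1).and
      (((p1.inter p2.compl).eventually_not_null c2).and
      (((p1.compl.inter p2).eventually_not_null c3).and
      ((p1.compl.inter p2.compl).eventually_not_null c4)))).exists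
    have g1 := hgood _ (p3 k).1
    have g2 := hgood _ (p3 k).2.1
    rcases (p3 k).2.2 with h | h | h | h
    exacts [k1 (h.null_inter hS g1 g2), k2 (h.null_inter hS g1 g2.compl),
      k3 (h.null_inter hS g1.compl g2), k4 (h.null_inter hS g1.compl g2.compl)]
  have hacc := fun n : ℕ => Bdry.NFam.acc hH ⟨𝓛, hsmul, hcompl, hgood, hnest⟩ 3
    (fun b hb ht hs => by
      obtain ⟨a, a', p1, p2, p3⟩ := hseq _ (hb 1) _ (hb 2)
      obtain ⟨k, k1, k2, k3⟩ :=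
        ((fdiff_corner (Bdry.fca_cv_const ⟨Bdry.Sub.refl _, Bdry.Sub.refl _⟩) p1 (hs 0) (ht 0).1
          (ht 1).2).and ((fdiff_corner p1 p2 (hs 1) (ht 1).1 (ht 2).2).and
          (fdiff_corner p2 (Bdry.fca_cv_const ⟨Bdry.Sub.refl _, Bdry.Sub.refl _⟩) (hs 2) (ht 2).1
            (ht 3).2))).exists
      have g1 := hgood _ (p3 k).1
      have g2 := hgood _ (p3 k).2.1
      have s1 : B.Sub (b 0) (a k) := by
        rcases hnest _ (hb 0) _ (p3 k).1 with h | h | h | h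
        exacts [absurd h k1.1, (Bdry.sub_iff_null _ _).2 h, absurd h k1.2.1, absurd h k1.2.2]
      have s2 : B.Sub (a' k) (b 3) := by
        rcases hnest _ (p3 k).2.1 _ (hb 3) with h | h | h | h
        exacts [absurd h k3.1, (Bdry.sub_iff_null _ _).2 h, absurd h k3.2.1, absurd h k3.2.2]
      rcases (p3 k).2.2 with h | h | h | h
      exacts [absurd (h.null_inter hS g1 g2) k2.1, h.mono hS s1 s2.compl,
        absurd (h.null_inter hS g1.compl g2) k2.2.1,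
        absurd (h.null_inter hS g1.compl g2.compl) k2.2.2])
    (ε := 1 / ((n : ℝ) + 1)) (by positivity)
  have hct := (countable_iUnion fun n => (hacc n).countable).to_subtype
  obtain ⟨w, p1, p2, p3, p4⟩ := (h3.and (hD.and (hR.and (fdiff_cells 𝔽
    fun (f : ↥(⋃ n : ℕ, {f : G → ℝ | ∃ A ∈ 𝓛, B.Sees (1 / ((n : ℝ) + 1)) A 1 ∧ f = B.h A})) w =>
      B.h (hatSet (U w)) = f.1)))).exists
  obtain ⟨ε, hε, hs⟩ := p1.2.exists_sees hS 1
  obtain ⟨n, hn⟩ := exists_nat_one_div_lt hε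
  obtain ⟨w', q1, q2, q3⟩ := ((p4 ⟨_, mem_iUnion.2 ⟨n, _, p2,
    ⟨hn.le.trans hs.1, hn.le.trans hs.2⟩, rfl⟩⟩ rfl).and_eventually (hD.and p3)).exists
  have g1 := hgood _ p2
  have e := g1.aeq_of_h (hgood _ q2) q1.symm
  have r := fun A => Bdry.Sub.refl (B := B) A
  rcases q3 with h | h | h | h
  · exact p1.2.1 (by simpa only [inter_self] using (h.mono hS (r _) e.1).null_inter hS g1 g1)
  · exact Bdry.not_fvp_compl hS hH.one g1 p1.2 (h.mono hS (r _) e.compl.1)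
  · exact Bdry.not_fvp_compl hS hH.one g1 p1.2 (h.mono hS (r _) e.1).symm
  · exact p1.2.2 (by
      simpa only [inter_self] using (h.mono hS (r _) e.compl.1).null_inter hS g1.compl g1.compl)

end Vale.Agent.P239
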