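import Mathlib

/-! Hilbert space lemmas for FDimA.  With `r = (1 + A* A)⁻¹`, `S = 2 r - 1`, `B = 2 A r` one has
`‖S x‖² + ‖B x‖² = ‖x‖²`, so `∑ ‖B S^k x‖²` is the squared norm of the projection of `x` to
`(ker A)ᗮ`, and the adjoint of `B S^k` is the same operator for `A*`. -/

noncomputable section

open Filter Topology
open scoped ENNReal RealInnerProductSpace

namespace Vale.Agent.P239

variable {H : Type*} [NormedAddCommGroup H] [InnerProductSpace ℝ H] [CompleteSpace H]

theorem fda_sum {S B : H →L[ℝ] H} (hS : IsSelfAdjoint S)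
    (h1 : ∀ x, ‖S x‖ ^ 2 + ‖B x‖ ^ 2 = ‖x‖ ^ 2) {p : H} (hp : ∀ y, B y = 0 → ⟪y, p⟫ = 0) :
    HasSum (fun k : ℕ => ‖B ((S ^ k) p)‖ ^ 2) (‖p‖ ^ 2) := by
  set s : ℕ → ℝ := fun n => ‖(S ^ n) p‖ ^ 2 with hs
  have e1 : ∀ n, s (n + 1) + ‖B ((S ^ n) p)‖ ^ 2 = s n := fun n => by
    simp only [hs, pow_succ' S n]
    exact h1 _
  have e2 : ∀ a b n, a + b = 2 * n → ⟪(S ^ a) p, (S ^ b) p⟫ = s n := fun a b n h => by
    have k : ∀ a b : ℕ, ⟪(S ^ a) p, (S ^ b) p⟫ = ⟪p, (S ^ (a + b)) p⟫ := fun a b => by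
      rw [pow_add]
      exact (hS.pow a).isSymmetric _ _
    rw [hs, k, h, two_mul, ← k]
    exact real_inner_self_eq_norm_sq _
  have anti : Antitone s := antitone_nat_of_succ_le fun n => by
    linarith [e1 n, sq_nonneg ‖B ((S ^ n) p)‖]
  have bdd : BddBelow (Set.range s) := ⟨0, by rintro _ ⟨n, rfl⟩; exact sq_nonneg _⟩
  have t1 := tendsto_atTop_ciInf anti bdd
  have cau : CauchySeq fun n => (S ^ (2 * n)) p := by
    refine Metric.cauchySeq_iff'.2 fun ε hε => ?_
    obtain ⟨N, hN⟩ := (t1.eventually_lt_const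
      (lt_add_of_pos_right _ (pow_pos hε 2))).exists_forall_of_atTop
    refine ⟨N, fun n hn => ?_⟩
    rw [dist_eq_norm]
    refine lt_of_pow_lt_pow_left₀ 2 hε.le ?_
    rw [norm_sub_sq_real, e2 (2 * n) (2 * N) (n + N) (by ring)]
    have a1 := hN (2 * N) (by omega)
    have a2 := ciInf_le bdd (n + N)
    have a3 := anti (by omega : n + N ≤ 2 * n)
    simp only [hs] at a1 a2 a3 ⊢
    linarith
  obtain ⟨y, hy⟩ := cauchySeq_tendsto_of_complete cau
  have t2 : Tendsto (fun n => ‖B ((S ^ n) p)‖ ^ 2) atTop (𝓝 0) := by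
    have := t1.sub (t1.comp (tendsto_add_atTop_nat 1))
    rw [sub_self] at this
    exact this.congr fun n => by simp only [Function.comp_apply]; linarith [e1 n]
  have y0 : B y = 0 := by
    have k1 := ((B.continuous.tendsto y).comp hy).norm.pow 2
    have k2 := t2.comp (tendsto_id.const_mul_atTop' (two_pos (α := ℕ)))
    exact norm_eq_zero.1 (pow_eq_zero_iff two_ne_zero |>.1 (tendsto_nhds_unique k1 k2))
  have t3 : Tendsto s atTop (𝓝 0) := by
    have := hy.inner (𝕜 := ℝ) (tendsto_const_nhds (x := p))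
    rw [hp y y0] at this
    exact this.congr fun n => e2 (2 * n) 0 n rfl
  rw [hasSum_iff_tendsto_nat_of_nonneg fun _ => sq_nonneg _]
  have t4 := (tendsto_const_nhds (x := ‖p‖ ^ 2)).sub t3
  rw [sub_zero] at t4
  refine t4.congr fun n => ?_
  induction n with
  | zero => simp [hs]
  | succ n ih => rw [Finset.sum_range_succ, ← ih, ← e1 n]; ring

omit [InnerProductSpace ℝ H] [CompleteSpace H] in
theorem fda_enorm (x : H) : ‖x‖ₑ ^ 2 = ENNReal.ofReal (‖x‖ ^ 2) := by
  rw [← ofReal_norm, ENNReal.ofReal_pow (norm_nonneg _)]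

theorem fda_inv (A : H →L[ℝ] H) :
    ∃ r : H →L[ℝ] H, r * (1 + star A * A) = 1 ∧ (1 + star A * A) * r = 1 := by
  obtain ⟨u, hu⟩ := (1 + star A * A).isUnit_of_forall_le_norm_inner_map one_pos fun x => by
    have h : ⟪(1 + star A * A) x, x⟫ = ‖x‖ ^ 2 + ‖A x‖ ^ 2 := by
      rw [← real_inner_self_eq_norm_sq, ← real_inner_self_eq_norm_sq,
        ← ContinuousLinearMap.adjoint_inner_left, ← inner_add_left]
      rfl
    rw [h, Real.norm_of_nonneg (by positivity)]
    simp
  exact ⟨↑u⁻¹, hu ▸ u.inv_mul, hu ▸ u.mul_inv⟩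

theorem fda_sa {A r : H →L[ℝ] H} (h1 : r * (1 + star A * A) = 1) : IsSelfAdjoint r := by
  have h2 := congrArg star h1
  rw [star_mul, star_add, star_mul, star_star, star_one] at h2
  rw [IsSelfAdjoint, ← one_mul (star r), ← h1, mul_assoc, h2, mul_one]

theorem fda_proj {A r : H →L[ℝ] H} (h1 : r * (1 + star A * A) = 1)
    (h2 : (1 + star A * A) * r = 1) {x p : H} (hp : p ∈ (LinearMap.ker (A : H →ₗ[ℝ] H))ᗮ)
    (hx : A (x - p) = 0) : ∑' k : ℕ, ‖((A + A) * r * (r + r - 1) ^ k) x‖ₑ ^ 2 = ‖p‖ₑ ^ 2 := by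
  have e1 : ∀ x, r x + star A (A (r x)) = x := fun x => DFunLike.congr_fun h2 x
  have e2 : ∀ x, A x = 0 → r x = x := fun x hx => by
    have : r (x + star A (A x)) = x := DFunLike.congr_fun h1 x
    rwa [hx, map_zero, add_zero] at this
  have h3 := fda_sum (S := r + r - 1) (B := (A + A) * r)
    (((fda_sa h1).add (fda_sa h1)).sub (IsSelfAdjoint.one _)) (fun x => by
      have k1 : (r + r - 1) x = r x - star A (A (r x)) := by
        change r x + r x - x = _
        rw [sub_eq_sub_iff_add_eq_add, add_assoc, e1]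
      have k2 : ⟪r x, star A (A (r x))⟫ = ‖A (r x)‖ ^ 2 :=
        (ContinuousLinearMap.adjoint_inner_right _ _ _).trans (real_inner_self_eq_norm_sq _)
      have k3 : ((A + A) * r) x = A (r x) + A (r x) := rfl
      rw [k1, k3, norm_sub_sq_real, norm_add_sq_real, real_inner_self_eq_norm_sq, k2]
      conv_rhs => rw [← e1 x, norm_add_sq_real, k2]
      ring) (p := p) fun y hy => by
      have k1 : A (r y) = 0 := by
        have : A (r y) + A (r y) = 0 := hy
        rwa [← two_smul ℝ, smul_eq_zero_iff_right two_ne_zero] at this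
      have k2 := e1 y
      rw [k1, map_zero, add_zero] at k2
      exact hp y (k2 ▸ k1)
  have h4 : ∀ k : ℕ, ((r + r - 1) ^ k) (x - p) = x - p := fun k => by
    induction k with
    | zero => rfl
    | succ k ih =>
      rw [pow_succ', mul_apply_eq_comp, ih]
      change r (x - p) + r (x - p) - (x - p) = _
      rw [e2 _ hx, add_sub_cancel_right]
  have h5 : ∀ k : ℕ, ((A + A) * r * (r + r - 1) ^ k) x = ((A + A) * r) (((r + r - 1) ^ k) p) :=
    fun k => by
      rw [← sub_eq_zero, mul_apply_eq_comp, ← map_sub, ← map_sub, h4]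
      change A (r (x - p)) + A (r (x - p)) = 0
      rw [e2 _ hx, hx, add_zero]
  simp only [h5, fda_enorm]
  rw [← ENNReal.ofReal_tsum_of_nonneg (fun _ => sq_nonneg _) h3.summable, h3.tsum_eq]

theorem fda_star {A r r' : H →L[ℝ] H} (h1 : r * (1 + star A * A) = 1)
    (h2 : (1 + star (star A) * star A) * r' = 1) (k : ℕ) :
    star ((A + A) * r * (r + r - 1) ^ k) = (star A + star A) * r' * (r' + r' - 1) ^ k := by
  have e1 : SemiconjBy (star A) r' r := by
    rw [star_star] at h2
    calc star A * r' = r * (1 + star A * A) * (star A * r') := by rw [h1, one_mul]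
      _ = r * star A * ((1 + A * star A) * r') := by noncomm_ring
      _ = r * star A := by rw [h2, mul_one]
  have e2 := ((e1.add_right e1).sub_right (SemiconjBy.one_right _)).pow_right k
  have e3 : Commute r ((r + r - 1) ^ k) :=
    (((Commute.refl r).add_right (Commute.refl r)).sub_right (Commute.one_right r)).pow_right k
  have e4 := (e1.mul_right e2).eq
  rw [star_mul, star_mul, star_add, (fda_sa h1).star_eq,
    ((((fda_sa h1).add (fda_sa h1)).sub (IsSelfAdjoint.one _)).pow k).star_eq, mul_assoc,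
    add_mul, e4, ← mul_assoc, ← e3.eq, mul_add]

end Vale.Agent.P239
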