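import Vale.Agent.P239.Full.FDef3
import Vale.Agent.P239.Full.FDimAAux

/-! Task FDimA: abstract von Neumann dimension, part 1.
`comm_proj`: the closure and its orthogonal complement are invariant (`adj`). Call `T` Hilbert-Schmidt if `∑ ‖T δ i‖² < ∞`; for commuting Hilbert-Schmidt `X, Y` polarisation of `tr` gives `∑ ⟨X δ, Y δ⟩ = ∑ ⟨X* δ, Y* δ⟩`.
`rn`: scale `A = T ∘ P_W` to norm `≤ 1`; `S = 1 - A* A`, `S' = 1 - A A*` are self-adjoint with `0 ≤ S, S' ≤ 1`; the Cesaro means of `S^k` converge strongly to the projection onto `ker A`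
(`ContinuousLinearMap.tendsto_birkhoffAverage_orthogonalProjection`), those of `S'^k` to the projection onto `ker A* = (range A)ᗮ`. `1 - S^k = A* R_k A` and `1 - S'^k = R_k A A*` with `R_k = ∑_{i<k} S'^i`, so
`∑ ⟨(1 - S^k) δ, δ⟩ = ∑ ⟨(1 - S'^k) δ, δ⟩`. Dominated convergence on the left (terms `≤ 2 ‖P_W δ i‖²`), Fatou and then dominated convergence on the right. Finally `W = (W ⊓ ker T) ⊕ (ker A)ᗮ`.
`le_closure`: `dim W' = dim W + dim (W' ⊓ Wᗮ)`, then `faith`.
-/

noncomputable section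

open Classical MeasureTheory Filter Topology Set
open scoped Pointwise ENNReal

namespace Vale.Agent.P239

variable {H : Type*} [NormedAddCommGroup H] [InnerProductSpace ℝ H] [CompleteSpace H] {I : Type*}
  (τ : TS H I)

namespace TS

theorem fda_comm {T : H →L[ℝ] H} : τ.Comm T ↔ ∀ m ∈ τ.M, Commute T m :=
  forall₂_congr fun _ _ => ⟨fun h => ContinuousLinearMap.ext h, fun h => DFunLike.congr_fun h⟩

theorem fda_cl {W : Submodule ℝ H} (h : τ.Stab W) : τ.Stab W.topologicalClosure :=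
  fun m hm _ hw => map_mem_closure m.continuous hw (h m hm)

theorem fda_or {W : Submodule ℝ H} (h : τ.Stab W) : τ.Stab Wᗮ := fun m hm x hx w hw => by
  rw [← ContinuousLinearMap.adjoint_inner_left]
  exact hx _ (h _ (τ.adj m hm) w hw)

theorem comm_proj {W : Submodule ℝ H} (h : τ.Stab W) :
    τ.Comm W.topologicalClosure.starProjection := fun m hm x =>
  Submodule.eq_starProjection_of_mem_orthogonal
    (τ.fda_cl h m hm _ (Submodule.starProjection_apply_mem _ x)) (by
      rw [← map_sub]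
      exact τ.fda_or (τ.fda_cl h) m hm _ (Submodule.sub_starProjection_mem_orthogonal x))

theorem Comm.adjoint {T : H →L[ℝ] H} (h : τ.Comm T) : τ.Comm (ContinuousLinearMap.adjoint T) :=
  fun m hm x => ext_inner_left ℝ fun y => by
    rw [ContinuousLinearMap.adjoint_inner_right, ← ContinuousLinearMap.adjoint_inner_left m,
      ← h _ (τ.adj m hm), ← ContinuousLinearMap.adjoint_inner_right T,
      ContinuousLinearMap.adjoint_inner_left]

theorem Comm.comp {T T' : H →L[ℝ] H} (h : τ.Comm T) (h' : τ.Comm T') : τ.Comm (T ∘L T') :=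
  fun m hm x => (congrArg T (h' m hm x)).trans (h m hm _)

theorem Comm.sub {T T' : H →L[ℝ] H} (h : τ.Comm T) (h' : τ.Comm T') : τ.Comm (T - T') :=
  τ.fda_comm.2 fun m hm => (τ.fda_comm.1 h m hm).sub_left (τ.fda_comm.1 h' m hm)

theorem Stab.closure {W : Submodule ℝ H} (h : τ.Stab W) : τ.Inv W.topologicalClosure :=
  ⟨W.isClosed_topologicalClosure, τ.fda_cl h⟩

theorem Stab.orthogonal {W : Submodule ℝ H} (h : τ.Stab W) : τ.Inv Wᗮ := ⟨W.isClosed_orthogonal, τ.fda_or h⟩

theorem Stab.map {W : Submodule ℝ H} (h : τ.Stab W) {T : H →L[ℝ] H} (hT : τ.Comm T) :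
    τ.Stab (W.map (T : H →ₗ[ℝ] H)) := by
  rintro m hm _ ⟨w, hw, rfl⟩
  exact ⟨m w, h m hm w hw, hT m hm w⟩

theorem Comm.ker {T : H →L[ℝ] H} (hT : τ.Comm T) : τ.Inv (LinearMap.ker (T : H →ₗ[ℝ] H)) :=
  ⟨T.isClosed_ker, fun m hm w hw => (hT m hm w).trans ((congrArg m hw).trans (map_zero m))⟩

theorem Inv.inf {W W' : Submodule ℝ H} (h : τ.Inv W) (h' : τ.Inv W') : τ.Inv (W ⊓ W') :=
  ⟨h.1.inter h'.1, fun m hm w hw => ⟨h.2 m hm w hw.1, h'.2 m hm w hw.2⟩⟩

omit [CompleteSpace H] in
theorem fda_ortho {W W' : Submodule ℝ H} (ho : W ⟂ W') :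
    W.topologicalClosure ⟂ W'.topologicalClosure := by
  rw [Submodule.isOrtho_iff_le, Submodule.orthogonal_closure]
  exact W.topologicalClosure_minimal ho W'.isClosed_orthogonal

theorem fda_sup {W W' : Submodule ℝ H} (ho : W ⟂ W') (x : H) :
    (W ⊔ W').topologicalClosure.starProjection x =
      W.topologicalClosure.starProjection x + W'.topologicalClosure.starProjection x := by
  have h1 := W.topologicalClosure.starProjection_apply_mem x
  have h2 := W'.topologicalClosure.starProjection_apply_mem x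
  refine Submodule.eq_starProjection_of_mem_orthogonal (Submodule.add_mem _
    (Submodule.topologicalClosure_mono le_sup_left h1)
    (Submodule.topologicalClosure_mono le_sup_right h2)) ?_
  rw [Submodule.orthogonal_closure, ← Submodule.inf_orthogonal, ← W.orthogonal_closure,
    ← W'.orthogonal_closure]
  constructor
  · rw [← sub_sub]
    exact Submodule.sub_mem _ (Submodule.sub_starProjection_mem_orthogonal x)
      ((fda_ortho ho).symm h2)
  · rw [add_comm, ← sub_sub]
    exact Submodule.sub_mem _ (Submodule.sub_starProjection_mem_orthogonal x) (fda_ortho ho h1)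

theorem Inv.sup {W W' : Submodule ℝ H} (h : τ.Inv W) (h' : τ.Inv W') (ho : W ⟂ W') :
    τ.Inv (W ⊔ W') := by
  refine ⟨isClosed_of_closure_subset fun x hx => ?_, fun m hm x hx => ?_⟩
  · rw [← (Submodule.starProjection_eq_self_iff (K := (W ⊔ W').topologicalClosure)).2 hx,
      fda_sup ho]
    exact Submodule.add_mem_sup
      (h.1.closure_subset (W.topologicalClosure.starProjection_apply_mem x))
      (h'.1.closure_subset (W'.topologicalClosure.starProjection_apply_mem x))
  · obtain ⟨a, ha, b, hb, rfl⟩ := Submodule.mem_sup.1 hx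
    rw [map_add]
    exact Submodule.add_mem_sup (h.2 m hm a ha) (h'.2 m hm b hb)

theorem dim_closure (W : Submodule ℝ H) : τ.dim W.topologicalClosure = τ.dim W := by
  simp only [dim, W.isClosed_topologicalClosure.submodule_topologicalClosure_eq]

theorem fda_dim_sup {W W' : Submodule ℝ H} (ho : W ⟂ W') :
    τ.dim (W ⊔ W') = τ.dim W + τ.dim W' := by
  rw [dim, dim, dim, ← ENNReal.tsum_add]
  refine tsum_congr fun i => ?_
  rw [fda_sup ho, fda_enorm, fda_enorm, fda_enorm, ← ENNReal.ofReal_add (sq_nonneg _) (sq_nonneg _),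
    norm_add_sq_real, (fda_ortho ho).inner_eq (Submodule.starProjection_apply_mem _ _)
      (Submodule.starProjection_apply_mem _ _), mul_zero, add_zero]

theorem fda_split {W W' : Submodule ℝ H} (h : W ≤ W') :
    τ.dim W' = τ.dim W + τ.dim (W.topologicalClosureᗮ ⊓ W'.topologicalClosure) := by
  rw [← τ.dim_closure W, ← τ.fda_dim_sup
    ((Submodule.isOrtho_orthogonal_right _).mono_right inf_le_left),
    Submodule.sup_orthogonal_inf_of_hasOrthogonalProjection (Submodule.topologicalClosure_mono h),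
    dim_closure]

theorem dim_mono {W W' : Submodule ℝ H} (h : W ≤ W') : τ.dim W ≤ τ.dim W' :=
  (τ.fda_split h).ge.trans' le_self_add

theorem eq_bot_of_dim {W : Submodule ℝ H} (h : τ.Stab W) (h0 : τ.dim W = 0) : W = ⊥ := by
  have h1 := τ.faith _ (τ.comm_proj h) fun i => by
    simpa using ENNReal.tsum_eq_zero.1 h0 i
  refine (Submodule.eq_bot_iff _).2 fun w hw => ?_
  rw [← Submodule.starProjection_eq_self_iff.2 (W.le_topologicalClosure hw), h1]
  rfl

theorem dim_sup {W W' : Submodule ℝ H} (ho : W ⟂ W') : τ.dim (W ⊔ W') = τ.dim W + τ.dim W' :=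
  τ.fda_dim_sup ho

theorem le_closure {W W' : Submodule ℝ H} (h : τ.Stab W) (h' : τ.Stab W') (hle : W ≤ W')
    (hd : τ.dim W' ≤ τ.dim W) (hf : τ.dim W ≠ ⊤) : W' ≤ W.topologicalClosure := by
  rw [τ.fda_split hle] at hd
  have h1 := τ.eq_bot_of_dim (Inv.inf τ (Stab.orthogonal τ (τ.fda_cl h)) (Stab.closure τ h')).2
    (nonpos_iff_eq_zero.1 ((ENNReal.add_le_add_iff_left hf).1 (hd.trans_eq (add_zero _).symm)))
  have h2 := Submodule.sup_orthogonal_inf_of_hasOrthogonalProjection
    (Submodule.topologicalClosure_mono hle)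
  rw [h1, sup_bot_eq] at h2
  exact h2 ▸ W'.le_topologicalClosure

theorem fda_dim {A r : H →L[ℝ] H} (h1 : r * (1 + star A * A) = 1) (h2 : (1 + star A * A) * r = 1) :
    τ.dim (LinearMap.ker (A : H →ₗ[ℝ] H))ᗮ =
      ∑' k : ℕ, ∑' i, ‖((A + A) * r * (r + r - 1) ^ k) (τ.δ i)‖ₑ ^ 2 := by
  rw [ENNReal.tsum_comm]
  simp only [dim, (Submodule.isClosed_orthogonal _).submodule_topologicalClosure_eq]
  refine tsum_congr fun i => (fda_proj h1 h2 (Submodule.starProjection_apply_mem _ _) ?_).symm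
  have := (LinearMap.ker (A : H →ₗ[ℝ] H))ᗮ.sub_starProjection_mem_orthogonal (τ.δ i)
  rwa [Submodule.orthogonal_orthogonal] at this

theorem fda_range {A : H →L[ℝ] H} (hA : τ.Comm A) :
    τ.dim (LinearMap.ker (A : H →ₗ[ℝ] H))ᗮ = τ.dim (LinearMap.range (A : H →ₗ[ℝ] H)) := by
  obtain ⟨r, h1, h2⟩ := fda_inv A
  obtain ⟨r', h3, h4⟩ := fda_inv (star A)
  have h5 : (LinearMap.ker ((star A : H →L[ℝ] H) : H →ₗ[ℝ] H))ᗮ =
      (LinearMap.range (A : H →ₗ[ℝ] H)).topologicalClosure := by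
    rw [← Submodule.orthogonal_orthogonal_eq_closure, A.orthogonal_range]
    rfl
  rw [← τ.dim_closure (LinearMap.range _), ← h5, τ.fda_dim h1 h2, τ.fda_dim h3 h4]
  refine tsum_congr fun k => ?_
  rw [← fda_star h1 h4]
  refine τ.tr _ (τ.fda_comm.2 fun m hm => ?_)
  have c1 := τ.fda_comm.1 hA m hm
  have c2 : Commute (star A) m := τ.fda_comm.1 (Comm.adjoint τ hA) m hm
  have c3 : Commute r m :=
    Commute.units_inv_left (u := ⟨_, r, h2, h1⟩) ((Commute.one_left m).add_left (c2.mul_left c1))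
  exact ((c1.add_left c1).mul_left c3).mul_left
    (((c3.add_left c3).sub_left (Commute.one_left m)).pow_left k)

theorem rn {W : Submodule ℝ H} (h : τ.Inv W) (hf : τ.dim W ≠ ⊤) {T : H →L[ℝ] H} (hT : τ.Comm T) :
    τ.dim W = τ.dim (W ⊓ LinearMap.ker (T : H →ₗ[ℝ] H)) + τ.dim (W.map (T : H →ₗ[ℝ] H)) := by
  have hW := h.1.submodule_topologicalClosure_eq
  set P := W.topologicalClosure.starProjection
  have p1 : ∀ x, P x ∈ W := fun x =>
    h.1.closure_subset (W.topologicalClosure.starProjection_apply_mem x)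
  have p2 : ∀ w ∈ W, P w = w := fun w hw =>
    Submodule.starProjection_eq_self_iff.2 (W.le_topologicalClosure hw)
  set K := LinearMap.ker ((T ∘L P : H →L[ℝ] H) : H →ₗ[ℝ] H)
  have k1 : ∀ x, x ∈ K ↔ T (P x) = 0 := fun _ => Iff.rfl
  have e1 : LinearMap.range ((T ∘L P : H →L[ℝ] H) : H →ₗ[ℝ] H) = W.map (T : H →ₗ[ℝ] H) :=
    le_antisymm (by rintro _ ⟨x, rfl⟩; exact ⟨_, p1 x, rfl⟩)
      (by rintro _ ⟨w, hw, rfl⟩; exact ⟨w, congrArg T (p2 w hw)⟩)
  have e2 : Kᗮ ≤ W := by
    rw [← hW, ← Submodule.orthogonal_orthogonal W.topologicalClosure]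
    refine Submodule.orthogonal_le fun x hx => (k1 x).2 ?_
    rw [show P x = 0 from (Submodule.starProjection_apply_eq_zero_iff _).2 hx, map_zero]
  have e3 : W ⊓ LinearMap.ker (T : H →ₗ[ℝ] H) ⊔ Kᗮ = W := by
    refine le_antisymm (sup_le inf_le_left e2) fun w hw => ?_
    have q1 := Kᗮ.starProjection_apply_mem w
    have q2 := Kᗮ.sub_starProjection_mem_orthogonal w
    have q3 := W.sub_mem hw (e2 q1)
    rw [Submodule.orthogonal_orthogonal, k1, p2 _ q3] at q2
    rw [← sub_add_cancel w (Kᗮ.starProjection w)]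
    exact Submodule.add_mem_sup ⟨q3, q2⟩ q1
  rw [← e1, ← τ.fda_range (Comm.comp τ hT (τ.comm_proj h.2)), ← τ.dim_sup, e3]
  refine (Submodule.isOrtho_orthogonal_right K).mono_left fun w hw => (k1 w).2 ?_
  rw [p2 w hw.1]
  exact hw.2

end TS

end Vale.Agent.P239
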