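import Vale.Agent.P239.Full.FDef4
import Vale.Agent.P239.Full.FKF

/-! Task FEnc: linear equations for encoded triples. `exists_pathF`: induction on the word length (`Cay.exists_ball`, `mem_ball_succ`): `P (x s) = P x + single (x, inl s) 1`.
`exists_eqs`: the equations (indexed by a countable type, enumerate it by `exists_surjective_nat`): `v (x, inl s) = 0` for `s ∉ S`; `v (x, inl s) = P (x s) v - P x v` for `s ∈ S`;
`P (x t) v - v (x t, i) = P x v - v (x, i)` for `t ∈ T i`; if `a ∈ A` and `r a p q` then `P p.1 v - v (p.1, a, p.2) = P q.1 v - v (q.1, a, q.2)`; `v (x, a, j) = 0` if `a ∉ A` or `¬ e a (x, j)`; edge coordinates vanish.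
-/

noncomputable section

open Classical MeasureTheory Filter Topology Set
open scoped Pointwise ENNReal

namespace Vale.Agent.P239

universe u
variable {G : Type u} [Group G] {S : Finset G} {l : ℕ} {Q : Cones S} {B : Bdry S}

variable {L : Type}

theorem fenc_add {α : Type*} {p q : α → ℝ} (hp : SqSum p) (hq : SqSum q) :
    SqSum fun x => p x + q x :=
  (fkf_sq hp hq (L := 1) fun x => by simpa using abs_add_le (p x) (q x)).1

theorem fenc_sub {α : Type*} {p q : α → ℝ} (hp : SqSum p) (hq : SqSum q) :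
    SqSum fun x => p x - q x :=
  (fkf_sq hp hq (L := 1) fun x => by simpa using abs_sub (p x) (q x)).1

theorem fenc_mul {α : Type*} {p : α → ℝ} (hp : SqSum p) (c : ℝ) : SqSum fun x => c * p x := by
  unfold SqSum
  simpa only [mul_pow] using Summable.mul_left (c ^ 2) hp

theorem fenc_inj {α β : Type*} {p : α → ℝ} (hp : SqSum p) (i : β → α) (hi : Function.Injective i) :
    SqSum fun x => p (i x) := Summable.comp_injective hp hi

theorem fenc_sum {α β γ : Type*} {f : α × (β ⊕ γ) → ℝ}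
    (h1 : Summable fun p : α × β => f (p.1, Sum.inl p.2))
    (h2 : Summable fun p : α × γ => f (p.1, Sum.inr p.2)) : Summable f :=
  (Equiv.prodSumDistrib α β γ).symm.summable_iff.1 (Summable.sum _ h1 h2)

theorem fenc_tsum (u : G → ℝ) (x : G) :
    ∑' s, (if s ∈ S then u (x * s) - u x else 0) ^ 2 = grad2 S u x := by
  rw [tsum_eq_sum (s := S) fun s hs => by simp [hs]]
  exact Finset.sum_congr rfl fun s hs => by rw [if_pos hs]

theorem fenc_grad {I : Type*} {w : G × (G ⊕ I) → ℝ} (hw : SqSum w) {u : G → ℝ}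
    (h : ∀ x s, w (x, Sum.inl s) = if s ∈ S then u (x * s) - u x else 0) :
    FinEn S u ∧ energy S u ≤ ∑' p, w p ^ 2 := by
  have hi : Function.Injective fun p : G × G => ((p.1, Sum.inl p.2) : G × (G ⊕ I)) :=
    fun p q e => Prod.ext (Prod.mk.inj e).1 (Sum.inl.inj (Prod.mk.inj e).2)
  have h1 : Summable fun p : G × G => w (p.1, Sum.inl p.2) ^ 2 := Summable.comp_injective hw hi
  have h2 : (fun x => ∑' s, w (x, Sum.inl s) ^ 2) = grad2 S u := by
    funext x
    simp only [h]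
    exact fenc_tsum u x
  refine ⟨?_, ?_⟩
  · unfold FinEn
    rw [← h2]
    exact h1.prod
  · unfold energy
    rw [← h2, ← h1.tsum_prod]
    exact tsum_comp_le_tsum_of_inj hw (fun p => sq_nonneg _) hi

theorem prF_add {α : Type*} (a b : α →₀ ℝ) (v : α → ℝ) : prF (a + b) v = prF a v + prF b v :=
  map_add (Finsupp.linearCombination ℝ v) a b

theorem prF_sub {α : Type*} (a b : α →₀ ℝ) (v : α → ℝ) : prF (a - b) v = prF a v - prF b v :=
  map_sub (Finsupp.linearCombination ℝ v) a b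

theorem prF_zero {α : Type*} (v : α → ℝ) : prF 0 v = 0 := Finsupp.sum_zero_index

theorem prF_one {α : Type*} (p : α) (v : α → ℝ) : prF (Finsupp.single p 1) v = v p := by
  unfold prF
  rw [Finsupp.sum_single_index (zero_mul _), one_mul]

theorem ClsC.add {r : G × ℕ → G × ℕ → Prop} {u v : G → ℝ} {ψ χ : G × ℕ → ℝ} (h : ClsC r u ψ)
    (h' : ClsC r v χ) : ClsC r (fun x => u x + v x) (fun p => ψ p + χ p) :=
  ⟨fenc_add h.1 h'.1, fun p q e => by linarith [h.2 p q e, h'.2 p q e]⟩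

theorem ClsC.const_mul {r : G × ℕ → G × ℕ → Prop} {u : G → ℝ} {ψ : G × ℕ → ℝ} (h : ClsC r u ψ)
    (c : ℝ) : ClsC r (fun x => c * u x) (fun p => c * ψ p) :=
  ⟨fenc_mul h.1 c, fun p q e => by rw [← mul_sub, ← mul_sub, h.2 p q e]⟩

theorem ClsC.add_const {r : G × ℕ → G × ℕ → Prop} {u : G → ℝ} {ψ : G × ℕ → ℝ} (h : ClsC r u ψ)
    (c : ℝ) : ClsC r (fun x => u x + c) ψ := ⟨h.1, fun p q e => by linarith [h.2 p q e]⟩

theorem Cones.KF.add_const {u : G → ℝ} {φ : Fin Q.n → G → ℝ} (h : Q.KF u φ) (c : ℝ) :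
    Q.KF (fun x => u x + c) φ := by
  simpa only [add_zero] using h.add (Cones.kf_const c)

theorem exists_encM (Q : Cones S) (r : L → G × ℕ → G × ℕ → Prop) (e : L → G × ℕ → Prop)
    (A A' : Set L) : ∃ M : Submodule ℝ (G × EI Q L → ℝ), (M : Set _) = encW Q r e A A' := by
  refine ⟨⟨⟨⟨encW Q r e A A', ?_⟩, ?_⟩, ?_⟩, rfl⟩
  · rintro _ _ ⟨u, φ, ψ, h1, h2, h3, rfl⟩ ⟨u', φ', ψ', h1', h2', h3', rfl⟩
    refine ⟨_, _, fun a p => ψ a p + ψ' a p, h1.add h1', fun a ha => (h2 a ha).add (h2' a ha),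
      fun a p hp => by simp only [h3 a p hp, h3' a p hp, add_zero], ?_⟩
    funext ⟨x, i⟩
    rcases i with s | i | ⟨a, j⟩ | i
    · simp only [Pi.add_apply, enc]
      split_ifs <;> ring
    · rfl
    · simp only [Pi.add_apply, enc]
      split_ifs <;> ring
    · exact add_zero _
  · refine ⟨_, _, fun _ _ => 0, Cones.kf_const 0, fun a _ => ⟨?_, fun _ _ _ => rfl⟩,
      fun _ _ _ => rfl, ?_⟩
    · unfold SqSum
      simp
    · funext ⟨x, i⟩
      rcases i with s | i | ⟨a, j⟩ | i <;> simp [enc]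
  · rintro c _ ⟨u, φ, ψ, h1, h2, h3, rfl⟩
    refine ⟨_, _, fun a p => c * ψ a p, h1.const_mul c, fun a ha => (h2 a ha).const_mul c,
      fun a p hp => by simp only [h3 a p hp, mul_zero], ?_⟩
    funext ⟨x, i⟩
    rcases i with s | i | ⟨a, j⟩ | i
    · simp only [Pi.smul_apply, smul_eq_mul, enc]
      split_ifs <;> ring
    · rfl
    · simp only [Pi.smul_apply, smul_eq_mul, enc]
      split_ifs <;> ring
    · exact mul_zero _

theorem enc_sqSum [Finite L] {A : Set L} {u : G → ℝ} {φ : Fin Q.n → G → ℝ} {ψ : L → G × ℕ → ℝ}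
    (hu : Q.KF u φ) (hψ : ∀ a ∈ A, SqSum (ψ a)) : SqSum (enc Q A u φ ψ) := by
  refine fenc_sum ?_ (fenc_sum (f := fun p => enc Q A u φ ψ (p.1, Sum.inr p.2) ^ 2) ?_
    (fenc_sum (f := fun p => enc Q A u φ ψ (p.1, Sum.inr (Sum.inr p.2)) ^ 2) ?_ ?_))
  · refine (summable_prod_of_nonneg fun p => sq_nonneg _).2 ⟨fun x => ?_, ?_⟩
    · exact summable_of_ne_finset_zero (s := S) fun s hs => by simp [enc, hs]
    · simp only [enc, fenc_tsum]
      exact hu.1
  · refine (summable_prod_of_nonneg fun p => sq_nonneg _).2 ⟨fun x => Summable.of_finite, ?_⟩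
    simp only [enc, tsum_fintype]
    exact summable_sum fun i _ => (hu.2 i).1
  · have h : Summable fun p : L × G × ℕ => (if p.1 ∈ A then ψ p.1 p.2 else 0) ^ 2 := by
      refine (summable_prod_of_nonneg fun p => sq_nonneg _).2 ⟨fun a => ?_, Summable.of_finite⟩
      by_cases ha : a ∈ A
      · simp only [if_pos ha]
        exact hψ a ha
      · simp [ha]
    have hi : Function.Injective fun p : G × L × ℕ => ((p.2.1, p.1, p.2.2) : L × G × ℕ) :=
      fun p q e => by
        simp only [Prod.mk.injEq] at e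
        exact Prod.ext e.2.1 (Prod.ext e.1 e.2.2)
    refine (h.comp_injective hi).congr fun p => ?_
    simp only [Function.comp, enc]
  · simpa [enc] using summable_zero

theorem enc_le {A : Set L} {u u' : G → ℝ} {φ φ' : Fin Q.n → G → ℝ} {ψ ψ' : L → G × ℕ → ℝ}
    (h : SqSum (enc Q A u φ ψ)) (h' : SqSum (enc Q A u' φ' ψ')) :
    energy S (fun x => u x - u' x) ≤ ∑' p, (enc Q A u φ ψ p - enc Q A u' φ' ψ' p) ^ 2 ∧
      ∀ a ∈ A, ∑' p, (ψ a p - ψ' a p) ^ 2 ≤ ∑' p, (enc Q A u φ ψ p - enc Q A u' φ' ψ' p) ^ 2 := by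
  have hw := fenc_sub h h'
  refine ⟨(fenc_grad hw fun x s => ?_).2, fun a ha => ?_⟩
  · simp only [enc]
    split_ifs <;> ring
  · have hi : Function.Injective fun p : G × ℕ =>
        ((p.1, Sum.inr (Sum.inr (Sum.inl (a, p.2)))) : G × EI Q L) := fun p q e => by
      simp only [Prod.mk.injEq, Sum.inr.injEq, Sum.inl.injEq, true_and] at e
      exact Prod.ext e.1 e.2
    refine le_trans (le_of_eq ?_) (tsum_comp_le_tsum_of_inj hw (fun p => sq_nonneg _) hi)
    refine tsum_congr fun p => ?_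
    simp only [Function.comp, enc, if_pos ha]

theorem exists_pathF (hS : Cay S) (Q : Cones S) (L : Type) : ∃ P : G → (G × EI Q L →₀ ℝ),
    ∀ (v : G × EI Q L → ℝ) (u : G → ℝ), (∀ x, ∀ s ∈ S, v (x, Sum.inl s) = u (x * s) - u x) →
      ∀ x, prF (P x) v = u x - u 1 := by
  have key : ∀ r, ∀ x ∈ ball S r, ∃ P : G × EI Q L →₀ ℝ, ∀ (v : G × EI Q L → ℝ) (u : G → ℝ),
      (∀ x, ∀ s ∈ S, v (x, Sum.inl s) = u (x * s) - u x) → prF P v = u x - u 1 := by
    intro r
    induction r with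
    | zero =>
      intro x hx
      rw [mem_ball_zero.1 hx]
      exact ⟨0, fun v u _ => by rw [prF_zero, sub_self]⟩
    | succ r ih =>
      intro x hx
      rcases mem_ball_succ.1 hx with h | ⟨b, hb, s, hs, rfl⟩
      · exact ih x h
      · obtain ⟨P, hP⟩ := ih b hb
        refine ⟨P + Finsupp.single (b, Sum.inl s) 1, fun v u h => ?_⟩
        rw [prF_add, prF_one, hP v u h, h b s hs]
        ring
  choose P hP using fun x => (hS.exists_ball x).elim fun r hr => key r x hr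
  exact ⟨P, fun v u h x => hP x v u h⟩

/-- The index set of the equations. -/
abbrev FEq (Q : Cones S) (L : Type) : Type u :=
  (G × G) ⊕ (Fin Q.n × G × G) ⊕ (L × (G × ℕ) × (G × ℕ)) ⊕ (L × G × ℕ) ⊕ (G × L × ℕ × G)

def feqB (Q : Cones S) (P : G → (G × EI Q L →₀ ℝ)) : FEq Q L → G × EI Q L →₀ ℝ
  | Sum.inl (x, s) => Finsupp.single (x, Sum.inl s) 1 - if s ∈ S then P (x * s) - P x else 0
  | Sum.inr (Sum.inl (i, x, t)) => P (x * t) - Finsupp.single (x * t, Sum.inr (Sum.inl i)) 1 -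
      (P x - Finsupp.single (x, Sum.inr (Sum.inl i)) 1)
  | Sum.inr (Sum.inr (Sum.inl (a, p, q))) =>
      P p.1 - Finsupp.single (p.1, Sum.inr (Sum.inr (Sum.inl (a, p.2)))) 1 -
        (P q.1 - Finsupp.single (q.1, Sum.inr (Sum.inr (Sum.inl (a, q.2)))) 1)
  | Sum.inr (Sum.inr (Sum.inr (Sum.inl (a, p)))) =>
      Finsupp.single (p.1, Sum.inr (Sum.inr (Sum.inl (a, p.2)))) 1
  | Sum.inr (Sum.inr (Sum.inr (Sum.inr (x, i)))) => Finsupp.single (x, Sum.inr (Sum.inr (Sum.inr i))) 1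

def feqC (Q : Cones S) (A : Set L) (r : L → G × ℕ → G × ℕ → Prop) (e : L → G × ℕ → Prop) :
    FEq Q L → Prop
  | Sum.inl _ => True
  | Sum.inr (Sum.inl (i, _, t)) => t ∈ Q.T i
  | Sum.inr (Sum.inr (Sum.inl (a, p, q))) => a ∈ A ∧ r a p q
  | Sum.inr (Sum.inr (Sum.inr (Sum.inl (a, p)))) => a ∉ A ∨ ¬ e a p
  | Sum.inr (Sum.inr (Sum.inr (Sum.inr _))) => True

theorem feq_iff [Finite L] (A : Set L) {P : G → (G × EI Q L →₀ ℝ)}
    (hP : ∀ (v : G × EI Q L → ℝ) (u : G → ℝ),
      (∀ x, ∀ s ∈ S, v (x, Sum.inl s) = u (x * s) - u x) → ∀ x, prF (P x) v = u x - u 1)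
    (r : L → G × ℕ → G × ℕ → Prop) (e : L → G × ℕ → Prop) (v : G × EI Q L → ℝ) :
    v ∈ encW Q r e A A ↔ SqSum v ∧ ∀ k, feqC Q A r e k → prF (feqB Q P k) v = 0 := by
  constructor
  · rintro ⟨u, φ, ψ, h1, h2, h3, rfl⟩
    have hp := hP (enc Q A u φ ψ) u fun x s hs => by simp only [enc, if_pos hs]
    refine ⟨enc_sqSum h1 fun a ha => (h2 a ha).1, ?_⟩
    rintro (⟨x, s⟩ | ⟨i, x, t⟩ | ⟨a, p, q⟩ | ⟨a, p⟩ | ⟨x, i⟩) hk
    · by_cases hs : s ∈ S
      · simp only [feqB, if_pos hs, prF_sub, prF_one, hp, enc]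
        ring
      · simp only [feqB, if_neg hs, prF_one, enc, sub_zero]
    · simp only [feqB, prF_sub, prF_one, hp, enc]
      linarith [(h1.2 i).2 x t hk]
    · simp only [feqB, prF_sub, prF_one, hp, enc, if_pos hk.1]
      linarith [(h2 a hk.1).2 p q hk.2]
    · simp only [feqB, prF_one, enc]
      rcases hk with hk | hk
      · exact if_neg hk
      · rw [h3 a _ hk, ite_self]
    · simp only [feqB, prF_one, enc]
  · rintro ⟨hv, h⟩
    have e1 : ∀ x s, v (x, Sum.inl s) = if s ∈ S then prF (P (x * s)) v - prF (P x) v else 0 := by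
      intro x s
      have := h (Sum.inl (x, s)) trivial
      by_cases hs : s ∈ S
      · simp only [feqB, if_pos hs, prF_sub, prF_one] at this ⊢
        linarith
      · simpa only [feqB, if_neg hs, prF_sub, prF_one, prF_zero, sub_zero] using this
    have e4 : ∀ a p, a ∉ A ∨ ¬ e a p → v (p.1, Sum.inr (Sum.inr (Sum.inl (a, p.2)))) = 0 :=
      fun a p hk => by
        simpa only [feqB, prF_one] using h (Sum.inr (Sum.inr (Sum.inr (Sum.inl (a, p))))) hk
    refine ⟨fun x => prF (P x) v, fun i x => v (x, Sum.inr (Sum.inl i)),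
      fun a p => v (p.1, Sum.inr (Sum.inr (Sum.inl (a, p.2)))),
      ⟨(fenc_grad hv e1).1, fun i => ⟨?_, fun x t ht => ?_⟩⟩, fun a ha => ⟨?_, fun p q hr => ?_⟩,
      fun a p hp => e4 a p (Or.inr hp), ?_⟩
    · exact fenc_inj hv (fun x => (x, Sum.inr (Sum.inl i))) fun x y e => (Prod.mk.inj e).1
    · have := h (Sum.inr (Sum.inl (i, x, t))) ht
      simp only [feqB, prF_sub, prF_one] at this
      linarith
    · refine fenc_inj hv
        (fun p : G × ℕ => (p.1, Sum.inr (Sum.inr (Sum.inl (a, p.2))))) fun p q e => ?_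
      simp only [Prod.mk.injEq, Sum.inr.injEq, Sum.inl.injEq, true_and] at e
      exact Prod.ext e.1 e.2
    · have := h (Sum.inr (Sum.inr (Sum.inl (a, p, q)))) ⟨ha, hr⟩
      simp only [feqB, prF_sub, prF_one] at this
      linarith
    · funext ⟨x, i⟩
      rcases i with s | i | ⟨a, j⟩ | i
      · exact e1 x s
      · rfl
      · by_cases ha : a ∈ A
        · exact (if_pos ha).symm
        · exact (e4 a (x, j) (Or.inl ha)).trans (if_neg ha).symm
      · simpa only [feqB, prF_one, enc] using h (Sum.inr (Sum.inr (Sum.inr (Sum.inr (x, i))))) trivial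

theorem exists_eqs [Finite L] (hS : Cay S) (Q : Cones S) (A : Set L) :
    ∃ (b : ℕ → G × EI Q L →₀ ℝ)
      (cond : ℕ → (L → G × ℕ → G × ℕ → Prop) → (L → G × ℕ → Prop) → Prop),
      (∀ (Y : Type u) [MeasurableSpace Y] (ρ : Y → L → G × ℕ → G × ℕ → Prop)
        (η : Y → L → G × ℕ → Prop), (∀ a p q, MeasurableSet {y | ρ y a p q}) →
        (∀ a p, MeasurableSet {y | η y a p}) → ∀ k, MeasurableSet {y | cond k (ρ y) (η y)}) ∧
      ∀ r e v, v ∈ encW Q r e A A ↔ SqSum v ∧ ∀ k, cond k r e → prF (b k) v = 0 := by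
  have := hS.countable
  obtain ⟨P, hP⟩ := exists_pathF hS Q L
  have : Nonempty (FEq Q L) := ⟨Sum.inl (1, 1)⟩
  obtain ⟨f, hf⟩ := exists_surjective_nat (FEq Q L)
  refine ⟨fun k => feqB Q P (f k), fun k r e => feqC Q A r e (f k), fun Y _ ρ η h1 h2 k => ?_,
    fun r e v => ?_⟩
  · beta_reduce
    rcases f k with p | ⟨i, x, t⟩ | ⟨a, p, q⟩ | ⟨a, p⟩ | p
    · exact MeasurableSet.const True
    · exact MeasurableSet.const (t ∈ Q.T i)
    · exact (MeasurableSet.const (a ∈ A)).inter (h1 a p q)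
    · exact (MeasurableSet.const (a ∉ A)).union (h2 a p).compl
    · exact MeasurableSet.const True
  · rw [feq_iff A hP]
    exact and_congr_right fun _ => hf.forall

end Vale.Agent.P239
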