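import Vale.Agent.P239.Full.FTrB
import Vale.Agent.P239.Full.FCoreB
import Vale.Agent.P239.Full.FKF

/-! Task FExt: extension of functions and cuts from `Γ` to `G`.
`cc`: `c x s = if x ∈ W then dZ K x s else 0` is locally exact off a finite set; `cof` gives `w`; `Y = {Odd w}`; off the defect an edge crosses `Y` iff it crosses `K` and starts in `W`; `nc`; `P = Y` or `Yᶜ`.
`ext`: well defined by `uniq`, `mem_cone_iff`, `KF.val_eq`. Energy: `π` has fibres of size `≤ |ball R|` on `nbh 1 X` (`near`); edges in `X` go to `S'`-edges (`edge`); for an edge from `x ∈ X` to a core `π x = y b` with `y` in the cone, `b ∈ ball S' 1`.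
`ext_cut`: `a' = (a + b)/2`. For a core `K` with value `> a'` let `W = {x | π x ∈ U}`. If `x, y ∈ wallV K` are within `3 L` and separated by `W` then `π x ∈ wallV U` and `π x` lies in a finite set `F₀` independent of `K` (`KF.dev_finite`), so (`fib_finite`)
`cc` applies, and for all but finitely many such cores the wall is inside or outside `W` (`conn`), where we take `P = univ` or `∅`. `U' = (X ∩ π⁻¹ U) ∪ ⋃ (K ∩ P K)` (`P K = ∅` for values `≤ a'`).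
-/

noncomputable section

open Classical MeasureTheory Filter Topology Set
open scoped Pointwise ENNReal

namespace Vale.Agent.P239

universe u
variable {G : Type u} [Group G] {S : Finset G} {l L : ℕ} {B : Bdry S} {Z : Cores B L}
  (Y : Tr Z)

theorem fext_side (hS : Cay S) {K W P E : Set G} {D : Set (G × G)} (hD : D.Finite) (hE : E.Finite)
    (h : ∀ x, ∀ s ∈ S, (x, s) ∉ D → (¬ (x ∈ P ↔ x * s ∈ P) ↔ x ∈ W ∧ ¬ (x ∈ K ↔ x * s ∈ K)))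
    (h' : ∀ x ∈ wallV S K \ K, x ∈ P → x ∈ E) :
    {e | e ∈ edgeBd S P ∧ e.1 ∈ K ∧ e.1 * e.2 ∈ K}.Finite ∧
      {x | x ∈ wallV S K ∩ K ∧ ¬ (x ∈ P ↔ x ∈ W)}.Finite := by
  refine ⟨hD.subset fun e he => ?_,
    ((hD.image Prod.fst).union (nbh_finite (S := S) 1 hE)).subset ?_⟩
  · by_contra hn
    exact ((h e.1 e.2 he.1.1 hn).1 he.1.2).2 (iff_of_true he.2.1 he.2.2)
  · rintro x ⟨⟨⟨s, hs, h1⟩, h2⟩, h3⟩
    by_cases hd : (x, s) ∈ D
    · exact Or.inl ⟨_, hd, rfl⟩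
    have h4 := h x s hs hd
    have h5 : x * s ∉ K := fun h5 => h1 (iff_of_true h2 h5)
    have h6 : x * s ∈ P := by
      by_contra h6
      exact h3 ⟨fun a => (h4.1 fun b => h6 (b.1 a)).1, fun a => by
        by_contra b
        exact h4.2 ⟨a, h1⟩ (iff_of_false b h6)⟩
    refine Or.inr ⟨x * s, h' _ ⟨hS.mul_mem_wallV hs h1, h5⟩ h6, ?_⟩
    rw [mul_inv_rev, inv_mul_cancel_right]
    exact mem_ball_one (hS.symm s hs)

theorem Cores.cc (hH : HypQ S l) (Z : Cores B L) {K : Set G} (hK : K ∈ Z.𝒦) {W : Set G}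
    (hW : {x | x ∈ wallV S K ∩ W ∧ ∃ y ∈ wallV S K \ W, y ∈ bl S x (2 * l)}.Finite) :
    ∃ P : Set G, {e | e ∈ edgeBd S P ∧ e.1 ∈ K ∧ e.1 * e.2 ∈ K}.Finite ∧
      {x | x ∈ wallV S K ∩ K ∧ ¬ (x ∈ P ↔ x ∈ W)}.Finite := by
  have hS := hH.cay
  obtain ⟨w, hw⟩ := hH.cof (fun x s => if x ∈ W then dZ K x s else 0)
    ((nbh_finite (S := S) l hW).subset fun y hy => by
      by_contra hn
      refine hy ((locExact_iff _ y).2 ?_)
      by_cases h0 : ∃ x ∈ bl S y l, x ∈ wallV S K ∩ W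
      · obtain ⟨x0, hx0, hx1⟩ := h0
        refine ⟨indZ K, fun x hx s hs => ?_⟩
        beta_reduce
        split_ifs with h1
        · rfl
        · by_contra h2
          refine hn ⟨x0, ⟨hx1, x, ⟨Bdry.fcb_wall hs (Ne.symm h2), h1⟩, ?_⟩, mem_bl_symm hS hx0⟩
          rw [two_mul]
          exact mem_bl_trans (mem_bl_symm hS hx0) hx
      · refine ⟨fun _ => 0, fun x hx s hs => ?_⟩
        rw [sub_self]
        beta_reduce
        split_ifs with h1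
        · by_contra h2
          exact h0 ⟨x, hx, Bdry.fcb_wall hs h2, h1⟩
        · rfl)
  have h : ∀ x, ∀ s ∈ S, (x, s) ∉ defect S (fun x s => if x ∈ W then dZ K x s else 0) w →
      (¬ (x ∈ {x | Odd (w x)} ↔ x * s ∈ {x | Odd (w x)}) ↔ x ∈ W ∧ ¬ (x ∈ K ↔ x * s ∈ K)) := by
    intro x s hs hd
    have h1 : (if x ∈ W then dZ K x s else 0) = w (x * s) - w x := by
      by_contra h1
      exact hd ⟨hs, h1⟩
    simp only [mem_ofPred_eq, Int.odd_iff]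
    unfold dZ indZ at h1
    by_cases a : x ∈ W <;> by_cases b : x ∈ K <;> by_cases c : x * s ∈ K <;>
      simp only [a, b, c, if_true, if_false] at h1 <;> simp only [a, b, c] <;>
      simp only [not_true, not_false_iff, and_true, and_false,
        iff_true, iff_false, not_not, and_self] <;> omega
  have h2 : (edgeBd S {x | Odd (w x)} \ edgeBd S K).Finite := hw.subset fun e he => by
    by_contra hn
    exact he.2 ⟨he.1.1, ((h e.1 e.2 he.1.1 hn).1 he.1.2).2⟩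
  rcases Z.nc K hK _ h2 with h3 | h3
  · exact ⟨_, fext_side hS hw h3 h fun x hx hp => ⟨hx, hp⟩⟩
  · exact ⟨{x | Odd (w x)}ᶜ, fext_side hS hw h3
      (fun x s hs hd => (not_congr not_iff_not).trans (h x s hs hd)) fun x hx hp => ⟨hx, hp⟩⟩

theorem fext_adj {x s : G} (hs : s ∈ S) {r : ℕ} (hr : 1 ≤ r) : x * s ∈ bl S x r :=
  bl_mono x hr (mul_mem_bl (mem_bl_self x 0) hs)

include Y in
theorem fext_core {x : G} (hx : x ∉ Z.X) : ∃ i, ∃ γ : Z.Γ, x ∈ (γ : G) • Y.K i := by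
  obtain ⟨K, hK⟩ := not_forall.1 hx
  obtain ⟨hK, h⟩ := Classical.not_imp.1 hK
  obtain ⟨i, γ, rfl⟩ := Y.orbit K hK
  exact ⟨i, γ, not_not.1 h⟩

theorem fext_sum {ψ : Z.Γ → ℝ} (h0 : ∀ σ, 0 ≤ ψ σ) (h : Summable ψ) :
    Summable fun x => if x ∈ Z.X then ψ (Y.π x) else 0 := by
  obtain ⟨R, hR⟩ := Y.near
  have h1 : Summable (Function.extend (Subtype.val : Z.Γ → G) ψ 0) :=
    (summable_extend_zero Subtype.val_injective).2 h
  have h2 : ∀ g, 0 ≤ Function.extend (Subtype.val : Z.Γ → G) ψ 0 g := fun g => by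
    rw [Function.extend_def]
    split_ifs
    · exact h0 _
    · exact le_rfl
  refine Summable.of_nonneg_of_le (fun x => ?_) (fun x => ?_)
    (summable_sum (s := ball S R) fun b _ => (Equiv.mulRight b⁻¹).summable_iff.2 h1)
  · split_ifs
    · exact h0 _
    · exact le_rfl
  · split_ifs with hx
    · refine le_trans (le_of_eq ?_) (Finset.single_le_sum
        (f := fun b => Function.extend (Subtype.val : Z.Γ → G) ψ 0 (x * b⁻¹))
        (fun b _ => h2 _) (hR x (subset_nbh 1 _ hx)))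
      rw [mul_inv_rev, inv_inv, mul_inv_cancel_left, Subtype.val_injective.extend_apply]
    · exact Finset.sum_nonneg fun b _ => h2 _

theorem Tr.ext (hS : Cay S) (hL : 1 ≤ L) {u : Z.Γ → ℝ} {φ : Fin Y.Q.n → Z.Γ → ℝ}
    (hu : Y.Q.KF u φ) : ∃ v : G → ℝ, FinEn S v ∧ (∀ x ∈ Z.X, v x = u (Y.π x)) ∧
      ∀ i (γ : Z.Γ), ∀ x ∈ (γ : G) • Y.K i, v x = u γ - φ i γ := by
  have H : ∀ x : G, ∃ c : ℝ, (x ∈ Z.X → c = u (Y.π x)) ∧
      ∀ i (γ : Z.Γ), x ∈ (γ : G) • Y.K i → c = u γ - φ i γ := by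
    intro x
    by_cases hx : x ∈ Z.X
    · exact ⟨_, fun _ => rfl, fun i γ h => absurd h (hx _ (Y.smul_K_mem i γ))⟩
    · obtain ⟨i, γ, h⟩ := fext_core Y hx
      refine ⟨u γ - φ i γ, fun h' => absurd h' hx, fun j σ h' => ?_⟩
      have e := Z.sep _ (Y.smul_K_mem i γ) _ (Y.smul_K_mem j σ) x h x h' (mem_bl_self x L)
      obtain rfl := Y.uniq i j γ σ e
      exact hu.val_eq ((Y.mem_cone_iff i σ γ).2 e)
  choose v hv1 hv2 using H
  refine ⟨v, ?_, hv1, fun i γ x hx => hv2 x i γ hx⟩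
  obtain ⟨C, -, hC⟩ := osc_sq Y.S' 1
  obtain ⟨ψ, hψ⟩ : ∃ ψ : Z.Γ → ℝ, ∀ σ, ψ σ =
      2 * (osc Y.S' 1 u σ ^ 2 + ∑ i, ∑ b ∈ ball Y.S' 1, φ i (σ * b) ^ 2) := ⟨_, fun _ => rfl⟩
  have n1 : ∀ σ : Z.Γ, 0 ≤ ∑ i, ∑ b ∈ ball Y.S' 1, φ i (σ * b) ^ 2 := fun σ => by positivity
  have s1 : Summable ψ := by
    rw [funext hψ]
    exact (Summable.add (hC u hu.1).1 (summable_sum fun i _ => summable_sum fun b _ =>
      (Equiv.mulRight b).summable_iff.2 (hu.2 i).1)).mul_left 2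
  have p1 : ∀ σ, 0 ≤ ψ σ := fun σ => by
    rw [hψ]
    positivity
  have s2 := fext_sum Y p1 s1
  have p2 : ∀ x, 0 ≤ if x ∈ Z.X then ψ (Y.π x) else 0 := fun x => by
    split_ifs
    · exact p1 _
    · exact le_rfl
  have o1 : ∀ σ : Z.Γ, ∀ b ∈ ball Y.S' 1, (u (σ * b) - u σ) ^ 2 ≤ osc Y.S' 1 u σ ^ 2 := by
    intro σ b hb
    have a1 := abs_sub_le_osc u σ hb (one_mem_ball 1)
    rw [mul_one] at a1
    rw [← sq_abs]
    exact pow_le_pow_left₀ (abs_nonneg _) a1 2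
  have key : ∀ x ∈ Z.X, ∀ s ∈ S, (v (x * s) - v x) ^ 2 ≤ ψ (Y.π x) := by
    intro x hx s hs
    rw [hψ, hv1 x hx]
    by_cases hy : x * s ∈ Z.X
    · have a1 := o1 (Y.π x) _ (mem_ball_one (Y.edge x (subset_nbh 1 _ hx) _ (subset_nbh 1 _ hy)
        (fext_adj hs (by omega))))
      rw [mul_inv_cancel_left] at a1
      rw [hv1 _ hy]
      nlinarith [n1 (Y.π x), sq_nonneg (osc Y.S' 1 u (Y.π x))]
    · obtain ⟨i, γ, h⟩ := fext_core Y hy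
      obtain ⟨a, ha, hb⟩ := Y.cone i γ x (subset_nbh 1 _ hx) (subset_nbh L _
        ⟨s, hs, fun h' => hx _ (Y.smul_K_mem i γ) (h'.2 h)⟩)
      have hb' := Y.cay.inv_mem_ball hb
      have a1 := o1 (Y.π x) _ hb'
      have a2 : φ i (Y.π x * (a⁻¹ * Y.π x)⁻¹) ^ 2 ≤
          ∑ i, ∑ b ∈ ball Y.S' 1, φ i (Y.π x * b) ^ 2 :=
        (Finset.single_le_sum (f := fun b => φ i (Y.π x * b) ^ 2) (fun _ _ => sq_nonneg _)
          hb').trans (Finset.single_le_sum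
            (f := fun i => ∑ b ∈ ball Y.S' 1, φ i (Y.π x * b) ^ 2)
            (fun _ _ => by positivity) (Finset.mem_univ i))
      rw [mul_inv_rev, inv_inv, mul_inv_cancel_left] at a1 a2
      rw [hv2 _ i γ h, ← hu.val_eq ha]
      nlinarith [sq_nonneg (u a - u (Y.π x) + φ i a)]
  refine Summable.of_nonneg_of_le (grad2_nonneg v) (fun x => Finset.sum_le_sum fun s hs => ?_)
    (summable_sum (s := S) fun s _ => s2.add ((Equiv.mulRight s).summable_iff.2 s2))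
  change _ ≤ (if x ∈ Z.X then ψ (Y.π x) else 0) + if x * s ∈ Z.X then ψ (Y.π (x * s)) else 0
  by_cases hx : x ∈ Z.X
  · rw [if_pos hx]
    exact le_add_of_le_of_nonneg (key x hx s hs) (p2 _)
  by_cases hy : x * s ∈ Z.X
  · have a1 := key _ hy _ (hS.symm s hs)
    rw [mul_inv_cancel_right, sub_sq_comm] at a1
    rwa [if_neg hx, if_pos hy, zero_add]
  · obtain ⟨i, γ, h⟩ := fext_core Y hx
    obtain ⟨j, σ, h'⟩ := fext_core Y hy
    rw [← Z.sep _ (Y.smul_K_mem i γ) _ (Y.smul_K_mem j σ) x h _ h' (fext_adj hs hL)] at h'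
    rw [hv2 _ i γ h, hv2 _ i γ h', sub_self, if_neg hx, if_neg hy]
    norm_num

theorem Tr.ext_cut (hH : HypQ S l) (hL : 2 * l + 2 ≤ L) {v : Z.Γ → ℝ} {φ : Fin Y.Q.n → Z.Γ → ℝ}
    (hv : Y.Q.KF v φ) {a b : ℝ} (hab : a < b) {U : Set Z.Γ}
    (hU : (wallV Y.S' U ∩ {x | a < v x}).Finite) :
    ∃ (w : G → ℝ) (U' : Set G), FinEn S w ∧
      (∀ x ∈ Z.X, w x = v (Y.π x) ∧ (x ∈ U' ↔ Y.π x ∈ U)) ∧
      (∀ i (γ : Z.Γ), ∀ x ∈ (γ : G) • Y.K i, w x = v γ - φ i γ) ∧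
      (wallV S U' ∩ {x | b < w x}).Finite := by
  have hS := hH.cay
  have hL1 : 1 ≤ L := by omega
  obtain ⟨w, hw, hw1, hw2⟩ := Y.ext hS hL1 hv
  have hF := Y.fib_finite (hU.union (hv.dev_finite 1 (half_pos (sub_pos.2 hab))))
  obtain ⟨F, hFe⟩ : ∃ F : Set G, F = {x | x ∈ nbh S 1 Z.X ∧ Y.π x ∈
      (wallV Y.S' U ∩ {x | a < v x}) ∪
        {x | ∃ i γ, x ∈ Y.Q.cn 1 i γ ∧ (b - a) / 2 ≤ |v x - (v γ - φ i γ)|}} := ⟨_, rfl⟩
  rw [← hFe] at hF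
  have cA : ∀ x ∈ nbh S 1 Z.X, ∀ y ∈ nbh S 1 Z.X, y ∈ bl S x (3 * L) →
      ¬ (Y.π x ∈ U ↔ Y.π y ∈ U) → a < v (Y.π x) → x ∈ F := by
    intro x hx y hy hxy hn ha
    rw [hFe]
    refine ⟨hx, Or.inl ⟨⟨_, Y.edge x hx y hy hxy, ?_⟩, ha⟩⟩
    rwa [mul_inv_cancel_left]
  have cB : ∀ K ∈ Z.𝒦, ∀ z ∈ K, ∀ x ∈ wallV S K, (b - a) / 2 ≤ |v (Y.π x) - w z| → x ∈ F := by
    intro K hK z hz x hx h
    have hx' := Z.wall_X hS hL1 hK hx
    obtain ⟨i, γ, rfl⟩ := Y.orbit K hK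
    rw [hFe]
    exact ⟨hx', Or.inr ⟨i, γ, Y.cone i γ x hx' (subset_nbh L _ hx), hw2 i γ z hz ▸ h⟩⟩
  have cC : ∀ K ∈ Z.𝒦, ∀ z ∈ K, (a + b) / 2 < w z → ∀ x ∈ wallV S K, ∀ y ∈ wallV S K,
      y ∈ bl S x (3 * L) → ¬ (Y.π x ∈ U ↔ Y.π y ∈ U) → x ∈ F := by
    intro K hK z hz h x hx y hy hxy hn
    by_cases ha : a < v (Y.π x)
    · exact cA x (Z.wall_X hS hL1 hK hx) y (Z.wall_X hS hL1 hK hy) hxy hn ha
    · refine cB K hK z hz x hx (le_trans ?_ (neg_le_abs _))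
      linarith [not_lt.1 ha]
  obtain ⟨E, hE⟩ : ∃ E : Set G → Set G → Set G, ∀ K P x, x ∈ E K P ↔ x ∈ K ∧
      ((∃ s ∈ S, x * s ∈ K ∧ ¬ (x ∈ P ↔ x * s ∈ P)) ∨
        ((a + b) / 2 < w x ∧ x ∈ wallV S K ∧ ¬ (x ∈ P ↔ Y.π x ∈ U))) :=
    ⟨fun K P => {x | _}, fun _ _ _ => Iff.rfl⟩
  have hP : ∀ K ∈ Z.𝒦, ∃ P, (E K P).Finite ∧ ∀ x ∈ E K P, (wallV S K ∩ F).Nonempty := by
    intro K hK
    have e0 : ∀ P, (∀ x, x ∉ E K P) → (E K P).Finite ∧ ∀ x ∈ E K P, (wallV S K ∩ F).Nonempty :=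
      fun P h => ⟨finite_empty.subset h, fun x hx => absurd hx (h x)⟩
    by_cases h1 : ∃ z ∈ K, (a + b) / 2 < w z
    swap
    · refine ⟨∅, e0 _ fun x hx => ?_⟩
      obtain ⟨h2, ⟨s, -, -, h3⟩ | h3⟩ := (hE _ _ _).1 hx
      · exact h3 Iff.rfl
      · exact h1 ⟨x, h2, h3.1⟩
    obtain ⟨z, hz, h1⟩ := h1
    by_cases h2 : (wallV S K ∩ F).Nonempty
    · obtain ⟨P, p1, p2⟩ := Z.cc hH hK (W := {x | Y.π x ∈ U}) (hF.subset (by
        rintro x ⟨hx, y, hy, hxy⟩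
        exact cC K hK z hz h1 x hx.1 y hy.1 (bl_mono x (by omega) hxy) fun h => hy.2 (h.1 hx.2)))
      refine ⟨P, ((p1.image Prod.fst).union p2).subset fun x hx => ?_, fun _ _ => h2⟩
      obtain ⟨h3, ⟨s, hs, h4, h5⟩ | h4⟩ := (hE _ _ _).1 hx
      · exact Or.inl ⟨(x, s), ⟨⟨hs, h5⟩, h3, h4⟩, rfl⟩
      · exact Or.inr ⟨⟨h4.2.1, h3⟩, h4.2.2⟩
    · have h3 : ∀ x ∈ wallV S K, ∀ y ∈ wallV S K, (Y.π x ∈ U ↔ Y.π y ∈ U) := by
        intro x hx y hy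
        obtain ⟨-, h4⟩ := Z.conn K hK x hx hy
        clear hy
        induction h4 with
        | refl => exact Iff.rfl
        | tail _ h5 ih =>
          obtain ⟨h6, h7, h8 | ⟨i, -⟩⟩ := h5
          · refine ih.trans ?_
            by_contra hn
            exact h2 ⟨_, h6, cC K hK z hz h1 _ h6 _ h7 h8 hn⟩
          · exact i.elim0
      refine ⟨{_x | ∃ y ∈ wallV S K, Y.π y ∈ U}, e0 _ fun x hx => ?_⟩
      obtain ⟨-, ⟨s, -, -, h5⟩ | h5⟩ := (hE _ _ _).1 hx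
      · exact h5 Iff.rfl
      · exact h5.2.2 ⟨fun ⟨y, hy, h6⟩ => (h3 y hy x h5.2.1).1 h6, fun h6 => ⟨x, h5.2.1, h6⟩⟩
  choose! P hP1 hP2 using hP
  have hT : (⋃ K ∈ Z.𝒦, E K (P K)).Finite := by
    refine (((nbh_finite (S := S) 1 hF).image Z.core).inter_of_left Z.𝒦).biUnion
      (t := fun K => E K (P K)) (fun K hK => hP1 K hK.2) |>.subset ?_
    intro x hx
    obtain ⟨K, hK, hx⟩ := mem_iUnion₂.1 hx
    obtain ⟨y, ⟨s, hs, h1⟩, h2⟩ := hP2 K hK x hx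
    refine mem_iUnion₂.2 ⟨K, ⟨?_, hK⟩, hx⟩
    by_cases h3 : y ∈ K
    · exact ⟨y, subset_nbh 1 _ h2, Z.core_eq hK h3⟩
    · exact ⟨y * s, ⟨y, h2, fext_adj hs le_rfl⟩,
        Z.core_eq hK (not_not.1 fun h4 => h1 (iff_of_false h3 h4))⟩
  obtain ⟨U', u1, u2⟩ : ∃ U' : Set G, (∀ x ∈ Z.X, (x ∈ U' ↔ Y.π x ∈ U)) ∧
      ∀ K ∈ Z.𝒦, ∀ x ∈ K, (x ∈ U' ↔ x ∈ P K) := by
    refine ⟨{x | if x ∈ Z.X then Y.π x ∈ U else x ∈ P (Z.core x)}, fun x hx => ?_,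
      fun K hK x hx => ?_⟩
    · rw [mem_ofPred_eq, if_pos hx]
    · rw [mem_ofPred_eq, if_neg fun h => h K hK hx, Z.core_eq hK hx]
  refine ⟨w, U', hw, fun x hx => ⟨hw1 x hx, u1 x hx⟩, hw2,
    (hF.union (nbh_finite (S := S) 1 hT)).subset ?_⟩
  rintro x ⟨⟨s, hs, hn⟩, hb⟩
  have hb' : b < w x := hb
  have hxs : x * s ∈ bl S x (3 * L) := fext_adj hs (by omega)
  by_cases hx : x ∈ Z.X
  · rw [u1 x hx] at hn
    rw [hw1 x hx] at hb'
    by_cases hy : x * s ∈ Z.X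
    · rw [u1 _ hy] at hn
      exact Or.inl (cA x (subset_nbh 1 _ hx) _ (subset_nbh 1 _ hy) hxs hn (hab.trans hb'))
    obtain ⟨i, γ, h⟩ := fext_core Y hy
    have hK := Y.smul_K_mem i γ
    generalize (γ : G) • Y.K i = K at h hK
    have h1 : ¬ (x ∈ K ↔ x * s ∈ K) := fun h' => hx K hK (h'.2 h)
    rw [u2 K hK _ h] at hn
    by_cases h2 : (a + b) / 2 < w (x * s)
    swap
    · refine Or.inl (cB K hK _ h x ⟨s, hs, h1⟩ (le_trans ?_ (le_abs_self _)))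
      linarith [not_lt.1 h2]
    by_cases h3 : Y.π x ∈ U ↔ Y.π (x * s) ∈ U
    · refine Or.inr ⟨x * s, mem_iUnion₂.2 ⟨K, hK, (hE _ _ _).2 ⟨h, Or.inr
        ⟨h2, hS.mul_mem_wallV hs h1, fun h4 => hn (h3.trans h4.symm)⟩⟩⟩,
        mem_bl_symm hS (fext_adj hs le_rfl)⟩
    · exact Or.inl (cC K hK _ h h2 x ⟨s, hs, h1⟩ _ (hS.mul_mem_wallV hs h1) hxs h3)
  obtain ⟨i, γ, h⟩ := fext_core Y hx
  have hK := Y.smul_K_mem i γ
  generalize (γ : G) • Y.K i = K at h hK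
  rw [u2 K hK _ h] at hn
  have h2 : (a + b) / 2 < w x := by linarith
  by_cases hy : x * s ∈ Z.X
  · have h1 : ¬ (x ∈ K ↔ x * s ∈ K) := fun h' => hy K hK (h'.1 h)
    rw [u1 _ hy] at hn
    by_cases h3 : Y.π x ∈ U ↔ Y.π (x * s) ∈ U
    · exact Or.inr (subset_nbh 1 _ (mem_iUnion₂.2 ⟨K, hK, (hE _ _ _).2 ⟨h, Or.inr
        ⟨h2, ⟨s, hs, h1⟩, fun h4 => hn (h4.trans h3)⟩⟩⟩))
    · exact Or.inl (cC K hK _ h h2 x ⟨s, hs, h1⟩ _ (hS.mul_mem_wallV hs h1) hxs h3)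
  · obtain ⟨j, σ, h'⟩ := fext_core Y hy
    rw [← Z.sep _ hK _ (Y.smul_K_mem j σ) x h _ h' (fext_adj hs hL1)] at h'
    rw [u2 K hK _ h'] at hn
    exact Or.inr (subset_nbh 1 _ (mem_iUnion₂.2 ⟨K, hK, (hE _ _ _).2 ⟨h, Or.inl
      ⟨s, hs, h', hn⟩⟩⟩))

end Vale.Agent.P239
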