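import Vale.Agent.P239.Full.FIneqC
import Vale.Agent.P239.Full.FBlk

/-! Task FFB1: necks versus finite blocks. For `ρ ≥ r₁` and `r` build `NData` for `E.toREnv`: with `ω = cfg ξ p`, `C = cp (cfD ω) p.1`, `A = side (cfD ω) τ p.1`, `β = blk (cfD ω) τ (NX ω) p.1`,
`V = r p p ∧ (NX ω ∩ C).Nonempty`, `N = r p p ∧ p.1 ∈ NX ω ∧ ∀ e ∈ crossE ρ C A, e.1 ∈ bl p.1 r` (FNeckM for measurability and equivariance, `str`, `cok`, FBlk for `NStr`; `port`: `Neck.exists_port`, `zone_side`).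
`ineq`, then `r → ∞` (increasing events, `crossE` is finite for necks; monotone convergence also in the sum over `j`), then `ρ → ∞`: `rc ρ β 1` increases to `β`, so the inverses of the cardinalities decrease to `|β|⁻¹`;
dominated convergence with `E.fin` (integrands `≤ 1[r (1,j) (1,j)]`; use `tendsto_tsum_of_dominated_convergence`-like arguments, or the measure `Measure.count.prod P` on `ℕ × X` and `lintegral_iInf`).
-/

noncomputable section

open Classical MeasureTheory Filter Topology Set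
open scoped Pointwise ENNReal

namespace Vale.Agent.P239

universe u
variable {G : Type u} [Group G] {S : Finset G} {l : ℕ} {Q : Cones S} {B : Bdry S}
  {X : Type u} [MeasurableSpace X]

theorem ffb1_dom {P : Measure X} {F : ℕ → ℕ → X → ℝ≥0∞} {f : ℕ → X → ℝ≥0∞} {s : ℕ → Set X}
    (hs : ∀ j, MeasurableSet (s j)) (hfin : ∑' j, P (s j) ≠ ⊤) (hm : ∀ n j, Measurable (F n j))
    (hb : ∀ n j ξ, F n j ξ ≤ (s j).indicator 1 ξ)
    (hl : ∀ j ξ, Tendsto (fun n => F n j ξ) atTop (𝓝 (f j ξ))) :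
    Tendsto (fun n => ∑' j, ∫⁻ ξ, F n j ξ ∂P) atTop (𝓝 (∑' j, ∫⁻ ξ, f j ξ ∂P)) := by
  simp only [← lintegral_count]
  refine tendsto_lintegral_of_dominated_convergence (fun j => P (s j))
    (fun _ => Measurable.of_discrete) (fun n => ae_of_all _ fun j => ?_)
    (by rwa [lintegral_count]) (ae_of_all _ fun j => ?_)
  · exact (lintegral_mono (hb n j)).trans_eq (lintegral_indicator_one (hs j))
  · refine tendsto_lintegral_of_dominated_convergence ((s j).indicator 1) (fun n => hm n j)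
      (fun n => ae_of_all _ (hb n j)) ?_ (ae_of_all _ (hl j))
    rw [lintegral_indicator_one (hs j)]
    exact ENNReal.ne_top_of_tsum_ne_top hfin j

theorem ffb1_rc (hS : Cay S) {β : Set G} {x : G} (hx : x ∈ β) :
    Tendsto (fun ρ => ((rc S ρ β x).encard : ℝ≥0∞)) atTop (𝓝 (β.encard : ℝ≥0∞)) := by
  refine tendsto_order.2 ⟨fun a ha => ?_, fun a ha => Eventually.of_forall fun ρ =>
    lt_of_le_of_lt (ENat.toENNReal_le.2 (encard_le_encard (Cones.comp_subset _ _ _))) ha⟩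
  obtain ⟨T, h1, h2, h3⟩ : ∃ T : Set G, T.Finite ∧ T ⊆ β ∧ a < (T.encard : ℝ≥0∞) := by
    rcases β.finite_or_infinite with h | h
    · exact ⟨β, h, le_rfl, ha⟩
    · obtain ⟨k, hk⟩ := ENNReal.exists_nat_gt ha.ne_top
      obtain ⟨T, h1, h2⟩ := h.exists_subset_card_eq k
      exact ⟨T, T.finite_toSet, h1, by rwa [encard_coe_eq_coe_finsetCard, h2, ENat.toENNReal_coe]⟩
  obtain ⟨r, hr⟩ := hS.finite_subset_bl h1 x
  filter_upwards [eventually_ge_atTop r] with ρ hρ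
  exact h3.trans_le (ENat.toENNReal_le.2 (encard_le_encard fun y hy =>
    Cones.comp_step (Cones.mem_comp_self ρ hx) (h2 hy) (Or.inl (bl_mono x hρ (hr hy)))))

/-- necks whose crossing edges start in the ball of radius `r` -/
def ffb1N (Q : Cones S) (l : ℕ) (τ : NT G) (σ q ρ r : ℕ) (ω : Cf G) (x : G) : Prop :=
  x ∈ Q.NX l ω τ σ q ∧
    ∀ e ∈ crossE S ρ (Q.cp l (cfD ω) x) (Q.side l (cfD ω) τ x), e.1 ∈ bl S x r

theorem ffb1_str (hS : Cay S) {τ : NT G} {σ q ρ r : ℕ} (hσ : 2 * τ.2.2.1 ≤ σ) (hρ : τ.2.1 ≤ ρ)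
    {R : G × ℕ → G × ℕ → Prop} {ω : G × ℕ → Cf G} (ok : EqvOK R) (h1 : ∀ p q, R p q → ω p = ω q)
    (h2 : ∀ p, R p p → cfD (ω p) = fibR R p) (h3 : ∀ p, R p p → CfOK S (ω p)) :
    NStr S ρ r R (fun p => Q.cp l (cfD (ω p)) p.1) (fun p => Q.side l (cfD (ω p)) τ p.1)
      (fun p => Q.blk l (cfD (ω p)) τ (Q.NX l (ω p) τ σ q) p.1)
      (fun p => R p p ∧ (Q.NX l (ω p) τ σ q ∩ Q.cp l (cfD (ω p)) p.1).Nonempty)
      fun p => R p p ∧ ffb1N Q l τ σ q ρ r (ω p) p.1 where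
  ex p h := h.1
  sub p h := (Cones.comp_subset _ _ _).trans (h2 p h.1).le
  self p h := ⟨Cones.mem_blk_self h.2.some_mem.2.1, fun y hy => hy.1⟩
  same p p' h hr hq := by
    have e : Q.cp l (cfD (ω p')) p'.1 = Q.cp l (cfD (ω p)) p.1 := by
      rw [← h1 p p' hr]
      exact Cones.comp_eq hS hq
    refine ⟨⟨ok.refl_left (ok.symm _ _ hr), ?_⟩, e⟩
    rw [e, ← h1 p p' hr]
    exact h.2
  sameβ p p' h hr hq := by
    rw [← h1 p p' hr]
    exact Cones.blk_eq hS hq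
  nv p h := ⟨h.1, p.1, h.2.1, Cones.mem_comp_self _ h.2.1.2.1⟩
  cross p h := h.2.2
  cob p h := (h.2.1.2.2.2.2.2.2.2.2 ρ).2
  blk p p' h h' hr hq y hy := by
    have h4 := h'.2.1
    rw [← h1 p p' hr] at h4 ⊢
    exact hy.2 _ h4 hq
  port p h := by
    obtain ⟨π, h4, h5, h6⟩ := h.2.1.2.exists_port
    refine ⟨π, ball_mono hρ h4, h5.1,
      fun e => Cones.not_mem_side _ (mem_bl_self _ _) (e.2 h6), fun p' h' hr hq hne => ?_⟩
    have h7 := h'.2.1
    rw [← h1 p p' hr] at h7 ⊢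
    refine (((h3 p h.1).sepN Q l q hσ).zone_side hS h7 h.2.1 (fun e => hne (Prod.ext e ?_)) ?_
      h5).symm
    · exact ok.func p p.1 _ _ (e ▸ hr) h.1
    · exact (Cones.comp_eq hS hq).ge (Cones.mem_comp_self _ h.2.1.2.1)

/-- the neck data -/
def ffb1Z [Countable G] (hS : Cay S) (E : PEnv B X) (Q : Cones S) (l : ℕ) {τ : NT G} {σ : ℕ}
    (q : ℕ) {ρ : ℕ} (hσ : 2 * τ.2.2.1 ≤ σ) (hρ : τ.2.1 ≤ ρ) (r : ℕ) : NData S E.toREnv ρ where
  C ξ p := Q.cp l (cfD (E.cfg ξ p)) p.1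
  A ξ p := Q.side l (cfD (E.cfg ξ p)) τ p.1
  β ξ p := Q.blk l (cfD (E.cfg ξ p)) τ (Q.NX l (E.cfg ξ p) τ σ q) p.1
  V ξ p := E.r ξ p p ∧ (Q.NX l (E.cfg ξ p) τ σ q ∩ Q.cp l (cfD (E.cfg ξ p)) p.1).Nonempty
  N ξ p := E.r ξ p p ∧ ffb1N Q l τ σ q ρ r (E.cfg ξ p) p.1
  r := r
  mC p y := meas_comp (meas_cfD (E.meas_cfg p)) _ _ _
  mA p y := meas_side (meas_cfD (E.meas_cfg p)) _ _ _
  mβ p y := meas_blk (meas_cfD (E.meas_cfg p)) (meas_NX (E.meas_cfg p) τ σ q) _ _ _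
  mV p := (E.meas p p).inter (Measurable.exists fun y =>
    ((meas_NX (E.meas_cfg p) τ σ q y).inter (meas_comp (meas_cfD (E.meas_cfg p)) _ _ y)).mem).setOf
  mN p := by
    have hC := fun y => (meas_comp (Q := Q) (l := l) (meas_cfD (E.meas_cfg p)) (2 * l + 1) p.1 y).mem
    have hA := fun y => (meas_side (Q := Q) (l := l) (meas_cfD (E.meas_cfg p)) τ p.1 y).mem
    exact (E.meas p p).inter ((meas_NX (E.meas_cfg p) τ σ q _).inter (Measurable.forall fun e =>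
      (measurable_const.and ((hC _).and ((hC _).and ((hA _).iff (hA _)).not))).imp
        measurable_const).setOf)
  eC g ξ p := by rw [E.cfg_sh, cfD_sh, cp_smul]
  eA g ξ p := by rw [E.cfg_sh, cfD_sh, side_smul]
  eβ g ξ p := by rw [E.cfg_sh, cfD_sh, NX_sh, blk_smul]
  eV g ξ p := by
    rw [E.equi, E.cfg_sh, cfD_sh, NX_sh, cp_smul, ← smul_set_inter, smul_set_nonempty]
  eN g ξ p := by
    rw [E.equi, E.cfg_sh, ffb1N, ffb1N, cfD_sh, NX_sh, cp_smul, side_smul, ← bl_smul]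
    refine and_congr_right fun _ => and_congr smul_mem_smul_set_iff ?_
    rw [Prod.forall, Prod.forall, (Equiv.mulLeft g).surjective.forall]
    exact forall₂_congr fun x b => imp_congr (mem_crossE_smul ρ g _ _ x b) smul_mem_smul_set_iff
  str := by
    filter_upwards [E.ok, E.str, E.cok] with ξ h1 h2 h3
    exact ffb1_str hS hσ hρ h1 h2.1 h2.2 h3

theorem PEnv.neck_le (hS : Cay S) (E : PEnv B X) (Q : Cones S) (l : ℕ) (τ : NT G) (σ q : ℕ)
    (hσ : 2 * τ.2.2.1 ≤ σ) :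
    ∑' j : ℕ, E.A.P {ξ | E.r ξ (1, j) (1, j) ∧ (1 : G) ∈ Q.NX l (E.cfg ξ (1, j)) τ σ q} ≤
      ∑' j : ℕ, ∫⁻ ξ, (if E.r ξ (1, j) (1, j) ∧
          (Q.NX l (E.cfg ξ (1, j)) τ σ q ∩ Q.cp l (cfD (E.cfg ξ (1, j))) 1).Nonempty then
        ((Q.blk l (cfD (E.cfg ξ (1, j))) τ (Q.NX l (E.cfg ξ (1, j)) τ σ q) 1).encard : ℝ≥0∞)⁻¹
        else 0) ∂E.A.P := by
  have := hS.countable
  let Z := ffb1Z hS E Q l q hσ le_rfl 0
  refine ge_of_tendsto (ffb1_dom (P := E.A.P)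
    (F := fun ρ j ξ => if Z.V ξ (1, j) then ((rc S ρ (Z.β ξ (1, j)) 1).encard : ℝ≥0∞)⁻¹ else 0)
    (fun j => E.meas (1, j) (1, j)) E.fin (fun ρ j => ?_) (fun ρ j ξ => ?_) fun j ξ => ?_)
    (eventually_atTop.2 ⟨τ.2.1, fun ρ hρ => ?_⟩)
  · exact Measurable.ite (Z.mV _) (meas_encard fun y => meas_comp (Z.mβ _) ρ 1 y).inv
      measurable_const
  · split_ifs with h
    · rw [indicator_of_mem (show ξ ∈ {ξ | E.r ξ (1, j) (1, j)} from h.1), Pi.one_apply,
        ENNReal.inv_le_one, ← ENat.toENNReal_one, ENat.toENNReal_le, one_le_encard_iff_nonempty]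
      exact ⟨1, Cones.mem_comp_self _ (Cones.mem_blk_self h.2.some_mem.2.1)⟩
    · exact zero_le
  · by_cases h : Z.V ξ (1, j)
    · simp only [if_pos h]
      rw [if_pos (by exact h)]
      exact tendsto_inv_iff.2 (ffb1_rc hS (Cones.mem_blk_self h.2.some_mem.2.1))
    · simp only [if_neg h]
      rw [if_neg (by exact h)]
      exact tendsto_const_nhds
  have hm : ∀ j, MeasurableSet
      {ξ | E.r ξ (1, j) (1, j) ∧ (1 : G) ∈ Q.NX l (E.cfg ξ (1, j)) τ σ q} := fun j =>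
    (E.meas _ _).inter (meas_NX (E.meas_cfg _) τ σ q 1)
  have h := ffb1_dom (P := E.A.P)
    (F := fun r j => {ξ | (ffb1Z hS E Q l q hσ hρ r).N ξ (1, j)}.indicator 1)
    (f := fun j => {ξ | E.r ξ (1, j) (1, j) ∧ (1 : G) ∈ Q.NX l (E.cfg ξ (1, j)) τ σ q}.indicator 1)
    (fun j => E.meas (1, j) (1, j)) E.fin
    (fun r j => measurable_one.indicator ((ffb1Z hS E Q l q hσ hρ r).mN _))
    (fun r j ξ => indicator_le_indicator_of_subset (fun _ h => h.1) (fun _ => zero_le) ξ)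
    fun j ξ => by
      refine tendsto_const_nhds.congr' ?_
      by_cases h : E.r ξ (1, j) (1, j) ∧ (1 : G) ∈ Q.NX l (E.cfg ξ (1, j)) τ σ q
      · obtain ⟨r, hr⟩ := hS.finite_subset_bl ((h.2.2.2.2.2.2.2.2.2 ρ).1.image Prod.fst) 1
        filter_upwards [eventually_ge_atTop r] with n hn
        rw [indicator_of_mem (by exact h), indicator_of_mem]
        exact ⟨h.1, h.2, fun e he => bl_mono 1 hn (hr ⟨e, he, rfl⟩)⟩
      · refine Eventually.of_forall fun n => ?_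
        beta_reduce
        rw [indicator_of_notMem (by exact h), indicator_of_notMem]
        exact fun h' => h ⟨h'.1, h'.2.1⟩
  simp only [lintegral_indicator_one (hm _),
    lintegral_indicator_one ((ffb1Z hS E Q l q hσ hρ _).mN _)] at h
  exact le_of_tendsto' h fun r => (ffb1Z hS E Q l q hσ hρ r).ineq hS

end Vale.Agent.P239
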