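import Vale.Agent.P239.Full.FFB1

/-! Task FFB2: all blocks are finite. Fix `τ, σ, q` (countably many). Let `ν`, `f` be the two sides of `neck_le`, `ν ≠ ⊤`. Mass transport (`REnv.mtp`): `F ξ p p' = |blk p'.1|⁻¹` if `r p p'` and `p.1 ∈ Inc (cfD (cfg p)) τ (NX (cfg p)) p'.1`, else `0`.
Outgoing mass of a neck `z`: the points `p'` are parametrised by their vertices (`func`, `str`), these lie in `blk z ∪ blk (z π)` (`SepN.mem_blk`, `exists_port`, `blk_eq`), each finite block receives total mass `1`, infinite blocks `0`: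
so `out + 1[blk z or blk (z π) infinite] ≤ 2` on necks, `out = 0` otherwise. Incoming mass at `p'` is at least `2 |blk|⁻¹` if the component has a neck (`two_inc`). Hence `2 ν ≤ 2 f ≤ E in = E out` and `E out + ν_bad ≤ 2 ν`, so `ν_bad = 0`.
`ae_root`; every block of a component with a neck has an incident neck (`one_inc`), and is then the block of a point of its zone.
-/

noncomputable section

open Classical MeasureTheory Filter Topology Set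
open scoped Pointwise ENNReal

namespace Vale.Agent.P239

universe u
variable {G : Type u} [Group G] {S : Finset G} {l : ℕ} {Q : Cones S} {B : Bdry S}
  {X : Type u} [MeasurableSpace X]

theorem ffb2_sum (A : Set G) (c : ℝ≥0∞) :
    ∑' x, (if x ∈ A then c else 0) = (A.encard : ℝ≥0∞) * c := by
  rw [← ENNReal.tsum_set_const, tsum_subtype A (fun _ => c)]
  refine tsum_congr fun x => ?_
  by_cases hx : x ∈ A
  · rw [if_pos hx, Set.indicator_of_mem hx]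
  · rw [if_neg hx, Set.indicator_of_notMem hx]

theorem ffb2_le (A : Set G) :
    ∑' x, (if x ∈ A then ((A.encard : ℝ≥0∞))⁻¹ else 0) ≤ 1 := by
  rw [ffb2_sum]
  exact ENNReal.mul_inv_le_one _

theorem ffb2_inf {A : Set G} (h : ¬ A.Finite) : ((A.encard : ℝ≥0∞))⁻¹ = 0 := by
  rw [Set.Infinite.encard_eq h]
  simp

theorem ffb2_zero {A : Set G} (h : ¬ A.Finite) :
    ∑' x, (if x ∈ A then ((A.encard : ℝ≥0∞))⁻¹ else 0) = 0 := by
  rw [ffb2_inf h]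
  simp

theorem ffb2_func {r : G × ℕ → G × ℕ → Prop} (h : EqvOK r) (p : G × ℕ) (P : G → Prop)
    (g : G → ℝ≥0∞) : ∑' q : G × ℕ, (if r p q ∧ P q.1 then g q.1 else 0) ≤
      ∑' x, (if P x then g x else 0) := by
  rw [ENNReal.tsum_prod']
  refine ENNReal.tsum_le_tsum fun x => ?_
  by_cases hx : ∃ i, r p (x, i)
  · obtain ⟨i, hi⟩ := hx
    rw [tsum_eq_single i]
    · by_cases hP : P x
      · simp only [hi, hP, and_self, if_true, le_refl]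
      · simp only [hP, and_false, if_false, le_refl]
    · intro i' hi'
      exact if_neg fun h' => hi' (h.func p x i' i h'.1 hi)
  · have e : ∀ i : ℕ, (if r p (x, i) ∧ P x then g x else 0) = 0 := fun i =>
      if_neg fun h' => hx ⟨i, h'.1⟩
    simp only [e, tsum_zero, zero_le]

theorem ffb2_zone (hS : Cay S) {D N : Set G} {τ : NT G} (h : Q.SepN l D τ N) {z : G}
    (hz : z ∈ N) : ∃ w, ∀ y ∈ Q.zone l D τ z,
      Q.blk l D τ N y = Q.blk l D τ N z ∨ Q.blk l D τ N y = Q.blk l D τ N w := by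
  obtain ⟨π, -, h1, h2⟩ := (h.1 z hz).exists_port
  refine ⟨z * π, fun y hy => ?_⟩
  have hzz : z ∈ Q.zone l D τ z := ⟨Cones.mem_comp_self _ (h.1 z hz).1, mem_bl_self _ _⟩
  have hns : z ∉ Q.side l D τ z := Cones.not_mem_side z (mem_bl_self _ _)
  by_cases hs : y ∈ Q.side l D τ z
  · exact Or.inr (Cones.blk_eq hS (h.mem_blk hS hz h1 hy (iff_of_true h2 hs)))
  · exact Or.inl (Cones.blk_eq hS (h.mem_blk hS hz hzz hy (iff_of_false hns hs)))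

theorem ffb2_out (hS : Cay S) {D N : Set G} {τ : NT G} (h : Q.SepN l D τ N) {z : G}
    (hz : z ∈ N) :
    ∑' x, (if z ∈ Q.Inc l D τ N x then ((Q.blk l D τ N x).encard : ℝ≥0∞)⁻¹ else 0) +
      (if ∃ y ∈ Q.zone l D τ z, ¬ (Q.blk l D τ N y).Finite then 1 else 0) ≤ 2 := by
  obtain ⟨w, hw⟩ := ffb2_zone hS h hz
  have h1 : ∑' x, (if z ∈ Q.Inc l D τ N x then ((Q.blk l D τ N x).encard : ℝ≥0∞)⁻¹ else 0) ≤
      ∑' x, (if x ∈ Q.blk l D τ N z then ((Q.blk l D τ N z).encard : ℝ≥0∞)⁻¹ else 0) +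
      ∑' x, (if x ∈ Q.blk l D τ N w then ((Q.blk l D τ N w).encard : ℝ≥0∞)⁻¹ else 0) := by
    rw [← ENNReal.tsum_add]
    refine ENNReal.tsum_le_tsum fun x => ?_
    by_cases hx : z ∈ Q.Inc l D τ N x
    · rw [if_pos hx]
      obtain ⟨-, -, y, hy, hy'⟩ := hx
      have hD : x ∈ D := hy'.1.1
      have e := Cones.blk_eq hS hy'
      have hxx : x ∈ Q.blk l D τ N x := Cones.mem_blk_self hD
      rcases hw y hy with h2 | h2
      · rw [← h2, e, if_pos hxx]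
        exact le_self_add
      · rw [← h2, e, if_pos hxx]
        exact le_add_self
    · rw [if_neg hx]
      exact zero_le
  have h2 := ffb2_le (Q.blk l D τ N z)
  have h3 := ffb2_le (Q.blk l D τ N w)
  by_cases hb : ∃ y ∈ Q.zone l D τ z, ¬ (Q.blk l D τ N y).Finite
  · rw [if_pos hb, ← one_add_one_eq_two]
    refine add_le_add (h1.trans ?_) le_rfl
    obtain ⟨y, hy, hy'⟩ := hb
    rcases hw y hy with h4 | h4
    · rw [h4] at hy'
      rw [ffb2_zero hy', zero_add]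
      exact h3
    · rw [h4] at hy'
      rw [ffb2_zero hy', add_zero]
      exact h2
  · rw [if_neg hb, add_zero, ← one_add_one_eq_two]
    exact h1.trans (add_le_add h2 h3)

theorem ffb2_inc_smul (g : G) (D N : Set G) (τ : NT G) (x z : G) :
    g * z ∈ Q.Inc l (g • D) τ (g • N) (g * x) ↔ z ∈ Q.Inc l D τ N x := by
  change g • z ∈ g • N ∧ g • z ∈ Q.cp l (g • D) (g * x) ∧
    (Q.zone l (g • D) τ (g * z) ∩ Q.blk l (g • D) τ (g • N) (g * x)).Nonempty ↔ _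
  rw [cp_smul, zone_smul, blk_smul, ← Set.smul_set_inter, Set.smul_set_nonempty,
    Set.smul_mem_smul_set_iff, Set.smul_mem_smul_set_iff]
  rfl

theorem ffb2_meas_zone [Countable G] {D : X → Set G} (h : ∀ y, MeasurableSet {ξ | y ∈ D ξ})
    (τ : NT G) (z y : G) : MeasurableSet {ξ | y ∈ Q.zone l (D ξ) τ z} :=
  (meas_comp (Q := Q) (l := l) h (2 * l + 1) z y).inter (MeasurableSet.const (y ∈ bl S z τ.2.1))

theorem ffb2_meas_inc [Countable G] {D N : X → Set G} (h : ∀ y, MeasurableSet {ξ | y ∈ D ξ})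
    (h' : ∀ y, MeasurableSet {ξ | y ∈ N ξ}) (τ : NT G) (x z : G) :
    MeasurableSet {ξ | z ∈ Q.Inc l (D ξ) τ (N ξ) x} := by
  have e : {ξ | z ∈ Q.Inc l (D ξ) τ (N ξ) x} = {ξ | z ∈ N ξ} ∩
      ({ξ | z ∈ Q.comp l (2 * l + 1) (D ξ) x} ∩
        ⋃ y, ({ξ | y ∈ Q.zone l (D ξ) τ z} ∩ {ξ | y ∈ Q.blk l (D ξ) τ (N ξ) x})) := by
    ext ξ
    simp only [Set.mem_inter_iff, Set.mem_iUnion]
    rfl
  rw [e]
  exact (h' z).inter ((meas_comp h _ x z).inter (MeasurableSet.iUnion fun y =>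
    (ffb2_meas_zone h τ z y).inter (meas_blk h h' τ x y)))

/-- The mass sent from `p` to `p'`. -/
def ffb2F (E : PEnv B X) (Q : Cones S) (l : ℕ) (τ : NT G) (σ q : ℕ) (ξ : X) (p p' : G × ℕ) :
    ℝ≥0∞ :=
  if E.r ξ p p' ∧ p.1 ∈ Q.Inc l (cfD (E.cfg ξ p)) τ (Q.NX l (E.cfg ξ p) τ σ q) p'.1 then
    ((Q.blk l (cfD (E.cfg ξ p)) τ (Q.NX l (E.cfg ξ p) τ σ q) p'.1).encard : ℝ≥0∞)⁻¹ else 0

/-- A neck with an infinite incident block. -/
def ffb2B (E : PEnv B X) (Q : Cones S) (l : ℕ) (τ : NT G) (σ q : ℕ) (ξ : X) (p : G × ℕ) : Prop :=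
  p.1 ∈ Q.NX l (E.cfg ξ p) τ σ q ∧ ∃ y ∈ Q.zone l (cfD (E.cfg ξ p)) τ p.1,
    ¬ (Q.blk l (cfD (E.cfg ξ p)) τ (Q.NX l (E.cfg ξ p) τ σ q) y).Finite

theorem ffb2F_meas [Countable G] (E : PEnv B X) (Q : Cones S) (l : ℕ) (τ : NT G) (σ q : ℕ)
    (p p' : G × ℕ) : Measurable fun ξ => ffb2F E Q l τ σ q ξ p p' := by
  have h1 := meas_cfD (E.meas_cfg p)
  have h2 := meas_NX (Q := Q) (l := l) (E.meas_cfg p) τ σ q
  exact Measurable.ite ((E.meas p p').inter (ffb2_meas_inc h1 h2 τ p'.1 p.1))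
    (meas_encard (meas_blk h1 h2 τ p'.1)).inv measurable_const

theorem ffb2B_meas [Countable G] (E : PEnv B X) (Q : Cones S) (l : ℕ) (τ : NT G) (σ q : ℕ)
    (p : G × ℕ) : MeasurableSet {ξ | ffb2B E Q l τ σ q ξ p} := by
  have h1 := meas_cfD (E.meas_cfg p)
  have h2 := meas_NX (Q := Q) (l := l) (E.meas_cfg p) τ σ q
  have e : {ξ | ffb2B E Q l τ σ q ξ p} = {ξ | p.1 ∈ Q.NX l (E.cfg ξ p) τ σ q} ∩
      ⋃ y, ({ξ | y ∈ Q.zone l (cfD (E.cfg ξ p)) τ p.1} ∩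
        {ξ | (Q.blk l (cfD (E.cfg ξ p)) τ (Q.NX l (E.cfg ξ p) τ σ q) y).Finite}ᶜ) := by
    ext ξ
    simp only [Set.mem_inter_iff, Set.mem_iUnion]
    rfl
  rw [e]
  exact (h2 p.1).inter (MeasurableSet.iUnion fun y =>
    (ffb2_meas_zone h1 τ p.1 y).inter (meas_finite (meas_blk h1 h2 τ y)).compl)

theorem ffb2F_sh (E : PEnv B X) (Q : Cones S) (l : ℕ) (τ : NT G) (σ q : ℕ) (g : G) (ξ : X)
    (p p' : G × ℕ) : ffb2F E Q l τ σ q (E.A.sh g ξ) (g * p.1, p.2) (g * p'.1, p'.2) =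
      ffb2F E Q l τ σ q ξ p p' := by
  unfold ffb2F
  rw [E.cfg_sh, cfD_sh, NX_sh]
  simp only [E.equi g ξ p p', ffb2_inc_smul, blk_smul, Set.encard_smul_set]

theorem ffb2B_sh (E : PEnv B X) (Q : Cones S) (l : ℕ) (τ : NT G) (σ q : ℕ) (g : G) (ξ : X)
    (p : G × ℕ) (h : ffb2B E Q l τ σ q (E.A.sh g ξ) (g * p.1, p.2)) : ffb2B E Q l τ σ q ξ p := by
  unfold ffb2B at h
  rw [E.cfg_sh, cfD_sh, NX_sh] at h
  obtain ⟨h1, y, hy, hy'⟩ := h
  dsimp only at h1 hy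
  rw [zone_smul] at hy
  obtain ⟨y', hy2, rfl⟩ := hy
  refine ⟨Set.smul_mem_smul_set_iff.1 h1, y', hy2, fun hf => hy' ?_⟩
  have e := blk_smul (Q := Q) (l := l) g (cfD (E.cfg ξ p)) (Q.NX l (E.cfg ξ p) τ σ q) τ y'
  change (Q.blk l (g • cfD (E.cfg ξ p)) τ (g • Q.NX l (E.cfg ξ p) τ σ q) (g * y')).Finite
  rw [e]
  exact hf.smul_set

theorem ffb2_ae_out (hS : Cay S) (E : PEnv B X) (Q : Cones S) (l : ℕ) (τ : NT G) (σ q : ℕ)
    (hσ : 2 * τ.2.2.1 ≤ σ) : ∀ᵐ ξ ∂E.A.P, ∀ p, ∑' p', ffb2F E Q l τ σ q ξ p p' +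
      (if E.r ξ p p ∧ ffb2B E Q l τ σ q ξ p then 1 else 0) ≤
      2 * (if E.r ξ p p ∧ p.1 ∈ Q.NX l (E.cfg ξ p) τ σ q then 1 else 0) := by
  filter_upwards [E.ok, E.cok] with ξ hok hc p
  by_cases hp : E.r ξ p p ∧ p.1 ∈ Q.NX l (E.cfg ξ p) τ σ q
  · rw [if_pos hp, mul_one]
    refine le_trans (add_le_add (ffb2_func hok p
      (fun x => p.1 ∈ Q.Inc l (cfD (E.cfg ξ p)) τ (Q.NX l (E.cfg ξ p) τ σ q) x)
      (fun x => ((Q.blk l (cfD (E.cfg ξ p)) τ (Q.NX l (E.cfg ξ p) τ σ q) x).encard : ℝ≥0∞)⁻¹))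
      ?_) (ffb2_out hS ((hc p hp.1).sepN Q l q hσ) hp.2)
    by_cases hb : E.r ξ p p ∧ ffb2B E Q l τ σ q ξ p
    · rw [if_pos hb, if_pos hb.2.2]
    · rw [if_neg hb]
      exact zero_le
  · have e : ∀ p', ffb2F E Q l τ σ q ξ p p' = 0 := fun p' =>
      if_neg fun h => hp ⟨hok.refl_left h.1, h.2.1⟩
    rw [if_neg fun h => hp ⟨h.1, h.2.1⟩]
    simp only [e, tsum_zero, add_zero, zero_le]

theorem ffb2_ae_in (hS : Cay S) (E : PEnv B X) (Q : Cones S) (l : ℕ) (τ : NT G) (σ q : ℕ)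
    (hσ : 2 * τ.2.2.1 ≤ σ) : ∀ᵐ ξ ∂E.A.P, ∀ p, 2 * (if E.r ξ p p ∧
          (Q.NX l (E.cfg ξ p) τ σ q ∩ Q.cp l (cfD (E.cfg ξ p)) p.1).Nonempty then
        ((Q.blk l (cfD (E.cfg ξ p)) τ (Q.NX l (E.cfg ξ p) τ σ q) p.1).encard : ℝ≥0∞)⁻¹
        else 0) ≤ ∑' p', ffb2F E Q l τ σ q ξ p' p := by
  filter_upwards [E.ok, E.cok, E.str] with ξ hok hc hs p
  by_cases hp : E.r ξ p p ∧
      (Q.NX l (E.cfg ξ p) τ σ q ∩ Q.cp l (cfD (E.cfg ξ p)) p.1).Nonempty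
  · rw [if_pos hp]
    by_cases hf : (Q.blk l (cfD (E.cfg ξ p)) τ (Q.NX l (E.cfg ξ p) τ σ q) p.1).Finite
    · obtain ⟨z, hz, z', hz', hne⟩ := ((hc p hp.1).sepN Q l q hσ).two_inc hS hp.2 hf
      have key : ∀ w ∈ Q.Inc l (cfD (E.cfg ξ p)) τ (Q.NX l (E.cfg ξ p) τ σ q) p.1, ∃ i,
          ffb2F E Q l τ σ q ξ (w, i) p =
            ((Q.blk l (cfD (E.cfg ξ p)) τ (Q.NX l (E.cfg ξ p) τ σ q) p.1).encard : ℝ≥0∞)⁻¹ := by
        intro w hw
        have hD : w ∈ cfD (E.cfg ξ p) := hw.1.2.1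
        rw [hs.2 p hp.1] at hD
        obtain ⟨i, hi⟩ := hD
        refine ⟨i, ?_⟩
        unfold ffb2F
        rw [← hs.1 p (w, i) hi, if_pos ⟨hok.symm _ _ hi, hw⟩]
      obtain ⟨i, hi⟩ := key z hz
      obtain ⟨i', hi'⟩ := key z' hz'
      have hne' : ((z, i) : G × ℕ) ≠ (z', i') := fun h => hne (congrArg Prod.fst h)
      refine le_trans (le_of_eq ?_) (ENNReal.sum_le_tsum {(z, i), (z', i')})
      rw [Finset.sum_pair hne', hi, hi', two_mul]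
    · rw [ffb2_inf hf, mul_zero]
      exact zero_le
  · rw [if_neg hp, mul_zero]
    exact zero_le

theorem ffb2_ind (μ : Measure X) {P : X → Prop} [DecidablePred P] (h : MeasurableSet {ξ | P ξ}) :
    ∫⁻ ξ, (if P ξ then 1 else 0) ∂μ = μ {ξ | P ξ} := by
  rw [← lintegral_indicator_one h]
  refine lintegral_congr fun ξ => ?_
  by_cases hξ : P ξ
  · rw [if_pos hξ, Set.indicator_of_mem (show ξ ∈ {ξ | P ξ} from hξ)]
    rfl
  · rw [if_neg hξ, Set.indicator_of_notMem (show ξ ∉ {ξ | P ξ} from hξ)]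

theorem ffb2_root (hS : Cay S) (E : PEnv B X) (Q : Cones S) (l : ℕ) (τ : NT G) (σ q : ℕ)
    (hσ : 2 * τ.2.2.1 ≤ σ) :
    ∀ᵐ ξ ∂E.A.P, ∀ j, E.r ξ (1, j) (1, j) → ¬ ffb2B E Q l τ σ q ξ (1, j) := by
  have := hS.countable
  set ν := ∑' j : ℕ, E.A.P {ξ | E.r ξ (1, j) (1, j) ∧ (1 : G) ∈ Q.NX l (E.cfg ξ (1, j)) τ σ q}
    with hν
  have hfin : ν ≠ ⊤ := ne_top_of_le_ne_top E.fin
    (ENNReal.tsum_le_tsum fun j => measure_mono fun ξ hξ => hξ.1)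
  have hm := ffb2F_meas E Q l τ σ q
  have hmB : ∀ j : ℕ, MeasurableSet {ξ | E.r ξ (1, j) (1, j) ∧ ffb2B E Q l τ σ q ξ (1, j)} :=
    fun j => (E.meas _ _).inter (ffb2B_meas E Q l τ σ q _)
  have hmN : ∀ j : ℕ, MeasurableSet
      {ξ | E.r ξ (1, j) (1, j) ∧ (1 : G) ∈ Q.NX l (E.cfg ξ (1, j)) τ σ q} :=
    fun j => (E.meas _ _).inter (meas_NX (E.meas_cfg (1, j)) τ σ q 1)
  have h1 : 2 * ν ≤ ∑' j : ℕ, ∑' p' : G × ℕ, ∫⁻ ξ, ffb2F E Q l τ σ q ξ p' (1, j) ∂E.A.P := by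
    refine (mul_le_mul_right (E.neck_le hS Q l τ σ q hσ) 2).trans ?_
    rw [← ENNReal.tsum_mul_left]
    refine ENNReal.tsum_le_tsum fun j => ?_
    rw [← lintegral_tsum fun p' => (hm p' (1, j)).aemeasurable,
      ← lintegral_const_mul' _ _ ENNReal.ofNat_ne_top]
    exact lintegral_mono_ae ((ffb2_ae_in hS E Q l τ σ q hσ).mono fun ξ hξ => hξ (1, j))
  have h2 : ∑' j : ℕ, ∑' p' : G × ℕ, ∫⁻ ξ, ffb2F E Q l τ σ q ξ (1, j) p' ∂E.A.P +
      ∑' j : ℕ, E.A.P {ξ | E.r ξ (1, j) (1, j) ∧ ffb2B E Q l τ σ q ξ (1, j)} ≤ 2 * ν := by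
    rw [hν, ← ENNReal.tsum_mul_left, ← ENNReal.tsum_add]
    refine ENNReal.tsum_le_tsum fun j => ?_
    rw [← lintegral_tsum fun p' => (hm (1, j) p').aemeasurable, ← ffb2_ind _ (hmB j),
      ← ffb2_ind _ (hmN j), ← lintegral_const_mul' _ _ ENNReal.ofNat_ne_top,
      ← lintegral_add_left (Measurable.tsum fun p' => hm (1, j) p')]
    exact lintegral_mono_ae ((ffb2_ae_out hS E Q l τ σ q hσ).mono fun ξ hξ => hξ (1, j))
  rw [E.toREnv.mtp hm (ffb2F_sh E Q l τ σ q)] at h2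
  have h3 : 2 * ν + ∑' j : ℕ, E.A.P {ξ | E.r ξ (1, j) (1, j) ∧ ffb2B E Q l τ σ q ξ (1, j)} ≤
      2 * ν + 0 := by
    rw [add_zero]
    exact (add_le_add h1 le_rfl).trans h2
  have h4 := ENNReal.le_of_add_le_add_left (ENNReal.mul_ne_top ENNReal.ofNat_ne_top hfin) h3
  have h5 := ENNReal.tsum_eq_zero.1 (le_antisymm h4 zero_le)
  refine ae_all_iff.2 fun j => ?_
  refine (measure_eq_zero_iff_ae_notMem.1 (h5 j)).mono fun ξ hξ hr hb => hξ ⟨hr, hb⟩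

theorem PEnv.ae_fbok (hS : Cay S) (E : PEnv B X) (Q : Cones S) (l : ℕ) :
    ∀ᵐ ξ ∂E.A.P, ∀ p, E.r ξ p p → Q.FBok l (E.cfg ξ p) := by
  have := hS.countable
  have h : ∀ᵐ ξ ∂E.A.P, ∀ (τ : NT G) (σ q : ℕ), 2 * τ.2.2.1 ≤ σ →
      ∀ p, E.r ξ p p → ¬ ffb2B E Q l τ σ q ξ p := by
    refine ae_all_iff.2 fun τ => ae_all_iff.2 fun σ => ae_all_iff.2 fun q => ?_
    by_cases hσ : 2 * τ.2.2.1 ≤ σ
    · refine (E.toREnv.ae_root (Φ := fun ξ p => ¬ ffb2B E Q l τ σ q ξ p)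
        (fun g ξ p hp hb => hp (ffb2B_sh E Q l τ σ q g ξ p hb))
        (ffb2_root hS E Q l τ σ q hσ)).mono fun ξ hξ _ => hξ
    · exact Eventually.of_forall fun ξ h => absurd h hσ
  filter_upwards [h, E.ok, E.cok, E.str] with ξ hξ hok hc hs p hp τ σ q hσ x _ hn
  obtain ⟨z, hz1, -, y, hy, hy'⟩ := ((hc p hp).sepN Q l q hσ).one_inc hS hn
  have hD : z ∈ cfD (E.cfg ξ p) := hz1.2.1
  rw [hs.2 p hp] at hD
  obtain ⟨i, hi⟩ := hD
  have h1 := hξ τ σ q hσ (z, i) (hok.refl_left (hok.symm _ _ hi))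
  unfold ffb2B at h1
  rw [← hs.1 p (z, i) hi] at h1
  rw [← Cones.blk_eq hS hy']
  by_contra hf
  exact h1 ⟨hz1, y, hy, hf⟩

end Vale.Agent.P239
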