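import Vale.Agent.P239.Full.FAtom
import Vale.Agent.P239.FamB

/-! Task FFamA: copy FamA.lean and `exists_line` of FamB.lean with `IsK, SplitK, IrrK, SepK` (use `IsK.isD`, `SplitK.split` for `trivial_of_isD`, `good_of_split`).
-/

noncomputable section

open Classical MeasureTheory Filter Topology Set
open scoped Pointwise ENNReal

namespace Vale.Agent.P239

universe u
variable {G : Type u} [Group G] {S : Finset G} {l : ℕ} {Q : Cones S} {B : Bdry S}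

namespace Bdry

theorem ffa_isK {u : Bd G → ℝ} (hu : B.IsK01 Q u) {c : ℝ} (h1 : c ≤ 1) :
    B.IsK01 Q (fun ξ => max (c - u ξ) 0) := by
  refine ⟨((isK_const c).sub hu.1).max (isK_const 0), fun ξ => ⟨le_max_right _ _, ?_⟩⟩
  have := (hu.2 ξ).1
  exact max_le (by linarith) zero_le_one

theorem ffa_chi {ρ : Bd G → ℝ} (hρ : B.IsK01 Q ρ) {E : Set (Bd G)} (hE : B.SplitK Q ρ E) :
    ∃ χ, B.IsK01 Q χ ∧ (∀ ξ, ξ ∉ E → χ ξ = 0) ∧ ∀ ξ ∈ E, ρ ξ = 1 → χ ξ = 1 := by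
  refine ⟨fun ξ => 2 * E.indicator (fun ξ => max (ρ ξ - 1 / 2) 0) ξ,
    ⟨(hE.2 _ (by norm_num)).const_mul 2, fun ξ => ?_⟩, fun ξ hξ => ?_, fun ξ hξ h1 => ?_⟩
  · by_cases h : ξ ∈ E
    · simp only [indicator_of_mem h]
      have h1 := (hρ.2 ξ).2
      have h2 : max (ρ ξ - 1 / 2) 0 ≤ 1 / 2 := max_le (by linarith) (by norm_num)
      have h3 := le_max_right (ρ ξ - 1 / 2) 0
      constructor <;> linarith
    · simp only [indicator_of_notMem h]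
      norm_num
  · simp only [indicator_of_notMem hξ, mul_zero]
  · simp only [indicator_of_mem hξ, h1]
    norm_num

theorem ffa_rho {u : Bd G → ℝ} {p q : ℝ} (hpq : p < q) {A A' : Set (Bd G)}
    (hA : ∀ ξ ∈ A, u ξ < p) (hs : B.Sub A A') (hA' : B.SplitK Q (fun ξ => max (q - u ξ) 0) A') :
    ∃ ρ, B.IsK01 Q ρ ∧ (∀ ξ, ξ ∉ A' → ρ ξ = 1) ∧ ∀ᵐ ξ ∂B.μ 1, ξ ∈ A → ρ ξ = 0 := by
  have ht : 0 < (q - p) / 2 := by linarith
  refine ⟨fun ξ => 1 - min 1 (((q - p) / 2)⁻¹ *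
      A'.indicator (fun ξ => max (max (q - u ξ) 0 - (q - p) / 2) 0) ξ),
    ⟨(isK_const 1).sub ((isK_const 1).min ((hA'.2 _ ht).const_mul _)), fun ξ => ?_⟩,
    fun ξ hξ => ?_, ?_⟩
  · have h1 : 0 ≤ ((q - p) / 2)⁻¹ *
        A'.indicator (fun ξ => max (max (q - u ξ) 0 - (q - p) / 2) 0) ξ :=
      mul_nonneg (inv_nonneg.2 ht.le) (indicator_nonneg (fun _ _ => le_max_right _ _) _)
    exact ⟨sub_nonneg.2 (min_le_left _ _), sub_le_self _ (le_min zero_le_one h1)⟩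
  · simp only [indicator_of_notMem hξ, mul_zero]
    norm_num
  · filter_upwards [(B.sub_iff _ _).1 hs] with ξ h1 h2
    simp only [indicator_of_mem (h1 h2)]
    have h3 := hA ξ h2
    have h4 := le_max_left (q - u ξ) 0
    have h5 := le_max_left (max (q - u ξ) 0 - (q - p) / 2) 0
    rw [min_eq_left, sub_self]
    rw [← div_eq_inv_mul, le_div_iff₀ ht]
    linarith

theorem ffa_low (hH : RH S l Q) (hb : B.SB Q) {u : Bd G → ℝ} (hu : B.IsK01 Q u)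
    (hlo : ¬ B.Null {ξ | u ξ < 1 / 4}) :
    ∃ (P0 : Set (Bd G)) (P : ℝ → Set (Bd G)), ¬ B.Null P0 ∧
      (∀ c, 1 / 4 < c → c ≤ 3 / 4 → B.Sub P0 (P c) ∧ B.IrrK Q (P c) ∧ (∀ ξ ∈ P c, u ξ < c) ∧
        B.SplitK Q (fun ξ => max (c - u ξ) 0) (P c)) ∧
      (∀ c c', 1 / 4 < c → c ≤ c' → c' ≤ 3 / 4 → B.Sub (P c) (P c')) := by
  obtain ⟨P0, -, h0, h0p, h0i⟩ := exists_atomK hH hb (ffa_isK hu (c := 1 / 4) (by norm_num)) (by
    have e : {ξ | 0 < max (1 / 4 - u ξ) 0} = {ξ | u ξ < 1 / 4} := by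
      ext ξ
      simp only [mem_ofPred_eq, lt_max_iff, lt_irrefl, or_false, sub_pos]
    rwa [e])
  have hex : ∀ c : ℝ, ∃ M, 1 / 4 < c → c ≤ 3 / 4 → B.Sub P0 M ∧ B.IrrK Q M ∧ (∀ ξ ∈ M, u ξ < c) ∧
      B.SplitK Q (fun ξ => max (c - u ξ) 0) M := by
    intro c
    by_cases hc : 1 / 4 < c ∧ c ≤ 3 / 4
    · obtain ⟨M, h1, h2, h3, h4⟩ := exists_mainK hH hb (ffa_isK hu (c := c) (by linarith [hc.2])) h0i
        (a := c - 1 / 4) (by linarith [hc.1]) (Eventually.of_forall fun ξ hξ => by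
          have h5 := h0p ξ hξ
          simp only [lt_max_iff, lt_irrefl, or_false, sub_pos] at h5
          exact le_trans (by linarith) (le_max_left _ _))
      refine ⟨M, fun _ _ => ⟨h2, h4, fun ξ hξ => ?_, h1⟩⟩
      have h5 := h3 ξ hξ
      simpa only [lt_max_iff, lt_irrefl, or_false, sub_pos] using h5
    · exact ⟨∅, fun h1 h2 => absurd ⟨h1, h2⟩ hc⟩
  choose P hP using hex
  refine ⟨P0, P, h0, hP, fun c c' h1 h2 h3 => ?_⟩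
  rcases h2.eq_or_lt with rfl | h2
  · exact Sub.refl _
  obtain ⟨a1, a2, a3, -⟩ := hP c h1 (by linarith)
  obtain ⟨b1, -, -, b4⟩ := hP c' (by linarith) h3
  refine (b4.irr_sub a2 (a := c' - c) (by linarith) (Eventually.of_forall fun ξ hξ => ?_)).resolve_right
    fun h => h0 (fa_null b1 (a1.trans h))
  have := a3 ξ hξ
  exact le_trans (by linarith) (le_max_left _ _)

theorem exists_TK (hH : RH S l Q) (hb : B.SB Q) {u : Bd G → ℝ} (hu : B.IsK01 Q u)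
    (hlo : ¬ B.Null {ξ | u ξ < 1 / 4}) (hhi : ¬ B.Null {ξ | 3 / 4 < u ξ}) :
    ∃ (P0 Q0 : Set (Bd G)) (P : ℝ → Set (Bd G)) (T : ℝ → ℝ → Set (Bd G)),
      ¬ B.Null P0 ∧ ¬ B.Null Q0 ∧
      (∀ c, 1 / 4 < c → c < 3 / 4 → B.Sub P0 (P c) ∧ B.IrrK Q (P c)) ∧
      (∀ p q, 1 / 4 < p → p < q → q < 3 / 4 →
        B.Good (T p q) ∧ B.Sub (P p) (T p q) ∧ B.Sub Q0 (T p q)ᶜ ∧ B.IrrK Q (T p q)ᶜ ∧
        (∀ θ, B.IsK Q θ → (∀ᵐ ξ ∂B.μ 1, ξ ∈ T p q → θ ξ = 0 ∨ θ ξ = 1) →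
          (∀ᵐ ξ ∂B.μ 1, ξ ∈ P q → θ ξ = 0) → ∀ᵐ ξ ∂B.μ 1, ξ ∈ T p q → θ ξ = 0)) ∧
      (∀ p q p' q', 1 / 4 < p → p < q → q ≤ p' → p' < q' → q' < 3 / 4 →
        B.Sub (T p q) (T p' q') ∧ B.SepK Q (T p q) (T p' q')ᶜ) := by
  obtain ⟨P0, P, h0, hP, hmono⟩ := ffa_low hH hb hu hlo
  have hf : B.IsK01 Q (fun ξ => max (u ξ - 3 / 4) 0) := by
    refine ⟨(hu.1.sub (isK_const _)).max (isK_const 0), fun ξ => ⟨le_max_right _ _, ?_⟩⟩
    have := (hu.2 ξ).2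
    exact max_le (by linarith) zero_le_one
  obtain ⟨Q0, -, hQ, hQp, hQi⟩ := exists_atomK hH hb hf (by
    have e : {ξ | 0 < max (u ξ - 3 / 4) 0} = {ξ | 3 / 4 < u ξ} := by
      ext ξ
      simp only [mem_ofPred_eq, lt_max_iff, lt_irrefl, or_false, sub_pos]
    rwa [e])
  have hex : ∀ p q : ℝ, ∃ (ρ : Bd G → ℝ) (M : Set (Bd G)), 1 / 4 < p → p < q → q < 3 / 4 →
      B.IsK01 Q ρ ∧ (∀ ξ, ξ ∉ P q → ρ ξ = 1) ∧ (∀ᵐ ξ ∂B.μ 1, ξ ∈ P p → ρ ξ = 0) ∧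
      B.SplitK Q ρ M ∧ B.Sub Q0 M ∧ (∀ ξ ∈ M, 0 < ρ ξ) ∧ B.IrrK Q M := by
    intro p q
    by_cases hc : 1 / 4 < p ∧ p < q ∧ q < 3 / 4
    · obtain ⟨c1, c2, c3⟩ := hc
      obtain ⟨-, -, a3, -⟩ := hP p c1 (by linarith)
      obtain ⟨-, -, b3, b4⟩ := hP q (by linarith) c3.le
      obtain ⟨ρ, r1, r2, r3⟩ := ffa_rho c2 a3 (hmono p q c1 c2.le c3.le) b4
      obtain ⟨M, m1, m2, m3, m4⟩ := exists_mainK hH hb r1 hQi (a := 1) one_pos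
        (Eventually.of_forall fun ξ hξ => by
          have h5 := hQp ξ hξ
          simp only [lt_max_iff, lt_irrefl, or_false, sub_pos] at h5
          refine (r2 ξ fun h6 => ?_).ge
          linarith [b3 ξ h6])
      exact ⟨ρ, M, fun _ _ _ => ⟨r1, r2, r3, m1, m2, m3, m4⟩⟩
    · exact ⟨fun _ => 0, ∅, fun h1 h2 h3 => absurd ⟨h1, h2, h3⟩ hc⟩
  choose ρ M hM using hex
  refine ⟨P0, Q0, P, fun p q => (M p q)ᶜ, h0, hQ,
    fun c h1 h2 => ⟨(hP c h1 h2.le).1, (hP c h1 h2.le).2.1⟩, fun p q c1 c2 c3 => ?_,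
    fun p q p' q' c1 c2 c3 c4 c5 => ?_⟩
  · obtain ⟨r1, r2, r3, m1, m2, m3, m4⟩ := hM p q c1 c2 c3
    refine ⟨(good_of_split hH.cay hH.gap m1.split m3).compl, ?_, by rwa [compl_compl],
      by rwa [compl_compl], fun θ hθ h2 h3 => ?_⟩
    · refine (B.sub_iff _ _).2 ?_
      filter_upwards [r3] with ξ h1 h2 h3
      exact (m3 ξ h3).ne' (h1 h2)
    · obtain ⟨χ, x1, x2, x3⟩ := ffa_chi r1 (m1.compl r1)
      have hE : MeasurableSet ({ξ | θ ξ = 1} ∩ (M p q)ᶜ) :=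
        (measurableSet_eq_fun hθ.1 measurable_const).inter m1.1.compl
      have hD : B.IsK Q (({ξ | θ ξ = 1} ∩ (M p q)ᶜ).indicator fun _ => (1 : ℝ)) := by
        refine (hθ.mul x1.1).congr (measurable_const.indicator hE) (gs_bdd_ind _) ?_
        filter_upwards [h2, h3] with ξ h4 h5
        by_cases h6 : ξ ∈ (M p q)ᶜ
        · rcases h4 h6 with h7 | h7
          · rw [indicator_of_notMem (fun h8 => zero_ne_one (h7.symm.trans h8.1)), h7, zero_mul]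
          · rw [indicator_of_mem (show ξ ∈ {ξ | θ ξ = 1} ∩ (M p q)ᶜ from ⟨h7, h6⟩), h7,
              x3 ξ h6 (r2 ξ fun h8 => zero_ne_one ((h5 h8).symm.trans h7)), one_mul]
        · rw [indicator_of_notMem (fun h8 => h6 h8.2), x2 ξ h6, mul_zero]
      rcases trivial_of_isD hH.cay hH.gap hH.one hE hD.isD with h4 | h4
      · filter_upwards [h2, (B.null_iff_ae _).1 h4] with ξ h5 h6 h7
        exact (h5 h7).resolve_right fun h8 => h6 ⟨h8, h7⟩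
      · refine absurd ((B.null_iff_ae _).2 ?_) h0
        filter_upwards [h3, (B.null_iff_ae _).1 h4,
          (B.sub_iff _ _).1 (hP q (by linarith) c3.le).1] with ξ h5 h6 h7 h8
        exact h6 fun h9 => zero_ne_one ((h5 (h7 h8)).symm.trans h9.1)
  · obtain ⟨r1, r2, -, m1, m2, -, -⟩ := hM p q c1 c2 (by linarith)
    obtain ⟨-, -, s3, -, n2, n3, n4⟩ := hM p' q' (by linarith) c4 c5
    have h1 : ∀ᵐ ξ ∂B.μ 1, ξ ∈ M p' q' → ρ p q ξ = 1 := by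
      filter_upwards [s3, (B.sub_iff _ _).1 (hmono q p' (by linarith) c3 (by linarith))]
        with ξ h2 h3 h4
      exact r2 ξ fun h5 => (n3 ξ h4).ne' (h2 (h3 h5))
    have h2 : B.Sub (M p' q') (M p q) :=
      (m1.irr_sub n4 one_pos (h1.mono fun ξ h h' => (h h').ge)).resolve_right
        fun h => hQ (fa_null m2 (n2.trans h))
    refine ⟨h2.compl, ?_⟩
    obtain ⟨χ, x1, x2, x3⟩ := ffa_chi r1 m1
    refine ⟨χ, x1, Eventually.of_forall fun ξ h => x2 ξ h, ?_⟩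
    filter_upwards [h1, (B.sub_iff _ _).1 h2] with ξ h3 h4 h5
    rw [compl_compl] at h5
    exact x3 ξ (h4 h5) (h3 h5)

theorem ffa_zero {Y R : Set (Bd G)} (hY : B.IrrK Q Y) (hs : B.Sub R Y) (hR : ¬ B.Null R)
    {θ : Bd G → ℝ} (hθ : B.IsK Q θ) (h2 : ∀ᵐ ξ ∂B.μ 1, ξ ∈ Y → θ ξ = 0 ∨ θ ξ = 1)
    (h0 : ∀ᵐ ξ ∂B.μ 1, ξ ∈ R → θ ξ = 0) : ∀ᵐ ξ ∂B.μ 1, ξ ∈ Y → θ ξ = 0 := by
  refine (hY θ hθ h2).resolve_right fun h1 => hR ((B.null_iff_ae _).2 ?_)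
  filter_upwards [h0, fb_two hs h1] with ξ h3 h4 h5
  exact zero_ne_one ((h3 h5).symm.trans (h4 h5))

theorem ffa_irr {X Y R : Set (Bd G)} (hY : B.IrrK Q Y) (hs : B.Sub R Y) (hs' : B.Sub Y X)
    (h : ∀ θ, B.IsK Q θ → (∀ᵐ ξ ∂B.μ 1, ξ ∈ X → θ ξ = 0 ∨ θ ξ = 1) →
      (∀ᵐ ξ ∂B.μ 1, ξ ∈ R → θ ξ = 0) → ∀ᵐ ξ ∂B.μ 1, ξ ∈ X → θ ξ = 0) : B.IrrK Q X := by
  intro θ hθ h2
  refine (hY θ hθ (fb_two hs' h2)).imp (fun h0 => h θ hθ h2 (fb_two hs h0)) fun h1 => ?_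
  have h3 := h (fun ξ => 1 - θ ξ) ((isK_const 1).sub hθ) (by
    filter_upwards [h2] with ξ h3 h4
    rcases h3 h4 with h5 | h5
    · exact Or.inr (by rw [h5, sub_zero])
    · exact Or.inl (by rw [h5, sub_self])) (by
    filter_upwards [fb_two hs h1] with ξ h3 h4
    rw [h3 h4, sub_self])
  filter_upwards [h3] with ξ h4 h5
  exact (sub_eq_zero.1 (h4 h5)).symm

theorem exists_lineK (hH : RH S l Q) (hb : B.SB Q) {u : Bd G → ℝ} (hu : B.IsK01 Q u)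
    (hlo : ¬ B.Null {ξ | u ξ < 1 / 4}) (hhi : ¬ B.Null {ξ | 3 / 4 < u ξ}) :
    ∃ (A : ℝ → Set (Bd G)) (D : Set ℝ), D ⊆ Ioo (1 / 4) (3 / 4) ∧
      (∀ a b : ℝ, 1 / 4 ≤ a → a < b → b ≤ 3 / 4 → ∃ c ∈ D, a < c ∧ c < b) ∧
      (∀ c ∈ D, B.Good (A c) ∧ B.IrrK Q (A c) ∧ B.IrrK Q (A c)ᶜ ∧ ¬ B.Null (A c) ∧ ¬ B.Null (A c)ᶜ) ∧
      (∀ c ∈ D, ∀ c' ∈ D, c < c' → A c ⊆ A c' ∧ B.SepK Q (A c) (A c')ᶜ) ∧
      (∀ c ∈ D, ∀ d : ℕ → ℝ, (∀ k, d k ∈ D) → Tendsto d atTop (𝓝 c) →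
        Tendsto (fun k => B.μ 1 (symmDiff (A (d k)) (A c))) atTop (𝓝 0)) := by
  obtain ⟨P0, Q0, P, T, hP0, hQ0, hP, hT, hTT⟩ := exists_TK hH hb hu hlo hhi
  have hgood : ∀ c, B.Good (fbA T c) := fun c => by
    have := fbIdx_countable c
    exact good_iUnion hH.cay fun i : FbIdx c => (hT _ _ i.2.1 i.2.2.1 i.2.2.2.2).1
  have hup : ∀ c p q : ℝ, c ≤ p → p < q → q < 3 / 4 → B.Sub (fbA T c) (T p q) :=
    fun c p q h1 h2 h3 => (B.sub_iff _ _).2 (fbA_ae T fun i => (B.sub_iff _ _).1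
      (hTT _ _ p q i.2.1 i.2.2.1 (i.2.2.2.1.le.trans h1) h2 h3).1)
  have hlow : ∀ (c : ℝ) (q : ℚ), 1 / 4 < (q : ℝ) → (q : ℝ) < c → (q : ℝ) < 3 / 4 →
      B.Sub (P q) (fbA T c) := fun c q h1 h2 h3 => by
    obtain ⟨q', h4, h5⟩ := exists_rat_btwn (lt_min h2 h3)
    exact (hT _ _ h1 h4 (h5.trans_le (min_le_right _ _))).2.1.trans (Sub.of_subset
      (fbA_sup T h1 h4 (h5.trans_le (min_le_left _ _)) (h5.trans_le (min_le_right _ _))))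
  have hmono : Monotone fun t => (B.μ 1).real (fbA T t) := fun s t h =>
    measureReal_mono (fbA_mono T h)
  have hlim : ∀ c, ContinuousAt (fun t => (B.μ 1).real (fbA T t)) c → ∀ d : ℕ → ℝ,
      Tendsto d atTop (𝓝 c) →
      Tendsto (fun k => B.μ 1 (symmDiff (fbA T (d k)) (fbA T c))) atTop (𝓝 0) :=
    fun c hc d hd => fb_tendsto (fbA_mono T) (fun c => (hgood c).1) hc hd
  refine ⟨fbA T, {c | c ∈ Ioo (1 / 4 : ℝ) (3 / 4) ∧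
    ContinuousAt (fun t => (B.μ 1).real (fbA T t)) c}, fun c hc => hc.1, fun a b ha hab hb' => ?_,
    ?_, ?_, fun c hc d _ hd => hlim c hc.2 d hd⟩
  · obtain ⟨c, hc, h1⟩ := (hmono.countable_not_continuousAt.dense_compl ℝ).exists_between hab
    exact ⟨c, ⟨⟨ha.trans_lt h1.1, h1.2.trans_le hb'⟩, not_not.1 hc⟩, h1⟩
  · rintro c ⟨⟨hc1, hc2⟩, hc⟩
    obtain ⟨q0, hq1, hq2⟩ := exists_rat_btwn hc1
    obtain ⟨r0, hr1, hr2⟩ := exists_between hc2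
    have hq3 := hq2.trans hc2
    have h1 := hT c r0 hc1 hr1 hr2
    have h2 := (hup c c r0 le_rfl hr1 hr2).compl
    refine ⟨hgood c, ?_, ?_, fun h => hP0 (h.of_sub ((hP _ hq1 hq3).1.trans (hlow c q0 hq1 hq2 hq3))),
      fun h => hQ0 (h.of_sub (h1.2.2.1.trans h2))⟩
    · refine ffa_irr (hP _ hq1 hq3).2 (hP _ hq1 hq3).1 (hlow c q0 hq1 hq2 hq3)
        fun θ hθ h3 h4 => fbA_ae T fun i => ?_
      obtain ⟨⟨p, q⟩, i1, i2, i3, i4⟩ := i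
      have h5 := hP q (i1.trans i2) i4
      exact (hT p q i1 i2 i4).2.2.2.2 θ hθ (fb_two (Sub.of_subset (fbA_sup T i1 i2 i3 i4)) h3)
        (ffa_zero h5.2 h5.1 hP0 hθ (fb_two (hlow c q (i1.trans i2) i3 i4) h3) h4)
    · refine ffa_irr h1.2.2.2.1 h1.2.2.1 h2 fun θ hθ h3 h4 => ?_
      obtain ⟨d, -, hd1, hd2⟩ := exists_seq_strictAnti_tendsto' hc2
      have h5 : ∀ k, ∃ p q : ℚ, c < p ∧ (p : ℝ) < q ∧ (q : ℝ) < d k := fun k => by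
        obtain ⟨p, h5, h6⟩ := exists_rat_btwn (hd1 k).1
        obtain ⟨q, h7, h8⟩ := exists_rat_btwn h6
        exact ⟨p, q, h5, h7, h8⟩
      choose p q hp hpq hq using h5
      have h6 : ∀ k, ∀ᵐ ξ ∂B.μ 1, ξ ∈ (T (p k) (q k))ᶜ → θ ξ = 0 := fun k => by
        have h7 := (hq k).trans (hd1 k).2
        have h8 := hT (p k) (q k) (hc1.trans (hp k)) (hpq k) h7
        exact ffa_zero h8.2.2.2.1 h8.2.2.1 hQ0 hθ
          (fb_two (hup c _ _ (hp k).le (hpq k) h7).compl h3) h4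
      have h7 : B.Null ((fbA T c)ᶜ ∩ ⋂ k, T (p k) (q k)) := by
        refine le_antisymm (ge_of_tendsto' (hlim c hc d hd2) fun k => measure_mono fun ξ hξ => ?_)
          zero_le
        exact Or.inl ⟨fbA_sup T (hc1.trans (hp k)) (hpq k) (hq k) ((hq k).trans (hd1 k).2)
          (mem_iInter.1 hξ.2 k), hξ.1⟩
      filter_upwards [ae_all_iff.2 h6, (B.null_iff_ae _).1 h7] with ξ h8 h9 h10
      by_contra h11
      exact h9 ⟨h10, mem_iInter.2 fun k => not_not.1 fun h12 => h11 (h8 k h12)⟩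
  · rintro c ⟨⟨hc1, -⟩, -⟩ c' ⟨⟨-, hc2⟩, -⟩ hcc
    obtain ⟨p, h1, h2⟩ := exists_rat_btwn hcc
    obtain ⟨q, h3, h4⟩ := exists_rat_btwn h2
    refine ⟨fbA_mono T hcc.le, (hTT c p p q hc1 h1 le_rfl h3 (h4.trans hc2)).2.mono
      (hup c c p le_rfl h1 (h2.trans hc2)) (Sub.of_subset (compl_subset_compl.2 ?_))⟩
    exact fbA_sup T (hc1.trans h1) h3 h4 (h4.trans hc2)

end Bdry

end Vale.Agent.P239
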