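import Vale.Agent.P239.Full.FBas

/-! Task FRep: local repair of cochains.
`lam`: induction on the number of support points in `cn`. Choose a cluster for each support point and take one with maximal radius `(z, D)`; `c = c₁ + c'` with `c₁` the restriction to `bl z D`.
A chosen cluster `(z', D')` that shares a support point with `(z, D)` is contained in it (`D + 2 D' ≤ 3 D + 1`); so the clusters of the remaining points are clusters of `c'`.
`ax3'`: only finitely many cones meet `F` (`finite_cones`), enlarge `F` by their exceptional sets.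
`urep`: otherwise get `c n` failing for `r' = n`; pointwise limit `c` along a subsequence (values in `{-1,0,1}`, `G` countable). `ExOn S c N` passes to pointwise limits (normalise the potentials on each
component of the graph with edges from `N`; or use an ultrafilter limit / the closed walk criterion). `ax3` gives `w`, `κ = c - δ w` is supported in `ball r'`. For large `n`, `c n - κ` is locally exact; cones with `cn` disjoint from
`ball r'` are fine; for the finitely many others: `c n - κ` and `c - κ` both have potentials `D n`, `D` on the edges from `cn \ ball r'`; that graph has finitely many components meeting `ball (r'+1)`, connected inside a finite set,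
so when `c n = c` on a large ball `D n - D` is constant on each piece inside the ball and `D n` can be adjusted to a potential on all edges from `cn`. Then `ax2`.
`rlr`: `lam` gives exactness on the cones with `cn` disjoint from `ball D₀`; finite support gives the last hypothesis of `ax3'`; `κ x s = if s ∈ S then c x s - (w (x*s) - w x) else 0`; `ρ₁ = ρ + m`;
finitely many cones meet `ball ρ₁`, on each `c - κ` has finite support, inside `ball ρ₂`; eventually `cs n = c` on `ball (3ρ₂ + 1 + l)`.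
-/

noncomputable section

open Classical MeasureTheory Filter Topology Set
open scoped Pointwise ENNReal

namespace Vale.Agent.P239

universe u
variable {G : Type u} [Group G] {S : Finset G} {l : ℕ} {Q : Cones S} {B : Bdry S}

theorem frep_bl (g : G) {x z : G} {r : ℕ} : g * x ∈ bl S (g * z) r ↔ x ∈ bl S z r := by
  rw [← bl_smul]
  exact Set.smul_mem_smul_set_iff

theorem frep_bl1 {x : G} {r : ℕ} : x ∈ bl S 1 r ↔ x ∈ ball S r := by
  change 1⁻¹ * x ∈ ball S r ↔ _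
  rw [inv_one, one_mul]

theorem frep_cn (g : G) {x γ : G} {i : Fin Q.n} : g * x ∈ Q.cn l i (g * γ) ↔ x ∈ Q.cn l i γ := by
  rw [← Cones.cn_smul]
  exact Set.smul_mem_smul_set_iff

namespace Cones

theorem Clus.congr {c c' : G → G → ℤ} {i : Fin Q.n} {γ z : G} {D : ℕ} (h : Q.Clus l c i γ z D)
    (h' : ∀ x ∈ Q.cn l i γ, x ∈ bl S z (3 * D + 1) → ∀ s ∈ S, c' x s = c x s) :
    Q.Clus l c' i γ z D := by
  refine ⟨fun x hx hb ⟨s, hs, h0⟩ => h.1 x hx hb ⟨s, hs, by rwa [← h' x hx hb s hs]⟩,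
    h.2.congr fun x hx s hs => ?_⟩
  by_cases hb : x ∈ bl S z D
  · rw [if_pos hb, if_pos hb, h' x hx (bl_mono z (by omega) hb) s hs]
  · rw [if_neg hb, if_neg hb]

theorem Clus.translate {c : G → G → ℤ} {i : Fin Q.n} {γ z : G} {D : ℕ} (g : G)
    (h : Q.Clus l c i (g * γ) (g * z) D) : Q.Clus l (fun x s => c (g * x) s) i γ z D := by
  refine ⟨fun x hx hb hs => (frep_bl g).1 (h.1 (g * x) ((frep_cn g).2 hx) ((frep_bl g).2 hb) hs), ?_⟩
  have h2 := h.2
  rw [← cn_smul] at h2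
  refine (h2.translate g).congr fun x _ s _ => ?_
  by_cases hb : x ∈ bl S z D
  · rw [if_pos hb, if_pos ((frep_bl g).2 hb)]
  · rw [if_neg hb, if_neg fun h' => hb ((frep_bl g).1 h')]

theorem Rep.translate {c κ : G → G → ℤ} {z : G} {ρ ρ₁ ρ₂ : ℕ} (g : G)
    (h : Q.Rep l c κ (g * z) ρ ρ₁ ρ₂) :
    Q.Rep l (fun x s => c (g * x) s) (fun x s => κ (g * x) s) z ρ ρ₁ ρ₂ := by
  refine ⟨fun x s h0 => (frep_bl g).1 (h.1 _ s h0), fun y hy => ?_, fun i γ ⟨x, hx, hb⟩ => ?_⟩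
  · have h2 := (locExact_iff _ _).1 (h.2.1 (g * y) ((frep_bl g).2 hy))
    rw [← bl_smul] at h2
    exact (locExact_iff _ _).2 (h2.translate g)
  · exact (h.2.2 i (g * γ) ⟨g * x, (frep_cn g).2 hx, (frep_bl g).2 hb⟩).translate g

theorem lam (hS : Cay S) {c : G → G → ℤ} {i : Fin Q.n} {γ : G}
    (hf : {x | x ∈ Q.cn l i γ ∧ ∃ s ∈ S, c x s ≠ 0}.Finite)
    (h : ∀ y ∈ Q.cn l i γ, (∃ s ∈ S, c y s ≠ 0) → ∃ z D, y ∈ bl S z D ∧ Q.Clus l c i γ z D) :
    ExOn S c (Q.cn l i γ) := by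
  generalize hn : {x | x ∈ Q.cn l i γ ∧ ∃ s ∈ S, c x s ≠ 0}.ncard = n
  induction n using Nat.strong_induction_on generalizing c with
  | _ n ih =>
  by_cases hne : {x | x ∈ Q.cn l i γ ∧ ∃ s ∈ S, c x s ≠ 0}.Nonempty
  swap
  · refine ⟨fun _ => 0, fun x hx s hs => ?_⟩
    by_contra h0
    exact hne ⟨x, hx, s, hs, by simpa using h0⟩
  have hch : ∀ y, ∃ p : G × ℕ, y ∈ {x | x ∈ Q.cn l i γ ∧ ∃ s ∈ S, c x s ≠ 0} →
      y ∈ bl S p.1 p.2 ∧ Q.Clus l c i γ p.1 p.2 := fun y => by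
    by_cases hy : y ∈ {x | x ∈ Q.cn l i γ ∧ ∃ s ∈ S, c x s ≠ 0}
    · obtain ⟨z, D, h1⟩ := h y hy.1 hy.2
      exact ⟨(z, D), fun _ => h1⟩
    · exact ⟨(1, 0), fun h' => absurd h' hy⟩
  choose p hp using hch
  obtain ⟨y₀, hy₀, hmax⟩ := Set.exists_max_image _ (fun y => (p y).2) hf hne
  obtain ⟨hb₀, hc₀⟩ := hp y₀ hy₀
  set z := (p y₀).1
  set D := (p y₀).2
  let c' : G → G → ℤ := fun x s => if x ∈ bl S z D then 0 else c x s
  have hsub : ∀ x s, c' x s ≠ 0 → x ∉ bl S z D ∧ c x s ≠ 0 := fun x s h0 => by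
    by_cases hb : x ∈ bl S z D
    · exact absurd (if_pos hb) h0
    · exact ⟨hb, by rwa [show c' x s = c x s from if_neg hb] at h0⟩
  have hss : {x | x ∈ Q.cn l i γ ∧ ∃ s ∈ S, c' x s ≠ 0} ⊂
      {x | x ∈ Q.cn l i γ ∧ ∃ s ∈ S, c x s ≠ 0} :=
    ⟨fun x ⟨hx, s, hs, h0⟩ => ⟨hx, s, hs, (hsub x s h0).2⟩, fun h' => by
      obtain ⟨-, s, -, h0⟩ := h' hy₀
      exact (hsub y₀ s h0).1 hb₀⟩
  have h1 : ExOn S c' (Q.cn l i γ) := by
    refine ih _ (hn ▸ Set.ncard_lt_ncard hss hf) (hf.subset hss.1) (fun y hy ⟨s, hs, h0⟩ => ?_) rfl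
    have hy' : y ∈ {x | x ∈ Q.cn l i γ ∧ ∃ s ∈ S, c x s ≠ 0} := ⟨hy, s, hs, (hsub y s h0).2⟩
    obtain ⟨hb, hc⟩ := hp y hy'
    refine ⟨_, _, hb, fun x hx hx' ⟨t, ht, h2⟩ => hc.1 x hx hx' ⟨t, ht, (hsub x t h2).2⟩,
      hc.2.congr fun x hx t ht => ?_⟩
    by_cases hb' : x ∈ bl S (p y).1 (p y).2
    · rw [if_pos hb', if_pos hb']
      by_cases hb2 : x ∈ bl S z D
      · exfalso
        have hle : (p y).2 ≤ D := hmax y hy'
        have h3 := mem_bl_trans (mem_bl_trans hb2 (mem_bl_symm hS hb')) hb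
        exact (hsub y s h0).1 (hc₀.1 y hy (bl_mono z (by omega) h3) hy'.2)
      · exact if_neg hb2
    · rw [if_neg hb', if_neg hb']
  refine (hc₀.2.add h1).congr fun x _ s _ => ?_
  by_cases hb : x ∈ bl S z D
  · rw [if_pos hb, show c' x s = 0 from if_pos hb, add_zero]
  · rw [if_neg hb, show c' x s = c x s from if_neg hb, zero_add]

end Cones

theorem RH.ax3' (hH : RH S l Q) (c : G → G → ℤ) {F : Set G} (hF : F.Finite)
    (h1 : ∀ y, y ∉ F → LocExact S l c y)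
    (h2 : ∀ i γ, Disjoint (Q.cn l i γ) F → ExOn S c (Q.cn l i γ))
    (h3 : ∀ i γ, ∃ F' : Set G, F'.Finite ∧ ExOn S c (Q.cn l i γ \ F')) :
    ∃ w, (defect S c w).Finite := by
  obtain ⟨W, hW, hW'⟩ := Cones.finite_cones (Q := Q) hH.cay l hF
  choose F' hF' hE using h3
  have hU : (F ∪ ⋃ q ∈ (Set.univ : Set (Fin Q.n)) ×ˢ W, F' q.1 q.2).Finite :=
    hF.union ((Set.finite_univ.prod hW).biUnion fun q _ => hF' q.1 q.2)
  refine hH.ax3 c _ hU (fun y hy => h1 y fun h => hy (Or.inl h))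
    (fun i γ h => h2 i γ (h.mono_right Set.subset_union_left)) fun i γ => ?_
  by_cases h : (Q.cn l i γ ∩ F).Nonempty
  · obtain ⟨x, hx, e⟩ := hW' i γ h
    have e' : Q.cn l i γ = Q.cn l i x := by rw [Cones.cn, e, Cones.cn]
    rw [e']
    refine (hE i x).mono fun y hy => ⟨hy.1, fun h' => hy.2 (Or.inr ?_)⟩
    exact Set.mem_biUnion (x := (i, x)) ⟨Set.mem_univ _, hx⟩ h'
  · exact (h2 i γ (Set.disjoint_iff_inter_eq_empty.2 (Set.not_nonempty_iff_eq_empty.1 h))).mono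
      Set.sdiff_subset

theorem frep_rep {α : Type*} {R : α → α → Prop} (hR : Equivalence R) :
    ∃ ρ : α → α, (∀ a, R (ρ a) a) ∧ ∀ a b, R a b → ρ a = ρ b := by
  let s : Setoid α := ⟨R, hR⟩
  exact ⟨fun a => (Quotient.mk s a).out, fun a => Quotient.mk_out (s := s) a,
    fun a b h => congrArg Quotient.out (Quotient.sound (s := s) h)⟩

theorem frep_pot {𝓕 : Filter ℕ} {cs : ℕ → G → G → ℤ} {N : Set G}
    (h : ∀ᶠ n in 𝓕, ExOn S (cs n) N) : ∃ D : ℕ → G → ℤ,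
      ∀ᶠ n in 𝓕, ∀ x ∈ N, ∀ s ∈ S, cs n x s = D n (x * s) - D n x := by
  have : ∀ n, ∃ D : G → ℤ, ExOn S (cs n) N → ∀ x ∈ N, ∀ s ∈ S, cs n x s = D (x * s) - D x :=
    fun n => by
      by_cases h : ExOn S (cs n) N
      · obtain ⟨D, hD⟩ := h
        exact ⟨D, fun _ => hD⟩
      · exact ⟨0, fun h' => absurd h' h⟩
  choose D hD using this
  exact ⟨D, h.mono hD⟩

omit [Group G] in
theorem frep_fin {𝓕 : Filter ℕ} {cs : ℕ → G → G → ℤ} {c : G → G → ℤ} {K : Set G} (hK : K.Finite)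
    (hl : ∀ x s, ∀ᶠ n in 𝓕, cs n x s = c x s) :
    ∀ᶠ n in 𝓕, ∀ x ∈ K, ∀ s ∈ S, cs n x s = c x s :=
  (eventually_all_finite hK).2 fun x _ => (eventually_all_finset S).2 fun s _ => hl x s

theorem frep_lim {𝓕 : Filter ℕ} [𝓕.NeBot] {cs : ℕ → G → G → ℤ} {c : G → G → ℤ} {N : Set G}
    (hl : ∀ x s, ∀ᶠ n in 𝓕, cs n x s = c x s) (h : ∀ᶠ n in 𝓕, ExOn S (cs n) N) :
    ExOn S c N := by
  obtain ⟨D, hD⟩ := frep_pot h
  obtain ⟨ρ, h1, h2⟩ := frep_rep (R := fun a b => ∃ k, ∀ᶠ n in 𝓕, D n b - D n a = k)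
    ⟨fun a => ⟨0, Eventually.of_forall fun n => sub_self _⟩,
      fun ⟨k, hk⟩ => ⟨-k, hk.mono fun n hn => by omega⟩,
      fun ⟨k, hk⟩ ⟨k', hk'⟩ => ⟨k + k', (hk.and hk').mono fun n hn => by omega⟩⟩
  choose k hk using h1
  refine ⟨k, fun x hx s hs => ?_⟩
  have e : ρ x = ρ (x * s) := h2 x (x * s) ⟨c x s, (hD.and (hl x s)).mono fun n hn => by
    rw [← hn.1 x hx s hs, hn.2]⟩
  obtain ⟨n, h3, h4, h5, h6⟩ := (hD.and ((hl x s).and ((hk x).and (hk (x * s))))).exists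
  have h7 := h3 x hx s hs
  rw [← e] at h6
  omega

theorem frep_glue {𝓕 : Filter ℕ} {cs : ℕ → G → G → ℤ} {c : G → G → ℤ} {N K : Set G}
    (hK : K.Finite) (hl : ∀ x s, ∀ᶠ n in 𝓕, cs n x s = c x s)
    (h : ∀ᶠ n in 𝓕, ExOn S (cs n) (N \ K)) (hc : ExOn S c N) : ∀ᶠ n in 𝓕, ExOn S (cs n) N := by
  obtain ⟨D, hD⟩ := frep_pot h
  obtain ⟨w, hw⟩ := hc
  obtain ⟨ρ, h1, h2⟩ := frep_rep (R := fun a b => ∀ᶠ n in 𝓕, D n b - D n a = w b - w a)
    ⟨fun a => Eventually.of_forall fun n => by rw [sub_self, sub_self],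
      fun hk => hk.mono fun n hn => by omega,
      fun hk hk' => (hk.and hk').mono fun n hn => by omega⟩
  have e : ∀ x ∈ N \ K, ∀ s ∈ S, ρ x = ρ (x * s) := fun x hx s hs =>
    h2 x (x * s) ((hD.and (hl x s)).mono fun n hn => by
      rw [← hn.1 x hx s hs, hn.2, hw x hx.1 s hs])
  have e1 : ∀ᶠ n in 𝓕, ∀ x ∈ K, D n x - D n (ρ x) = w x - w (ρ x) :=
    (eventually_all_finite hK).2 fun x _ => h1 x
  have e2 : ∀ᶠ n in 𝓕, ∀ x ∈ K, ∀ s ∈ S,
      D n (x * s) - D n (ρ (x * s)) = w (x * s) - w (ρ (x * s)) :=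
    (eventually_all_finite hK).2 fun x _ => (eventually_all_finset S).2 fun s _ => h1 (x * s)
  filter_upwards [hD, e1, e2, frep_fin (S := S) hK hl] with n h3 h4 h5 h6
  refine ⟨fun x => D n x - D n (ρ x) + w (ρ x), fun x hx s hs => ?_⟩
  beta_reduce
  by_cases hx' : x ∈ K
  · have := h4 x hx'
    have := h5 x hx' s hs
    have := h6 x hx' s hs
    have := hw x hx s hs
    omega
  · rw [← e x ⟨hx, hx'⟩ s hs, h3 x ⟨hx, hx'⟩ s hs]
    ring

theorem frep_kappa (hS : Cay S) {c : G → G → ℤ} {w : G → ℤ} (hw : (defect S c w).Finite) (r : ℕ) :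
    ∃ (κ : G → G → ℤ) (ρ : ℕ), r ≤ ρ ∧ (∀ x s, κ x s ≠ 0 → x ∈ ball S ρ) ∧
      ExOn S (fun x s => c x s - κ x s) univ := by
  obtain ⟨ρ, hρ⟩ := hS.finite_subset_ball (hw.image Prod.fst)
  refine ⟨fun x s => if s ∈ S then c x s - (w (x * s) - w x) else 0, r + ρ, by omega,
    fun x s h => ?_, w, fun x _ s hs => ?_⟩
  · beta_reduce at h
    by_cases hs : s ∈ S
    · rw [if_pos hs] at h
      exact ball_mono (by omega) (hρ x ⟨(x, s), ⟨hs, sub_ne_zero.1 h⟩, rfl⟩)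
    · exact absurd (if_neg hs) h
  · beta_reduce
    rw [if_pos hs]
    ring

theorem exOn_of_tendsto {cs : ℕ → G → G → ℤ} {c : G → G → ℤ} {N : Set G}
    (hl : ∀ x s, ∀ᶠ n in atTop, cs n x s = c x s) (h : ∀ᶠ n in atTop, ExOn S (cs n) N) :
    ExOn S c N := frep_lim hl h

theorem RH.urep (hH : RH S l Q) (r : ℕ) : ∃ r' : ℕ, ∀ c : G → G → ℤ, (∀ x s, |c x s| ≤ 1) →
    (∀ y, y ∉ ball S r → LocExact S l c y) →
    (∀ i γ, Disjoint (Q.cn l i γ) (ball S r : Set G) → ExOn S c (Q.cn l i γ)) →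
    (∀ i γ, ExOn S c (Q.cn l i γ \ (ball S r : Set G))) →
    ∃ w, ∀ e ∈ defect S c w, e.1 ∈ ball S r' := by
  by_contra hc
  push Not at hc
  choose cs hb h1 h2 h3 h4 using hc
  have hS := hH.cay
  have hlim : ∀ x s, ∃ k, ∀ᶠ n in (hyperfilter ℕ : Filter ℕ), cs n x s = k := fun x s => by
    have h0 : ∀ᶠ n in (hyperfilter ℕ : Filter ℕ), cs n x s = -1 ∨ cs n x s = 0 ∨ cs n x s = 1 :=
      Eventually.of_forall fun n => by
        have := abs_le.1 (hb n x s)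
        omega
    rcases Ultrafilter.eventually_or.1 h0 with h | h
    · exact ⟨_, h⟩
    · rcases Ultrafilter.eventually_or.1 h with h | h
      · exact ⟨_, h⟩
      · exact ⟨_, h⟩
  choose c hl using hlim
  obtain ⟨w, hw⟩ := hH.ax3 c (ball S r : Set G) (Finset.finite_toSet _)
    (fun y hy => (locExact_iff _ _).2 (frep_lim hl (Eventually.of_forall fun n =>
      (locExact_iff _ _).1 (h1 n y hy))))
    (fun i γ h => frep_lim hl (Eventually.of_forall fun n => h2 n i γ h))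
    (fun i γ => frep_lim hl (Eventually.of_forall fun n => h3 n i γ))
  obtain ⟨κ, ρ, hρ, hκ, hκ'⟩ := frep_kappa hS hw r
  have hz : ∀ n x s, x ∉ ball S ρ → cs n x s - κ x s = cs n x s := fun n x s hx => by
    rw [not_not.1 fun h => hx (hκ x s h), sub_zero]
  have hl' : ∀ x s, ∀ᶠ n in (hyperfilter ℕ : Filter ℕ), cs n x s - κ x s = c x s - κ x s :=
    fun x s => (hl x s).mono fun n hn => by rw [hn]
  obtain ⟨W, hW, hW'⟩ := Cones.finite_cones (Q := Q) hS l (ball S ρ).finite_toSet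
  have e1 : ∀ᶠ n in (hyperfilter ℕ : Filter ℕ), ∀ q ∈ (Set.univ : Set (Fin Q.n)) ×ˢ W,
      ExOn S (fun x s => cs n x s - κ x s) (Q.cn l q.1 q.2) := by
    refine (eventually_all_finite (Set.finite_univ.prod hW)).2 fun q _ => ?_
    refine frep_glue (ball S ρ).finite_toSet hl' (Eventually.of_forall fun n => ?_)
      (hκ'.mono (Set.subset_univ _))
    refine ((h3 n q.1 q.2).mono fun x hx => ⟨hx.1, fun h => hx.2 (ball_mono hρ h)⟩).congr
      fun x hx s _ => hz n x s hx.2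
  have e2 := frep_fin (S := S) (bl_finite (S := S) 1 (ρ + l + l)) hl'
  have e3 : ∀ᶠ n in (hyperfilter ℕ : Filter ℕ), ρ ≤ n :=
    hyperfilter_le_cofinite (Nat.cofinite_eq_atTop ▸ eventually_ge_atTop ρ)
  obtain ⟨n, hn1, hn2, hn3⟩ := (e1.and (e2.and e3)).exists
  obtain ⟨D, hD⟩ := hH.ax2 (fun x s => cs n x s - κ x s) (fun y => by
      rw [locExact_iff]
      by_cases hy : y ∈ bl S 1 (ρ + l)
      · exact (hκ'.mono (Set.subset_univ _)).congr fun x hx s hs =>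
          hn2 x (mem_bl_trans hy hx) s hs
      · have hy' : y ∉ ball S r := fun h =>
          hy (bl_mono 1 (by omega) ((frep_bl1 (r := r)).2 h))
        refine ((locExact_iff _ _).1 (h1 n y hy')).congr fun x hx s _ => hz n x s fun h => ?_
        exact hy (mem_bl_trans (frep_bl1.2 h) (mem_bl_symm hS hx))) (fun i γ => by
      by_cases h : (Q.cn l i γ ∩ (ball S ρ : Set G)).Nonempty
      · obtain ⟨x, hx, e⟩ := hW' i γ h
        have e' : Q.cn l i γ = Q.cn l i x := by rw [Cones.cn, e, Cones.cn]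
        rw [e']
        exact hn1 (i, x) ⟨Set.mem_univ _, hx⟩
      · refine (h2 n i γ (Set.disjoint_left.2 fun x hx hx' => h ⟨x, hx, ball_mono hρ hx'⟩)).congr
          fun x hx s _ => hz n x s fun h' => h ⟨x, hx, h'⟩)
  obtain ⟨e, he, he'⟩ := h4 n D
  refine he.2 ?_
  rw [← hD e.1 (Set.mem_univ _) e.2 he.1]
  exact (hz n e.1 e.2 fun h => he' (ball_mono hn3 h)).symm

theorem RH.rlr (hH : RH S l Q) {D₀ D₁ : ℕ} {cs : ℕ → G → G → ℤ} {c : G → G → ℤ}
    (hl : ∀ x s, ∀ᶠ n in atTop, cs n x s = c x s)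
    (hf : ∀ i γ, {x | x ∈ Q.cn l i γ ∧ ∃ s ∈ S, c x s ≠ 0}.Finite)
    (hb : ∀ y, y ∉ ball S D₀ → LocExact S l c y) (hT : Q.Tame l c (ball S D₀ : Set G) D₁) (m : ℕ) :
    ∃ (κ : G → G → ℤ) (ρ ρ₁ ρ₂ : ℕ), ρ + m ≤ ρ₁ ∧ D₀ ≤ ρ ∧ ρ₁ ≤ ρ₂ ∧
      ∀ᶠ n in atTop, Q.Rep l (cs n) κ 1 ρ ρ₁ ρ₂ := by
  have hS := hH.cay
  obtain ⟨w, hw⟩ := hH.ax3' c (ball S D₀).finite_toSet hb
    (fun i γ h => Cones.lam hS (hf i γ) fun y hy hs => by
      obtain ⟨D, -, hD⟩ := hT i γ y hy (Set.disjoint_left.1 h hy) hs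
      exact ⟨y, D, mem_bl_self y D, hD⟩)
    (fun i γ => ⟨_, hf i γ, fun _ => 0, fun x hx s hs => by
      by_contra h0
      exact hx.2 ⟨hx.1, s, hs, by simpa using h0⟩⟩)
  obtain ⟨κ, ρ, hρ, hκ, hκ'⟩ := frep_kappa hS hw D₀
  obtain ⟨W, hW, hW'⟩ := Cones.finite_cones (Q := Q) hS l (bl_finite (S := S) 1 (ρ + m))
  obtain ⟨r, hr⟩ := hS.finite_subset_bl ((Set.finite_univ.prod hW).biUnion
    fun (q : Fin Q.n × G) _ => hf q.1 q.2) 1
  refine ⟨κ, ρ, ρ + m, ρ + m + r, le_rfl, hρ, by omega, ?_⟩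
  filter_upwards [frep_fin (S := S) (bl_finite (S := S) 1 (3 * (ρ + m + r) + 1 + l)) hl] with n hn
  refine ⟨fun x s h => frep_bl1.2 (hκ x s h), fun y hy => ?_, fun i γ h => ?_⟩
  · rw [locExact_iff]
    refine (hκ'.mono (Set.subset_univ _)).congr fun x hx s hs => ?_
    rw [hn x (bl_mono 1 (by omega) (mem_bl_trans hy hx)) s hs]
  · obtain ⟨x₀, hx₀, e⟩ := hW' i γ h
    have e' : Q.cn l i γ = Q.cn l i x₀ := by rw [Cones.cn, e, Cones.cn]
    have key : ∀ x ∈ Q.cn l i γ, ∀ s ∈ S, c x s - κ x s ≠ 0 → x ∈ bl S 1 (ρ + m + r) := by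
      intro x hx s hs h0
      by_cases h1 : κ x s = 0
      · rw [h1, sub_zero] at h0
        exact bl_mono 1 (by omega) (hr (Set.mem_biUnion (x := (i, x₀)) ⟨Set.mem_univ _, hx₀⟩
          ⟨e' ▸ hx, s, hs, h0⟩))
      · exact bl_mono 1 (by omega) (frep_bl1.2 (hκ x s h1))
    have hc : Q.Clus l (fun x s => c x s - κ x s) i γ 1 (ρ + m + r) := by
      refine ⟨fun x hx _ ⟨s, hs, h0⟩ => key x hx s hs h0,
        (hκ'.mono (Set.subset_univ _)).congr fun x hx s hs => ?_⟩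
      by_cases hb' : x ∈ bl S 1 (ρ + m + r)
      · exact if_pos hb'
      · rw [if_neg hb']
        exact (not_not.1 fun h0 => hb' (key x hx s hs h0)).symm
    refine hc.congr fun x _ hx s hs => ?_
    rw [hn x (bl_mono 1 (by omega) hx) s hs]

end Vale.Agent.P239
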