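import Vale.Agent.P239.Full.FKcut
import Vale.Agent.P239.Full.FIsK
import Vale.Agent.P239.Full.FRep
import Vale.Agent.P239.NoCross

/-! Task FNoX: irreducible walls do not cross (relative version of NoCross.lean, read its header).
`generic_levelsK`: Borel-Cantelli over the index set `G ⊕ (Fin n × cones)`: for a cone `P` the levels straddled by `a` on `cn r` lie in an interval of length `≤ 2 α P`, `α P = sup |a - val P|` on `cn r`, and
`∑_P (α P)^2 ≤ ∑_y ∑_(b ∈ ball r) |a (y*b) - val y|^2 < ∞` (`osc_sq`); index the cones by chosen representatives (`Quotient.out` of left cosets). Also avoid the countably many values.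
`no_crossK`: `a = H θa`, `b = H θb` (`IsK.kf_H`), `U = {s < a}`, `V = {t < b}`, `c x g = if x ∈ U then dZ V else 0`. `ax3'`: `F` = straddling points together with one point of each straddling cone; on a cone with `val ≠ s`
membership in `U` is constant off a finite set (`KF.tendsto_cn`). With `w`, `Y = {Odd w}`, `Y' = symmDiff Y V` as in the old proof; the four cut functions are `KF` by `kcut`
(applied to `-a`, `a`, `-b`, `b`; off the defect set wall edges of `Y` start in `U` and cross `V`, wall edges of `Y'` start outside `U`; gradients tend to zero, `FinEn.finite_edges`).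
-/

noncomputable section

open Classical MeasureTheory Filter Topology Set
open scoped Pointwise ENNReal

namespace Vale.Agent.P239

universe u
variable {G : Type u} [Group G] {S : Finset G} {l : ℕ} {Q : Cones S} {B : Bdry S}

theorem fnox_sq {α : Type*} {p q : α → ℝ} (hp : SqSum p) (hq : SqSum q) :
    SqSum fun x => |p x| + |q x| :=
  (fkf_sq hp hq (L := 1) fun x => by rw [one_mul, abs_of_nonneg (by positivity)]).1

omit [Group G] in
theorem fnox_bc [Countable G] (u v : G → ℝ) {ρ : G → ℝ} (hρ : SqSum ρ) :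
    ∀ᵐ z : ℝ × ℝ, {y | |z.1 - u y| ≤ ρ y ∧ |z.2 - v y| ≤ ρ y}.Finite := by
  set E : G → Set (ℝ × ℝ) := fun y => Icc (u y - |ρ y|) (u y + |ρ y|) ×ˢ
    Icc (v y - |ρ y|) (v y + |ρ y|) with hE
  have h1 : ∑' y, volume (E y) ≠ ⊤ := by
    have h2 : Summable fun y => 4 * ρ y ^ 2 := Summable.mul_left 4 hρ
    refine ne_top_of_le_ne_top h2.tsum_ofReal_ne_top (ENNReal.tsum_le_tsum fun y => ?_)
    have h3 := abs_nonneg (ρ y)
    simp only [hE]
    rw [Measure.volume_eq_prod, Measure.prod_prod, Real.volume_Icc, Real.volume_Icc,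
      ← ENNReal.ofReal_mul (by linarith), ← sq_abs (ρ y)]
    exact ENNReal.ofReal_le_ofReal (le_of_eq (by ring))
  filter_upwards [ae_finite_setOfPred_mem h1] with z hz
  refine hz.subset fun y hy => ?_
  have h2 := abs_le.1 hy.1
  have h3 := abs_le.1 hy.2
  have h4 := le_abs_self (ρ y)
  exact ⟨⟨by linarith [h2.1], by linarith [h2.2]⟩, by linarith [h3.1], by linarith [h3.2]⟩

theorem fnox_osc (F : G → ℝ) {y p : G} {r : ℕ} (hp : p ∈ bl S y r) :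
    |F p - F y| ≤ |osc S r F y| := by
  have h := abs_sub_le_osc F y hp (one_mem_ball r)
  rw [mul_one, mul_inv_cancel_left] at h
  exact h.trans (le_abs_self _)

theorem fnox_cone {a : G → ℝ} {φ : Fin Q.n → G → ℝ} (ha : Q.KF a φ) {r : ℕ} {i : Fin Q.n} {γ : G}
    {s : ℝ} (h : ∃ p ∈ Q.cn r i γ, ∃ q ∈ Q.cn r i γ, a p ≤ s ∧ s < a q) :
    ∃ y ∈ Q.cone i γ, |s - (a γ - φ i γ)| ≤ |(|osc S r a y| + |φ i y|)| := by
  obtain ⟨p, ⟨y, hy, hp⟩, q, ⟨y', hy', hq⟩, h1, h2⟩ := h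
  rcases le_total s (a γ - φ i γ) with h3 | h3
  · refine ⟨y, hy, le_trans ?_ (le_abs_self _)⟩
    have h4 := abs_le.1 (fnox_osc (S := S) a (y := y) hp)
    rw [abs_of_nonpos (by linarith), ← ha.val_eq hy]
    linarith [h4.1, neg_abs_le (φ i y)]
  · refine ⟨y', hy', le_trans ?_ (le_abs_self _)⟩
    have h4 := abs_le.1 (fnox_osc (S := S) a (y := y') hq)
    rw [abs_of_nonneg (by linarith), ← ha.val_eq hy']
    linarith [h4.2, le_abs_self (φ i y')]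

theorem generic_levelsK (hS : Cay S) (r : ℕ) {a b : G → ℝ} {φ ψ : Fin Q.n → G → ℝ}
    (ha : Q.KF a φ) (hb : Q.KF b ψ) :
    ∃ s ∈ Ioo (1 / 3 : ℝ) (2 / 3), ∃ t ∈ Ioo (1 / 3 : ℝ) (2 / 3),
      {y | (∃ p ∈ bl S y r, ∃ q ∈ bl S y r, a p ≤ s ∧ s < a q) ∧
        (∃ p ∈ bl S y r, ∃ q ∈ bl S y r, b p ≤ t ∧ t < b q)}.Finite ∧
      (∃ W : Set G, W.Finite ∧ ∀ i γ, (∃ p ∈ Q.cn r i γ, ∃ q ∈ Q.cn r i γ, a p ≤ s ∧ s < a q) →
        (∃ p ∈ Q.cn r i γ, ∃ q ∈ Q.cn r i γ, b p ≤ t ∧ t < b q) → (Q.cone i γ ∩ W).Nonempty) ∧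
      ∀ i γ, a γ - φ i γ ≠ s := by
  have := hS.countable
  obtain ⟨C, -, hC⟩ := osc_sq S r
  have sa := (hC a ha.1).1
  have sb := (hC b hb.1).1
  have h1 := fnox_bc a b (fnox_sq sa sb)
  have h2 := ae_all_iff.2 fun i => fnox_bc (fun y => a y - φ i y) (fun y => b y - ψ i y)
    (fnox_sq (fnox_sq sa (ha.2 i).1) (fnox_sq sb (hb.2 i).1))
  have h3 : ∀ᵐ z : ℝ × ℝ, ∀ i γ, a γ - φ i γ ≠ z.1 :=
    ae_all_iff.2 fun i => ae_all_iff.2 fun γ =>
      (Measure.quasiMeasurePreserving_fst (μ := (volume : Measure ℝ))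
        (ν := (volume : Measure ℝ))).ae (p := fun s => a γ - φ i γ ≠ s)
        (((countable_singleton (a γ - φ i γ)).ae_notMem volume).mono fun s hs e => hs e.symm)
  have h4 : volume (Ioo (1 / 3 : ℝ) (2 / 3) ×ˢ Ioo (1 / 3 : ℝ) (2 / 3)) ≠ 0 := by
    rw [Measure.volume_eq_prod, Measure.prod_prod, Real.volume_Ioo]
    norm_num
  obtain ⟨z, hz, hf1, hf2, hf3⟩ := Measure.exists_mem_of_measure_ne_zero_of_ae h4
    (ae_restrict_of_ae (h1.and (h2.and h3)))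
  refine ⟨z.1, hz.1, z.2, hz.2, hf1.subset ?_, ⟨_, finite_iUnion hf2, fun i γ hp hq => ?_⟩, hf3⟩
  · have key : ∀ (F : G → ℝ) (y : G) (s : ℝ),
        (∃ p ∈ bl S y r, ∃ q ∈ bl S y r, F p ≤ s ∧ s < F q) → |s - F y| ≤ |osc S r F y| := by
      rintro F y s ⟨p, hp, q, hq, h3, h4⟩
      have h5 := abs_le.1 (fnox_osc F hp)
      have h6 := abs_le.1 (fnox_osc F hq)
      rw [abs_le]
      constructor <;> linarith [h5.1, h6.2]
    intro y hy
    exact ⟨(key a y _ hy.1).trans (le_add_of_nonneg_right (abs_nonneg _)),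
      (key b y _ hy.2).trans (le_add_of_nonneg_left (abs_nonneg _))⟩
  · obtain ⟨y, hy, k1⟩ := fnox_cone ha hp
    obtain ⟨y', hy', k2⟩ := fnox_cone hb hq
    have n1 := abs_nonneg (|osc S r a y| + |φ i y|)
    have n2 := abs_nonneg (|osc S r b y| + |ψ i y|)
    have n3 := abs_nonneg (|osc S r a y'| + |φ i y'|)
    have n4 := abs_nonneg (|osc S r b y'| + |ψ i y'|)
    rcases le_total |(|osc S r a y| + |φ i y|)| |(|osc S r b y'| + |ψ i y'|)| with h | h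
    · refine ⟨y', hy', mem_iUnion.2 ⟨i, ?_, ?_⟩⟩
      · rw [ha.val_eq hy']
        linarith
      · rw [hb.val_eq hy']
        linarith
    · refine ⟨y, hy, mem_iUnion.2 ⟨i, ?_, ?_⟩⟩
      · rw [ha.val_eq hy]
        linarith
      · rw [hb.val_eq hy]
        linarith

theorem fnox_side {a : G → ℝ} {s : ℝ} {N : Set G} (h : ¬ ∃ p ∈ N, ∃ q ∈ N, a p ≤ s ∧ s < a q) :
    (∀ x ∈ N, s < a x) ∨ ∀ x ∈ N, ¬ s < a x := by
  by_contra hn
  push Not at hn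
  obtain ⟨⟨p, hp, h1⟩, q, hq, h2⟩ := hn
  exact h ⟨p, hp, q, hq, h1, h2⟩

theorem fnox_w (hH : RH S l Q) {a b : G → ℝ} {φ ψ : Fin Q.n → G → ℝ} (ha : Q.KF a φ)
    (hb : Q.KF b ψ) : ∃ s ∈ Ioo (1 / 3 : ℝ) (2 / 3), ∃ t ∈ Ioo (1 / 3 : ℝ) (2 / 3),
    ∃ (Y Y' : Set G) (T : Set (G × G)), T.Finite ∧
      (∀ x, ∀ g ∈ S, (x, g) ∉ T → ¬ (x ∈ Y ↔ x * g ∈ Y) → s < a x ∧ ¬ (t < b (x * g) ↔ t < b x)) ∧
      (∀ x, ∀ g ∈ S, (x, g) ∉ T → ¬ (x ∈ Y' ↔ x * g ∈ Y') → a x ≤ s) ∧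
      (∀ x, ¬ t < b x → (x ∈ Y' ↔ x ∈ Y)) ∧ (∀ x, t < b x → (x ∈ Y' ↔ x ∉ Y)) := by
  obtain ⟨s, hs, t, ht, hfin, ⟨W, hW, hW'⟩, hval⟩ := generic_levelsK hH.cay (l + 1) ha hb
  refine ⟨s, hs, t, ht, ?_⟩
  obtain ⟨iV, hiV⟩ : ∃ iV : G → ℤ, ∀ x, iV x = if t < b x then 1 else 0 := ⟨_, fun _ => rfl⟩
  obtain ⟨c, hc⟩ : ∃ c : G → G → ℤ, ∀ x g, c x g = if s < a x then iV (x * g) - iV x else 0 :=
    ⟨_, fun _ _ => rfl⟩
  have ex1 : ∀ N : Set G, ((∀ x ∈ N, s < a x) ∨ ∀ x ∈ N, ¬ s < a x) → ExOn S c N := by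
    rintro N (h | h)
    · exact ⟨iV, fun x hx g _ => (hc _ _).trans (if_pos (h x hx))⟩
    · exact ⟨fun _ => 0, fun x hx g _ => by rw [sub_self, hc, if_neg (h x hx)]⟩
  have ex2 : ∀ N N' : Set G, N ⊆ N' → (∀ x ∈ N, ∀ g ∈ S, x * g ∈ N') →
      ¬ ((∃ p ∈ N', ∃ q ∈ N', a p ≤ s ∧ s < a q) ∧ ∃ p ∈ N', ∃ q ∈ N', b p ≤ t ∧ t < b q) →
      ExOn S c N := by
    intro N N' h1 h2 h3
    rcases not_and_or.1 h3 with h | h
    · exact (ex1 N' (fnox_side h)).mono h1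
    · refine ⟨fun _ => 0, fun x hx g hg => ?_⟩
      rcases fnox_side h with h4 | h4
      · simp [hc, hiV, h4 x (h1 hx), h4 _ (h2 x hx g hg)]
      · simp [hc, hiV, h4 x (h1 hx), h4 _ (h2 x hx g hg)]
  obtain ⟨w, hw⟩ := hH.ax3' c (hfin.union hW)
    (fun y hy => (locExact_iff c y).2 (ex2 _ (bl S y (l + 1)) (bl_mono y (Nat.le_succ l))
      (fun x hx g hg => mul_mem_bl hx hg) fun h => hy (Or.inl h)))
    (fun i γ hd => ex2 _ (Q.cn (l + 1) i γ) (nbh_mono (Nat.le_succ l) subset_rfl)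
      (fun x ⟨y, hy, hx⟩ g hg => ⟨y, hy, mul_mem_bl (z := y) hx hg⟩) fun h => by
        obtain ⟨x, hx, hx'⟩ := hW' i γ h.1 h.2
        exact disjoint_left.1 hd (subset_nbh l _ hx) (Or.inr hx'))
    (fun i γ => by
      refine ⟨_, ha.dev_finite l (abs_pos.2 (sub_ne_zero.2 (hval i γ))), ex1 _ ?_⟩
      have h1 : ∀ x ∈ Q.cn l i γ \ {x | ∃ i' γ', x ∈ Q.cn l i' γ' ∧
          |a γ - φ i γ - s| ≤ |a x - (a γ' - φ i' γ')|},
          |a x - (a γ - φ i γ)| < |a γ - φ i γ - s| :=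
        fun x hx => not_le.1 fun h => hx.2 ⟨i, γ, hx.1, h⟩
      rcases le_total s (a γ - φ i γ) with h | h
      · refine Or.inl fun x hx => ?_
        have h2 := abs_lt.1 (h1 x hx)
        rw [abs_of_nonneg (by linarith)] at h2
        linarith [h2.1]
      · refine Or.inr fun x hx => ?_
        have h2 := abs_lt.1 (h1 x hx)
        rw [abs_of_nonpos (by linarith)] at h2
        linarith [h2.2])
  have hdef : ∀ x, ∀ g ∈ S, (x, g) ∉ defect S c w → w (x * g) = w x + c x g := by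
    intro x g hg hx
    by_contra h
    exact hx ⟨hg, fun h1 => h (by simp only at h1; linarith)⟩
  refine ⟨{x | Odd (w x)}, {x | Odd (w x - iV x)}, defect S c w, hw, fun x g hg hx h => ?_,
    fun x g hg hx h => ?_, fun x hx => ?_, fun x hx => ?_⟩
  · have h1 : c x g ≠ 0 := fun h1 => h (by simp only [mem_ofPred_eq, hdef x g hg hx, h1, add_zero])
    refine ⟨by_contra fun h2 => h1 ((hc _ _).trans (if_neg h2)), fun h2 => h1 ?_⟩
    simp [hc, hiV, h2]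
  · by_contra h2
    refine h ?_
    have h3 : c x g = iV (x * g) - iV x := (hc _ _).trans (if_pos (not_le.1 h2))
    have h4 : w (x * g) - iV (x * g) = w x - iV x := by rw [hdef x g hg hx, h3]; ring
    simp only [mem_ofPred_eq, h4]
  · simp [hiV, hx]
  · simp only [mem_ofPred_eq, hiV, hx, if_true, Int.odd_iff]
    omega

theorem fnox_const (hH : RH S l Q) {A : Set (Bd G)} (hA : B.IrrK Q A) {a : G → ℝ}
    {φ : Fin Q.n → G → ℝ} (hb : Bdd a) (ha : Q.KF a φ) (e : ℝ) {a' b' : ℝ} (hab : a' < b')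
    (Y : Set G) {T : Set (G × G)} (hT : T.Finite)
    (h : ∀ x, ∀ g ∈ S, (x, g) ∉ T → ¬ (x ∈ Y ↔ x * g ∈ Y) → e * a x ≤ a')
    (hv : ∀ᵐ ξ ∂B.μ 1, ξ ∈ A → max (e * hat a ξ - b') 0 = 1 / 4) :
    ∃ α : Prop, ∀ᵐ ξ ∂B.μ 1, ξ ∈ A → (ξ ∈ hatSet Y ↔ α) := by
  have hc2 : Continuous fun p : ℝ × ℝ => (fun u _ : ℝ => max (e * u - b') 0) p.1 p.2 := by
    fun_prop
  have h1 : Bdd fun x => max (e * a x - b') 0 :=
    Bdd.comp₂ (F := fun u _ => max (e * u - b') 0) hb hb hc2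
  have h3 : ∀ ξ, hat (fun x => max (e * a x - b') 0) ξ = max (e * hat a ξ - b') 0 := fun ξ =>
    hat_comp₂ (F := fun u _ => max (e * u - b') 0) hb hb hc2 ξ
  have h4 : Bdd (Y.indicator fun x => max (e * a x - b') 0) := by
    obtain ⟨C, hC⟩ := h1
    refine ⟨C, fun x => ?_⟩
    by_cases hx : x ∈ Y
    · rw [indicator_of_mem hx]; exact hC x
    · rw [indicator_of_notMem hx, abs_zero]; exact (abs_nonneg _).trans (hC x)
  obtain ⟨φ', h2⟩ := kcut hH (ha.const_mul e) hab (U := Y) ((hT.image Prod.fst).subset (by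
    rintro x ⟨⟨g, hg, h1⟩, h2⟩
    by_contra h3
    exact absurd (h x g hg (fun h4 => h3 ⟨_, h4, rfl⟩) h1) (not_le.2 h2)))
  have e1 : (fun x => ind Y x * max (e * a x - b') 0) =
      Y.indicator fun x => max (e * a x - b') 0 := by
    funext x
    by_cases hx : x ∈ Y <;> simp [ind, hx]
  rw [e1] at h2
  have h5 := (Bdry.isK_hat (B := B) h4 h2).const_mul 4
  have h6 : ∀ᵐ ξ ∂B.μ 1, ξ ∈ A →
      (ξ ∈ hatSet Y → 4 * hat (Y.indicator fun x => max (e * a x - b') 0) ξ = 1) ∧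
      (ξ ∉ hatSet Y → 4 * hat (Y.indicator fun x => max (e * a x - b') 0) ξ = 0) := by
    filter_upwards [hv] with ξ hξ hA
    rw [hat_indicator Y h1]
    refine ⟨fun hY => ?_, fun hY => ?_⟩
    · rw [indicator_of_mem hY, h3, hξ hA]
      norm_num
    · rw [indicator_of_notMem hY, mul_zero]
  rcases hA _ h5 (h6.mono fun ξ hξ hA => by
    by_cases hY : ξ ∈ hatSet Y
    · exact Or.inr ((hξ hA).1 hY)
    · exact Or.inl ((hξ hA).2 hY)) with h7 | h7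
  · refine ⟨False, ?_⟩
    filter_upwards [h6, h7] with ξ h8 h9 hA
    refine ⟨fun hY => ?_, False.elim⟩
    have h10 := (h8 hA).1 hY
    rw [h9 hA] at h10
    exact zero_ne_one h10
  · refine ⟨True, ?_⟩
    filter_upwards [h6, h7] with ξ h8 h9 hA
    refine ⟨fun _ => trivial, fun _ => ?_⟩
    by_contra hY
    have h10 := (h8 hA).2 hY
    rw [h9 hA] at h10
    exact one_ne_zero h10

theorem Bdry.no_crossK (hH : RH S l Q) {A0 A1 C0 C1 : Set (Bd G)} (hA0 : B.IrrK Q A0)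
    (hA1 : B.IrrK Q A1) (hC0 : B.IrrK Q C0) (hC1 : B.IrrK Q C1) (hA : B.SepK Q A0 A1)
    (hC : B.SepK Q C0 C1) :
    B.Null (A0 ∩ C0) ∨ B.Null (A0 ∩ C1) ∨ B.Null (A1 ∩ C0) ∨ B.Null (A1 ∩ C1) := by
  obtain ⟨θa, ⟨hθa, -⟩, ha0, ha1⟩ := hA
  obtain ⟨θb, ⟨hθb, -⟩, hb0, hb1⟩ := hC
  have hab : Bdd (B.H θa) := B.H_bdd hθa.2.1
  have hbb : Bdd (B.H θb) := B.H_bdd hθb.2.1
  obtain ⟨φ, hae⟩ := hθa.kf_H hH.cay hH.gap
  obtain ⟨ψ, hbe⟩ := hθb.kf_H hH.cay hH.gap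
  have hah := hθa.isD.hat_H hH.cay hH.gap
  have hbh := hθb.isD.hat_H hH.cay hH.gap
  generalize B.H θa = a at hab hae hah
  generalize B.H θb = b at hbb hbe hbh
  obtain ⟨s, hs, t, ht, Y, Y', T, hT, hY, hY', hV, hV'⟩ := fnox_w hH hae hbe
  have hE := hbe.1.finite_edges (η := 1 / 30) (by norm_num)
  obtain ⟨α0, h0⟩ := fnox_const hH hA0 hab hae (-1) (a' := -s) (b' := -(1 / 4))
    (by linarith [hs.1]) Y hT
    (fun x g hg hx h => by linarith [(hY x g hg hx h).1]) (by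
      filter_upwards [hah, ha0] with ξ h1 h2 h3
      rw [h1, h2 h3]
      norm_num)
  obtain ⟨α1, h1⟩ := fnox_const hH hA1 hab hae 1 (a' := s) (b' := 3 / 4)
    (by linarith [hs.2]) Y' hT
    (fun x g hg hx h => by linarith [hY' x g hg hx h]) (by
      filter_upwards [hah, ha1] with ξ h1 h2 h3
      rw [h1, h2 h3]
      norm_num)
  obtain ⟨γ0, h2⟩ := fnox_const hH hC0 hbb hbe (-1) (a' := -(3 / 10)) (b' := -(1 / 4))
    (by norm_num) Y (hT.union hE)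
    (fun x g hg hx h => by
      have h2 := (hY x g hg (fun h' => hx (Or.inl h')) h).2
      have h3 : |b (x * g) - b x| < 1 / 30 := not_le.1 fun h' => hx (Or.inr ⟨hg, h'⟩)
      have h4 := abs_lt.1 h3
      by_contra h5
      exact h2 (iff_of_false (by linarith [ht.1, h4.2]) (by linarith [ht.1]))) (by
      filter_upwards [hbh, hb0] with ξ h1 h2 h3
      rw [h1, h2 h3]
      norm_num)
  obtain ⟨γ1, h3⟩ := fnox_const hH hC1 hbb hbe 1 (a' := 7 / 10) (b' := 3 / 4)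
    (by norm_num) Y (hT.union hE)
    (fun x g hg hx h => by
      have h2 := (hY x g hg (fun h' => hx (Or.inl h')) h).2
      have h3 : |b (x * g) - b x| < 1 / 30 := not_le.1 fun h' => hx (Or.inr ⟨hg, h'⟩)
      have h4 := abs_lt.1 h3
      by_contra h5
      exact h2 (iff_of_true (by linarith [ht.2, h4.1]) (by linarith [ht.2]))) (by
      filter_upwards [hbh, hb1] with ξ h1 h2 h3
      rw [h1, h2 h3]
      norm_num)
  have h4 : ∀ᵐ ξ ∂B.μ 1, ξ ∈ C0 →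
      (ξ ∈ hatSet Y' ↔ ξ ∈ hatSet Y) := by
    filter_upwards [hbh, hb0] with ξ h5 h6 h7
    have h8 := not_mem_hatSet_of_lt hbb (t := t) (ξ := ξ) (by rw [h5, h6 h7]; linarith [ht.1])
    have h9 : ∀ᶠ x in (ξ.uf : Filter G), ¬ t < b x := Ultrafilter.compl_mem_iff_notMem.2 h8
    exact Filter.eventually_congr (f := (ξ.uf : Filter G)) (p := fun x => x ∈ Y')
      (q := fun x => x ∈ Y) (h9.mono hV)
  have h5 : ∀ᵐ ξ ∂B.μ 1, ξ ∈ C1 →
      (ξ ∈ hatSet Y' ↔ ξ ∉ hatSet Y) := by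
    filter_upwards [hbh, hb1] with ξ h5 h6 h7
    have h8 := mem_hatSet_of_lt hbb (t := t) (ξ := ξ) (by rw [h5, h6 h7]; linarith [ht.2])
    have h9 : ∀ᶠ x in (ξ.uf : Filter G), t < b x := h8
    exact (Filter.eventually_congr (f := (ξ.uf : Filter G)) (p := fun x => x ∈ Y')
      (q := fun x => x ∉ Y) (h9.mono hV')).trans
        (Ultrafilter.compl_mem_iff_notMem (f := ξ.uf) (s := Y))
  by_contra hcon
  simp only [not_or] at hcon
  obtain ⟨n1, n2, n3, n4⟩ := hcon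
  obtain ⟨ξ1, ⟨m1, m1'⟩, p1, p1'⟩ := nocross_exists n1 (h0.and h2)
  obtain ⟨ξ2, ⟨m2, m2'⟩, p2, p2'⟩ := nocross_exists n2 (h0.and h3)
  obtain ⟨ξ3, ⟨m3, m3'⟩, ⟨p3, p3'⟩, q3⟩ := nocross_exists n3 ((h1.and h2).and h4)
  obtain ⟨ξ4, ⟨m4, m4'⟩, ⟨p4, p4'⟩, q4⟩ := nocross_exists n4 ((h1.and h3).and h5)
  have e1 : α0 ↔ γ0 := (p1 m1).symm.trans (p1' m1')
  have e2 : α0 ↔ γ1 := (p2 m2).symm.trans (p2' m2')
  have e3 : α1 ↔ γ0 := (p3 m3).symm.trans ((q3 m3').trans (p3' m3'))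
  have e4 : α1 ↔ ¬ γ1 := (p4 m4).symm.trans ((q4 m4').trans (not_congr (p4' m4')))
  exact iff_not_self (e2.symm.trans (e1.trans (e3.symm.trans e4)))

end Vale.Agent.P239
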