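import Vale.Agent.P239.Full.FFamA
import Vale.Agent.P239.Full.FNoX
import Vale.Agent.P239.Full.FAcc

/-! Task FFamB: bounded caps are impossible. With the line `A c` of `exists_lineK` let `𝓛 = {g • A c} ∪ {g • (A c)ᶜ}`. As in `exists_family` (FamB.lean) every `X ∈ 𝓛` is `IrrK` and is approximated from inside by
`b k ∈ 𝓛` increasing with `SepK (b k) Xᶜ`; as in `Family.nested` (NoCross.lean; `nocross_approx`, `no_crossK`) the family is nested. For `c ∈ D` and `d k ∈ D` strictly increasing to `c` the sets `A (d k)` form a `Chain`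
(the union is contained in `A c` and a.e. equal to it; `SepK.fvp`, `FVP.mono`). `Chain.false`.
-/

noncomputable section

open Classical MeasureTheory Filter Topology Set
open scoped Pointwise ENNReal

namespace Vale.Agent.P239

universe u
variable {G : Type u} [Group G] {S : Finset G} {l : ℕ} {Q : Cones S} {B : Bdry S}

theorem Bdry.ffamb_approx (hS : Cay S) {X : Set (Bd G)} {b : ℕ → Set (Bd G)} (g : G)
    (h1 : ∀ k, b k ⊆ b (k + 1)) (h2 : ∀ k, B.SepK Q (b k) Xᶜ)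
    (h3 : Tendsto (fun k => B.μ 1 (symmDiff (b k) X)) atTop (𝓝 0)) :
    (∀ k, B.Sub (g • b k) (g • b (k + 1))) ∧ (∀ k, B.SepK Q (g • b k) (g • X)ᶜ) ∧
      B.Sub (g • X) (⋃ k, g • b k) := by
  have h4 := Bdry.fb_approx hS g h1 (fun k => (h2 k).sep) h3
  refine ⟨h4.1, fun k => ?_, h4.2.2⟩
  rw [← smul_set_compl]
  exact (h2 k).smul hS g

theorem Bdry.ffamb_family (hH : RH S l Q) (𝓛 : Set (Set (Bd G))) (hne : 𝓛.Nonempty)
    (hs : ∀ (g : G), ∀ A ∈ 𝓛, g • A ∈ 𝓛) (hc : ∀ A ∈ 𝓛, Aᶜ ∈ 𝓛) (hg : ∀ A ∈ 𝓛, B.Good A)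
    (hi : ∀ A ∈ 𝓛, B.IrrK Q A) (hp : ∀ A ∈ 𝓛, ¬ B.Null A)
    (ha : ∀ A ∈ 𝓛, ∃ b : ℕ → Set (Bd G), (∀ k, b k ∈ 𝓛) ∧ (∀ k, B.Sub (b k) (b (k + 1))) ∧
      (∀ k, B.SepK Q (b k) Aᶜ) ∧ B.Sub A (⋃ k, b k)) : False := by
  have hn : ∀ A ∈ 𝓛, ∀ A' ∈ 𝓛, B.Nested A A' := fun A hA A' hA' => by
    by_contra hcon
    unfold Bdry.Nested at hcon
    simp only [not_or] at hcon
    obtain ⟨n1, n2, n3, n4⟩ := hcon
    obtain ⟨b, b1, b2, b3, b4⟩ := ha A hA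
    obtain ⟨b', b1', b2', b3', b4'⟩ := ha Aᶜ (hc A hA)
    obtain ⟨d, d1, d2, d3, d4⟩ := ha A' hA'
    obtain ⟨d', d1', d2', d3', d4'⟩ := ha A'ᶜ (hc A' hA')
    obtain ⟨k, ⟨k1, k2⟩, k3, k4⟩ := (((Bdry.nocross_approx b2 d2 b4 d4 n1).and
      (Bdry.nocross_approx b2 d2' b4 d4' n2)).and ((Bdry.nocross_approx b2' d2 b4' d4 n3).and
      (Bdry.nocross_approx b2' d2' b4' d4' n4))).exists
    have s1 : B.SepK Q (b k) (b' k) := (b3 k).mono (Bdry.Sub.refl _) (b3' k).sep.null_inter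
    have s2 : B.SepK Q (d k) (d' k) := (d3 k).mono (Bdry.Sub.refl _) (d3' k).sep.null_inter
    rcases Bdry.no_crossK hH (hi _ (b1 k)) (hi _ (b1' k)) (hi _ (d1 k)) (hi _ (d1' k)) s1 s2
      with h | h | h | h
    exacts [k1 h, k2 h, k3 h, k4 h]
  obtain ⟨A, hA⟩ := hne
  obtain ⟨b, b1, b2, b3, b4⟩ := ha A hA
  refine Bdry.Chain.false hH (Φ := ⟨𝓛, hs, hc, hg, hn⟩) ⟨b, b1, b2, hp _ (b1 0), fun h => ?_,
    fun j => ((b3 j).mono (Bdry.Sub.refl _) b4.compl).fvp hH.cay hH.gap⟩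
  refine hp _ (hc A hA) ((B.null_iff_ae _).2 ?_)
  filter_upwards [(B.null_iff_ae _).1 h,
    ae_all_iff.2 fun k => (B.null_iff_ae _).1 (b3 k).sep.null_inter] with ξ h1 h2 h3
  obtain ⟨k, hk⟩ := mem_iUnion.1 (not_not.1 h1)
  exact h2 k ⟨hk, h3⟩

theorem Bdry.not_bddCaps (hH : RH S l Q) (hn : B.NonK Q) : ¬ B.BddCaps Q := by
  intro hb
  obtain ⟨u, hu, hlo, hhi⟩ := hn
  obtain ⟨A, D, hD, hdense, hprop, hsep, hlim⟩ :=
    Bdry.exists_lineK hH (Bdry.sb_of_bdd hH hb) hu hlo hhi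
  have hS := hH.cay
  refine Bdry.ffamb_family (B := B) hH {X | ∃ g : G, ∃ c ∈ D, X = g • A c ∨ X = g • (A c)ᶜ}
    ?_ ?_ ?_ ?_ ?_ ?_ ?_
  · obtain ⟨c, hc, -⟩ := hdense (1 / 4) (3 / 4) le_rfl (by norm_num) le_rfl
    exact ⟨_, 1, c, hc, Or.inl rfl⟩
  · rintro g' X ⟨g, c, hc, rfl | rfl⟩
    · exact ⟨g' * g, c, hc, Or.inl (mul_smul _ _ _).symm⟩
    · exact ⟨g' * g, c, hc, Or.inr (mul_smul _ _ _).symm⟩
  · rintro X ⟨g, c, hc, rfl | rfl⟩
    · exact ⟨g, c, hc, Or.inr smul_set_compl.symm⟩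
    · exact ⟨g, c, hc, Or.inl (by rw [smul_set_compl, compl_compl])⟩
  · rintro X ⟨g, c, hc, rfl | rfl⟩
    · exact (hprop c hc).1.smul hS g
    · exact (hprop c hc).1.compl.smul hS g
  · rintro X ⟨g, c, hc, rfl | rfl⟩
    · exact (hprop c hc).2.1.smul hS g
    · exact (hprop c hc).2.2.1.smul hS g
  · rintro X ⟨g, c, hc, rfl | rfl⟩
    · exact (Bdry.Two.smul hS (hprop c hc).2.2.2 g).1
    · exact (Bdry.Two.smul hS (Bdry.Two.compl (hprop c hc).2.2.2) g).1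
  · rintro X ⟨g, c, hc, rfl | rfl⟩
    · obtain ⟨t, ht1, ht2, ht3⟩ := exists_seq_strictMono_tendsto' (hD hc).1
      choose d hd1 hd2 hd3 using fun k => hdense (t k) (t (k + 1)) (ht2 k).1.le
        (ht1 (Nat.lt_succ_self k)) ((ht2 _).2.trans (hD hc).2).le
      have h1 : Tendsto d atTop (𝓝 c) :=
        tendsto_of_tendsto_of_tendsto_of_le_of_le ht3 tendsto_const_nhds (fun k => (hd2 k).le)
          fun k => ((hd3 k).trans (ht2 _).2).le
      exact ⟨fun k => g • A (d k), fun k => ⟨g, d k, hd1 k, Or.inl rfl⟩, Bdry.ffamb_approx hS g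
        (b := fun k => A (d k)) (fun k => (hsep _ (hd1 k) _ (hd1 _) ((hd3 k).trans (hd2 _))).1)
        (fun k => (hsep _ (hd1 k) _ hc ((hd3 k).trans (ht2 _).2)).2) (hlim c hc d hd1 h1)⟩
    · obtain ⟨t, ht1, ht2, ht3⟩ := exists_seq_strictAnti_tendsto' (hD hc).2
      choose d hd1 hd2 hd3 using fun k => hdense (t (k + 1)) (t k) ((hD hc).1.trans (ht2 _).1).le
        (ht1 (Nat.lt_succ_self k)) (ht2 _).2.le
      have h1 : Tendsto d atTop (𝓝 c) :=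
        tendsto_of_tendsto_of_tendsto_of_le_of_le tendsto_const_nhds ht3
          (fun k => ((ht2 _).1.trans (hd2 k)).le) fun k => (hd3 k).le
      refine ⟨fun k => g • (A (d k))ᶜ, fun k => ⟨g, d k, hd1 k, Or.inr rfl⟩,
        Bdry.ffamb_approx hS g (b := fun k => (A (d k))ᶜ) (fun k => compl_subset_compl.2
          (hsep _ (hd1 _) _ (hd1 k) ((hd3 _).trans (hd2 k))).1) (fun k => ?_) ?_⟩
      · rw [compl_compl]
        exact (hsep _ hc _ (hd1 k) ((ht2 _).1.trans (hd2 k))).2.symm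
      · simp only [compl_symmDiff_compl]
        exact hlim c hc d hd1 h1

end Vale.Agent.P239
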