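import Vale.Agent.P239.Full.FDef3

/-! Task FFib: fibres of fields. `‖f‖² = ∑_p ∫ (f p)² = ∫ ∑_p (f p ξ)²` (`lintegral_tsum`, `lp.norm_rpow_eq_tsum` or `lp.inner_eq_tsum`, `L2.inner_def`).
`exists_field`: each coordinate is in `L²` (`MemLp.toLp`), `Memℓp` from the finite total. `orth_fib`: for measurable `E`, `∫_E ∑ f g = ⟨f, 1_E g⟩ = 0` (`ae_eq_zero_of_forall_setIntegral_eq_of_sigmaFinite` or use `E = {∑ f g > 0}`).
`tendsto_fib`: choose a subsequence with summable squared norms, then the integral of the sum is finite. `inv_fibSub`: closedness by `tendsto_fib`; for translations use that `sh g⁻¹` preserves null sets.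
`dim_supp`: the orthogonal projection onto the support subspace is multiplication by the indicator.
-/

noncomputable section

open Classical MeasureTheory Filter Topology Set
open scoped Pointwise ENNReal

namespace Vale.Agent.P239

universe u
variable {G : Type u} [Group G] [Countable G] {X : Type u} [MeasurableSpace X] {A : PAct G X}
  {I : Type u} [Countable I]

theorem measurable_fibv (f : FH A I) (p : G × I) : Measurable fun ξ => fibv f ξ p :=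
  (Lp.stronglyMeasurable (f p)).measurable

theorem fh_ext {f g : FH A I} (h : ∀ᵐ ξ ∂A.P, ∀ p, fibv f ξ p = fibv g ξ p) : f = g :=
  lp.ext (funext fun p => Lp.ext (h.mono fun _ hξ => hξ p))

theorem fibv_add (f g : FH A I) : ∀ᵐ ξ ∂A.P, ∀ p, fibv (f + g) ξ p = fibv f ξ p + fibv g ξ p :=
  ae_all_iff.2 fun p => Lp.coeFn_add (f p) (g p)

theorem fibv_sub (f g : FH A I) : ∀ᵐ ξ ∂A.P, ∀ p, fibv (f - g) ξ p = fibv f ξ p - fibv g ξ p := by
  refine ae_all_iff.2 fun p => ?_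
  have e : (f - g) p = f p - g p := by rw [lp.coeFn_sub]; rfl
  have h := Lp.coeFn_sub (f p) (g p)
  filter_upwards [h] with ξ hξ
  unfold fibv
  rw [e, hξ]; rfl

theorem fibv_smul (c : ℝ) (f : FH A I) : ∀ᵐ ξ ∂A.P, ∀ p, fibv (c • f) ξ p = c * fibv f ξ p :=
  ae_all_iff.2 fun p => Lp.coeFn_smul c (f p)

theorem fibv_zero : ∀ᵐ ξ ∂A.P, ∀ p, fibv (0 : FH A I) ξ p = 0 :=
  ae_all_iff.2 fun _ => Lp.coeFn_zero ℝ 2 A.P

theorem ffib_L2 {Y : Type*} [MeasurableSpace Y] {μ : Measure Y} (u : Lp ℝ 2 μ) :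
    ENNReal.ofReal (‖u‖ ^ 2) = ∫⁻ ξ, ENNReal.ofReal ((u : Y → ℝ) ξ ^ 2) ∂μ := by
  have h1 : ‖u‖ ^ 2 = ∫ ξ, (u : Y → ℝ) ξ ^ 2 ∂μ := by
    rw [← real_inner_self_eq_norm_sq, L2.inner_def]
    refine integral_congr_ae (Eventually.of_forall fun ξ => ?_)
    simp only [real_inner_self_eq_norm_sq, Real.norm_eq_abs, sq_abs]
  rw [h1]
  refine ofReal_integral_eq_lintegral_ofReal ?_ (Eventually.of_forall fun ξ => sq_nonneg _)
  exact (memLp_two_iff_integrable_sq (Lp.aestronglyMeasurable u)).1 (Lp.memLp u)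

theorem ffib_enorm_sq {E : Type*} [NormedAddCommGroup E] (x : E) :
    ‖x‖ₑ ^ 2 = ENNReal.ofReal (‖x‖ ^ 2) := by
  rw [ENNReal.ofReal_pow (norm_nonneg _), ofReal_norm]

theorem ffib_meas_sq (f : FH A I) (p : G × I) :
    Measurable fun ξ => ENNReal.ofReal (fibv f ξ p ^ 2) :=
  ((measurable_fibv f p).pow_const 2).ennreal_ofReal

theorem ffib_enorm (f : FH A I) :
    ‖f‖ₑ ^ 2 = ∫⁻ ξ, ∑' p, ENNReal.ofReal (fibv f ξ p ^ 2) ∂A.P := by
  have h2 : (2 : ℝ≥0∞).toReal = ((2 : ℕ) : ℝ) := by simp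
  have hs := lp.hasSum_norm (p := 2) (by rw [h2]; norm_num) f
  simp only [h2, Real.rpow_natCast] at hs
  rw [lintegral_tsum fun p => (ffib_meas_sq f p).aemeasurable, ffib_enorm_sq, ← hs.tsum_eq,
    ENNReal.ofReal_tsum_of_nonneg (fun p => sq_nonneg _) hs.summable]
  exact tsum_congr fun p => ffib_L2 (f p)

theorem ffib_summable {α : Type*} {v : α → ℝ} (h : ∑' p, ENNReal.ofReal (v p ^ 2) ≠ ⊤) :
    SqSum v := by
  have h1 := ENNReal.summable_toReal h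
  refine h1.congr fun p => ?_
  exact ENNReal.toReal_ofReal (sq_nonneg _)

theorem ffib_fin (f : FH A I) : ∫⁻ ξ, ∑' p, ENNReal.ofReal (fibv f ξ p ^ 2) ∂A.P ≠ ⊤ := by
  rw [← ffib_enorm]
  exact ENNReal.pow_ne_top enorm_ne_top

theorem ae_sqSum_fibv (f : FH A I) : ∀ᵐ ξ ∂A.P, SqSum (fibv f ξ) := by
  have h := ae_lt_top (Measurable.tsum fun p => ffib_meas_sq f p) (ffib_fin f)
  filter_upwards [h] with ξ hξ
  exact ffib_summable hξ.ne

theorem enorm_sq_eq (f : FH A I) :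
    ‖f‖ₑ ^ 2 = ∫⁻ ξ, ∑' p, ENNReal.ofReal (fibv f ξ p ^ 2) ∂A.P := ffib_enorm f

theorem ffib_mul_le (a b : ℝ) : ‖a * b‖ₑ ≤ ENNReal.ofReal (a ^ 2) + ENNReal.ofReal (b ^ 2) := by
  rw [← ENNReal.ofReal_add (sq_nonneg _) (sq_nonneg _), ← ofReal_norm]
  refine ENNReal.ofReal_le_ofReal ?_
  rw [Real.norm_eq_abs, abs_le]
  constructor <;> nlinarith [sq_nonneg (a + b), sq_nonneg (a - b), sq_nonneg a, sq_nonneg b]

theorem ffib_mul_fin (f g : FH A I) :
    ∫⁻ ξ, ∑' p, ‖fibv f ξ p * fibv g ξ p‖ₑ ∂A.P < ⊤ := by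
  calc ∫⁻ ξ, ∑' p, ‖fibv f ξ p * fibv g ξ p‖ₑ ∂A.P
      ≤ ∫⁻ ξ, ((∑' p, ENNReal.ofReal (fibv f ξ p ^ 2)) +
          ∑' p, ENNReal.ofReal (fibv g ξ p ^ 2)) ∂A.P := by
        refine lintegral_mono fun ξ => ?_
        rw [← ENNReal.tsum_add]
        exact ENNReal.tsum_le_tsum fun p => ffib_mul_le _ _
    _ < ⊤ := by
        rw [lintegral_add_left (Measurable.tsum fun p => ffib_meas_sq f p)]
        exact ENNReal.add_lt_top.2 ⟨(ffib_fin f).lt_top, (ffib_fin g).lt_top⟩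

theorem integrable_fibv_mul (f g : FH A I) :
    Integrable (fun ξ => ∑' p, fibv f ξ p * fibv g ξ p) A.P := by
  refine ⟨(Measurable.tsum fun p =>
    (measurable_fibv f p).mul (measurable_fibv g p)).aestronglyMeasurable, ?_⟩
  exact lt_of_le_of_lt (lintegral_mono fun ξ => enorm_tsum_le_tsum_enorm) (ffib_mul_fin f g)

theorem inner_eq_integral (f g : FH A I) :
    inner ℝ f g = ∫ ξ, ∑' p, fibv f ξ p * fibv g ξ p ∂A.P := by
  have hm : ∀ p : G × I, Measurable fun ξ => fibv f ξ p * fibv g ξ p := fun p =>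
    (measurable_fibv f p).mul (measurable_fibv g p)
  rw [integral_tsum (fun p => (hm p).aestronglyMeasurable)
    (by rw [← lintegral_tsum fun p => (hm p).enorm.aemeasurable]; exact (ffib_mul_fin f g).ne),
    lp.inner_eq_tsum]
  refine tsum_congr fun p => ?_
  rw [L2.inner_def]
  refine integral_congr_ae (Eventually.of_forall fun ξ => ?_)
  simp only [fibv]
  rw [mul_comm]
  simp

theorem exists_field {F : X → G × I → ℝ} (hm : ∀ p, Measurable fun ξ => F ξ p)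
    (hf : ∫⁻ ξ, ∑' p, ENNReal.ofReal (F ξ p ^ 2) ∂A.P ≠ ⊤) :
    ∃ f : FH A I, ∀ᵐ ξ ∂A.P, ∀ p, fibv f ξ p = F ξ p := by
  have hm2 : ∀ p, Measurable fun ξ => ENNReal.ofReal (F ξ p ^ 2) := fun p =>
    ((hm p).pow_const 2).ennreal_ofReal
  rw [lintegral_tsum fun p => (hm2 p).aemeasurable] at hf
  have hL : ∀ p, MemLp (fun ξ => F ξ p) 2 A.P := by
    intro p
    rw [memLp_two_iff_integrable_sq (hm p).aestronglyMeasurable]
    refine ⟨((hm p).pow_const 2).aestronglyMeasurable, ?_⟩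
    rw [hasFiniteIntegral_iff_ofReal (Eventually.of_forall fun ξ => sq_nonneg _)]
    exact lt_of_le_of_lt (ENNReal.le_tsum (f := fun p => ∫⁻ ξ, ENNReal.ofReal (F ξ p ^ 2) ∂A.P) p)
      hf.lt_top
  have hn : ∀ p, ENNReal.ofReal (‖(hL p).toLp _‖ ^ 2) = ∫⁻ ξ, ENNReal.ofReal (F ξ p ^ 2) ∂A.P := by
    intro p
    rw [ffib_L2]
    refine lintegral_congr_ae ?_
    filter_upwards [(hL p).coeFn_toLp] with ξ hξ
    rw [hξ]
  have h2 : (2 : ℝ≥0∞).toReal = ((2 : ℕ) : ℝ) := by simp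
  have hmem : Memℓp (fun p : G × I => (hL p).toLp _) 2 := by
    refine memℓp_gen ?_
    simp only [h2, Real.rpow_natCast]
    refine ffib_summable (v := fun p : G × I => ‖(hL p).toLp _‖) ?_
    simp only [hn]
    exact hf
  exact ⟨⟨_, hmem⟩, ae_all_iff.2 fun p => (hL p).coeFn_toLp⟩

theorem tendsto_fib {f : ℕ → FH A I} {g : FH A I} (h : Tendsto f atTop (𝓝 g)) :
    ∃ φ : ℕ → ℕ, StrictMono φ ∧ ∀ᵐ ξ ∂A.P,
      Tendsto (fun n => ∑' p, (fibv (f (φ n)) ξ p - fibv g ξ p) ^ 2) atTop (𝓝 0) := by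
  have h1 : Tendsto (fun n => ‖f n - g‖ ^ 2) atTop (𝓝 0) := by
    have := (tendsto_iff_norm_sub_tendsto_zero.1 h).pow 2
    simpa using this
  have h2 : ∀ k : ℕ, ∀ᶠ n in atTop, ‖f n - g‖ ^ 2 ≤ (1 / 2 : ℝ) ^ k := fun k =>
    h1.eventually (ge_mem_nhds (by positivity))
  obtain ⟨φ, hφ, hle⟩ := extraction_forall_of_eventually h2
  refine ⟨φ, hφ, ?_⟩
  have hm : ∀ n, Measurable fun ξ => ∑' p, ENNReal.ofReal (fibv (f (φ n) - g) ξ p ^ 2) := fun n =>
    Measurable.tsum fun p => ffib_meas_sq _ p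
  have hfin : ∫⁻ ξ, ∑' n, ∑' p, ENNReal.ofReal (fibv (f (φ n) - g) ξ p ^ 2) ∂A.P ≠ ⊤ := by
    rw [lintegral_tsum fun n => (hm n).aemeasurable]
    refine ne_top_of_le_ne_top (b := ∑' n : ℕ, ENNReal.ofReal ((1 / 2 : ℝ) ^ n)) ?_ ?_
    · rw [← ENNReal.ofReal_tsum_of_nonneg (fun n => by positivity) summable_geometric_two]
      exact ENNReal.ofReal_ne_top
    · refine ENNReal.tsum_le_tsum fun n => ?_
      rw [← ffib_enorm, ffib_enorm_sq]
      exact ENNReal.ofReal_le_ofReal (hle n)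
  have hae := ae_lt_top (Measurable.tsum hm) hfin
  have hsub : ∀ᵐ ξ ∂A.P, ∀ n, ∀ p, fibv (f (φ n) - g) ξ p = fibv (f (φ n)) ξ p - fibv g ξ p :=
    ae_all_iff.2 fun n => fibv_sub _ _
  filter_upwards [hae, hsub] with ξ h3 h4
  have h5 := ENNReal.tendsto_atTop_zero_of_tsum_ne_top h3.ne
  have h6 := (ENNReal.tendsto_toReal ENNReal.zero_ne_top).comp h5
  rw [ENNReal.toReal_zero] at h6
  refine h6.congr fun n => ?_
  simp only [Function.comp]
  rw [ENNReal.tsum_toReal_eq fun p => ENNReal.ofReal_ne_top]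
  refine tsum_congr fun p => ?_
  rw [ENNReal.toReal_ofReal (sq_nonneg _), h4]

variable {τ : TS (FH A I) I}

theorem IsTS.orth_fib (hτ : IsTS A τ) {W : Submodule ℝ (FH A I)} (hW : τ.Stab W) {f g : FH A I}
    (hf : f ∈ Wᗮ) (hg : g ∈ W) : ∀ᵐ ξ ∂A.P, ∑' p, fibv f ξ p * fibv g ξ p = 0 := by
  refine (integrable_fibv_mul f g).ae_eq_zero_of_forall_setIntegral_eq_zero fun E hE _ => ?_
  obtain ⟨m, hm, hmE⟩ := hτ.mul E hE
  have h0 : inner ℝ f (m g) = 0 := Submodule.inner_left_of_mem_orthogonal (hW m hm g hg) hf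
  rw [inner_eq_integral] at h0
  rw [← h0, ← integral_indicator hE]
  refine integral_congr_ae ?_
  filter_upwards [hmE g] with ξ hξ
  by_cases h : ξ ∈ E
  · simp only [indicator_of_mem h, hξ, if_pos h]
  · simp only [indicator_of_notMem h, hξ, if_neg h, mul_zero, tsum_zero]

theorem IsTS.inner_δ (hτ : IsTS A τ) (f : FH A I) (i : I) :
    inner ℝ f (τ.δ i) = ∫ ξ, fibv f ξ (1, i) ∂A.P := by
  rw [inner_eq_integral]
  refine integral_congr_ae ?_
  filter_upwards [hτ.δ i] with ξ hξ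
  rw [tsum_eq_single ((1 : G), i) fun p hp => by rw [hξ, if_neg hp, mul_zero], hξ, if_pos rfl,
    mul_one]

theorem IsTS.inv_fibSub (hτ : IsTS A τ) {Φ : X → Submodule ℝ (G × I → ℝ)}
    (hc : ∀ᵐ ξ ∂A.P, ∀ (v : ℕ → G × I → ℝ) (w : G × I → ℝ), (∀ n, v n ∈ Φ ξ) → (∀ n, SqSum (v n)) →
      SqSum w → Tendsto (fun n => ∑' p, (v n p - w p) ^ 2) atTop (𝓝 0) → w ∈ Φ ξ)
    (he : ∀ g ξ v, v ∈ Φ ξ → (fun p : G × I => v (g⁻¹ * p.1, p.2)) ∈ Φ (A.sh g ξ)) :
    τ.Inv (fibSub A Φ) := by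
  refine ⟨IsSeqClosed.isClosed fun f g hf hg => ?_, fun m hm f hf => ?_⟩
  · obtain ⟨φ, -, hφ⟩ := tendsto_fib hg
    have h1 : ∀ᵐ ξ ∂A.P, ∀ n, fibv (f (φ n)) ξ ∈ Φ ξ := ae_all_iff.2 fun n => hf (φ n)
    have h2 : ∀ᵐ ξ ∂A.P, ∀ n, SqSum (fibv (f (φ n)) ξ) := ae_all_iff.2 fun n => ae_sqSum_fibv _
    change ∀ᵐ ξ ∂A.P, fibv g ξ ∈ Φ ξ
    filter_upwards [hc, hφ, h1, h2, ae_sqSum_fibv g] with ξ a1 a2 a3 a4 a5
    exact a1 (fun n => fibv (f (φ n)) ξ) _ a3 a4 a5 a2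
  · have hf' : ∀ᵐ ξ ∂A.P, fibv f ξ ∈ Φ ξ := hf
    change ∀ᵐ ξ ∂A.P, fibv (m f) ξ ∈ Φ ξ
    rcases hτ.mem m hm with ⟨E, -, hE⟩ | ⟨g, hg⟩
    · filter_upwards [hE f, hf'] with ξ a1 a2
      by_cases h : ξ ∈ E
      · have e : fibv (m f) ξ = fibv f ξ := funext fun p => by rw [a1, if_pos h]
        rw [e]; exact a2
      · have e : fibv (m f) ξ = 0 := funext fun p => by rw [a1, if_neg h]; rfl
        rw [e]; exact (Φ ξ).zero_mem
    · filter_upwards [hg f, (A.mp g⁻¹).quasiMeasurePreserving.ae hf'] with ξ a1 a2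
      have e : fibv (m f) ξ = fun p : G × I => fibv f (A.sh g⁻¹ ξ) (g⁻¹ * p.1, p.2) := funext a1
      have h3 := he g _ _ a2
      rw [← A.sh_mul, mul_inv_cancel, A.sh_one] at h3
      rw [e]; exact h3

theorem IsTS.inv_supp (hτ : IsTS A τ) {E : X → G × I → Prop}
    (he : ∀ g ξ p, E (A.sh g ξ) (g * p.1, p.2) ↔ E ξ p) :
    τ.Inv (fibSub A fun ξ => suppM (E ξ)) := by
  refine hτ.inv_fibSub (Eventually.of_forall fun ξ v w hv hs hw ht => ?_) fun g ξ v hv => ?_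
  · intro p hp
    have hle : ∀ n, w p ^ 2 ≤ ∑' q, (v n q - w q) ^ 2 := by
      intro n
      have hsum : Summable fun q => (v n q - w q) ^ 2 := by
        refine Summable.of_nonneg_of_le (fun q => sq_nonneg _) (fun q => ?_)
          (((hs n).mul_left 2).add (hw.mul_left 2))
        nlinarith [sq_nonneg (v n q + w q)]
      have h1 := hsum.le_tsum p fun q _ => sq_nonneg _
      have h2 : v n p = 0 := hv n p hp
      rw [h2, zero_sub, neg_sq] at h1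
      exact h1
    have h0 : w p ^ 2 ≤ 0 := ge_of_tendsto' ht hle
    exact pow_eq_zero_iff (two_ne_zero) |>.1 (le_antisymm h0 (sq_nonneg _))
  · intro p hp
    refine hv (g⁻¹ * p.1, p.2) fun h => hp ?_
    have h1 := (he g ξ (g⁻¹ * p.1, p.2)).2 h
    simpa using h1

theorem IsTS.dim_supp (hτ : IsTS A τ) {E : X → G × I → Prop}
    (hm : ∀ p, MeasurableSet {ξ | E ξ p}) :
    τ.dim (fibSub A fun ξ => suppM (E ξ)) = ∑' i, A.P {ξ | E ξ (1, i)} := by
  unfold TS.dim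
  refine tsum_congr fun i => ?_
  have hI : ∀ ξ, ∑' p : G × I, ENNReal.ofReal ((if p = (1, i) ∧ E ξ p then (1 : ℝ) else 0) ^ 2) =
      indicator {ξ | E ξ (1, i)} (fun _ => (1 : ℝ≥0∞)) ξ := by
    intro ξ
    rw [tsum_eq_single ((1 : G), i) fun p hp => by simp [hp]]
    by_cases h : E ξ (1, i)
    · simp [h]
    · simp [h]
  have hint : ∫⁻ ξ, ∑' p : G × I,
      ENNReal.ofReal ((if p = (1, i) ∧ E ξ p then (1 : ℝ) else 0) ^ 2) ∂A.P =
      A.P {ξ | E ξ (1, i)} := by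
    simp only [hI]
    rw [lintegral_indicator_const (hm _), one_mul]
  obtain ⟨e, he⟩ := exists_field (A := A)
    (F := fun ξ (p : G × I) => if p = (1, i) ∧ E ξ p then (1 : ℝ) else 0)
    (fun p => Measurable.ite ((MeasurableSet.const _).inter (hm p)) measurable_const
      measurable_const) (by rw [hint]; exact measure_ne_top _ _)
  have hmem : e ∈ fibSub A fun ξ => suppM (E ξ) := by
    change ∀ᵐ ξ ∂A.P, fibv e ξ ∈ suppM (E ξ)
    filter_upwards [he] with ξ hξ p hp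
    rw [hξ, if_neg fun h => hp h.2]
  have hproj : (fibSub A fun ξ => suppM (E ξ)).topologicalClosure.starProjection (τ.δ i) = e := by
    refine Submodule.eq_starProjection_of_mem_orthogonal
      (Submodule.le_topologicalClosure _ hmem) ?_
    rw [Submodule.orthogonal_closure, Submodule.mem_orthogonal]
    intro w hw
    have hw' : ∀ᵐ ξ ∂A.P, fibv w ξ ∈ suppM (E ξ) := hw
    rw [inner_eq_integral]
    refine integral_eq_zero_of_ae ?_
    filter_upwards [hw', he, hτ.δ i, fibv_sub (τ.δ i) e] with ξ a1 a2 a3 a4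
    have h0 : ∀ p, fibv w ξ p * fibv (τ.δ i - e) ξ p = 0 := by
      intro p
      by_cases h : E ξ p
      · rw [a4, a2, a3]; simp [h]
      · rw [a1 p h, zero_mul]
    simp only [h0, tsum_zero, Pi.zero_apply]
  rw [hproj, ffib_enorm, ← hint]
  refine lintegral_congr_ae ?_
  filter_upwards [he] with ξ hξ
  simp only [hξ]

theorem isOrtho_supp {E E' : X → G × I → Prop} (h : ∀ ξ p, E ξ p → ¬ E' ξ p) :
    (fibSub A fun ξ => suppM (E ξ)) ⟂ (fibSub A fun ξ => suppM (E' ξ)) := by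
  rw [Submodule.isOrtho_iff_inner_eq]
  intro u hu v hv
  have hu' : ∀ᵐ ξ ∂A.P, fibv u ξ ∈ suppM (E ξ) := hu
  have hv' : ∀ᵐ ξ ∂A.P, fibv v ξ ∈ suppM (E' ξ) := hv
  rw [inner_eq_integral]
  refine integral_eq_zero_of_ae ?_
  filter_upwards [hu', hv'] with ξ a1 a2
  have h0 : ∀ p, fibv u ξ p * fibv v ξ p = 0 := by
    intro p
    by_cases hp : E ξ p
    · rw [a2 p (h ξ p hp), mul_zero]
    · rw [a1 p hp, zero_mul]
  simp only [h0, tsum_zero, Pi.zero_apply]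

end Vale.Agent.P239
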