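import Vale.Agent.P239.Full.FMP
import Vale.Agent.P239.LimA
import Vale.Agent.P239.LimB

/-! Task FNest: finite visibility, convergence in measure, nested families. Much can be copied from LimA.lean / LimB.lean (`limA_mono`, `limA_disj`, `limA_null`, `limA_h`, `LbCv.*`,
`Family.exists_subseq`). `FVP.null_inter`: the intersection is good, if nonnull infinitely many points see it (`Good.infinite_deep`).
`exists_mono_subseq`: infinite Ramsey for the four corners (as in `Family.exists_subseq`), `limA_disj` excludes the disjoint cases. `Clo.nested`: one corner is null for infinitely many pairs `(b k, b' k)`.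
`Clo.of_cv`: diagonal sequence. `sub_of_ssub`: for large `k` the three corners `E ∩ b k`, `Eᶜ ∩ b k`, `Eᶜ ∩ (b k)ᶜ` are nonnull (if `E` is null it is trivial).
-/

noncomputable section

open Classical MeasureTheory Filter Topology Set
open scoped Pointwise ENNReal

namespace Vale.Agent.P239

universe u
variable {G : Type u} [Group G] {S : Finset G} {l : ℕ} {Q : Cones S} {B : Bdry S}

namespace Bdry

theorem FVP.symm {E E' : Set (Bd G)} (h : B.FVP Q E E') : B.FVP Q E' E := by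
  refine ⟨fun ε hε => (h.1 ε hε).subset fun x hx => ⟨hx.2, hx.1⟩, fun i γ => (h.2 i γ).symm⟩

theorem FVP.mono (hS : Cay S) {E E' F F' : Set (Bd G)} (h : B.FVP Q E E') (h1 : B.Sub F E)
    (h2 : B.Sub F' E') : B.FVP Q F F' := by
  refine ⟨fun ε hε => (h.1 ε hε).subset fun x hx =>
    ⟨hx.1.trans (B.h_mono hS h1 x), hx.2.trans (B.h_mono hS h2 x)⟩, fun i γ => ?_⟩
  exact (h.2 i γ).imp
    (fun H ε hε => (H ε hε).subset fun x hx => ⟨hx.1, hx.2.trans (B.h_mono hS h1 x)⟩)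
    fun H ε hε => (H ε hε).subset fun x hx => ⟨hx.1, hx.2.trans (B.h_mono hS h2 x)⟩

theorem FVP.smul {E E' : Set (Bd G)} (h : B.FVP Q E E') (g : G) : B.FVP Q (g • E) (g • E') := by
  have e : ∀ (A : Set (Bd G)) (x : G), B.h (g • A) x = B.h A (g⁻¹ * x) := fun A x => by
    rw [← B.h_smul g (g⁻¹ * x) A, mul_inv_cancel_left]
  have key : ∀ {T T' : Set G}, T.Finite → (∀ x ∈ T', g⁻¹ * x ∈ T) → T'.Finite :=
    fun hT hT' => (hT.preimage (f := fun x => g⁻¹ * x)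
      (mul_right_injective g⁻¹).injOn).subset hT'
  have hc : ∀ i γ x, x ∈ Q.cone i γ → g⁻¹ * x ∈ Q.cone i (g⁻¹ * γ) := fun i γ x hx => by
    have e2 : (g⁻¹ * γ)⁻¹ * (g⁻¹ * x) = γ⁻¹ * x := by group
    change (g⁻¹ * γ)⁻¹ * (g⁻¹ * x) ∈ Q.H i
    rw [e2]
    exact hx
  refine ⟨fun ε hε => key (h.1 ε hε) fun x hx => ⟨e E x ▸ hx.1, e E' x ▸ hx.2⟩, fun i γ => ?_⟩
  rcases h.2 i (g⁻¹ * γ) with H | H
  · exact Or.inl fun ε hε => key (H ε hε) fun x hx => ⟨hc i γ x hx.1, e E x ▸ hx.2⟩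
  · exact Or.inr fun ε hε => key (H ε hε) fun x hx => ⟨hc i γ x hx.1, e E' x ▸ hx.2⟩

theorem fvp_of_null (hS : Cay S) {E E' : Set (Bd G)} (h : B.Null E) : B.FVP Q E E' := by
  have e : ∀ x, B.h E x = 0 := fun x => by
    rw [Bdry.h, Measure.real, (B.null_iff hS x E).2 h, ENNReal.toReal_zero]
  refine ⟨fun ε hε => finite_empty.subset fun x hx => ?_,
    fun i γ => Or.inl fun ε hε => finite_empty.subset fun x hx => ?_⟩
  · exact absurd (e x ▸ hx.1) (not_le.2 hε)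
  · exact absurd (e x ▸ hx.2) (not_le.2 hε)

theorem FVP.null_inter (hS : Cay S) {E E' : Set (Bd G)} (h : B.FVP Q E E') (hE : B.Good E)
    (hE' : B.Good E') : B.Null (E ∩ E') := by
  by_contra hne
  refine (hE.inter hS hE').infinite_deep hS hne (θ := 1 / 2) (by norm_num)
    ((h.1 (1 / 2) (by norm_num)).subset fun x hx => ?_)
  exact ⟨(le_of_lt hx).trans (B.h_mono hS (Sub.of_subset inter_subset_left) x),
    (le_of_lt hx).trans (B.h_mono hS (Sub.of_subset inter_subset_right) x)⟩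

theorem Cv.compl {A : ℕ → Set (Bd G)} {L : Set (Bd G)} (h : B.Cv A L) :
    B.Cv (fun k => (A k)ᶜ) Lᶜ := by
  exact LbCv.compl h

theorem Cv.inter {A C : ℕ → Set (Bd G)} {L R : Set (Bd G)} (h : B.Cv A L) (h' : B.Cv C R) :
    B.Cv (fun k => A k ∩ C k) (L ∩ R) := by
  exact LbCv.inter h h'

theorem Cv.union {A C : ℕ → Set (Bd G)} {L R : Set (Bd G)} (h : B.Cv A L) (h' : B.Cv C R) :
    B.Cv (fun k => A k ∪ C k) (L ∪ R) := by
  have h1 := (h.compl.inter h'.compl).compl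
  simp only [compl_inter, compl_compl] at h1
  exact h1

theorem Cv.smul (hS : Cay S) {A : ℕ → Set (Bd G)} {L : Set (Bd G)} (h : B.Cv A L) (g : G) :
    B.Cv (fun k => g • A k) (g • L) := by
  refine (B.tendsto_μ hS g⁻¹ h).congr fun k => ?_
  rw [← smul_set_symmDiff, ← B.μ_smul g g⁻¹, mul_inv_cancel]

theorem Cv.comp {A : ℕ → Set (Bd G)} {L : Set (Bd G)} (h : B.Cv A L) {φ : ℕ → ℕ}
    (hφ : Tendsto φ atTop atTop) : B.Cv (fun k => A (φ k)) L := by
  exact Tendsto.comp (g := fun k => B.μ 1 (symmDiff (A k) L)) h hφ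

theorem Cv.tendsto_h (hS : Cay S) {A : ℕ → Set (Bd G)} {L : Set (Bd G)} (h : B.Cv A L) (x : G) :
    Tendsto (fun k => B.h (A k) x) atTop (𝓝 (B.h L x)) := by
  have h1 := (ENNReal.tendsto_toReal ENNReal.zero_ne_top).comp (B.tendsto_μ hS x h)
  rw [tendsto_iff_norm_sub_tendsto_zero]
  exact squeeze_zero (fun _ => norm_nonneg _) (fun k => B.abs_h_sub_le (A k) L x) h1

theorem Cv.eventually_not_null {A : ℕ → Set (Bd G)} {L : Set (Bd G)} (h : B.Cv A L)
    (hL : ¬ B.Null L) : ∀ᶠ k in atTop, ¬ B.Null (A k) := by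
  exact LbCv.pos h hL

theorem Cv.unique {A : ℕ → Set (Bd G)} {L L' : Set (Bd G)} (h : B.Cv A L) (h' : B.Cv A L') :
    B.AEq L L' := by
  exact ⟨limA_null (B.μ 1) (fun k => by rw [inter_compl_self, measure_empty]) h h'.compl,
    limA_null (B.μ 1) (fun k => by rw [inter_compl_self, measure_empty]) h' h.compl⟩

theorem Cv.sub_of_frequently {A : ℕ → Set (Bd G)} {L E : Set (Bd G)} (h : B.Cv A L)
    (h' : ∃ᶠ k in atTop, B.Sub (A k) E) : B.Sub L E := by
  by_contra hne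
  obtain ⟨k, h1, h2⟩ := (h'.and_eventually
    ((h.inter (lbCv_const Eᶜ)).eventually_not_null hne)).exists
  exact h2 h1

theorem Cv.sub_of_frequently' {A : ℕ → Set (Bd G)} {L E : Set (Bd G)} (h : B.Cv A L)
    (h' : ∃ᶠ k in atTop, B.Sub E (A k)) : B.Sub E L := by
  by_contra hne
  obtain ⟨k, h1, h2⟩ := (h'.and_eventually
    ((Cv.inter (lbCv_const E) h.compl).eventually_not_null hne)).exists
  exact h2 h1

theorem cv_iUnion {A : ℕ → Set (Bd G)} (hm : ∀ k, MeasurableSet (A k))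
    (h : ∀ k, B.Sub (A k) (A (k + 1))) : B.Cv A (⋃ k, A k) := by
  exact limA_mono (B.μ 1) hm fun i j hij => limA_chain h hij.le

theorem Nested.symm {A A' : Set (Bd G)} (h : B.Nested A A') : B.Nested A' A := by
  unfold Nested
  rw [inter_comm A' A, inter_comm A' Aᶜ, inter_comm A'ᶜ A, inter_comm A'ᶜ Aᶜ]
  rcases h with h | h | h | h
  exacts [Or.inl h, Or.inr (Or.inr (Or.inl h)), Or.inr (Or.inl h), Or.inr (Or.inr (Or.inr h))]

theorem Nested.sub_or {A A' : Set (Bd G)} (h : B.Nested A A') (h1 : ¬ B.Null (A ∩ A'))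
    (h2 : ¬ B.Null (Aᶜ ∩ A'ᶜ)) : B.Sub A A' ∨ B.Sub A' A := by
  rcases h with h | h | h | h
  · exact absurd h h1
  · exact Or.inl h
  · rw [inter_comm] at h
    exact Or.inr h
  · exact absurd h h2

theorem exists_mono_subseq {A : ℕ → Set (Bd G)} (hm : ∀ k, MeasurableSet (A k))
    (hn : ∀ i j, i ≠ j → B.Nested (A i) (A j)) {ε : ℝ} (hε : 0 < ε) (h : ∀ k, B.Sees ε (A k) 1) :
    ∃ φ : ℕ → ℕ, StrictMono φ ∧ ((∀ i j, i < j → B.Sub (A (φ i)) (A (φ j))) ∨
      ∀ i j, i < j → B.Sub (A (φ j)) (A (φ i))) := by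
  have : IsTrans (Set (Bd G)) B.Sub := ⟨fun _ _ _ => Sub.trans⟩
  obtain ⟨g, hg1 | hg1⟩ := exists_increasing_or_nonincreasing_subseq B.Sub A
  · exact ⟨g, g.strictMono, Or.inl hg1⟩
  obtain ⟨g', hg2 | hg2⟩ := exists_increasing_or_nonincreasing_subseq B.Sub fun k => (A (g k))ᶜ
  · refine ⟨fun k => g (g' k), g.strictMono.comp g'.strictMono, Or.inr fun i j hij => ?_⟩
    have h1 := (hg2 i j hij).compl
    rwa [compl_compl, compl_compl] at h1
  refine (limA_disj (B.μ 1) (A := fun k => A (g (g' k))) (fun k => hm _) hε (fun k => h _)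
    fun i j hij => ?_).elim
  rcases hn (g (g' i)) (g (g' j)) (g.strictMono (g'.strictMono hij)).ne with h1 | h1 | h1 | h1
  · exact Or.inl h1
  · exact absurd h1 (hg1 _ _ (g'.strictMono hij))
  · refine absurd ?_ (hg2 _ _ hij)
    rw [Sub, Set.sdiff_compl]
    exact h1
  · exact Or.inr h1

theorem exists_cv (hS : Cay S) {A : ℕ → Set (Bd G)} (hm : ∀ k, B.Good (A k))
    (hn : ∀ i j, i ≠ j → B.Nested (A i) (A j)) {ε : ℝ} (hε : 0 < ε) (h : ∀ k, B.Sees ε (A k) 1) :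
    ∃ (φ : ℕ → ℕ) (L : Set (Bd G)), StrictMono φ ∧ B.Good L ∧ B.Sees ε L 1 ∧
      B.Cv (fun k => A (φ k)) L := by
  obtain ⟨φ, L, h1, h2, h3⟩ : ∃ (φ : ℕ → ℕ) (L : Set (Bd G)), StrictMono φ ∧ B.Good L ∧
      B.Cv (fun k => A (φ k)) L := by
    obtain ⟨φ, hφ, H | H⟩ := exists_mono_subseq (fun k => (hm k).1) hn hε h
    · exact ⟨φ, _, hφ, good_iUnion hS fun k => hm (φ k),
        cv_iUnion (fun k => (hm _).1) fun k => H _ _ (Nat.lt_succ_self k)⟩
    · refine ⟨φ, (⋃ k, (A (φ k))ᶜ)ᶜ, hφ, (good_iUnion hS fun k => (hm (φ k)).compl).compl, ?_⟩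
      have h1 := (cv_iUnion (B := B) (A := fun k => (A (φ k))ᶜ) (fun k => (hm _).1.compl)
        fun k => (H _ _ (Nat.lt_succ_self k)).compl).compl
      simp only [compl_compl] at h1
      exact h1
  exact ⟨φ, L, h1, h2, ⟨ge_of_tendsto' (h3.tendsto_h hS 1) fun k => (h _).1,
    ge_of_tendsto' (h3.compl.tendsto_h hS 1) fun k => (h _).2⟩, h3⟩

theorem sub_of_ssub {E X : Set (Bd G)} {b : ℕ → Set (Bd G)} (hn : ∀ k, B.Nested E (b k))
    (hb : B.Cv b X) (hbX : ∀ k, B.Sub (b k) X) (hE : B.SSub E X) (hX : ¬ B.Null Xᶜ) :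
    ∀ᶠ k in atTop, B.Sub E (b k) := by
  have _ := hbX
  by_cases h0 : B.Null E
  · exact Eventually.of_forall fun k => measure_mono_null sdiff_subset h0
  have h1 := (B.sub_iff _ _).1 hE.1
  have c1 : ¬ B.Null (E ∩ X) := lb_pos h0 (h1.mono fun ξ h h' => ⟨h', h h'⟩)
  have c2 : ¬ B.Null (Eᶜ ∩ X) := by
    rw [inter_comm]
    exact hE.2
  have c3 : ¬ B.Null (Eᶜ ∩ Xᶜ) := lb_pos hX (h1.mono fun ξ h h' => ⟨fun h'' => h' (h h''), h'⟩)
  filter_upwards [(Cv.inter (lbCv_const E) hb).eventually_not_null c1,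
    (Cv.inter (lbCv_const Eᶜ) hb).eventually_not_null c2,
    (Cv.inter (lbCv_const Eᶜ) hb.compl).eventually_not_null c3] with k k1 k2 k3
  rcases hn k with h | h | h | h
  exacts [absurd h k1, h, absurd h k2, absurd h k3]

/-- The closure of a nested family for convergence in measure. -/
def NFam.Clo (Φ : B.NFam) (E : Set (Bd G)) : Prop :=
  B.Good E ∧ ∃ b : ℕ → Set (Bd G), (∀ k, b k ∈ Φ.𝓛) ∧ B.Cv b E

variable {Φ : B.NFam}

theorem NFam.clo_of_mem {E : Set (Bd G)} (h : E ∈ Φ.𝓛) : Φ.Clo E := by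
  exact ⟨Φ.good E h, fun _ => E, fun _ => h, lbCv_const E⟩

theorem NFam.Clo.compl {E : Set (Bd G)} (h : Φ.Clo E) : Φ.Clo Eᶜ := by
  obtain ⟨h1, b, h2, h3⟩ := h
  exact ⟨h1.compl, fun k => (b k)ᶜ, fun k => Φ.compl _ (h2 k), h3.compl⟩

theorem NFam.Clo.smul (hS : Cay S) {E : Set (Bd G)} (h : Φ.Clo E) (g : G) : Φ.Clo (g • E) := by
  obtain ⟨h1, b, h2, h3⟩ := h
  exact ⟨h1.smul hS g, fun k => g • b k, fun k => Φ.smul g _ (h2 k), h3.smul hS g⟩

theorem NFam.Clo.nested {E E' : Set (Bd G)} (h : Φ.Clo E) (h' : Φ.Clo E') : B.Nested E E' := by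
  obtain ⟨-, b, h2, h3⟩ := h
  obtain ⟨-, b', h2', h3'⟩ := h'
  by_contra hne
  simp only [Nested, not_or] at hne
  obtain ⟨c1, c2, c3, c4⟩ := hne
  obtain ⟨k, k1, k2, k3, k4⟩ := (((h3.inter h3').eventually_not_null c1).and
    (((h3.inter h3'.compl).eventually_not_null c2).and
    (((h3.compl.inter h3').eventually_not_null c3).and
    ((h3.compl.inter h3'.compl).eventually_not_null c4)))).exists
  rcases Φ.nested _ (h2 k) _ (h2' k) with h | h | h | h
  exacts [k1 h, k2 h, k3 h, k4 h]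

theorem NFam.Clo.of_cv {E : ℕ → Set (Bd G)} {X : Set (Bd G)} (h : ∀ k, Φ.Clo (E k))
    (hX : B.Good X) (hc : B.Cv E X) : Φ.Clo X := by
  have h1 : ∀ k : ℕ, ∃ b ∈ Φ.𝓛, B.μ 1 (symmDiff b (E k)) < (k : ℝ≥0∞)⁻¹ := fun k => by
    obtain ⟨-, b, h2, h3⟩ := h k
    obtain ⟨j, hj⟩ := (Tendsto.eventually_lt_const
      (ENNReal.inv_pos.2 (ENNReal.natCast_ne_top k)) h3).exists
    exact ⟨b j, h2 j, hj⟩
  choose b h2 h3 using h1
  refine ⟨hX, b, h2, ?_⟩
  have h4 := ENNReal.tendsto_inv_nat_nhds_zero.add hc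
  rw [add_zero] at h4
  refine tendsto_of_tendsto_of_tendsto_of_le_of_le tendsto_const_nhds h4 (fun _ => zero_le)
    fun k => ?_
  exact (measure_mono (symmDiff_triangle (b k) (E k) X)).trans
    ((measure_union_le _ _).trans (add_le_add_left (h3 k).le _))

end Bdry

end Vale.Agent.P239
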