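import Vale.Agent.P239.Full.FDef4
import Vale.Agent.P239.Full.FKcut
import Vale.Agent.P239.Full.FIsK
import Vale.Agent.P239.Full.FNest
import Vale.Agent.P239.Full.FEnc
import Vale.Agent.P239.Full.FEnv

/-! Task FPair: two walls with different values. `end_side`: if `c < c'` use `End` with `a = (c + c')/2`, otherwise use `-v`. `fvp_of_sides`: an edge leaving `A ∩ A'` starts in `wallV A ∩ A'` or `wallV A' ∩ A`, so `A ∩ A'` is finite or cofinite,
cofinite is impossible; `sepK_of_walls`, `SepK.fvp`. `gl_cut`: copy the proof of `kcut`. `a < a₁ < a₂ < a₃ < b`, `val p = u p.1 - ψ p`, `val' p = max (val p - b) 0` if `a₃ < val p` and `fibR r p \ U` is finite, else `0`; `ψ' p = θ p.1 - val' p` on existing points, `0` elsewhere.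
For a class with `a₃ < val`, `U ∩ class` or `class \ U` is finite (`ends`, `ClsC.tendsto`): the exceptional set. If it is nonempty some step `x → y` inside the class leaves `U` (`conn`); either `|ψ| ≥ a₃ - a₂` at one of the two points (finitely many points),
or `θ₀ = ind U * max (u - a₁) 0` (`kcut`) jumps by at least `a₂ - a₁` along the step, which forces `x` or `y` into a fixed finite set (`FinEn.of_cay` or `osc_sq`, `KF.dev_finite`); `loc` leaves finitely many exceptional classes.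
`trans_of_gdens`, `dir_of_gdens`: approximate (`abs_sub_le_energy`; a single term is bounded by the sum); for `dir` cut with `θ = ind U * max (u - b) 0` (`kcut`, `gl_cut`), whose values on the two classes are the limits `0` and `c' - b`.
-/

noncomputable section

open Classical MeasureTheory Filter Topology Set
open scoped Pointwise ENNReal

namespace Vale.Agent.P239

universe u
variable {G : Type u} [Group G] {S : Finset G} {l : ℕ} {Q : Cones S} {B : Bdry S}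

omit [Group G] in
theorem fpair_lt {v : G → ℝ} {W : Set G} {c a : ℝ} (h : Tendsto v (cofinite ⊓ 𝓟 W) (𝓝 c))
    (hc : c < a) : (W ∩ {x | a < v x}).Finite := by
  have h1 := h.eventually (gt_mem_nhds hc)
  rw [eventually_inf_principal, eventually_cofinite] at h1
  exact h1.subset fun x hx h2 => lt_asymm (h2 hx.1) hx.2

omit [Group G] in
theorem fpair_gt {v : G → ℝ} {W : Set G} {c a : ℝ} (h : Tendsto v (cofinite ⊓ 𝓟 W) (𝓝 c))
    (hc : a < c) : (W ∩ {x | v x < a}).Finite := by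
  have h1 := h.eventually (lt_mem_nhds hc)
  rw [eventually_inf_principal, eventually_cofinite] at h1
  exact h1.subset fun x hx h2 => lt_asymm (h2 hx.1) hx.2

theorem fpair_step {α : Type*} {R : α → α → Prop} {U : Set α} {x y : α}
    (h : Relation.ReflTransGen R x y) (hx : x ∈ U) (hy : y ∉ U) :
    ∃ a b, R a b ∧ a ∈ U ∧ b ∉ U := by
  induction h with
  | refl => exact absurd hx hy
  | @tail b c _ hbc ih =>
    by_cases hb : b ∈ U
    · exact ⟨b, c, hbc, hb, hy⟩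
    · exact ih hb

theorem fpair_sq {α : Type*} {ψ : α → ℝ} (h : SqSum ψ) {η : ℝ} (hη : 0 < η) :
    {p | η ≤ |ψ p|}.Finite := by
  have h1 := (Summable.tendsto_cofinite_zero h).eventually (gt_mem_nhds (pow_pos hη 2))
  rw [eventually_cofinite] at h1
  refine h1.subset fun p hp h2 => ?_
  have h3 := pow_le_pow_left₀ hη.le (show η ≤ |ψ p| from hp) 2
  rw [sq_abs] at h3
  exact absurd h2 (not_lt.2 h3)

omit [Group G] in
theorem fpair_over {r : G × ℕ → G × ℕ → Prop} (hr : EqvOK r) (p : G × ℕ) {F : Set G}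
    (hF : F.Finite) : {q | r p q ∧ q.1 ∈ F}.Finite := by
  refine Set.Finite.of_finite_image (f := Prod.fst) (hF.subset ?_) ?_
  · rintro _ ⟨q, hq, rfl⟩
    exact hq.2
  · rintro ⟨x, j⟩ h1 ⟨y, j'⟩ h2 e
    obtain rfl : x = y := e
    rw [hr.func p x j j' h1.1 h2.1]

theorem fpair_jump {θ : G → ℝ} {φ : Fin Q.n → G → ℝ} (h : Q.KF θ φ) (R : ℕ) {δ : ℝ}
    (hδ : 0 < δ) : ∃ K : Set G, K.Finite ∧ ∀ x y, Q.Step l R x y → δ ≤ |θ x - θ y| →
      x ∈ K ∨ y ∈ K := by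
  obtain ⟨C, -, hC⟩ := osc_sq S R
  refine ⟨_, (fpair_sq (hC θ h.1).1 hδ).union (h.dev_finite l (half_pos hδ)),
    fun x y hs hd => ?_⟩
  rcases hs with hs | ⟨i, γ, hx, hy⟩
  · have h1 := abs_sub_le_osc θ x (one_mem_ball R) hs
    rw [mul_one, mul_inv_cancel_left] at h1
    exact Or.inl (Or.inl ((hd.trans h1).trans (le_abs_self _)))
  · by_cases h1 : δ / 2 ≤ |θ x - (θ γ - φ i γ)|
    · exact Or.inl (Or.inr ⟨i, γ, hx, h1⟩)
    · refine Or.inr (Or.inr ⟨i, γ, hy, ?_⟩)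
      have h2 := abs_sub_le (θ x) (θ γ - φ i γ) (θ y)
      rw [abs_sub_comm (θ γ - φ i γ)] at h2
      linarith [not_le.1 h1]

theorem wallV_away (U W : Set G) : wallV S (away U W) = wallV S U := by
  unfold away
  split_ifs
  · rfl
  · exact wallV_compl U

theorem away_finite {U W : Set G} (h : (U ∩ W).Finite ∨ (W \ U).Finite) : (away U W ∩ W).Finite :=
  by
    unfold away
    split_ifs with h1
    · exact h1
    · exact (h.resolve_left h1).subset fun x hx => ⟨hx.2, hx.1⟩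

theorem end_side {v : G → ℝ} {φ : Fin Q.n → G → ℝ} (hv : Q.KF v φ) {C U : Set G} (hC : Q.End C)
    {c c' : ℝ} (hc : c ≠ c') (h1 : Tendsto v (cofinite ⊓ 𝓟 (wallV S U)) (𝓝 c))
    (h2 : Tendsto v (cofinite ⊓ 𝓟 C) (𝓝 c')) : (U ∩ C).Finite ∨ (C \ U).Finite := by
  rcases lt_or_gt_of_ne hc with h | h
  · obtain ⟨a, ha, ha'⟩ := exists_between h
    exact hC v φ hv c' a ha' h2 U (fpair_lt h1 ha)
  · obtain ⟨a, ha, ha'⟩ := exists_between h
    refine hC _ _ (hv.const_mul (-1)) (-1 * c') (-1 * a) (by linarith) (h2.const_mul (-1)) U ?_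
    refine (fpair_gt h1 ha').subset fun x hx => ⟨hx.1, ?_⟩
    have h3 : -1 * a < -1 * v x := hx.2
    show v x < a
    linarith

theorem fvp_of_sides (B : Bdry S) (hH : RH S l Q) {v : G → ℝ} {φ : Fin Q.n → G → ℝ}
    (hv : Q.KF v φ) {A A' : Set G} {c c' : ℝ} (hc : c ≠ c')
    (h1 : Tendsto v (cofinite ⊓ 𝓟 (wallV S A)) (𝓝 c))
    (h2 : Tendsto v (cofinite ⊓ 𝓟 (wallV S A')) (𝓝 c')) (f1 : (A ∩ wallV S A').Finite)
    (f2 : (A' ∩ wallV S A).Finite) (hi : (wallV S A).Infinite) :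
    B.FVP Q (hatSet A) (hatSet A') := by
  have hin : ∀ x ∈ A ∩ A', x ∈ wallV S (A ∩ A') → x ∈ A ∩ wallV S A' ∪ A' ∩ wallV S A :=
    fun x hx hw => (wallV_inter A A' hw).elim (fun h => Or.inr ⟨hx.2, h⟩) fun h => Or.inl ⟨hx.1, h⟩
  have hw : (wallV S (A ∩ A')).Finite := by
    refine (nbh_finite (S := S) 1 (f1.union f2)).subset fun x hx => ?_
    by_cases h : x ∈ A ∩ A'
    · exact subset_nbh 1 _ (hin x h hx)
    · obtain ⟨s, hs, h3⟩ := hx
      refine ⟨x * s, hin _ (by tauto) (hH.cay.mul_mem_wallV hs h3), ?_⟩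
      simpa using mem_ball_one (hH.cay.symm s hs)
  have hd : (A ∩ A').Finite := by
    refine (hH.one _ ((wallV_finite_iff _).1 hw)).resolve_right fun h => hi ?_
    refine (f2.union h).subset fun x hx => ?_
    by_cases h3 : x ∈ A'
    · exact Or.inl ⟨h3, hx⟩
    · exact Or.inr fun h4 => h3 h4.2
  rcases lt_or_gt_of_ne hc with h | h
  · obtain ⟨a, ha, ha'⟩ := exists_between h
    obtain ⟨b, hb, hb'⟩ := exists_between ha'
    exact (sepK_of_walls B hH hv hb (fpair_lt h1 ha) (fpair_gt h2 hb') hd).symm.fvp hH.cay hH.gap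
  · obtain ⟨a, ha, ha'⟩ := exists_between h
    obtain ⟨b, hb, hb'⟩ := exists_between ha'
    exact (sepK_of_walls B hH hv hb (fpair_lt h2 ha) (fpair_gt h1 hb')
      (inter_comm A A' ▸ hd)).fvp hH.cay hH.gap

theorem pair_fvp (hH : RH S l Q) {U U' : Set G} (hU : WOK B Q l U) (hU' : WOK B Q l U')
    {v : G → ℝ} {φ : Fin Q.n → G → ℝ} (hv : Q.KF v φ) {c c' : ℝ} (hc : c ≠ c')
    (h1 : Tendsto v (cofinite ⊓ 𝓟 (wallV S U)) (𝓝 c))
    (h2 : Tendsto v (cofinite ⊓ 𝓟 (wallV S U')) (𝓝 c')) :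
    B.FVP Q (hatSet (away U (wallV S U'))) (hatSet (away U' (wallV S U))) := by
  refine fvp_of_sides B hH hv hc (by rwa [wallV_away]) (by rwa [wallV_away]) ?_ ?_ ?_
  · rw [wallV_away]
    exact away_finite (end_side hv hU'.ends hc h1 h2)
  · rw [wallV_away]
    exact away_finite (end_side hv hU.ends hc.symm h2 h1)
  · rw [wallV_away]
    intro h
    rcases hH.one _ ((wallV_finite_iff _).1 h) with h3 | h3
    · exact hU.two.1 (B.null_hatSet_of_finite hH.cay h3)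
    · exact hU.two.2 (hatSet_compl U ▸ B.null_hatSet_of_finite hH.cay h3)

theorem fpair_exc (hH : RH S l Q) {r : G × ℕ → G × ℕ → Prop} (hr : ClsOK Q l r) {u : G → ℝ}
    {φ : Fin Q.n → G → ℝ} (hu : Q.KF u φ) {ψ : G × ℕ → ℝ} (hψ : ClsC r u ψ) {a b : ℝ} (hab : a < b)
    {U : Set G} (hU : (wallV S U ∩ {x | a < u x}).Finite) :
    {p | r p p ∧ b < u p.1 - ψ p ∧ ¬ (p.1 ∈ U ↔ (fibR r p \ U).Finite)}.Finite := by
  obtain ⟨A, hA⟩ : ∃ A : Set (G × ℕ), ∀ p, p ∈ A ↔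
    r p p ∧ b < u p.1 - ψ p ∧ ¬ (p.1 ∈ U ↔ (fibR r p \ U).Finite) := ⟨_, fun _ => Iff.rfl⟩
  refine Set.Finite.subset (s := A) ?_ fun p hp => (hA p).2 hp
  have hend : ∀ q ∈ A, ¬ (fibR r q \ U).Finite → (U ∩ fibR r q).Finite := fun q hq h2 =>
    (hr.ends q ((hA q).1 hq).1 u φ hu _ a (hab.trans ((hA q).1 hq).2.1) (hψ.tendsto hr.eqv q)
      U hU).resolve_right h2
  have hF : ∀ p, {q | r p q ∧ q ∈ A}.Finite := fun p => by
    rcases Set.eq_empty_or_nonempty {q | r p q ∧ q ∈ A} with h | ⟨q₀, h0, h1⟩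
    · rw [h]; exact finite_empty
    have he : ∀ q, r p q → fibR r q = fibR r q₀ := fun q hq =>
      (hr.eqv.fibR_eq hq).symm.trans (hr.eqv.fibR_eq h0)
    have hm : ∀ q, r p q → q.1 ∈ fibR r q₀ := fun q hq =>
      ⟨q.2, hr.eqv.trans _ _ _ (hr.eqv.symm _ _ h0) hq⟩
    by_cases h2 : (fibR r q₀ \ U).Finite
    · refine (fpair_over hr.eqv p h2).subset fun q hq => ⟨hq.1, hm q hq.1, fun h3 => ?_⟩
      refine ((hA q).1 hq.2).2.2 ?_
      rw [he q hq.1]
      exact iff_of_true h3 h2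
    · refine (fpair_over hr.eqv p (hend q₀ h1 h2)).subset fun q hq =>
        ⟨hq.1, by_contra fun h3 => ?_, hm q hq.1⟩
      refine ((hA q).1 hq.2).2.2 ?_
      rw [he q hq.1]
      exact iff_of_false h3 h2
  obtain ⟨δ, hδ⟩ : ∃ δ, δ = (b - a) / 3 := ⟨_, rfl⟩
  have h0 : 0 < δ := by linarith
  obtain ⟨φ₀, hθ⟩ := kcut hH hu (b := a + δ) (by linarith) hU
  obtain ⟨K, hK, hj⟩ := fpair_jump (l := l) hθ (2 * l + 1) h0
  have hK' : {p : G × ℕ | p.1 ∈ K ∧ r p p}.Finite := by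
    refine (hK.biUnion fun x _ => (hr.loc x).image fun j => (x, j)).subset fun p hp => ?_
    exact mem_biUnion hp.1 ⟨p.2, hp.2, rfl⟩
  refine ((hK'.union (fpair_sq hψ.1 h0)).biUnion fun p _ => hF p).subset fun q hq => ?_
  obtain ⟨hqq, hb, hx⟩ := (hA q).1 hq
  have hq1 : q.1 ∈ fibR r q := ⟨q.2, hqq⟩
  obtain ⟨x, hxU, hxC, y, hyC, hyU⟩ : ∃ x ∈ U, x ∈ fibR r q ∧ ∃ y ∈ fibR r q, y ∉ U := by
    by_cases h2 : (fibR r q \ U).Finite
    · obtain ⟨x, h3, h4⟩ := ((hr.inf q hqq).sdiff h2).nonempty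
      exact ⟨x, by_contra fun h5 => h4 ⟨h3, h5⟩, h3, q.1, hq1, fun h5 => hx (iff_of_true h5 h2)⟩
    · obtain ⟨y, h3, h4⟩ := (show (fibR r q \ U).Infinite from h2).nonempty
      exact ⟨q.1, by_contra fun h5 => hx (iff_of_false h5 h2), hq1, y, h3, h4⟩
  obtain ⟨x', y', ⟨⟨j, h1⟩, ⟨j', h2⟩, hs⟩, hx', hy'⟩ :=
    fpair_step (hr.conn q hqq x hxC hyC).2 hxU hyU
  by_cases h3 : δ ≤ |ψ (x', j)|
  · exact mem_biUnion (x := (x', j)) (Or.inr h3) ⟨hr.eqv.symm _ _ h1, hq⟩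
  have h4 := hψ.2 _ _ h1
  have h5 := neg_abs_le (ψ (x', j))
  have h6 : δ ≤ |ind U x' * max (u x' - (a + δ)) 0 - ind U y' * max (u y' - (a + δ)) 0| := by
    simp only [ind, if_pos hx', if_neg hy', one_mul, zero_mul, sub_zero]
    refine le_trans (le_trans ?_ (le_max_left _ _)) (le_abs_self _)
    simp only at h4
    linarith [not_le.1 h3]
  rcases hj x' y' hs h6 with h7 | h7
  · exact mem_biUnion (x := (x', j))
      (Or.inl ⟨h7, hr.eqv.refl_left (hr.eqv.symm _ _ h1)⟩) ⟨hr.eqv.symm _ _ h1, hq⟩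
  · exact mem_biUnion (x := (y', j'))
      (Or.inl ⟨h7, hr.eqv.refl_left (hr.eqv.symm _ _ h2)⟩) ⟨hr.eqv.symm _ _ h2, hq⟩

theorem gl_cut (hH : RH S l Q) {r : G × ℕ → G × ℕ → Prop} (hr : ClsOK Q l r) {u : G → ℝ}
    {φ : Fin Q.n → G → ℝ} (hu : Q.KF u φ) {ψ : G × ℕ → ℝ} (hψ : ClsC r u ψ) {a b : ℝ} (hab : a < b)
    {U : Set G} (hU : (wallV S U ∩ {x | a < u x}).Finite) :
    ∃ ψ', ClsC r (fun x => ind U x * max (u x - b) 0) ψ' := by
  refine ⟨fun p => if r p p then ind U p.1 * max (u p.1 - b) 0 -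
    (if (fibR r p \ U).Finite then max (u p.1 - ψ p - b) 0 else 0) else 0, ?_, fun p q hpq => ?_⟩
  · refine Summable.of_norm_bounded_eventually hψ.1 ?_
    rw [eventually_cofinite]
    refine (fpair_exc hH hr hu hψ hab hU).subset fun p hp => by_contra fun hx => hp ?_
    rw [Real.norm_eq_abs, abs_pow, ← sq_abs (ψ p)]
    refine pow_le_pow_left₀ (abs_nonneg _) ?_ 2
    by_cases h0 : r p p
    · have h1 := Bdry.capA_pos_lip b (u p.1) (u p.1 - ψ p)
      rw [sub_sub_cancel] at h1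
      simp only [if_pos h0]
      by_cases h2 : b < u p.1 - ψ p
      · have h3 : p.1 ∈ U ↔ (fibR r p \ U).Finite := by_contra fun h3 => hx ⟨h0, h2, h3⟩
        simp only [← h3, ind]
        split_ifs
        · rwa [one_mul]
        · simp
      · rw [max_eq_right (by linarith : u p.1 - ψ p - b ≤ 0), sub_zero] at h1
        simp only [max_eq_right (by linarith : u p.1 - ψ p - b ≤ 0), ite_self, sub_zero]
        exact (fkcut_abs _ _ _).trans h1
    · simp [h0]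
  · simp only [if_pos (hr.eqv.refl_left hpq), if_pos (hr.eqv.refl_left (hr.eqv.symm _ _ hpq)),
      sub_sub_cancel, hr.eqv.fibR_eq hpq, hψ.2 p q hpq]

theorem fpair_approx (hS : Cay S) {L : Type} {r : L → G × ℕ → G × ℕ → Prop} {A : Set L}
    (hd : GDens Q r A) {u : G → ℝ} {φ : Fin Q.n → G → ℝ} {ψ : L → G × ℕ → ℝ} (hu : Q.KF u φ)
    (hψ : ∀ a ∈ A, ClsC (r a) u (ψ a)) (x y : G) {η : ℝ} (hη : 0 < η) :
    ∃ (u' : G → ℝ) (φ' : Fin Q.n → G → ℝ) (ψ' : L → G × ℕ → ℝ), Q.KF u' φ' ∧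
      (∀ a, ClsC (r a) u' (ψ' a)) ∧ |u x - u' x| ≤ η ∧ |u y - u' y| ≤ η ∧
      ∀ a ∈ A, ∀ q, |ψ a q - ψ' a q| ≤ η := by
  obtain ⟨C, hC, h1⟩ := abs_sub_le_energy hS x
  obtain ⟨C', hC', h2⟩ := abs_sub_le_energy hS y
  obtain ⟨ε, hε⟩ : ∃ ε, ε = η ^ 2 / (1 + C + C') := ⟨_, rfl⟩
  have h0 : 0 < ε := by rw [hε]; positivity
  have he : ε * (1 + C + C') = η ^ 2 := by rw [hε]; field_simp
  obtain ⟨u', φ', ψ', k1, k2, k3, k4, k5⟩ := hd u φ ψ hu hψ ε h0
  have hf := hu.1.sub k1.1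
  have e1 := h1 _ hf
  have e2 := h2 _ hf
  simp only [k3, sub_self, sub_zero] at e1 e2
  refine ⟨u', φ', ψ', k1, k2, abs_le_of_sq_le_sq' ?_ hη.le |> abs_le.2,
    abs_le_of_sq_le_sq' ?_ hη.le |> abs_le.2,
    fun a ha q => abs_le_of_sq_le_sq' ?_ hη.le |> abs_le.2⟩
  · nlinarith [mul_le_mul_of_nonneg_left k4 hC, mul_nonneg h0.le hC']
  · nlinarith [mul_le_mul_of_nonneg_left k4 hC', mul_nonneg h0.le hC]
  · have h3 := (fkf_sq (hψ a ha).1 (k2 a).1 (w := fun q => ψ a q - ψ' a q) (L := 1)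
      fun q => by rw [one_mul]; exact abs_sub _ _).1
    have h4 := Summable.le_tsum h3 q fun _ _ => sq_nonneg _
    nlinarith [k5 a ha, mul_nonneg h0.le hC, mul_nonneg h0.le hC']

theorem trans_of_gdens (hS : Cay S) {L : Type} {r : L → G × ℕ → G × ℕ → Prop} {i j k : L}
    (hik : i ≠ k) (hd : GDens Q r {i, k}) {p p' p'' : G × ℕ} (h1 : BadR Q (r i) p (r j) p')
    (h2 : BadR Q (r j) p' (r k) p'') : BadR Q (r i) p (r k) p'' := by
  intro u φ ψ ψ'' hu c1 c2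
  refine eq_of_abs_sub_nonpos (le_of_forall_pos_le_add fun η hη => ?_)
  obtain ⟨u', φ', ψ', k1, k2, k3, k4, k5⟩ := fpair_approx hS hd
    (ψ := fun a => if a = i then ψ else ψ'') hu (fun a ha => by
      rcases ha with rfl | rfl
      · simpa using c1
      · simpa [hik.symm] using c2) p.1 p''.1 (η := η / 4) (by positivity)
  have e1 := h1 u' φ' _ _ k1 (k2 i) (k2 j)
  have e2 := h2 u' φ' _ _ k1 (k2 j) (k2 k)
  have e3 := k5 i (Or.inl rfl) p
  have e4 := k5 k (Or.inr rfl) p''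
  simp only [if_true, if_neg hik.symm] at e3 e4
  rw [abs_le] at k3 k4 e3 e4 ⊢
  constructor <;> linarith [k3.1, k3.2, k4.1, k4.2, e3.1, e3.2, e4.1, e4.2]

omit [Group G] in
theorem fpair_lim {u : G → ℝ} {U C : Set G} (hC : C.Infinite) {b c t : ℝ} (hb : b < c)
    (hu : Tendsto u (cofinite ⊓ 𝓟 C) (𝓝 c))
    (hθ : Tendsto (fun x => ind U x * max (u x - b) 0) (cofinite ⊓ 𝓟 C) (𝓝 t)) :
    (U ∩ C).Finite ↔ t = 0 := by
  constructor
  · intro h
    have := hC.cofinite_inf_principal_neBot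
    refine tendsto_nhds_unique hθ (tendsto_const_nhds.congr' ?_)
    rw [EventuallyEq, eventually_inf_principal, eventually_cofinite]
    refine h.subset fun x hx => ?_
    simp only [mem_ofPred_eq, Classical.not_imp] at hx
    refine ⟨by_contra fun h1 => hx.2 ?_, hx.1⟩
    simp [ind, h1]
  · intro ht
    by_contra h
    have := (show (U ∩ C).Infinite from h).cofinite_inf_principal_neBot
    have hle : cofinite ⊓ 𝓟 (U ∩ C) ≤ cofinite ⊓ 𝓟 C :=
      inf_le_inf_left _ (principal_mono.2 inter_subset_right)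
    have h1 := ((hu.mono_left hle).sub_const b).max (tendsto_const_nhds (x := (0 : ℝ)))
    have h2 := tendsto_nhds_unique (hθ.mono_left hle) (h1.congr' (by
      rw [EventuallyEq, eventually_inf_principal]
      exact Eventually.of_forall fun x hx => by simp [ind, hx.1]))
    rw [ht, max_eq_left (by linarith)] at h2
    linarith

theorem fpair_dir (hH : RH S l Q) {r₁ r₂ r₃ : G × ℕ → G × ℕ → Prop} (hi : EqvOK r₁)
    (hj : ClsOK Q l r₂) (hk : ClsOK Q l r₃) {p p' p'' : G × ℕ} (hp' : r₂ p' p') (hp'' : r₃ p'' p'')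
    {U : Set G} (hU : wallV S U = fibR r₁ p) (h2 : BadR Q r₂ p' r₃ p'') {u : G → ℝ}
    {φ : Fin Q.n → G → ℝ} {ψ₁ ψ₂ ψ₃ : G × ℕ → ℝ} (hu : Q.KF u φ) (c1 : ClsC r₁ u ψ₁)
    (c2 : ClsC r₂ u ψ₂) (c3 : ClsC r₃ u ψ₃) (hc : u p.1 - ψ₁ p < u p'.1 - ψ₂ p') :
    (U ∩ fibR r₂ p').Finite ↔ (U ∩ fibR r₃ p'').Finite := by
  obtain ⟨a, ha, ha'⟩ := exists_between hc
  obtain ⟨b, hb, hb'⟩ := exists_between ha'
  have hw : (wallV S U ∩ {x | a < u x}).Finite := hU ▸ fpair_lt (c1.tendsto hi p) ha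
  obtain ⟨φ', hθ⟩ := kcut hH hu hb hw
  obtain ⟨χ₂, d2⟩ := gl_cut hH hj hu c2 hb hw
  obtain ⟨χ₃, d3⟩ := gl_cut hH hk hu c3 hb hw
  rw [fpair_lim (hj.inf p' hp') hb' (c2.tendsto hj.eqv p') (d2.tendsto hj.eqv p'),
    fpair_lim (hk.inf p'' hp'') (h2 u φ ψ₂ ψ₃ hu c2 c3 ▸ hb') (c3.tendsto hk.eqv p'')
      (d3.tendsto hk.eqv p''), h2 _ φ' χ₂ χ₃ hθ d2 d3]

theorem dir_of_gdens (hH : RH S l Q) {L : Type} {r : L → G × ℕ → G × ℕ → Prop} {i j k : L}
    (hij : i ≠ j) (hd : GDens Q r {i, j}) (hi : EqvOK (r i)) (hj : ClsOK Q l (r j))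
    (hk : ClsOK Q l (r k)) {p p' p'' : G × ℕ} (hp' : r j p' p') (hp'' : r k p'' p'') {U : Set G}
    (hU : wallV S U = fibR (r i) p) (h1 : ¬ BadR Q (r i) p (r j) p')
    (h2 : BadR Q (r j) p' (r k) p'') :
    (U ∩ fibR (r j) p').Finite ↔ (U ∩ fibR (r k) p'').Finite := by
  simp only [BadR, not_forall] at h1
  obtain ⟨u, φ, ψ, ψ'', hu, c1, c2, hne⟩ := h1
  obtain ⟨η, hη⟩ : ∃ η, η = |u p.1 - ψ p - (u p'.1 - ψ'' p')| := ⟨_, rfl⟩
  have h0 : 0 < η := hη ▸ abs_pos.2 (sub_ne_zero.2 hne)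
  obtain ⟨u', φ', ψ', k1, k2, k3, k4, k5⟩ := fpair_approx hH.cay hd
    (ψ := fun a => if a = i then ψ else ψ'') hu (fun a ha => by
      rcases ha with rfl | rfl
      · simpa using c1
      · simpa [hij.symm] using c2) p.1 p'.1 (η := η / 5) (by positivity)
  have e3 := k5 i (Or.inl rfl) p
  have e4 := k5 j (Or.inr rfl) p'
  simp only [if_true, if_neg hij.symm] at e3 e4
  rcases lt_trichotomy (u' p.1 - ψ' i p) (u' p'.1 - ψ' j p') with h | h | h
  · exact fpair_dir hH hi hj hk hp' hp'' hU h2 k1 (k2 i) (k2 j) (k2 k) h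
  · exfalso
    have h3 : η ≤ 4 / 5 * η := by
      conv_lhs => rw [hη]
      rw [abs_le] at k3 k4 e3 e4 ⊢
      constructor <;> linarith [k3.1, k3.2, k4.1, k4.2, e3.1, e3.2, e4.1, e4.2]
    linarith
  · exact fpair_dir hH hi hj hk hp' hp'' hU h2 (k1.const_mul (-1)) ((k2 i).const_mul (-1))
      ((k2 j).const_mul (-1)) ((k2 k).const_mul (-1)) (by linarith)

end Vale.Agent.P239
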