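import Vale.Agent.P239.Full.FGam
import Vale.Agent.P239.Full.FPair

/-! Task FFin1: extension of a cut along a class from `Γ` to `G`. `exc_bound`: for a cone with class `≠ t` let `E` be the exceptional set; it is finite (`sep_fun`, `end_side`, `ax6`). A cone meets each `trc t * b` in at most one point (`cone_cls`, `eq_of_mem`),
so it has at most `|ball R|` points in `nbh R (trc t)`, and `edgeBd (T i) E` has at most `|ball R| |T i|` elements; `iso` bounds `|E| ≤ K'`; the `T i`-ball of radius `K'` about `σ ∈ E` leaves `E` (`card_ball_gt`, `exists_cross`), giving a wall vertex of `U` within `K'`.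
`extend`: `U' = (X ∩ π⁻¹ U) ∪ ⋃ {γ • K i | cone i γ \ U finite}`. Wall edges inside `X` map to wall edges of `U` (`edge`, `near`, `nbh_trc'`); for an edge between `x ∈ X` and a core: if the class is `t` use `same_cls` (with `cone_cls` or `mem_cone_iff`) and `wall_sub`;
otherwise `π x = σ a` with `σ` in the cone, and `σ ∈ wallV U` or `σ ∈ E`.
-/

noncomputable section

open Classical MeasureTheory Filter Topology Set
open scoped Pointwise ENNReal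

namespace Vale.Agent.P239

universe u
variable {G : Type u} [Group G] {S : Finset G} {l L : ℕ} {B : Bdry S} {Z : Cores B L}
  (Y : Tr Z)

theorem ffin_ball {T T' : Finset G} (h : T ⊆ T') (k : ℕ) : ball T k ⊆ ball T' k :=
  Finset.pow_subset_pow_left (Finset.insert_subset_insert 1 h)

namespace Tr

theorem ffin_card (hS : Cay S) (tf : TorsionFree G) {t : Subgroup G} (ht : IsCl S t) (R : ℕ)
    {i : Fin Y.Q.n} {γ : Z.Γ} (hne : Z.cls ((γ : G) • Y.K i) ≠ t) :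
    (Y.Q.cone i γ ∩ nbh Y.S' R (trc Z.Γ t)).Finite ∧
      (Y.Q.cone i γ ∩ nbh Y.S' R (trc Z.Γ t)).ncard ≤ (ball Y.S' R).card := by
  have h : ∀ x : Z.Γ, ∃ a : Z.Γ, x ∈ nbh Y.S' R (trc Z.Γ t) →
      a ∈ trc Z.Γ t ∧ a⁻¹ * x ∈ ball Y.S' R := fun x => by
    by_cases hx : x ∈ nbh Y.S' R (trc Z.Γ t)
    · obtain ⟨a, ha⟩ := hx
      exact ⟨a, fun _ => ha⟩
    · exact ⟨1, fun h => absurd h hx⟩
  choose a ha using h
  have hm : MapsTo (fun x => (a x)⁻¹ * x) (Y.Q.cone i γ ∩ nbh Y.S' R (trc Z.Γ t))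
      (ball Y.S' R : Set Z.Γ) := fun x hx => (ha x hx.2).2
  have hi : InjOn (fun x => (a x)⁻¹ * x) (Y.Q.cone i γ ∩ nbh Y.S' R (trc Z.Γ t)) := by
    intro x hx y hy hxy
    by_contra hn
    have e : x * y⁻¹ = a x * (a y)⁻¹ := by
      have e' : (a x)⁻¹ * x = (a y)⁻¹ * y := hxy
      calc x * y⁻¹ = a x * ((a x)⁻¹ * x) * y⁻¹ := by group
        _ = a x * (a y)⁻¹ := by rw [e']; group
    refine hne (IsCl.eq_of_mem hS tf (Z.cl _ (Y.smul_K_mem i γ)).1 ht (g := (x * y⁻¹ : Z.Γ))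
      (fun h => hn (mul_inv_eq_one.1 (Subtype.ext h))) ?_ ?_)
    · have k := (Z.cls ((γ : G) • Y.K i)).mul_mem (Y.cone_cls hS hx.1)
        ((Z.cls ((γ : G) • Y.K i)).inv_mem (Y.cone_cls hS hy.1))
      simpa [mul_assoc] using k
    · rw [e]
      exact t.mul_mem (ha x hx.2).1 (t.inv_mem (ha y hy.2).1)
  refine ⟨Set.Finite.of_injOn hm hi (Finset.finite_toSet _), ?_⟩
  rw [← Set.ncard_coe_finset]
  exact Set.ncard_le_ncard_of_injOn _ hm hi (Finset.finite_toSet _)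

theorem exc_bound (hS : Cay S) (tf : TorsionFree G) {l' : ℕ} (hR : RH Y.S' l' Y.Q)
    {t : Subgroup G} (ht : IsCl S t) {U : Set Z.Γ} {R : ℕ}
    (hU : wallV Y.S' U ⊆ nbh Y.S' R (trc Z.Γ t)) : ∃ r, ∀ i (γ : Z.Γ),
      Z.cls ((γ : G) • Y.K i) ≠ t → ∀ σ ∈ Y.Q.cone i γ,
        ¬ (σ ∈ U ↔ (Y.Q.cone i γ \ U).Finite) → σ ∈ nbh Y.S' r (trc Z.Γ t) := by
  choose K' hK' using fun i => hR.iso i ((ball Y.S' R).card * (Y.Q.T i).card)
  refine ⟨R + Finset.univ.sup K', fun i γ hne σ hσ hσ' => ?_⟩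
  obtain ⟨E, hE⟩ : ∃ E : Set Z.Γ, ∀ x, x ∈ E ↔
      x ∈ Y.Q.cone i γ ∧ ¬ (x ∈ U ↔ (Y.Q.cone i γ \ U).Finite) :=
    ⟨{x | x ∈ Y.Q.cone i γ ∧ ¬ (x ∈ U ↔ (Y.Q.cone i γ \ U).Finite)}, fun _ => Iff.rfl⟩
  have hfin : E.Finite := by
    obtain ⟨u, φ, c, c', hu, hc, h1, h2⟩ := Y.sep_fun hS tf ht i γ hne
    have h3 := end_side hu (hR.ax6 i γ) hc
      ((h2 R).mono_left (inf_le_inf_left _ (principal_mono.2 hU))) h1
    by_cases hf : (Y.Q.cone i γ \ U).Finite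
    · refine hf.subset fun x hx => ?_
      rw [hE] at hx
      exact ⟨hx.1, fun h => hx.2 (iff_of_true h hf)⟩
    · refine (h3.resolve_right hf).subset fun x hx => ?_
      rw [hE] at hx
      exact ⟨by_contra fun h => hx.2 (iff_of_false h hf), hx.1⟩
  have hed : edgeBd (Y.Q.T i) E ⊆
      (Y.Q.cone i γ ∩ nbh Y.S' R (trc Z.Γ t)) ×ˢ (Y.Q.T i : Set Z.Γ) := by
    rintro ⟨x, s⟩ ⟨hs, hx⟩
    have hsH : s ∈ Y.Q.H i := Subgroup.subset_closure hs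
    have hxc : x ∈ Y.Q.cone i γ := by
      by_contra hn
      refine hx (iff_of_false (fun h => hn ((hE _).1 h).1) fun h => hn ?_)
      simpa using Cones.mul_mem_cone ((hE _).1 h).1 ((Y.Q.H i).inv_mem hsH)
    refine ⟨⟨hxc, hU ⟨s, Y.Q.sub i hs, fun h => hx ?_⟩⟩, hs⟩
    change x ∈ E ↔ x * s ∈ E
    rw [hE, hE, h]
    exact and_congr_left' (iff_of_true hxc (Cones.mul_mem_cone hxc hsH))
  obtain ⟨c1, c2⟩ := Y.ffin_card hS tf ht R hne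
  have hcard : E.ncard ≤ K' i := by
    refine hK' i E hfin ((Set.ncard_le_ncard hed (c1.prod (Finset.finite_toSet _))).trans ?_)
    rw [Set.ncard_prod, Set.ncard_coe_finset]
    exact Nat.mul_le_mul_right _ c2
  have hy : ∃ y ∈ bl (Y.Q.T i) σ (K' i), y ∉ E := by
    by_contra hn
    have hm : MapsTo (fun b => σ * b) (ball (Y.Q.T i) (K' i) : Set Z.Γ) E := fun b hb => by
      by_contra hb'
      exact hn ⟨σ * b, by simpa [bl] using hb, hb'⟩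
    have k1 := Set.ncard_le_ncard_of_injOn _ hm (mul_right_injective σ).injOn hfin
    rw [Set.ncard_coe_finset] at k1
    have k2 := card_ball_gt (Y.Q.symm i) (Y.Q.inf i) (K' i)
    omega
  obtain ⟨y, hy, hy'⟩ := hy
  obtain ⟨z, hz, s, hs, hzs, hzb⟩ := exists_cross ((hE σ).2 ⟨hσ, hσ'⟩) hy' hy
  obtain ⟨a, ha, hab⟩ := (hed (show (z, s) ∈ edgeBd (Y.Q.T i) E from
    ⟨hs, fun h => hzs (h.1 hz)⟩)).1.2
  have hsub := ffin_ball (Y.Q.sub i) (K' i)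
  have hz1 : z ∈ bl Y.S' σ (Finset.univ.sup K') :=
    bl_mono _ (Finset.le_sup (Finset.mem_univ i)) (hsub hzb)
  exact ⟨a, ha, mem_bl_trans hab (mem_bl_symm Y.cay hz1)⟩

theorem extend (hS : Cay S) (tf : TorsionFree G) (hL : 1 ≤ L) {l' : ℕ} (hR : RH Y.S' l' Y.Q)
    {t : Subgroup G} (ht : IsCl S t) {U : Set Z.Γ} {R : ℕ}
    (hU : wallV Y.S' U ⊆ nbh Y.S' R (trc Z.Γ t)) :
    ∃ (U' : Set G) (R' : ℕ), wallV S U' ⊆ nbh S R' t ∧
      ∀ i (γ : Z.Γ), ∀ x ∈ (γ : G) • Y.K i, (x ∈ U' ↔ (Y.Q.cone i γ \ U).Finite) := by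
  obtain ⟨U', hU'⟩ : ∃ U' : Set G, ∀ x, x ∈ U' ↔ (x ∈ Z.X ∧ Y.π x ∈ U) ∨
      ∃ (i : Fin Y.Q.n) (γ : Z.Γ), x ∈ (γ : G) • Y.K i ∧ (Y.Q.cone i γ \ U).Finite :=
    ⟨{x | (x ∈ Z.X ∧ Y.π x ∈ U) ∨
      ∃ (i : Fin Y.Q.n) (γ : Z.Γ), x ∈ (γ : G) • Y.K i ∧ (Y.Q.cone i γ \ U).Finite},
      fun _ => Iff.rfl⟩
  have hK : ∀ i (γ : Z.Γ), ∀ x ∈ (γ : G) • Y.K i, (x ∈ U' ↔ (Y.Q.cone i γ \ U).Finite) := by
    intro i γ x hx
    rw [hU']
    refine ⟨?_, fun h => Or.inr ⟨i, γ, hx, h⟩⟩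
    rintro (h | ⟨j, γ', h1, h2⟩)
    · exact absurd hx (h.1 _ (Y.smul_K_mem i γ))
    · have e := Z.sep _ (Y.smul_K_mem j γ') _ (Y.smul_K_mem i γ) x h1 x hx (mem_bl_self x L)
      obtain rfl := Y.uniq _ _ _ _ e
      rwa [Cones.cone_eq ((Y.mem_cone_iff j γ γ').2 e)] at h2
  have hX : ∀ x ∈ Z.X, (x ∈ U' ↔ Y.π x ∈ U) := by
    intro x hx
    rw [hU']
    refine ⟨?_, fun h => Or.inl ⟨hx, h⟩⟩
    rintro (h | ⟨j, γ', h1, -⟩)
    · exact h.2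
    · exact absurd h1 (hx _ (Y.smul_K_mem j γ'))
  have hcore : ∀ x, x ∉ Z.X → ∃ (i : Fin Y.Q.n) (γ : Z.Γ), x ∈ (γ : G) • Y.K i := by
    intro x hx
    by_contra hn
    refine hx fun K hK hxK => hn ?_
    obtain ⟨i, γ, rfl⟩ := Y.orbit K hK
    exact ⟨i, γ, hxK⟩
  obtain ⟨r₁, h₁⟩ := Y.same_cls hS ht
  obtain ⟨r₂, h₂⟩ := Y.exc_bound hS tf hR ht hU
  obtain ⟨R₁, hR₁⟩ := Y.near
  obtain ⟨R₂, hR₂⟩ := Y.nbh_trc' hS t (R + r₁ + r₂ + 1)
  have key : ∀ x ∈ Z.X, x ∈ wallV S U' → x ∈ nbh S (R₂ + R₁) t := by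
    rintro x hx ⟨s, hs, hxs⟩
    have hx1 : x ∈ nbh S 1 Z.X := subset_nbh 1 _ hx
    suffices h : Y.π x ∈ nbh Y.S' (R + r₁ + r₂ + 1) (trc Z.Γ t) by
      obtain ⟨a, ha, hab⟩ := hR₂ _ h
      exact ⟨a, ha, mem_bl_trans hab (hR₁ x hx1)⟩
    by_cases hy : x * s ∈ Z.X
    · have he := Y.edge x hx1 (x * s) (subset_nbh 1 _ hy)
        (bl_mono _ (by omega) (mul_mem_bl (mem_bl_self x 0) hs))
      refine nbh_mono (by omega) subset_rfl (hU ⟨_, he, ?_⟩)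
      rwa [mul_inv_cancel_left, ← hX x hx, ← hX _ hy]
    · obtain ⟨i, γ, hm⟩ := hcore _ hy
      obtain ⟨σ, hσ, hσb⟩ := Y.cone i γ x hx1 (subset_nbh L _
        ⟨s, hs, fun h => hx _ (Y.smul_K_mem i γ) (h.2 hm)⟩)
      suffices h : σ ∈ nbh Y.S' (R + r₁ + r₂) (trc Z.Γ t) by
        obtain ⟨a, ha, hab⟩ := h
        exact ⟨a, ha, mem_bl_trans hab hσb⟩
      rw [hX x hx, hK i γ _ hm] at hxs
      by_cases hc : Z.cls ((γ : G) • Y.K i) = t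
      · rw [← (Y.mem_cone_iff i γ σ).1 hσ] at hc
        exact nbh_mono (by omega) subset_rfl (h₁ i σ hc)
      · by_cases hq : σ ∈ U ↔ Y.π x ∈ U
        · exact nbh_mono (by omega) subset_rfl (h₂ i γ hc σ hσ (by rwa [hq]))
        · rcases mem_ball_succ.1 hσb with h | ⟨b, hb, a, ha, h⟩
          · rw [mem_ball_zero, inv_mul_eq_one] at h
            exact absurd (h ▸ Iff.rfl) hq
          · rw [mem_ball_zero.1 hb, one_mul] at h
            refine nbh_mono (by omega) subset_rfl (hU ⟨a, ha, ?_⟩)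
            rwa [← h, mul_inv_cancel_left]
  refine ⟨U', R₂ + R₁ + 1, fun x hx => ?_, hK⟩
  by_cases h1 : x ∈ Z.X
  · exact nbh_mono (Nat.le_succ _) subset_rfl (key x h1 hx)
  · obtain ⟨s, hs, hxs⟩ := hx
    by_cases h2 : x * s ∈ Z.X
    · obtain ⟨a, ha, hab⟩ := key _ h2 (hS.mul_mem_wallV hs hxs)
      refine ⟨a, ha, ?_⟩
      simpa [bl] using mul_mem_bl (show x * s ∈ bl S a (R₂ + R₁) from hab) (hS.symm s hs)
    · obtain ⟨i, γ, hm⟩ := hcore _ h1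
      obtain ⟨j, γ', hm'⟩ := hcore _ h2
      have e := Z.sep _ (Y.smul_K_mem i γ) _ (Y.smul_K_mem j γ') x hm _ hm'
        (bl_mono _ (by omega) (mul_mem_bl (mem_bl_self x 0) hs))
      rw [← e] at hm'
      exact absurd ((hK i γ x hm).trans (hK i γ _ hm').symm) hxs

end Tr

end Vale.Agent.P239
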