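import Vale.Agent.P239.Full.FSprA

/-! Task FSprB: the limit of the sprinkled configurations. `SX G` is compact metrisable (`G` countable), Borel = product sigma algebra. `ProbabilityMeasure (SX G)` is compact (Mathlib, Prokhorov.lean); let `P` be the limit of the `P n` of `exists_sprinkle`
along `hyperfilter ℕ` (an ultrafilter below `atTop`); integrals of continuous functions converge (`ProbabilityMeasure.tendsto_iff_forall_integral_tendsto`), in particular measures of clopen sets. Invariance: `map (sxSh g) P` and `P` integrate continuous functions equally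
(`ext_of_forall_integral_eq_of_IsFiniteMeasure`) . `StrC` is a countable intersection of clopen conditions. Completeness: the events of `exists_sprinkle` are clopen with measure `≤ 1/m`, so their intersection over `m` is null.
`Up`: truncate the sum to `j < J`, the integrand is continuous; `fin` is `Up` for `f = 1`.
-/

noncomputable section

open Classical MeasureTheory Filter Topology Set
open scoped Pointwise ENNReal

namespace Vale.Agent.P239

universe u
variable {G : Type u} [Group G] {S : Finset G}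

omit [Group G] in
theorem sprB_coord (x : G) (t : ℕ × G × (Lb ⊕ ℕ)) : IsClopen {ξ : SX G | ξ x t = true} :=
  (isClopen_discrete {true}).preimage (f := fun ξ : SX G => ξ x t) (by fun_prop)

theorem sprB_mt (p q : G × ℕ) : IsClopen {ξ : SX G | sxMt ξ p q} := sprB_coord _ _

theorem sprB_cfg (p : G × ℕ) : Continuous fun ξ : SX G => sxCfg ξ p := by
  unfold sxCfg
  fun_prop

theorem sprB_mem (p : G × ℕ) (y : G) : IsClopen {ξ : SX G | y ∈ cfD (sxCfg ξ p)} := sprB_coord _ _

theorem sprB_sh (g : G) : Continuous (sxSh g : SX G → SX G) := by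
  unfold sxSh
  fun_prop

theorem sprB_closed : IsClosed {ξ : SX G | StrC ξ} := by
  have e : {ξ : SX G | StrC ξ} =
      ((⋂ p, ⋂ q, {ξ | sxMt ξ p q → sxMt ξ q p}) ∩
        (⋂ p, ⋂ q, ⋂ s, {ξ | sxMt ξ p q → sxMt ξ q s → sxMt ξ p s}) ∩
        (⋂ p, ⋂ x, ⋂ j, ⋂ j', {ξ | sxMt ξ p (x, j) → sxMt ξ p (x, j') → j = j'})) ∩
        ⋂ p, ⋂ q, {ξ | sxMt ξ p q → sxCfg ξ p = sxCfg ξ q ∧ q.1 ∈ cfD (sxCfg ξ p)} := by
    ext ξ
    simp only [mem_inter_iff, mem_iInter, mem_ofPred_eq]
    exact ⟨fun h => ⟨⟨⟨h.1.symm, h.1.trans⟩, h.1.func⟩, h.2⟩,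
      fun h => ⟨⟨h.1.1.1, h.1.1.2, h.1.2⟩, h.2⟩⟩
  rw [e]
  refine (((isClosed_iInter fun p => isClosed_iInter fun q => ?_).inter
    (isClosed_iInter fun p => isClosed_iInter fun q => isClosed_iInter fun s => ?_)).inter
    (isClosed_iInter fun p => isClosed_iInter fun x => isClosed_iInter fun j =>
      isClosed_iInter fun j' => ?_)).inter (isClosed_iInter fun p => isClosed_iInter fun q => ?_)
  · exact isClosed_imp (sprB_mt p q).2 (sprB_mt q p).1
  · exact isClosed_imp (sprB_mt p q).2 (isClosed_imp (sprB_mt q s).2 (sprB_mt p s).1)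
  · exact isClosed_imp (sprB_mt p _).2 (isClosed_imp (sprB_mt p _).2 isClosed_const)
  · exact isClosed_imp (sprB_mt p q).2
      ((isClosed_eq (sprB_cfg p) (sprB_cfg q)).inter (sprB_mem p q.1).1)

theorem sprB_open (p : G × ℕ) (y : G) (m : ℕ) :
    IsOpen {ξ : SX G | sxMt ξ p p ∧ y ∈ cfD (sxCfg ξ p) ∧ ∀ j < m, ¬ sxMt ξ p (y, j)} := by
  refine (sprB_mt p p).2.inter ((sprB_mem p y).2.inter ?_)
  have e : {ξ : SX G | ∀ j < m, ¬ sxMt ξ p (y, j)} =
      ⋂ j ∈ Finset.range m, {ξ : SX G | sxMt ξ p (y, j)}ᶜ := by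
    ext ξ
    simp
  have : IsOpen {ξ : SX G | ∀ j < m, ¬ sxMt ξ p (y, j)} := by
    rw [e]
    exact isOpen_biInter_finset fun j _ => (sprB_mt p (y, j)).1.isOpen_compl
  exact this

theorem sprB_lint [Countable G] {L : Filter ℕ} {P : ℕ → ProbabilityMeasure (SX G)}
    {P₀ : ProbabilityMeasure (SX G)} (h : Tendsto P L (𝓝 P₀)) {f : Cf G → ℝ} (hf : Continuous f)
    (p : G × ℕ) :
    Tendsto (fun n => ∫⁻ ξ, (if sxMt ξ p p then ENNReal.ofReal (f (sxCfg ξ p)) else 0)
      ∂(P n : Measure (SX G))) L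
      (𝓝 (∫⁻ ξ, (if sxMt ξ p p then ENNReal.ofReal (f (sxCfg ξ p)) else 0) ∂(P₀ : Measure (SX G)))) := by
  have hc : Continuous fun ξ : SX G => if sxMt ξ p p then (f (sxCfg ξ p)).toNNReal else 0 := by
    refine Continuous.if ?_ (continuous_real_toNNReal.comp (hf.comp (sprB_cfg p))) continuous_const
    rw [(sprB_mt p p).frontier_eq]
    simp
  have e : ∀ ξ : SX G, (if sxMt ξ p p then ENNReal.ofReal (f (sxCfg ξ p)) else 0) =
      ((BoundedContinuousFunction.mkOfCompact ⟨_, hc⟩ ξ : NNReal) : ℝ≥0∞) := by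
    intro ξ
    change _ = ((if sxMt ξ p p then (f (sxCfg ξ p)).toNNReal else 0 : NNReal) : ℝ≥0∞)
    split_ifs
    · rfl
    · rfl
  simp only [e]
  exact ProbabilityMeasure.tendsto_iff_forall_lintegral_tendsto.1 h _

theorem exists_lim [Countable G] (D : ℕ → Finset G) (ω : ℕ → Cf G)
    (hD : ∀ n, (D n : Set G) = cfD (ω n)) (hne : ∀ n, (D n).Nonempty) :
    ∃ E : MEnv G (SX G), E.Up D ω ∧ E.Low D ω := by
  choose Q hQ hinv hstr hcomp hint using fun n => exists_sprinkle (ω n) (D n) (hD n) (hne n)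
  let P : ℕ → ProbabilityMeasure (SX G) := fun n => ⟨Q n, hQ n⟩
  obtain ⟨P₀, -, hP₀⟩ := isCompact_univ.ultrafilter_le_nhds' ((hyperfilter ℕ).map P) univ_mem
  have hlim : Tendsto P (hyperfilter ℕ) (𝓝 P₀) := hP₀
  have hle : (hyperfilter ℕ : Filter ℕ) ≤ atTop := Nat.hyperfilter_le_atTop
  have hopen : ∀ (U : Set (SX G)) (c : ℝ≥0∞), IsOpen U → (∀ n, Q n U ≤ c) →
      (P₀ : Measure (SX G)) U ≤ c := by
    intro U c hU hc
    refine (ProbabilityMeasure.le_liminf_measure_open_of_tendsto hlim hU).trans ?_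
    exact liminf_le_of_frequently_le' (Frequently.of_forall hc)
  have hmp : ∀ g : G, MeasurePreserving (sxSh g) (P₀ : Measure (SX G)) P₀ := by
    intro g
    have h1 := ProbabilityMeasure.tendsto_map_of_tendsto_of_continuous _ _ hlim (sprB_sh g)
    have h2 : (fun n => (P n).map (sprB_sh g).measurable.aemeasurable) = P := by
      funext n
      exact Subtype.ext (hinv n g).map_eq
    rw [h2] at h1
    have hb : BorelSpace (SX G) := inferInstance
    have ht : T2Space (ProbabilityMeasure (SX G)) := ProbabilityMeasure.t2Space _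
    have h3 := tendsto_nhds_unique h1 hlim
    exact ⟨(sprB_sh g).measurable, congrArg ProbabilityMeasure.toMeasure h3⟩
  have hS : ∀ᵐ ξ ∂(P₀ : Measure (SX G)), StrC ξ :=
    le_zero_iff.1 (hopen {ξ | StrC ξ}ᶜ 0 sprB_closed.isOpen_compl fun n => (hstr n).le)
  have hC : ∀ᵐ ξ ∂(P₀ : Measure (SX G)), ∀ (p : G × ℕ) (y : G),
      sxMt ξ p p → y ∈ cfD (sxCfg ξ p) → ∃ j, sxMt ξ p (y, j) := by
    refine ae_all_iff.2 fun p => ae_all_iff.2 fun y => ?_
    rw [ae_iff]
    refine le_zero_iff.1 (ge_of_tendsto' ENNReal.tendsto_inv_nat_nhds_zero fun m => ?_)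
    refine le_trans (measure_mono fun ξ hξ => ?_) (hopen _ _ (sprB_open p y m) fun n => hcomp n p y m)
    simp only [mem_ofPred_eq, Classical.not_imp, not_exists] at hξ
    exact ⟨hξ.1, hξ.2.1, fun j _ => hξ.2.2 j⟩
  have hUp : ∀ f : Cf G → ℝ, Continuous f → (∀ a, 0 ≤ f a) → ∀ c : ℝ,
      (∀ᶠ n in atTop, av (D n) (ω n) f ≤ c) →
      ∑' j : ℕ, ∫⁻ ξ, (if sxMt ξ (1, j) (1, j) then ENNReal.ofReal (f (sxCfg ξ (1, j))) else 0)
        ∂(P₀ : Measure (SX G)) ≤ ENNReal.ofReal c := by
    intro f hf h0 c hc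
    rw [ENNReal.tsum_eq_iSup_sum]
    refine iSup_le fun s => ?_
    refine le_of_tendsto (tendsto_finsetSum s fun j _ => sprB_lint hlim hf (1, j)) ?_
    filter_upwards [hle hc] with n hn
    exact (ENNReal.sum_le_tsum s).trans ((hint n f hf h0).1.trans (ENNReal.ofReal_le_ofReal hn))
  let E : MEnv G (SX G) :=
    { A :=
        { P := P₀
          prob := inferInstance
          sh := sxSh
          sh_one := fun ξ => by funext x; simp [sxSh]
          sh_mul := fun g h ξ => by funext x; simp [sxSh, mul_assoc]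
          mp := hmp }
      r := sxMt
      meas := fun p q => (sprB_mt p q).2.measurableSet
      equi := fun g ξ p q => by simp [sxMt, sxSh, mul_assoc]
      fin := by
        have h1 := hUp (fun _ => 1) continuous_const (fun _ => zero_le_one) 1
          (Eventually.of_forall fun n => by simp [av, div_self_le_one])
        refine ne_top_of_le_ne_top ENNReal.ofReal_ne_top (le_trans (le_of_eq ?_) h1)
        refine tsum_congr fun j => ?_
        rw [← lintegral_indicator_one (sprB_mt (1, j) (1, j)).2.measurableSet]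
        refine lintegral_congr fun ξ => ?_
        simp [indicator_apply]
      ok := hS.mono fun ξ h => h.1
      cfg := sxCfg
      meas_cfg := fun p => (sprB_cfg p).measurable
      cfg_sh := fun g ξ p => by
        funext y a
        simp [sxCfg, sxSh, cfSh, mul_assoc]
      str := by
        filter_upwards [hS, hC] with ξ h1 h2
        refine ⟨fun p q h => (h1.2 p q h).1, fun p hp => ?_⟩
        ext y
        exact ⟨h2 p y hp, fun ⟨j, hj⟩ => (h1.2 p (y, j) hj).2⟩ }
  refine ⟨E, hUp, fun f hf h0 c hc => ?_⟩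
  refine ge_of_tendsto (sprB_lint hlim hf (1, 0)) ?_
  filter_upwards [hle hc] with n hn
  exact (ENNReal.ofReal_le_ofReal (by linarith)).trans (hint n f hf h0).2

end Vale.Agent.P239
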