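import Vale.Agent.P239.Full.FW1
import Vale.Agent.P239.Full.FSprB

/-! Task FLaw: the random collection of walls. `exists_col`: greedy colouring of the graph with edges `y ∈ bl x σ` by `|ball σ|` colours (maximal separated sets `exists_net` applied repeatedly, or Zorn).
`ae_of_clopen`: `Up` for the indicator, then `ae_root`. `exists_penv`: `D n, Y n` from `Sel (1/(n+1)) n`, `ω n` built from `Y n, D n` and the colouring, `E` from `exists_lim`.
Colour conditions and `D ⊆ wallV Y` are clopen conditions (one for each finite set of data) that never fail; `y ∈ wallV Y → y ∈ D` (seen from a point of `D`) fails with frequency `≤ 1/(n+1)` when `y ∈ ball n`.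
`Tail`: `f N ω = ∑_{m < N} Pk (k + m) (ind (cfD ω)) 1` is continuous with average `≤ C ρ^k` (`sum_tail_le` with `r = 0`), monotone convergence, `tail_of_one`. Positivity: `f k ω = min (Pk k (ind Y) 1) (1 - Pk k (ind Y) 1)` has average
`≥ 1/(4|S|) - C ρ^k` eventually, `Low`; if no `cfY` were two-sided then `f k ≤ tail D k 1` by `tw`, whose integral is `≤ C ρ^k`.
-/

noncomputable section

open Classical MeasureTheory Filter Topology Set
open scoped Pointwise ENNReal

namespace Vale.Agent.P239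

universe u
variable {G : Type u} [Group G] {S : Finset G} {l : ℕ} {Q : Cones S} {B : Bdry S}
  {X : Type u} [MeasurableSpace X]

theorem exists_col (hS : Cay S) : ∃ (Z : ℕ → ℕ → Set G) (N : ℕ → ℕ),
    (∀ σ q, ∀ x ∈ Z σ q, ∀ y ∈ Z σ q, y ∈ bl S x σ → x = y) ∧ ∀ σ x, ∃ q < N σ, x ∈ Z σ q := by
  choose net hsub hsep hcov using fun (V : Set G) (σ : ℕ) => exists_net hS V σ
  let V : ℕ → ℕ → Set G := fun σ q => (fun W => W \ net W σ)^[q] univ
  have hV : ∀ σ q, V σ (q + 1) = V σ q \ net (V σ q) σ := fun σ q =>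
    Function.iterate_succ_apply' _ _ _
  have hanti : ∀ σ, Antitone (V σ) := fun σ =>
    antitone_nat_of_succ_le fun q => by rw [hV]; exact sdiff_subset
  refine ⟨fun σ q => net (V σ q) σ, fun σ => (ball S σ).card + 1, fun σ q => hsep _ _, ?_⟩
  intro σ x
  by_contra hx
  push Not at hx
  have hxV : ∀ q, q ≤ (ball S σ).card + 1 → x ∈ V σ q := by
    intro q
    induction q with
    | zero => intro _; exact mem_univ x
    | succ q ih =>
      intro hq
      rw [hV]
      exact ⟨ih (by omega), hx q (by omega)⟩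
  have hex : ∀ q : Fin ((ball S σ).card + 1), ∃ z ∈ net (V σ q) σ, x ∈ bl S z σ := fun q =>
    hcov _ _ x (hxV q q.2.le)
  choose z hz hzx using hex
  have hlt : ∀ q q' : Fin ((ball S σ).card + 1), q < q' → z q ≠ z q' := by
    intro q q' hq he
    have h1 : z q' ∈ V σ (q + 1) := hanti σ (Nat.succ_le_of_lt hq) (hsub _ _ (hz q'))
    rw [hV, ← he] at h1
    exact h1.2 (hz q)
  have hinj : Function.Injective z := by
    intro q q' he
    rcases lt_trichotomy q q' with h | h | h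
    · exact absurd he (hlt _ _ h)
    · exact h
    · exact absurd he.symm (hlt _ _ h)
  have hcard := Finset.card_le_card_of_injOn (s := Finset.univ) (t := ball S σ)
    (fun q : Fin ((ball S σ).card + 1) => x⁻¹ * z q)
    (fun q _ => mem_bl_symm hS (hzx q))
    (fun q _ q' _ he => hinj (mul_left_cancel he))
  rw [Finset.card_univ, Fintype.card_fin] at hcard
  omega

theorem flaw_meas [Countable G] (E : MEnv G X) {f : Cf G → ℝ} (hf : Continuous f) (j : ℕ) :
    Measurable fun ξ => if E.r ξ (1, j) (1, j) then ENNReal.ofReal (f (E.cfg ξ (1, j))) else 0 :=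
  Measurable.ite (E.meas _ _) (hf.measurable.comp (E.meas_cfg _)).ennreal_ofReal measurable_const

theorem MEnv.ae_of_clopen [Countable G] (E : MEnv G X) {D : ℕ → Finset G} {ω : ℕ → Cf G}
    (hU : E.Up D ω) {C : Set (Cf G)} (hC : IsClopen C)
    (h : Tendsto (fun n => av (D n) (ω n) (C.indicator fun _ => 1)) atTop (𝓝 0)) :
    ∀ᵐ ξ ∂E.A.P, ∀ p, E.r ξ p p → cfSh p.1⁻¹ (E.cfg ξ p) ∉ C := by
  have hf : Continuous (C.indicator fun _ => (1 : ℝ)) := hC.continuous_indicator continuous_const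
  have hf0 : ∀ a, 0 ≤ (C.indicator fun _ => (1 : ℝ)) a := fun a =>
    indicator_nonneg (fun _ _ => zero_le_one) a
  have h0 : ∑' j : ℕ, ∫⁻ ξ, (if E.r ξ (1, j) (1, j) then
      ENNReal.ofReal ((C.indicator fun _ => (1 : ℝ)) (E.cfg ξ (1, j))) else 0) ∂E.A.P = 0 := by
    refine le_antisymm (ENNReal.le_of_forall_pos_le_add fun ε hε _ => ?_) bot_le
    have hε' : (0 : ℝ) < ε := hε
    have h1 := hU _ hf hf0 ε (h.eventually (ge_mem_nhds hε'))
    rw [zero_add]
    rwa [ENNReal.ofReal_coe_nnreal] at h1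
  refine E.toREnv.ae_root (Φ := fun ξ p => cfSh p.1⁻¹ (E.cfg ξ p) ∉ C) ?_ ?_
  · intro g ξ p hp
    rw [E.cfg_sh, ← cfSh_mul, mul_inv_rev, inv_mul_cancel_right]
    exact hp
  · rw [ae_all_iff]
    intro j
    have h1 := ENNReal.tsum_eq_zero.1 h0 j
    rw [lintegral_eq_zero_iff (flaw_meas E hf j)] at h1
    filter_upwards [h1] with ξ hξ hr hc
    rw [inv_one, cfSh_one] at hc
    simp only [hr, if_true, indicator_of_mem hc, ENNReal.ofReal_one, Pi.zero_apply] at hξ
    exact one_ne_zero hξ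

theorem flaw_never [Countable G] (E : MEnv G X) {D : ℕ → Finset G} {ω : ℕ → Cf G}
    (hU : E.Up D ω) {C : Set (Cf G)} (hC : IsClopen C) (h : ∀ n, ∀ d ∈ D n, cfSh d⁻¹ (ω n) ∉ C) :
    ∀ᵐ ξ ∂E.A.P, ∀ p, E.r ξ p p → cfSh p.1⁻¹ (E.cfg ξ p) ∉ C := by
  refine E.ae_of_clopen hU hC ?_
  have h1 : ∀ n, av (D n) (ω n) (C.indicator fun _ => 1) = 0 := by
    intro n
    unfold av
    rw [Finset.sum_eq_zero fun d hd => indicator_of_notMem (h n d hd) _, zero_div]
  simp only [h1]
  exact tendsto_const_nhds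

omit [Group G] in
theorem flaw_cont (x : G) (a : Lb) : Continuous fun ω : Cf G => ω x a :=
  (continuous_apply a).comp (continuous_apply x)

omit [Group G] in
theorem flaw_clopen (x : G) (a : Lb) : IsClopen {ω : Cf G | ω x a = true} :=
  (isClopen_discrete ({true} : Set Bool)).preimage (flaw_cont x a)

theorem flaw_clopen_wall (y : G) : IsClopen {ω : Cf G | y ∈ wallV S (cfY ω)} := by
  have h1 : {ω : Cf G | y ∈ wallV S (cfY ω)} = ⋃ s ∈ S,
      (fun ω : Cf G => (ω y (Sum.inl false), ω (y * s) (Sum.inl false))) ⁻¹'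
        {z | ¬ (z.1 = true ↔ z.2 = true)} := by
    ext ω
    simp only [wallV, cfY, mem_ofPred_eq, mem_iUnion, mem_preimage, exists_prop]
  rw [h1]
  exact isClopen_biUnion_finset fun s _ =>
    (isClopen_discrete _).preimage ((flaw_cont _ _).prodMk (flaw_cont _ _))

theorem flaw_cont_Pk (a : Lb) (k : ℕ) (x : G) :
    Continuous fun ω : Cf G => Pk S k (ind {y | ω y a = true}) x := by
  induction k generalizing x with
  | zero =>
    exact (continuous_of_discreteTopology (f := fun b : Bool => if b = true then (1 : ℝ) else 0)).comp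
      (flaw_cont x a) |>.congr fun ω => by
        by_cases h : ω x a = true <;> simp [Pk, ind, h]
  | succ k ih =>
    simp only [Pk_succ, avg]
    exact (continuous_finsetSum _ fun s _ => ih (x * s)).div_const _

theorem flaw_nbh_zero (A : Set G) : nbh S 0 A = A := by
  ext x
  constructor
  · rintro ⟨a, ha, h⟩
    rw [mem_ball_zero, inv_mul_eq_one] at h
    exact h ▸ ha
  · exact fun h => subset_nbh 0 A h

theorem flaw_Pk_inv (k : ℕ) (U : Set G) (d : G) :
    Pk S k (ind (d⁻¹ • U)) 1 = Pk S k (ind U) d := by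
  rw [← Pk_ind_smul k U d⁻¹ d, inv_mul_cancel]

/-- The expected tail of the Green potential at the root. -/
theorem flaw_tail [Countable G] (hS : Cay S) (hg : Gap S) (E : MEnv G X) {D : ℕ → Finset G}
    {ω : ℕ → Cf G} (hD : ∀ n, (D n : Set G) = cfD (ω n)) (hne : ∀ n, (D n).Nonempty)
    (hU : E.Up D ω) {k : ℕ} {c : ℝ}
    (hc : ∀ n, ∑ x ∈ D n, tail S (D n : Set G) k x ≤ c * (D n).card) (j : ℕ) :
    ∫⁻ ξ, ∑' m, (if E.r ξ (1, j) (1, j) then
      ENNReal.ofReal (Pk S (k + m) (ind (cfD (E.cfg ξ (1, j)))) 1) else 0) ∂E.A.P ≤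
      ENNReal.ofReal c := by
  have hm : ∀ m, Measurable fun ξ => if E.r ξ (1, j) (1, j) then
      ENNReal.ofReal (Pk S (k + m) (ind (cfD (E.cfg ξ (1, j)))) 1) else 0 := fun m =>
    flaw_meas E (flaw_cont_Pk (S := S) (Sum.inl true) (k + m) 1) j
  rw [lintegral_tsum fun m => (hm m).aemeasurable, ENNReal.tsum_eq_iSup_nat]
  refine iSup_le fun N => ?_
  rw [← lintegral_finsetSum _ fun m _ => hm m]
  have hf : Continuous fun a : Cf G => ∑ m ∈ Finset.range N, Pk S (k + m) (ind (cfD a)) 1 :=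
    continuous_finsetSum _ fun m _ => flaw_cont_Pk (S := S) (Sum.inl true) (k + m) 1
  have h1 := hU _ hf (fun a => Finset.sum_nonneg fun m _ => Pk_nonneg _ (fg_ind_nonneg _) _) c
    (Eventually.of_forall fun n => by
      have hpos : (0 : ℝ) < (D n).card := Nat.cast_pos.2 (hne n).card_pos
      unfold av
      rw [div_le_iff₀ hpos]
      refine le_trans (Finset.sum_le_sum fun d _ => ?_) (hc n)
      simp only [cfD_sh, flaw_Pk_inv, ← hD n]
      exact (fg_summable (tail_of_finite hS hg (D n).finite_toSet) k d).sum_le_tsum _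
        fun m _ => Pk_nonneg _ (fg_ind_nonneg _) _)
  refine le_trans (le_of_eq ?_) ((ENNReal.le_tsum j).trans h1)
  refine lintegral_congr fun ξ => ?_
  split_ifs with hr
  · rw [ENNReal.ofReal_sum_of_nonneg fun m _ => Pk_nonneg _ (fg_ind_nonneg _) _]
  · exact Finset.sum_const_zero

/-- The configuration with side `Y`, set `D` and colour classes `Z`. -/
def flawCf (Y D : Set G) (Z : ℕ → ℕ → Set G) : Cf G := fun x a =>
  match a with
  | Sum.inl false => decide (x ∈ Y)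
  | Sum.inl true => decide (x ∈ D)
  | Sum.inr z => decide (x ∈ Z z.1 z.2)

omit [Group G] in
theorem flawCf_Y (Y D : Set G) (Z : ℕ → ℕ → Set G) : cfY (flawCf Y D Z) = Y := by
  ext x
  simp only [cfY, flawCf, mem_ofPred_eq, decide_eq_true_eq]

omit [Group G] in
theorem flawCf_D (Y D : Set G) (Z : ℕ → ℕ → Set G) : cfD (flawCf Y D Z) = D := by
  ext x
  simp only [cfD, flawCf, mem_ofPred_eq, decide_eq_true_eq]

omit [Group G] in
theorem flawCf_Z (Y D : Set G) (Z : ℕ → ℕ → Set G) (σ q : ℕ) :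
    cfZ (flawCf Y D Z) σ q = Z σ q := by
  ext x
  simp only [cfZ, flawCf, mem_ofPred_eq, decide_eq_true_eq]

theorem flaw_mem_inv (d x : G) (U : Set G) : x ∈ d⁻¹ • U ↔ d * x ∈ U := by
  rw [mem_inv_smul_set_iff, smul_eq_mul]

theorem flaw_cok [Countable G] (hS : Cay S) (hg : Gap S) (E : MEnv G X) {D : ℕ → Finset G}
    {ω : ℕ → Cf G} (hD : ∀ n, (D n : Set G) = cfD (ω n)) (hU : E.Up D ω)
    (hsel : ∀ n : ℕ, Sel S (1 / ((n : ℝ) + 1)) n (D n) (cfY (ω n))) {N : ℕ → ℕ}
    (hsep : ∀ n σ q, ∀ x ∈ cfZ (ω n) σ q, ∀ y ∈ cfZ (ω n) σ q, y ∈ bl S x σ → x = y)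
    (hcov : ∀ n σ x, ∃ q < N σ, x ∈ cfZ (ω n) σ q) :
    ∀ᵐ ξ ∂E.A.P, ∀ p, E.r ξ p p → CfOK S (E.cfg ξ p) := by
  have hne : ∀ n, (D n).Nonempty := fun n => (hsel n).1
  have h1 : ∀ y : G, ∀ᵐ ξ ∂E.A.P, ∀ p, E.r ξ p p → cfSh p.1⁻¹ (E.cfg ξ p) ∉
      {a : Cf G | a y (Sum.inl true) = true} \ {a : Cf G | y ∈ wallV S (cfY a)} := by
    intro y
    refine flaw_never E hU ((flaw_clopen _ _).diff (flaw_clopen_wall y)) fun n d _ hh => hh.2 ?_
    have h2 : y ∈ cfD (cfSh d⁻¹ (ω n)) := hh.1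
    rw [cfD_sh, ← hD n, flaw_mem_inv] at h2
    rw [mem_ofPred_eq, cfY_sh, wallV_smul, flaw_mem_inv]
    exact (hsel n).2.1 h2
  have h2 : ∀ y : G, ∀ᵐ ξ ∂E.A.P, ∀ p, E.r ξ p p → cfSh p.1⁻¹ (E.cfg ξ p) ∉
      {a : Cf G | y ∈ wallV S (cfY a)} \ {a : Cf G | a y (Sum.inl true) = true} := by
    intro y
    refine E.ae_of_clopen hU ((flaw_clopen_wall y).diff (flaw_clopen _ _)) ?_
    obtain ⟨r, hr⟩ := hS.exists_ball y
    refine squeeze_zero' (Eventually.of_forall fun n => div_nonneg (Finset.sum_nonneg fun d _ =>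
      indicator_nonneg (fun _ _ => zero_le_one) _) (Nat.cast_nonneg _)) ?_
      tendsto_one_div_add_atTop_nhds_zero_nat
    filter_upwards [eventually_ge_atTop r] with n hn
    obtain ⟨-, -, Dg, hDg, hcard, hgood⟩ := hsel n
    have hpos : (0 : ℝ) < (D n).card := Nat.cast_pos.2 (hne n).card_pos
    unfold av
    rw [div_le_iff₀ hpos]
    refine le_trans ?_ hcard
    rw [← Finset.sum_sdiff hDg, Finset.sum_eq_zero (s := Dg), add_zero, Finset.card_eq_sum_ones,
      Nat.cast_sum, Nat.cast_one]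
    · exact Finset.sum_le_sum fun d _ => indicator_le_self' (fun _ _ => zero_le_one) _
    · intro d hd
      refine indicator_of_notMem (fun hh => hh.2 ?_) _
      have h3 : y ∈ wallV S (cfY (cfSh d⁻¹ (ω n))) := hh.1
      rw [cfY_sh, wallV_smul, flaw_mem_inv] at h3
      have h4 : y ∈ cfD (cfSh d⁻¹ (ω n)) := by
        rw [cfD_sh, ← hD n, flaw_mem_inv]
        refine (hgood d hd).1 _ ?_ h3
        change d⁻¹ * (d * y) ∈ ball S n
        rw [inv_mul_cancel_left]
        exact ball_mono hn hr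
      exact h4
  have h3 : ∀ (σ q : ℕ) (x y : G), y ∈ bl S x σ → x ≠ y →
      ∀ᵐ ξ ∂E.A.P, ∀ p, E.r ξ p p → cfSh p.1⁻¹ (E.cfg ξ p) ∉
      {a : Cf G | a x (Sum.inr (σ, q)) = true} ∩ {a : Cf G | a y (Sum.inr (σ, q)) = true} := by
    intro σ q x y hxy hne'
    refine flaw_never E hU ((flaw_clopen _ _).inter (flaw_clopen _ _)) fun n d _ hh => hne' ?_
    have h4 : x ∈ cfZ (cfSh d⁻¹ (ω n)) σ q := hh.1
    have h5 : y ∈ cfZ (cfSh d⁻¹ (ω n)) σ q := hh.2
    rw [cfZ_sh, flaw_mem_inv] at h4 h5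
    refine mul_left_cancel (hsep n σ q _ h4 _ h5 ?_)
    change (d * x)⁻¹ * (d * y) ∈ ball S σ
    rw [mul_inv_rev, mul_assoc, inv_mul_cancel_left]
    exact hxy
  have h4 : ∀ (σ : ℕ) (x : G), ∀ᵐ ξ ∂E.A.P, ∀ p, E.r ξ p p → cfSh p.1⁻¹ (E.cfg ξ p) ∉
      (⋃ q ∈ Finset.range (N σ), {a : Cf G | a x (Sum.inr (σ, q)) = true})ᶜ := by
    intro σ x
    refine flaw_never E hU (isClopen_biUnion_finset fun q _ => flaw_clopen _ _).compl
      fun n d _ hh => hh ?_
    obtain ⟨q, hq, hx⟩ := hcov n σ (d * x)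
    rw [← flaw_mem_inv, ← cfZ_sh] at hx
    exact mem_iUnion₂.2 ⟨q, Finset.mem_range.2 hq, hx⟩
  have h5 : ∀ᵐ ξ ∂E.A.P, ∀ p, E.r ξ p p → Tail S (cfD (E.cfg ξ p)) := by
    obtain ⟨C, ρ, -, -, -, hC⟩ := sum_tail_le hS hg 0
    refine E.toREnv.ae_root (Φ := fun ξ p => Tail S (cfD (E.cfg ξ p))) ?_ ?_
    · intro g ξ p hp
      rw [E.cfg_sh, cfD_sh]
      exact hp.smul g
    · rw [ae_all_iff]
      intro j
      have h6 := flaw_tail hS hg E hD hne hU (k := 0) (c := C * ρ ^ 0)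
        (fun n => by simpa only [flaw_nbh_zero] using hC (D n) 0) j
      have h7 := ae_lt_top (Measurable.tsum fun m =>
        flaw_meas E (flaw_cont_Pk (S := S) (Sum.inl true) (0 + m) 1) j)
        (ne_top_of_le_ne_top ENNReal.ofReal_ne_top h6)
      filter_upwards [h7] with ξ hξ hr
      simp only [hr, if_true, zero_add] at hξ
      refine tail_of_one (x := 1) hS ?_
      have h8 := ENNReal.summable_toReal hξ.ne
      refine h8.congr fun m => ?_
      exact ENNReal.toReal_ofReal (Pk_nonneg _ (fg_ind_nonneg _) _)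
  have h6 := E.ae_wd hS hD hne hU
  have h3' : ∀ᵐ ξ ∂E.A.P, ∀ (σ q : ℕ) (x y : G), y ∈ bl S x σ → x ≠ y →
      ∀ p, E.r ξ p p → cfSh p.1⁻¹ (E.cfg ξ p) ∉
      {a : Cf G | a x (Sum.inr (σ, q)) = true} ∩ {a : Cf G | a y (Sum.inr (σ, q)) = true} := by
    simp only [ae_all_iff]
    intro σ q x y hxy hne'
    have h7 := h3 σ q x y hxy hne'
    simpa only [ae_all_iff] using h7
  have h4' : ∀ᵐ ξ ∂E.A.P, ∀ (σ : ℕ) (x : G), ∀ p, E.r ξ p p → cfSh p.1⁻¹ (E.cfg ξ p) ∉
      (⋃ q ∈ Finset.range (N σ), {a : Cf G | a x (Sum.inr (σ, q)) = true})ᶜ :=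
    ae_all_iff.2 fun σ => ae_all_iff.2 fun x => h4 σ x
  filter_upwards [ae_all_iff.2 h1, ae_all_iff.2 h2, h3', h4', h5, h6] with ξ a1 a2 a3 a4 a5 a6 p hp
  have h7 : CfOK S (cfSh p.1⁻¹ (E.cfg ξ p)) := by
    refine ⟨?_, ?_, ?_, ?_, ?_⟩
    · ext y
      constructor
      · intro hy
        by_contra hy'
        exact a1 y p hp ⟨hy, hy'⟩
      · intro hy
        by_contra hy'
        exact a2 y p hp ⟨hy, hy'⟩
    · intro σ q x hx y hy hxy
      by_contra hne'
      exact a3 σ q x y hxy hne' p hp ⟨hx, hy⟩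
    · intro σ x
      obtain ⟨q, -, hq⟩ := mem_iUnion₂.1 (not_not.1 (a4 σ x p hp))
      exact ⟨q, hq⟩
    · rw [cfD_sh]
      exact (a5 p hp).smul _
    · intro ρ
      rw [cfD_sh]
      exact (a6 p hp ρ).smul _
  have h8 := h7.sh p.1
  rwa [← cfSh_mul, mul_inv_cancel, cfSh_one] at h8

theorem flaw_pos [Countable G] (B : Bdry S) (hS : Cay S) (hg : Gap S) (E : MEnv G X)
    {D : ℕ → Finset G} {ω : ℕ → Cf G} (hD : ∀ n, (D n : Set G) = cfD (ω n)) (hU : E.Up D ω)
    (hL : E.Low D ω) (hsel : ∀ n : ℕ, Sel S (1 / ((n : ℝ) + 1)) n (D n) (cfY (ω n)))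
    (hok : ∀ᵐ ξ ∂E.A.P, ∀ p, E.r ξ p p → CfOK S (E.cfg ξ p)) :
    ¬ ∀ᵐ ξ ∂E.A.P, ∀ p, E.r ξ p p → ¬ B.Two (hatSet (cfY (E.cfg ξ p))) := by
  intro hno
  have hne : ∀ n, (D n).Nonempty := fun n => (hsel n).1
  obtain ⟨C, ρ, hC0, hρ0, hρ1, hC⟩ := sum_tail_le hS hg 0
  simp only [flaw_nbh_zero] at hC
  set a : ℝ := 1 / (2 * S.card) with ha
  have ha0 : 0 < a := by
    have : (0 : ℝ) < S.card := Nat.cast_pos.2 hS.card_pos
    positivity
  have key : ∀ k : ℕ, (a / 2 - C * ρ ^ k) / 4 ≤ C * ρ ^ k := by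
    intro k
    have hf : Continuous fun w : Cf G =>
        min (Pk S k (ind (cfY w)) 1) (1 - Pk S k (ind (cfY w)) 1) :=
      (flaw_cont_Pk (S := S) (Sum.inl false) k 1).min
        (continuous_const.sub (flaw_cont_Pk (S := S) (Sum.inl false) k 1))
    have hf0 : ∀ (U : Set G) (x : G), 0 ≤ min (Pk S k (ind U) x) (1 - Pk S k (ind U) x) :=
      fun U x => le_min (Pk_nonneg _ (fg_ind_nonneg _) _) (sub_nonneg.2 (Pk_ind_le_one hS _ _ _))
    have hev : ∀ᶠ n : ℕ in atTop, (1 + a) * (1 / ((n : ℝ) + 1)) ≤ a / 2 := by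
      have h1 := (tendsto_one_div_add_atTop_nhds_zero_nat (𝕜 := ℝ)).const_mul (1 + a)
      rw [mul_zero] at h1
      exact h1.eventually (ge_mem_nhds (half_pos ha0))
    have h1 := hL _ hf (fun w => hf0 _ _) (a / 2 - C * ρ ^ k) (by
      filter_upwards [hev] with n hn
      obtain ⟨-, -, Dg, hDg, hcard, hgood⟩ := hsel n
      have hpos : (0 : ℝ) < (D n).card := Nat.cast_pos.2 (hne n).card_pos
      set δ : ℝ := 1 / ((n : ℝ) + 1) with hδ
      have hδ0 : 0 ≤ δ := by positivity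
      unfold av
      rw [le_div_iff₀ hpos]
      simp only [cfY_sh, flaw_Pk_inv]
      have h2 : ∀ d ∈ D n, a - δ - tail S (D n : Set G) k d - (if d ∈ D n \ Dg then a else 0) ≤
          min (Pk S k (ind (cfY (ω n))) d) (1 - Pk S k (ind (cfY (ω n))) d) := by
        intro d hd
        split_ifs with hd'
        · have := tail_nonneg (S := S) (D n : Set G) k d
          have := hf0 (cfY (ω n)) d
          linarith
        · have hd'' : d ∈ Dg := by
            by_contra h3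
            exact hd' (Finset.mem_sdiff.2 ⟨hd, h3⟩)
          obtain ⟨h3, h4⟩ := (hgood d hd'').2 k
          exact le_min (by linarith) (by linarith)
      refine le_trans ?_ (Finset.sum_le_sum h2)
      rw [Finset.sum_sub_distrib, Finset.sum_sub_distrib, Finset.sum_const, nsmul_eq_mul,
        Finset.sum_ite_mem, Finset.inter_eq_right.2 Finset.sdiff_subset, Finset.sum_const,
        nsmul_eq_mul]
      have h3 := hC (D n) k
      have h4 := mul_le_mul_of_nonneg_right hcard ha0.le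
      have h5 := mul_le_mul_of_nonneg_right hn hpos.le
      nlinarith)
    have h2 := flaw_tail hS hg E hD hne hU (k := k) (c := C * ρ ^ k) (fun n => hC (D n) k) 0
    refine (ENNReal.ofReal_le_ofReal_iff (by positivity)).1 (h1.trans (le_trans ?_ h2))
    refine lintegral_mono_ae ?_
    filter_upwards [hok, hno] with ξ hξ hξ'
    by_cases hr : E.r ξ (1, 0) (1, 0)
    · simp only [hr, if_true]
      have h3 := hξ _ hr
      rw [← ENNReal.ofReal_tsum_of_nonneg (fun m => Pk_nonneg _ (fg_ind_nonneg _) _)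
        (fg_summable h3.tl k 1)]
      refine ENNReal.ofReal_le_ofReal ?_
      have h4 := abs_le.1 (B.tw hS h3.tl h3.wall.ge k 1)
      change _ ≤ tail S _ k 1
      have h5 := hξ' _ hr
      by_cases h6 : B.Null (hatSet (cfY (E.cfg ξ (1, 0))))
      · have h7 : B.h (hatSet (cfY (E.cfg ξ (1, 0)))) 1 = 0 := by
          unfold Bdry.h
          rw [measureReal_def, h6, ENNReal.toReal_zero]
        exact (min_le_left _ _).trans (by linarith [h4.1])
      · have h7 : B.Null (hatSet (cfY (E.cfg ξ (1, 0))))ᶜ := by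
          by_contra h8
          exact h5 ⟨h6, h8⟩
        have h8 : B.h (hatSet (cfY (E.cfg ξ (1, 0))))ᶜ 1 = 0 := by
          unfold Bdry.h
          rw [measureReal_def, h7, ENNReal.toReal_zero]
        rw [B.h_compl (measurableSet_hatSet _)] at h8
        exact (min_le_right _ _).trans (by linarith [h4.2])
    · simp only [hr, if_false, zero_le]
  have h1 : Tendsto (fun k : ℕ => 5 * (C * ρ ^ k)) atTop (𝓝 (5 * (C * 0))) :=
    ((tendsto_pow_atTop_nhds_zero_of_lt_one hρ0 hρ1).const_mul C).const_mul 5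
  have h2 : a / 2 ≤ 5 * (C * 0) := ge_of_tendsto' h1 fun k => by linarith [key k]
  linarith

theorem exists_penv (B : Bdry S) (hS : Cay S) (hg : Gap S)
    (h : ∀ δ : ℝ, 0 < δ → ∀ r, ∃ (D : Finset G) (Y : Set G), Sel S δ r D Y) :
    Nonempty (PEnv B (SX G)) := by
  have := hS.countable
  choose D Y hsel using fun n : ℕ => h (1 / ((n : ℝ) + 1)) Nat.one_div_pos_of_nat n
  obtain ⟨Z, N, hsep, hcov⟩ := exists_col hS
  have hD : ∀ n, (D n : Set G) = cfD (flawCf (Y n) (D n) Z) := fun n => (flawCf_D _ _ _).symm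
  obtain ⟨E, hU, hL⟩ := exists_lim D (fun n => flawCf (Y n) (D n) Z) hD fun n => (hsel n).1
  have hsel' : ∀ n : ℕ, Sel S (1 / ((n : ℝ) + 1)) n (D n) (cfY (flawCf (Y n) (D n) Z)) :=
    fun n => by rw [flawCf_Y]; exact hsel n
  have hok := flaw_cok hS hg E hD hU hsel' (N := N)
    (fun n σ q => by rw [flawCf_Z]; exact hsep σ q)
    (fun n σ x => by simp only [flawCf_Z]; exact hcov σ x)
  exact ⟨⟨E, hok, flaw_pos B hS hg E hD hU hL hsel' hok⟩⟩

end Vale.Agent.P239
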