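import Vale.Agent.P239.Full.FCap
import Vale.Agent.P239.Full.FDef2

/-! Task FSel: unbounded caps give almost closed pieces of walls.
Let `f, t` have unbounded caps, `F = H f`, `a E τ = (capV f E τ).ncard` (finite, antitone in `τ`). `t k = t/2 + t/2^(k+1)`. By `iter_bound` (`γ = 9/10`, `D = 256`, `M` large) some `E`, `k` have `a := a E (t k) > M 256^k (a E (t (k+1))^(9/10) + 1)`, so `a E (t (k+1)) ≤ a^(10/9)` and `4^k ≤ a^(1/4)`, `a ≥ M`.
Cut `[t (k+1), t k]` into `m = ⌈a^(1/9)/δ'⌉` pieces of length `2γ'`; for one piece `[τ, τ + 2γ']`, `a E τ - a E (τ + 2γ') ≤ δ' a ≤ δ' |D|` with `D = capV f E τ`. Then `γ'⁻¹ ≤ c 2^k a^(1/9) ≤ c a^(1/8 + 1/9)`, so `γ'⁻² = o(a^(1/2))`.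
`V x = H (f²) x - F x²` is square summable (see the proof of `var_count`), `osc S r F` too. `Dg` = points `x ∈ D` with `τ + 2γ' < F x`, `osc r F x < γ'`, `V x ≤ δ γ'²`; the exceptions number at most `δ' a + C/γ'² + C/(δ γ'²)²`, and `γ'⁻⁴ ≤ c a^(17/18)`.
For `x ∈ Dg` let `u = H ((f - F x)²)/γ'²`, harmonic, `u y ≥ (F y - F x)²/γ'²` (Jensen), `u x = V x/γ'² ≤ δ`. `mp` on `U₀ = {F > F x - γ'}` with `p = min (h E) (1 - h E) = |h E - ind Y|`, `Y = lev E`, `g = tail D 0 + u`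
(`p - avg p ≤ ind D` on `U₀`, `hat p = 0` a.e. on `{0 < f}` by `lev_ae`) gives `p ≤ g` everywhere. Apply `Pk k` (`Pk_harm`, `Pk_tail`) and `sees_of_wall`.
-/

noncomputable section

open Classical MeasureTheory Filter Topology Set
open scoped Pointwise ENNReal

namespace Vale.Agent.P239

universe u
variable {G : Type u} [Group G] {S : Finset G} {l : ℕ} {Q : Cones S} {B : Bdry S}

theorem fsel_pick {η K ρ A : ℝ} (hη : 0 < η) (hη1 : η ≤ 1) (hK : 0 < K) (h0 : 0 < ρ) (h1 : ρ < 1)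
    (h4 : 1 - η / 2 ≤ ρ) (a : ℕ → ℝ) (hA : ∀ n, a n ≤ A) (ha : 2 * K / η ≤ a 0) :
    ∃ n, a (n + 1) - a n + K / ρ ^ n ≤ η * a (n + 1) := by
  by_contra hn
  push Not at hn
  obtain ⟨c, hc, hKc⟩ : ∃ c : ℝ, c = 2 * K / η ∧ K = η / 2 * c := ⟨_, rfl, by field_simp⟩
  have hc0 : 0 < c := by rw [hc]; positivity
  rw [← hc] at ha
  have key : ∀ n, c ≤ a n * ρ ^ n := by
    intro n
    induction n with
    | zero => simpa using ha
    | succ n ih =>
      have hp := pow_pos h0 n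
      have b1 := mul_lt_mul_of_pos_right (hn n) hp
      rw [add_mul, div_mul_cancel₀ _ hp.ne'] at b1
      have b2 : (1 - η / 2) * c < (1 - η) * (a (n + 1) * ρ ^ n) := by nlinarith
      have b3 : 0 < a (n + 1) * ρ ^ n := by
        by_contra b
        have := mul_nonpos_of_nonneg_of_nonpos (sub_nonneg.2 hη1) (not_lt.1 b)
        nlinarith
      have b4 : (1 - η / 2) * c ≤ (1 - η / 2) * (a (n + 1) * ρ ^ n * ρ) := by
        have b5 := mul_le_mul_of_nonneg_left h4 b3.le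
        have b6 := mul_le_mul_of_nonneg_left b5 (show 0 ≤ 1 - η / 2 by linarith)
        nlinarith [mul_nonneg b3.le (sq_nonneg η)]
      rw [pow_succ, ← mul_assoc]
      exact le_of_mul_le_mul_left b4 (by linarith)
  have lim := (tendsto_pow_atTop_nhds_zero_of_lt_one h0.le h1).const_mul A
  rw [mul_zero] at lim
  exact absurd (ge_of_tendsto' lim fun n => (key n).trans
    (mul_le_mul_of_nonneg_right (hA n) (pow_pos h0 n).le)) (not_le.2 hc0)

namespace Bdry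

theorem fsel_bdd {f : Bd G → ℝ} (hf : B.IsD01 f) (c : ℝ) : Bdd fun ξ => (f ξ - c) ^ 2 :=
  hf.1.2.1.comp₂ hf.1.2.1 (F := fun a _ => (a - c) ^ 2) (by fun_prop)

theorem fsel_var {f : Bd G → ℝ} (hf : B.IsD01 f) (c : ℝ) (y : G) :
    B.H (fun ξ => (f ξ - c) ^ 2) y =
      B.H (fun ξ => f ξ ^ 2) y - B.H f y ^ 2 + (B.H f y - c) ^ 2 := by
  have h1 := B.integrable hf.1.1 hf.1.2.1 y
  have h2 : Integrable (fun ξ => f ξ ^ 2) (B.μ y) := by
    simpa using B.integrable ((hf.1.1.sub_const 0).pow_const 2) (fsel_bdd hf 0) y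
  have e : (fun ξ => (f ξ - c) ^ 2) = fun ξ => f ξ ^ 2 - 2 * c * f ξ + c ^ 2 := by
    funext ξ
    ring
  have h3 : Integrable (fun ξ => f ξ ^ 2 - 2 * c * f ξ) (B.μ y) := h2.sub (h1.const_mul _)
  rw [H, H, H, e, integral_add h3 (integrable_const _), integral_sub h2 (h1.const_mul _),
    integral_const_mul, integral_const]
  simp only [probReal_univ, smul_eq_mul]
  ring

theorem fsel_jensen {f : Bd G → ℝ} (hf : B.IsD01 f) (c : ℝ) (y : G) :
    (B.H f y - c) ^ 2 ≤ B.H (fun ξ => (f ξ - c) ^ 2) y := by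
  have h : 0 ≤ B.H (fun ξ => (f ξ - B.H f y) ^ 2) y := integral_nonneg fun ξ => sq_nonneg _
  rw [fsel_var hf] at h ⊢
  rw [sub_self] at h
  linarith

theorem fsel_sq (hS : Cay S) (hg : Gap S) {f : Bd G → ℝ} (hf : B.IsD01 f) :
    SqSum fun x => B.H f x ^ 2 - B.H (fun ξ => f ξ ^ 2) x := by
  have hub : Bdd (B.H f) := B.H_bdd hf.1.2.1
  have huE : FinEn S (B.H f) := hf.1.finEn hS hg
  have hu01 := B.H_mem_Icc hS hf.1.1 hf.1.2.1 (Eventually.of_forall hf.2)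
  have hsq : Continuous fun p : ℝ × ℝ => p.1 ^ 2 := by fun_prop
  have hwb : Bdd fun x => B.H f x ^ 2 := hub.comp₂ hub (F := fun a _ => a ^ 2) hsq
  obtain ⟨hwE, -⟩ := finEn_of_le (u := fun x => B.H f x ^ 2) huE huE (L := 1) (M := 0)
    zero_le_one Set.finite_empty (fun e he => absurd he (Set.notMem_empty e)) (fun x s _ _ => by
      have h1 := hu01 x
      have h2 := hu01 (x * s)
      rw [sq_sub_sq, abs_mul, abs_of_nonneg (by linarith [h1.1, h2.1])]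
      nlinarith [abs_nonneg (B.H f (x * s) - B.H f x), h1.2, h2.2])
  have hH : B.H (hat fun x => B.H f x ^ 2) = B.H fun ξ => f ξ ^ 2 := by
    refine B.H_congr hS ?_
    filter_upwards [hf.1.hat_H hS hg] with ξ hξ
    rw [hat_comp₂ hub hub (F := fun a _ => a ^ 2) hsq, hξ]
  have hp := (sqSum_sub_H (B := B) hS hg hwb hwE).1
  rwa [hH] at hp

theorem fsel_core (hS : Cay S) (hg : Gap S) {f : Bd G → ℝ} (hf : B.IsK01 Q f) {E : Set (Bd G)}
    (hE : B.SplitK Q f E) {τ γ δ : ℝ} (hτ : 0 < τ) (hγ : 0 < γ) {x : G}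
    (hx : x ∈ wallV S (B.lev E)) (h1 : τ + γ ≤ B.H f x)
    (hV : B.H (fun ξ => f ξ ^ 2) x - B.H f x ^ 2 ≤ δ * γ ^ 2) (k : ℕ) :
    1 / (2 * S.card) - tail S (B.capV f E τ) k x - δ ≤ Pk S k (ind (B.lev E)) x ∧
      Pk S k (ind (B.lev E)) x ≤ 1 - 1 / (2 * S.card) + tail S (B.capV f E τ) k x + δ := by
  have hD := hf.isD01
  have hT := tail_of_finite hS hg (hE.capV_finite hS hg hf hτ)
  have hγ2 : 0 < γ ^ 2 := by positivity
  obtain ⟨u, hu⟩ : ∃ u : G → ℝ, u = fun y =>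
    (γ ^ 2)⁻¹ * B.H (fun ξ => (f ξ - B.H f x) ^ 2) y := ⟨_, rfl⟩
  have uh : Harm S u := fun y => by
    rw [hu, fmp_avg_mul, B.H_harm hS ((hD.1.1.sub_const _).pow_const 2) (fsel_bdd hD _) y]
  have u0 : ∀ y, 0 ≤ u y := fun y => by
    rw [hu]
    exact mul_nonneg (by positivity) ((sq_nonneg _).trans (fsel_jensen hD _ y))
  have u1 : ∀ y, ¬ B.H f x - γ < B.H f y → 1 ≤ u y := fun y hy => by
    rw [hu, le_inv_mul_iff₀ hγ2]
    refine le_trans ?_ (fsel_jensen hD _ y)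
    nlinarith [not_lt.1 hy]
  have ux : u x ≤ δ := by
    rw [hu, inv_mul_le_iff₀ hγ2, fsel_var hD, sub_self]
    linarith
  have hh := B.h_harm hS hE.1
  have p1 : ∀ y, min (B.h E y) (1 - B.h E y) ≤ 1 := fun y => (min_le_left _ _).trans (B.h_le_one _ _)
  have p0 : ∀ y, 0 ≤ min (B.h E y) (1 - B.h E y) := fun y =>
    le_min (B.h_nonneg _ _) (sub_nonneg.2 (B.h_le_one _ _))
  have pY : ∀ y ∈ B.lev E, min (B.h E y) (1 - B.h E y) = 1 - B.h E y := fun y hy =>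
    min_eq_right (by have : 1 / 2 ≤ B.h E y := hy; linarith)
  have pN : ∀ y, y ∉ B.lev E → min (B.h E y) (1 - B.h E y) = B.h E y := fun y hy =>
    min_eq_left (by have : ¬ 1 / 2 ≤ B.h E y := hy; linarith)
  have out : ∀ y, ¬ B.H f x - γ < B.H f y →
      min (B.h E y) (1 - B.h E y) ≤ tail S (B.capV f E τ) 0 y + u y := fun y hy => by
    linarith [p1 y, u1 y hy, tail_nonneg (S := S) (B.capV f E τ) 0 y]
  have key := B.mp hS (p := fun y => min (B.h E y) (1 - B.h E y))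
    (g := fun y => tail S (B.capV f E τ) 0 y + u y) (fmp_bdd p0 p1)
    (fun y => add_nonneg (tail_nonneg _ _ _) (u0 y)) (U₀ := {y | B.H f x - γ < B.H f y})
    (fun y hy => ?_) (fun y _ s _ => (Classical.em _).imp_right (out _)) ?_
  · have all : ∀ y, min (B.h E y) (1 - B.h E y) ≤ tail S (B.capV f E τ) 0 y + u y := fun y =>
      (Classical.em _).elim (key y) (out y)
    have e : Pk S k (fun y => tail S (B.capV f E τ) 0 y + u y) x =
        tail S (B.capV f E τ) k x + u x := by rw [Pk_add, hT.Pk_tail, Pk_harm k uh]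
    obtain ⟨s1, s2⟩ := sees_of_wall hS hE.1 hx
    rw [B.h_compl hE.1] at s2
    have a1 := Pk_mono (S := S) k (u := fun y => B.h E y - (tail S (B.capV f E τ) 0 y + u y))
      (v := ind (B.lev E)) (fun y => by
        have := all y
        by_cases hy : y ∈ B.lev E
        · rw [ind, if_pos hy]
          linarith [B.h_le_one E y, u0 y, tail_nonneg (S := S) (B.capV f E τ) 0 y]
        · rw [ind, if_neg hy]
          linarith [pN y hy]) x
    have a2 := Pk_mono (S := S) k (v := fun y => B.h E y + (tail S (B.capV f E τ) 0 y + u y))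
      (u := ind (B.lev E)) (fun y => by
        have := all y
        by_cases hy : y ∈ B.lev E
        · rw [ind, if_pos hy]
          linarith [pY y hy]
        · rw [ind, if_neg hy]
          linarith [B.h_nonneg E y, u0 y, tail_nonneg (S := S) (B.capV f E τ) 0 y]) x
    rw [Pk_sub, e, Pk_harm k hh] at a1
    rw [Pk_add, e, Pk_harm k hh] at a2
    constructor <;> linarith
  · have e := hT.eq y
    rw [fmp_avg_add, uh y]
    by_cases hw : y ∈ wallV S (B.lev E)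
    · have hy' : B.H f x - γ < B.H f y := hy
      rw [ind, if_pos (show y ∈ B.capV f E τ from ⟨hw, show τ < B.H f y by linarith⟩)] at e
      linarith [p1 y, fmp_avg_nonneg (S := S) p0 y]
    · have hw' : ∀ s ∈ S, (y ∈ B.lev E ↔ y * s ∈ B.lev E) := fun s hs =>
        not_not.1 fun h => hw ⟨s, hs, h⟩
      have i0 := fg_ind_nonneg (B.capV f E τ) y
      by_cases hy' : y ∈ B.lev E
      · have a := fmp_avg_mono (S := S) (y := y) (u := fun z => 1 - B.h E z)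
          (v := fun z => min (B.h E z) (1 - B.h E z)) fun s hs => (pY _ ((hw' s hs).1 hy')).ge
        rw [fmp_avg_sub, fmp_avg_const hS, hh y] at a
        linarith [pY y hy']
      · have a := fmp_avg_mono (S := S) (y := y) (u := B.h E)
          (v := fun z => min (B.h E z) (1 - B.h E z))
          fun s hs => (pN _ fun h => hy' ((hw' s hs).2 h)).ge
        rw [hh y] at a
        linarith [pN y hy']
  · filter_upwards [hE.lev_ae hS hg hf, hD.1.hat_H hS hg] with ξ a1 a2 a3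
    have a4 : B.H f x - γ ≤ hat (B.H f) ξ :=
      fmp_le_hat (B.H_bdd hD.1.2.1) (Eventually.mono a3 fun y hy => le_of_lt hy)
    rw [hat_comp₂ (B.h_bdd E) (B.h_bdd E) (F := fun a _ => min a (1 - a)) (by fun_prop),
      (a1 (by linarith)).1]
    by_cases hξ : ξ ∈ E
    · simp [hξ]
    · simp [hξ]

end Bdry

theorem Bdry.exists_sel (hS : Cay S) (hg : Gap S) (h : ¬ B.BddCaps Q) {δ : ℝ} (hδ : 0 < δ) (r : ℕ) :
    ∃ (D : Finset G) (Y : Set G), Sel S δ r D Y := by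
  simp only [Bdry.BddCaps, not_forall, not_exists] at h
  obtain ⟨f, hf, t, ht, h⟩ := h
  have hD := hf.isD01
  obtain ⟨η, hη, hη1, hηδ⟩ : ∃ η : ℝ, 0 < η ∧ η ≤ 1 ∧ η ≤ δ :=
    ⟨min 1 δ, lt_min one_pos hδ, min_le_left _ _, min_le_right _ _⟩
  obtain ⟨C, -, hC⟩ := osc_sq S r
  have q1 := (hC _ (hD.1.finEn hS hg)).1
  have q2 := Bdry.fsel_sq hS hg hD
  obtain ⟨C₁, hC₁⟩ : ∃ c, c = ∑' y, osc S r (B.H f) y ^ 2 := ⟨_, rfl⟩
  obtain ⟨C₂, hC₂⟩ : ∃ c, c = ∑' y, (B.H f y ^ 2 - B.H (fun ξ => f ξ ^ 2) y) ^ 2 := ⟨_, rfl⟩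
  have c1 : 0 ≤ C₁ := hC₁ ▸ tsum_nonneg fun _ => sq_nonneg _
  have c2 : 0 ≤ C₂ := hC₂ ▸ tsum_nonneg fun _ => sq_nonneg _
  obtain ⟨ρ, hρ⟩ : ∃ ρ : ℝ, ρ = 1 - η / 8 := ⟨_, rfl⟩
  have r0 : 0 < ρ := by linarith
  have r1 : ρ < 1 := by linarith
  have r4 : 1 - η / 2 ≤ ρ ^ 4 := by
    have := one_add_mul_le_pow (a := -(η / 8)) (by linarith) 4
    rw [← sub_eq_add_neg, ← hρ] at this
    push_cast at this
    linarith
  obtain ⟨g, hg0⟩ : ∃ g : ℝ, g = t * η / 32 := ⟨_, rfl⟩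
  have g0 : 0 < g := by rw [hg0]; positivity
  obtain ⟨K, hK⟩ : ∃ K : ℝ, K = C₁ / g ^ 2 + C₂ / (δ * g ^ 2) ^ 2 + 1 := ⟨_, rfl⟩
  have K0 : 0 < K := by rw [hK]; positivity
  obtain ⟨E, hE, hN⟩ := h ⌈2 * K / η⌉₊
  have fin : ∀ τ, 0 < τ → (B.capV f E τ).Finite := fun τ hτ => hE.capV_finite hS hg hf hτ
  have anti : ∀ τ τ', τ ≤ τ' → B.capV f E τ' ⊆ B.capV f E τ := fun τ τ' h x hx =>
    ⟨hx.1, lt_of_le_of_lt h hx.2⟩
  have tp : ∀ n : ℕ, 0 < t / 2 * ρ ^ n := fun n => by positivity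
  obtain ⟨n, hn⟩ := fsel_pick hη hη1 K0 (pow_pos r0 4) (pow_lt_one₀ r0.le r1 (by norm_num)) r4
    (fun n => ((B.capV f E (t / 2 + t / 2 * ρ ^ n)).ncard : ℝ))
    (A := (B.capV f E (t / 2)).ncard)
    (fun n => Nat.cast_le.2 (ncard_le_ncard (anti _ _ (by linarith [tp n])) (fin _ (by linarith))))
    (by
      rw [pow_zero, mul_one, add_halves]
      exact (Nat.le_ceil _).trans (Nat.cast_le.2 (not_le.1 hN).le))
  obtain ⟨τ, hτ⟩ : ∃ τ, τ = t / 2 + t / 2 * ρ ^ (n + 1) := ⟨_, rfl⟩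
  obtain ⟨γ, hγ⟩ : ∃ γ, γ = g * ρ ^ n := ⟨_, rfl⟩
  have τ0 : 0 < τ := by linarith [tp (n + 1)]
  have γ0 : 0 < γ := by rw [hγ]; positivity
  have e1 : t / 2 + t / 2 * ρ ^ n = τ + 2 * γ := by
    rw [hτ, hγ, hg0, pow_succ]
    nth_rewrite 3 [hρ]
    ring
  rw [← hτ, e1] at hn
  have sub := anti τ (τ + 2 * γ) (by linarith)
  have le1 : ((B.capV f E (τ + 2 * γ)).ncard : ℝ) ≤ (B.capV f E τ).ncard :=
    Nat.cast_le.2 (ncard_le_ncard sub (fin τ τ0))
  have hP : 0 < (ρ ^ 4) ^ n := by positivity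
  have kp : 0 < K / (ρ ^ 4) ^ n := by positivity
  have cd : ((fin τ τ0).toFinset.card : ℝ) = (B.capV f E τ).ncard := by
    rw [ncard_eq_toFinset_card _ (fin τ τ0)]
  obtain ⟨f1, n1⟩ := q1.ncard_le γ0
  obtain ⟨f2, n2⟩ := q2.ncard_le (show 0 < δ * γ ^ 2 by positivity)
  refine ⟨(fin τ τ0).toFinset, B.lev E, ?_, fun x hx => ((fin τ τ0).mem_toFinset.1 hx).1,
    (fin τ τ0).toFinset.filter fun x => τ + 2 * γ < B.H f x ∧ osc S r (B.H f) x < γ ∧
      B.H (fun ξ => f ξ ^ 2) x - B.H f x ^ 2 ≤ δ * γ ^ 2, Finset.filter_subset _ _, ?_,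
    fun x hx => ?_⟩
  · rw [← Finset.card_pos, ← Nat.cast_pos (α := ℝ), cd]
    by_contra hc
    nlinarith
  · rw [← Finset.filter_not, cd]
    have s1 : (((fin τ τ0).toFinset.filter fun x => ¬ (τ + 2 * γ < B.H f x ∧
        osc S r (B.H f) x < γ ∧ B.H (fun ξ => f ξ ^ 2) x - B.H f x ^ 2 ≤ δ * γ ^ 2) : Finset G) :
        Set G) ⊆ (B.capV f E τ \ B.capV f E (τ + 2 * γ)) ∪ ({x | γ ≤ |osc S r (B.H f) x|} ∪
          {x | δ * γ ^ 2 ≤ |B.H f x ^ 2 - B.H (fun ξ => f ξ ^ 2) x|}) := by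
      intro x hx
      obtain ⟨x1, x2⟩ := Finset.mem_filter.1 hx
      by_cases y1 : τ + 2 * γ < B.H f x
      · by_cases y2 : osc S r (B.H f) x < γ
        · refine Or.inr (Or.inr ?_)
          rw [mem_ofPred_eq, abs_sub_comm]
          exact (not_le.1 fun y3 => x2 ⟨y1, y2, y3⟩).le.trans (le_abs_self _)
        · exact Or.inr (Or.inl ((not_lt.1 y2).trans (le_abs_self _)))
      · exact Or.inl ⟨(fin τ τ0).mem_toFinset.1 x1, fun y => y1 y.2⟩
    have s2 := (ncard_le_ncard s1 (((fin τ τ0).sdiff).union (f1.union f2))).trans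
      ((ncard_union_le _ _).trans (Nat.add_le_add_left (ncard_union_le _ _) _))
    rw [ncard_coe_finset] at s2
    have s3 := ncard_sdiff_add_ncard_of_subset sub (fin τ τ0)
    have s4 : ρ ^ n ≤ 1 := pow_le_one₀ r0.le r1.le
    have s5 : 0 < ρ ^ n := pow_pos r0 n
    rw [← hC₁, ← le_div_iff₀ (by positivity)] at n1
    rw [← hC₂, ← le_div_iff₀ (by positivity)] at n2
    have s6 : C₁ / γ ^ 2 + C₂ / (δ * γ ^ 2) ^ 2 ≤ K / (ρ ^ 4) ^ n := by
      have e2 : (ρ ^ 4) ^ n = (ρ ^ n) ^ 4 := by rw [← pow_mul, ← pow_mul, mul_comm]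
      have e3 : C₁ / γ ^ 2 + C₂ / (δ * γ ^ 2) ^ 2 =
          (C₁ / g ^ 2 * (ρ ^ n) ^ 2 + C₂ / (δ * g ^ 2) ^ 2) / (ρ ^ n) ^ 4 := by
        rw [hγ]
        field_simp
      rw [e2, e3, hK]
      refine div_le_div_of_nonneg_right ?_ (by positivity)
      have := mul_le_of_le_one_right (show 0 ≤ C₁ / g ^ 2 by positivity)
        (pow_le_one₀ s5.le s4 (n := 2))
      linarith
    have s7 := mul_le_mul_of_nonneg_right hηδ (Nat.cast_nonneg (α := ℝ) (B.capV f E τ).ncard)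
    have s8 := (Nat.cast_le (α := ℝ)).2 s2
    have s9 := congrArg (Nat.cast : ℕ → ℝ) s3
    push_cast at s8 s9
    linarith
  · obtain ⟨x1, x2, x3, x4⟩ := Finset.mem_filter.1 hx
    rw [Finite.coe_toFinset]
    refine ⟨fun y hy hw => (fin τ τ0).mem_toFinset.2 ⟨hw, ?_⟩, Bdry.fsel_core hS hg hf hE τ0 γ0
      ((fin τ τ0).mem_toFinset.1 x1).1 (by linarith) x4⟩
    have a := abs_sub_le_osc (B.H f) x hy (one_mem_ball r)
    rw [mul_inv_cancel_left, mul_one] at a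
    show τ < B.H f y
    linarith [(abs_le.1 a).1]

end Vale.Agent.P239
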