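import Vale.Agent.P239.Full.FCob
import Vale.Agent.P239.Full.FKcut
import Vale.Agent.P239.Full.FDef4

/-! Task FW2a: a component that is not an end has a neck. Let `C = cp D x`, `v → c` along `C`, `a < b < c' < c`, `U` as in the negation of `End`. `θ = min (ind U * max (v - b) 0 / (c' - b)) 1` is `KF` (`kcut`, `KF.lip₁`) and equals `ind U` on `C` off a finite set.
For every `ρ` only finitely many `ρ`-edges have `|∇θ| ≥ 1` (`FinEn.of_cay`, `FinEn.finite_edges` for `ball ρ`), and off a finite set points of a cone neighbourhood have `θ` within `1/2` of the value of the cone (`KF.dev_finite`).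
So off a finite set `F₂` steps inside `C` preserve membership in `U`. Take `z = x`, `r₀` with `F₂ ⊆ bl z r₀`, `W` from `finite_comps` (`comp_comp`), ports `z⁻¹ w` for `w ∈ W ∩ U`, `r₁ ≥ r₀` with `W ⊆ bl z r₁`; then `side = (C \ bl z r₀) ∩ U`.
`r₂`: each of the finitely many points of `C ∩ bl z r₁` is joined to `z` by a finite path in `C`. `CobLim` by `cobLim_of_wd` (`WD.mono`).
-/

noncomputable section

open Classical MeasureTheory Filter Topology Set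
open scoped Pointwise ENNReal

namespace Vale.Agent.P239

universe u
variable {G : Type u} [Group G] {S : Finset G} {l : ℕ} {Q : Cones S} {B : Bdry S}

/-- A path inside a component stays in a ball. -/
theorem Cones.exists_radius (hS : Cay S) {R : ℕ} {D : Set G} {x : G} {F : Set G} (hF : F.Finite)
    (h : F ⊆ Q.comp l R D x) : ∃ r, ∀ r' ≥ r, F ⊆ Q.comp l R (Q.comp l R D x ∩ bl S x r') x := by
  have key : ∀ y ∈ F, ∀ᶠ r' in atTop, y ∈ Q.comp l R (Q.comp l R D x ∩ bl S x r') x := by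
    intro y hy
    obtain ⟨hx, hp⟩ := h hy
    clear hy
    induction hp with
    | refl =>
      exact Eventually.of_forall fun r' =>
        Cones.mem_comp_self R ⟨Cones.mem_comp_self R hx, mem_bl_self x r'⟩
    | @tail a b h1 h2 ih =>
      obtain ⟨r, hr⟩ := hS.finite_subset_bl (finite_singleton b) x
      filter_upwards [ih, eventually_ge_atTop r] with r' h3 h4
      exact Cones.comp_step h3 ⟨⟨hx, h1.tail h2⟩, bl_mono x h4 (hr rfl)⟩ h2.2.2
  exact eventually_atTop.1 ((eventually_all_finite hF).2 key)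

omit [Group G] in
theorem fw2a_ind {U : Set G} {x y : G} (h : ¬ (x ∈ U ↔ y ∈ U)) : |ind U y - ind U x| = 1 := by
  unfold ind
  by_cases hx : x ∈ U <;> by_cases hy : y ∈ U <;> simp_all

theorem fw2a_cross (hS : Cay S) {C A : Set G} {u : G → ℝ} (hu : FinEn S u)
    (he : {x | x ∈ C ∧ u x ≠ ind A x}.Finite) (ρ : ℕ) : (crossE S ρ C A).Finite := by
  obtain ⟨K, -, hK⟩ := FinEn.of_cay hS (ball S ρ)
  refine (((hK u hu).1.finite_edges one_pos).union
    ((nbh_finite (S := S) ρ he).prod (ball S ρ).finite_toSet)).subset ?_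
  rintro ⟨y, b⟩ ⟨h1, h2, h3, h4⟩
  by_cases a1 : u y = ind A y
  · by_cases a2 : u (y * b) = ind A (y * b)
    · refine Or.inl ⟨h1, ?_⟩
      rw [a1, a2]
      exact (fw2a_ind h4).ge
    · refine Or.inr ⟨⟨y * b, ⟨h3, a2⟩, ?_⟩, h1⟩
      rw [mul_inv_rev, inv_mul_cancel_right]
      exact hS.inv_mem_ball h1
  · exact Or.inr ⟨subset_nbh ρ _ ⟨h2, a1⟩, h1⟩

/-- A function of class `KF` that agrees with the indicator of `U` on almost all of `C`. -/
theorem fw2a_theta (hH : RH S l Q) {C U : Set G} {v : G → ℝ} {φ : Fin Q.n → G → ℝ}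
    (hv : Q.KF v φ) {c a : ℝ} (hac : a < c) (ht : Tendsto v (cofinite ⊓ 𝓟 C) (𝓝 c))
    (hU : (wallV S U ∩ {x | a < v x}).Finite) :
    ∃ θ ψ, Q.KF θ ψ ∧ {x | x ∈ C ∧ θ x ≠ ind U x}.Finite := by
  obtain ⟨δ, hδ⟩ : ∃ δ, δ = (c - a) / 3 := ⟨_, rfl⟩
  have d0 : 0 < δ := by rw [hδ]; linarith
  obtain ⟨φ', h1⟩ := kcut hH hv (b := a + δ) (by linarith) hU
  refine ⟨_, _, h1.lip₁ (F := fun t => min (t / δ) 1) (L := 1 / δ) (by positivity)
    fun s t => ?_, ?_⟩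
  · refine (abs_min_sub_min_le_max _ _ _ _).trans (le_of_eq ?_)
    rw [sub_self, abs_zero, max_eq_left (abs_nonneg _), ← sub_div, abs_div, abs_of_pos d0]
    ring
  · have h2 := ht.eventually (lt_mem_nhds (show a + 2 * δ < c by rw [hδ]; linarith))
    rw [eventually_inf_principal, eventually_cofinite] at h2
    refine h2.subset fun y hy hc => hy.2 ?_
    have h3 := hc hy.1
    unfold ind
    split_ifs
    · rw [one_mul, max_eq_left (by linarith)]
      exact min_eq_right ((one_le_div d0).2 (by linarith))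
    · simp

/-- Off a finite set, steps inside `C` preserve membership in `U`. -/
theorem fw2a_step (hS : Cay S) {C U : Set G} {θ : G → ℝ} {ψ : Fin Q.n → G → ℝ} (h : Q.KF θ ψ)
    (he : {x | x ∈ C ∧ θ x ≠ ind U x}.Finite) (R : ℕ) : ∃ F : Set G, F.Finite ∧
      ∀ y ∈ C \ F, ∀ y' ∈ C \ F, Q.Step l R y y' → (y ∈ U ↔ y' ∈ U) := by
  refine ⟨_, (he.union (h.dev_finite l one_half_pos)).union
    ((fw2a_cross hS h.1 he R).image Prod.fst), fun y hy y' hy' hs => ?_⟩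
  by_contra hc
  rcases hs with hs | ⟨i, γ, h1, h2⟩
  · refine hy.2 (Or.inr ⟨(y, y⁻¹ * y'), ⟨hs, hy.1, ?_, ?_⟩, rfl⟩)
    · rw [mul_inv_cancel_left]; exact hy'.1
    · rw [mul_inv_cancel_left]; exact hc
  · have a1 : θ y = ind U y := not_not.1 fun e => hy.2 (Or.inl (Or.inl ⟨hy.1, e⟩))
    have a2 : θ y' = ind U y' := not_not.1 fun e => hy'.2 (Or.inl (Or.inl ⟨hy'.1, e⟩))
    have b1 : |θ y - (θ γ - ψ i γ)| < 1 / 2 :=
      not_le.1 fun e => hy.2 (Or.inl (Or.inr ⟨i, γ, h1, e⟩))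
    have b2 : |θ y' - (θ γ - ψ i γ)| < 1 / 2 :=
      not_le.1 fun e => hy'.2 (Or.inl (Or.inr ⟨i, γ, h2, e⟩))
    have c1 := fw2a_ind hc
    rw [← a1, ← a2] at c1
    have c2 := abs_sub_le (θ y') (θ γ - ψ i γ) (θ y)
    rw [abs_sub_comm (θ γ - ψ i γ) (θ y)] at c2
    linarith

theorem exists_neck (hH : RH S l Q) {D : Set G} (hw : ∀ ρ, WD S (ball S ρ) D) {x : G} (hx : x ∈ D)
    (h : ¬ Q.End (Q.cp l D x)) : ∃ τ : NT G, Q.Neck l D τ x := by
  have hS := hH.cay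
  unfold Cones.End at h
  push Not at h
  obtain ⟨v, φ, hv, c, a, hac, ht, U, hU, i1, i2⟩ := h
  obtain ⟨θ, ψ, hθ, he⟩ := fw2a_theta hH hv hac ht hU
  obtain ⟨F, hF, hst⟩ := fw2a_step (l := l) hS hθ he (2 * l + 1)
  obtain ⟨r₀, h0⟩ := hS.finite_subset_bl hF x
  obtain ⟨W, hW, hW1, hW2⟩ := Cones.finite_comps (Q := Q) (l := l) hS (R := 2 * l + 1)
    (C := Q.cp l D x) (Cones.comp_comp _ D x).ge (bl_finite (S := S) x r₀) (mem_bl_self x r₀)
  obtain ⟨r₁, h1⟩ := hS.finite_subset_bl hW x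
  obtain ⟨r₂, h2⟩ := Cones.exists_radius (Q := Q) (l := l) (R := 2 * l + 1) (D := D) hS
    ((bl_finite (S := S) x (max r₀ r₁)).inter_of_right (Q.cp l D x)) inter_subset_left
  have key : ∀ w ∈ Q.cp l D x, ∀ y ∈ Q.cp l (D \ bl S x r₀) w,
      y ∈ Q.cp l D x \ bl S x r₀ ∧ (w ∈ U ↔ y ∈ U) := by
    rintro w hw y ⟨hy, hp⟩
    induction hp with
    | refl => exact ⟨⟨hw, hy.2⟩, Iff.rfl⟩
    | @tail p q h3 h4 ih =>
      have h5 : q ∈ Q.cp l D x := Cones.comp_step ih.1.1 h4.2.1.1 h4.2.2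
      exact ⟨⟨h5, h4.2.1.2⟩, ih.2.trans (hst p ⟨ih.1.1, fun e => ih.1.2 (h0 e)⟩ q
        ⟨h5, fun e => h4.2.1.2 (h0 e)⟩ h4.2.2)⟩
  obtain ⟨P, hP⟩ : ∃ P : Finset G, ∀ π, π ∈ P ↔ x * π ∈ W ∩ U :=
    ⟨((hW.inter_of_left U).preimage (mul_right_injective x).injOn).toFinset,
      fun π => Set.Finite.mem_toFinset _⟩
  obtain ⟨τ, hτ⟩ : ∃ τ : NT G, τ = (r₀, max r₀ r₁, max (max r₀ r₁) r₂, P) := ⟨_, rfl⟩
  have hs : Q.side l D τ x = (Q.cp l D x \ bl S x r₀) ∩ U := by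
    subst hτ
    ext y
    constructor
    · rintro ⟨π, h3, h4⟩
      have h5 := (hP π).1 h3
      have h6 := key _ (hW1 h5.1).1 y h4
      exact ⟨h6.1, h6.2.1 h5.2⟩
    · rintro ⟨h3, h4⟩
      obtain ⟨w, h5, h6⟩ := hW2 y h3
      have h7 : y ∈ Q.cp l (D \ bl S x r₀) w :=
        Cones.comp_mono _ (sdiff_subset_sdiff_left (Cones.comp_subset _ D x)) w h6
      refine ⟨x⁻¹ * w, (hP _).2 ?_, ?_⟩
      · rw [mul_inv_cancel_left]
        exact ⟨h5, (key w (hW1 h5).1 y h7).2.2 h4⟩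
      · rw [mul_inv_cancel_left]
        exact h7
  have he' : {y | y ∈ Q.cp l D x ∧ θ y ≠ ind (Q.side l D τ x) y}.Finite := by
    refine (he.union (bl_finite (S := S) x r₀)).subset fun y hy => ?_
    by_contra hc
    rw [mem_union, not_or] at hc
    refine hc.1 ⟨hy.1, fun e => hy.2 (e.trans ?_)⟩
    have e' : y ∈ U ↔ y ∈ Q.side l D τ x :=
      hs ▸ ⟨fun e' => ⟨⟨hy.1, hc.2⟩, e'⟩, fun e' => e'.2⟩
    unfold ind
    exact if_congr e' rfl rfl
  refine ⟨τ, hx, ?_, ?_, fun π hπ => ?_, ?_, ?_, fun y h3 h4 => ?_, fun ρ => ?_⟩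
  · rw [hτ]; exact le_max_left _ _
  · rw [hτ]; exact le_max_left _ _
  · subst hτ
    have h5 := ((hP π).1 hπ).1
    have h6 := bl_mono x (le_max_right r₀ r₁) (h1 h5)
    rw [bl, mem_ofPred_eq, inv_mul_cancel_left] at h6
    exact ⟨h6, (hW1 h5).1⟩
  · rw [hs]
    exact (i1.sdiff (bl_finite (S := S) x r₀)).mono fun y hy => ⟨⟨hy.1.2, hy.2⟩, hy.1.1⟩
  · rw [hs]
    exact i2.mono fun y hy => ⟨hy.1, fun e => hy.2 e.2⟩
  · subst hτ
    exact h2 _ (le_max_right _ _) ⟨h3, h4⟩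
  · have hc := fw2a_cross hS hθ.1 he' ρ
    refine ⟨hc, cobLim_of_wd hS (fun u hu f hf hs hd => hw ρ u hu f hf (fun z b hz => ?_) hd)
      hθ.1 he' hc⟩
    exact ⟨Cones.comp_subset _ D x (hs z b hz).1, Cones.comp_subset _ D x (hs z b hz).2⟩

end Vale.Agent.P239
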