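import Vale.Agent.P239.Full.FBlk
import Vale.Agent.P239.Full.FW2a
import Vale.Agent.P239.Full.FRep
import Vale.Agent.P239.Full.FCoreB

/-! Task FW2b: two-sided components have no necks. `D = cfD ω = wallV Y`, `C = cp D x`, `U = cut Y C`, `wallV U = C` (`wallV_cut`), `U` is good (`Tail.thin`, `Thin.good`).
`side_rep`: `c y s = if y ∈ F then dZ U y s else 0`; translate `z` to `1` and apply `urep` with `r = r₀ + l`: in a ball of radius `l` or a cone neighbourhood, the wall vertices outside `bl z r₀` are all in `F` or all outside.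
`no_neck`: let `x₀ ∈ C` be a neck of type `τ`, seeing `hatSet U` with `ε` (`Two.exists_sees`). `σ₀, g` from `Thin.far` for `nbh r' C` with `g x₀ ≤ ε/2`; `σ₁ ≥ σ₀` from `exists_radius` for `C ∩ bl x₀ σ₀`.
There are infinitely many necks of type `τ` in `C` (`infinite_necks` for a colour of `x₀` with `σ = 2 r₂`); choose one, `z₀ ∉ bl x₀ (σ₁ + r₀ + r')`, `z₀ ∈ bl x₀ d`, `σ = 2 r₂ + d + σ₁ + r₀ + r'`, `q` a colour of `z₀`, `X = NX τ σ q`. All `z ∈ X` are outside `bl x₀ (σ₁ + r₀ + r')`,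
so `C ∩ bl x₀ σ₀` lies on the side of `x₀`. For the finitely many incident necks `z` of the finite block of `x₀` let `F z` be the side of `z` in `C` not containing `x₀`, `w z` from `side_rep`, `w = indZ U - ∑ w z`.
`exists_inc`, `inc_disj`: the gradient of `w` has finite support; `const_off_finite`; `tube` with `K = ⋃ (F z ∪ bl z r')`.
-/

noncomputable section

open Classical MeasureTheory Filter Topology Set
open scoped Pointwise ENNReal

namespace Vale.Agent.P239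

universe u
variable {G : Type u} [Group G] {S : Finset G} {l : ℕ} {Q : Cones S} {B : Bdry S}

theorem fw2b_dZ {U : Set G} {y s : G} (hs : s ∈ S) (hy : y ∉ wallV S U) : dZ U y s = 0 := by
  by_contra h
  exact hy (Bdry.fcb_wall hs h)

theorem fw2b_ex {U F N : Set G}
    (h : ∀ y ∈ N, ∀ y' ∈ N, y ∈ wallV S U → y' ∈ wallV S U → (y ∈ F ↔ y' ∈ F)) :
    ExOn S (fun y s => if y ∈ F then dZ U y s else 0) N := by
  by_cases h0 : ∃ y ∈ N, y ∈ wallV S U ∧ y ∈ F
  · obtain ⟨y₀, h1, h2, h3⟩ := h0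
    refine ⟨indZ U, fun y hy s hs => ?_⟩
    by_cases hw : y ∈ wallV S U
    · exact if_pos ((h y₀ h1 y hy h2 hw).1 h3)
    · have e := fw2b_dZ hs hw
      change (if y ∈ F then dZ U y s else 0) = dZ U y s
      rw [e, ite_self]
  · refine ⟨fun _ => 0, fun y hy s hs => ?_⟩
    by_cases hw : y ∈ wallV S U
    · have hF : y ∉ F := fun hF => h0 ⟨y, hy, hw, hF⟩
      simp [hF]
    · simp [fw2b_dZ hs hw]

theorem side_rep (hH : RH S l Q) (r₀ : ℕ) : ∃ r' : ℕ, ∀ (U F : Set G) (z : G),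
    (∀ y ∈ wallV S U, ∀ y' ∈ wallV S U, y ∉ bl S z r₀ → y' ∉ bl S z r₀ →
      Q.Step l (2 * l + 1) y y' → (y ∈ F ↔ y' ∈ F)) →
    ∃ w : G → ℤ, ∀ y, y ∉ bl S z r' → ∀ s ∈ S,
      (if y ∈ F then dZ U y s else 0) = w (y * s) - w y := by
  have hS := hH.cay
  obtain ⟨r', hr'⟩ := hH.urep (r₀ + l)
  refine ⟨r', fun U F z h => ?_⟩
  have key : ∀ N : Set G, (∀ b ∈ N, b ∉ ball S r₀) →
      (∀ b ∈ N, ∀ b' ∈ N, Q.Step l (2 * l + 1) b b') →
      ExOn S (fun y s => if z * y ∈ F then dZ U (z * y) s else 0) N := by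
    intro N h1 h2
    refine ExOn.translate (c := fun y s => if y ∈ F then dZ U y s else 0) z (fw2b_ex ?_)
    rintro _ ⟨b, hb, rfl⟩ _ ⟨b', hb', rfl⟩ hw hw'
    refine h _ hw _ hw' ?_ ?_ ((h2 b hb b' hb').smul z)
    · intro hm
      refine h1 b hb ?_
      simpa [bl] using hm
    · intro hm
      refine h1 b' hb' ?_
      simpa [bl] using hm
  have h3 : ∀ i γ, ExOn S (fun y s => if z * y ∈ F then dZ U (z * y) s else 0)
      (Q.cn l i γ \ (ball S (r₀ + l) : Set G)) := fun i γ =>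
    key _ (fun b hb hm => hb.2 (ball_mono (Nat.le_add_right _ _) hm))
      fun b hb b' hb' => Or.inr ⟨i, γ, hb.1, hb'.1⟩
  refine (hr' (fun y s => if z * y ∈ F then dZ U (z * y) s else 0) ?_ ?_ ?_ h3).elim
    fun w hw => ?_
  rotate_right
  · refine ⟨fun y => w (z⁻¹ * y), fun y hy s hs => ?_⟩
    by_contra hne
    refine hy (hw (z⁻¹ * y, s) ⟨hs, ?_⟩)
    simpa [mul_assoc] using hne
  · intro x s
    by_cases hx : z * x ∈ F
    · simp only [hx, if_true, dZ, indZ]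
      split_ifs <;> simp
    · simp [hx]
  · intro y hy
    rw [locExact_iff]
    refine key _ (fun b hb hm => hy ?_) fun b hb b' hb' => Or.inl ?_
    · have := mul_mem_ball hm (mem_bl_symm hS hb)
      simpa using this
    · have := mem_bl_trans (mem_bl_symm hS hb) hb'
      exact ball_mono (by omega) this
  · intro i γ hd
    exact (h3 i γ).mono fun b hb => ⟨hb, fun hm => Set.disjoint_left.1 hd hb hm⟩

theorem fw2b_side (hS : Cay S) {D : Set G} {τ : NT G} {z x y : G}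
    (h : y ∈ Q.cp l (D \ bl S z τ.1) x) : x ∈ Q.side l D τ z ↔ y ∈ Q.side l D τ z := by
  have e : Q.cp l (D \ bl S z τ.1) y = Q.cp l (D \ bl S z τ.1) x := Cones.comp_eq hS h
  have hx : x ∈ Q.cp l (D \ bl S z τ.1) y := by
    rw [e]
    exact Cones.mem_comp_self _ h.1
  constructor
  · rintro ⟨π, hπ, hm⟩
    refine ⟨π, hπ, ?_⟩
    have e' : Q.cp l (D \ bl S z τ.1) x = Q.cp l (D \ bl S z τ.1) (z * π) := Cones.comp_eq hS hm
    rw [← e']
    exact h
  · rintro ⟨π, hπ, hm⟩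
    refine ⟨π, hπ, ?_⟩
    have e' : Q.cp l (D \ bl S z τ.1) y = Q.cp l (D \ bl S z τ.1) (z * π) := Cones.comp_eq hS hm
    rw [← e']
    exact hx

/-- A separated family of necks far away from a given neck. -/
theorem fw2b_far (hS : Cay S) {ω : Cf G} (hω : CfOK S ω) (hF : Q.FBok l ω) {x : G} {τ : NT G}
    (hn : Q.Neck l (cfD ω) τ x) (R : ℕ) : ∃ X : Set G, Q.SepN l (cfD ω) τ X ∧
      (Q.blk l (cfD ω) τ X x).Finite ∧ ∀ z ∈ X, z ∉ bl S x R := by
  have hx : x ∈ cfD ω := hn.1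
  obtain ⟨q₀, hq₀⟩ := hω.cov (2 * τ.2.2.1) x
  have hne : (Q.NX l ω τ (2 * τ.2.2.1) q₀ ∩ Q.cp l (cfD ω) x).Nonempty :=
    ⟨x, ⟨hq₀, hn⟩, Cones.mem_comp_self _ hx⟩
  have hinf := (hω.sepN Q l q₀ (le_refl (2 * τ.2.2.1))).infinite_necks hS hne fun y hy => by
    refine hF τ _ q₀ le_rfl y (Cones.comp_subset _ _ _ hy) ?_
    have e : Q.cp l (cfD ω) y = Q.cp l (cfD ω) x := Cones.comp_eq hS hy
    rw [e]
    exact hne
  obtain ⟨z₀, hz₀, hz₀'⟩ := hinf.exists_notMem_finite (bl_finite (S := S) x R)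
  obtain ⟨d, hd⟩ := hS.exists_ball (z₀⁻¹ * x)
  obtain ⟨q, hq⟩ := hω.cov (2 * τ.2.2.1 + (d + R)) z₀
  refine ⟨Q.NX l ω τ (2 * τ.2.2.1 + (d + R)) q, hω.sepN Q l q (Nat.le_add_right _ _),
    hF τ _ q (Nat.le_add_right _ _) x hx ⟨z₀, ⟨hq, hz₀.1.2⟩, hz₀.2⟩, fun z hz hm => ?_⟩
  have h1 : z ∈ bl S z₀ (d + R) := mem_bl_trans (show x ∈ bl S z₀ d from hd) hm
  have e := hω.sep _ q z₀ hq z hz.1 (bl_mono _ (Nat.le_add_left _ _) h1)
  exact hz₀' (e ▸ hm)

theorem no_neck (hH : RH S l Q) {ω : Cf G} (hω : CfOK S ω) (hF : Q.FBok l ω) {x : G}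
    (hx : x ∈ cfD ω) (h2 : B.Two (hatSet (cut S (cfY ω) (Q.cp l (cfD ω) x)))) (τ : NT G) :
    ¬ Q.Neck l (cfD ω) τ x := by
  intro hn
  have hS := hH.cay
  have hw : wallV S (cut S (cfY ω) (Q.cp l (cfD ω) x)) = Q.cp l (cfD ω) x := by
    have hx' := hx
    rw [hω.wall] at hx' ⊢
    exact wallV_cut hH le_rfl hx'
  have htl := hω.tl
  generalize cut S (cfY ω) (Q.cp l (cfD ω) x) = U at h2 hw
  have hsub : Q.cp l (cfD ω) x ⊆ cfD ω := Cones.comp_subset _ _ _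
  have hT : Thin S (Q.cp l (cfD ω) x) := (htl.thin hS).mono hsub
  have hU : B.Good (hatSet U) := Thin.good B hS hH.gap (hw ▸ hT)
  obtain ⟨ε, hε, hsee⟩ := h2.exists_sees hS x
  obtain ⟨r', hr'⟩ := side_rep hH τ.1
  obtain ⟨σ₀, g, hg, hg1, hgx⟩ := (hT.nbh hS r').far hS x (half_pos hε)
  obtain ⟨r, hr⟩ := Cones.exists_radius (Q := Q) (l := l) (R := 2 * l + 1) (D := cfD ω) (x := x) hS
    ((bl_finite (S := S) x σ₀).inter_of_right (Q.cp l (cfD ω) x)) inter_subset_left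
  obtain ⟨X, hX, hβ, hfar⟩ := fw2b_far hS hω hF hn (r + σ₀ + τ.1 + r')
  generalize cfD ω = D at *
  have hI := hX.inc_finite hS hβ
  obtain ⟨F, hFd⟩ : ∃ F : G → Set G, ∀ z y, y ∈ F z ↔
      y ∈ Q.cp l D x ∧ ¬ (x ∈ Q.side l D τ z ↔ y ∈ Q.side l D τ z) :=
    ⟨fun z => {y | y ∈ Q.cp l D x ∧ ¬ (x ∈ Q.side l D τ z ↔ y ∈ Q.side l D τ z)},
      fun _ _ => Iff.rfl⟩
  have hrep : ∀ z, ∃ w : G → ℤ, ∀ y, y ∉ bl S z r' → ∀ s ∈ S,
      (if y ∈ F z then dZ U y s else 0) = w (y * s) - w y := fun z => by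
    refine hr' U (F z) z fun y hy y' hy' h1 h1' hs => ?_
    rw [hw] at hy hy'
    have e : y ∈ Q.side l D τ z ↔ y' ∈ Q.side l D τ z :=
      ⟨fun h => Cones.side_step h (hsub hy') h1' hs,
        fun h => Cones.side_step h (hsub hy) h1 (hs.symm hS)⟩
    rw [hFd, hFd, e]
    exact and_congr_left' (iff_of_true hy hy')
  choose W hW using hrep
  let w : G → ℤ := fun y => indZ U y - ∑ z ∈ hI.toFinset, W z y
  have hgrad : ∀ y, (∀ z ∈ Q.Inc l D τ X x, y ∉ bl S z r') → ∀ s ∈ S, w (y * s) - w y =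
      dZ U y s - ∑ z ∈ hI.toFinset, (if y ∈ F z then dZ U y s else 0) := by
    intro y hy s hs
    rw [Finset.sum_congr rfl fun z hz => hW z y (hy z (hI.mem_toFinset.1 hz)) s hs,
      Finset.sum_sub_distrib]
    simp only [w, dZ]
    ring
  have hfin : {e : G × G | e.2 ∈ S ∧ w (e.1 * e.2) ≠ w e.1}.Finite := by
    refine ((hβ.union (hI.biUnion fun z _ => bl_finite (S := S) z r')).prod
      S.finite_toSet).subset ?_
    rintro ⟨y, s⟩ ⟨hs, hne⟩
    refine ⟨?_, hs⟩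
    by_contra hy
    have hy1 : y ∉ Q.blk l D τ X x := fun h => hy (Or.inl h)
    have hy2 : ∀ z ∈ Q.Inc l D τ X x, y ∉ bl S z r' := fun z hz h =>
      hy (Or.inr (Set.mem_biUnion hz h))
    refine hne (sub_eq_zero.1 ?_)
    rw [hgrad y hy2 s hs]
    by_cases hc : y ∈ Q.cp l D x
    · obtain ⟨z, hz, hz'⟩ := hX.exists_inc hS hc hy1
      rw [Finset.sum_eq_single z, if_pos ((hFd _ _).2 ⟨hc, hz'⟩), sub_self]
      · intro z' hz'' hne'
        exact if_neg fun h => hne' (hX.inc_disj hS (hI.mem_toFinset.1 hz'') hz hc ((hFd _ _).1 h).2 hz')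
      · exact fun h => absurd (hI.mem_toFinset.2 hz) h
    · rw [← hw] at hc
      simp [fw2b_dZ hs hc]
  obtain ⟨c, hc⟩ := const_off_finite hS hH.one hfin
  have hK : ∀ y ∈ ⋃ z ∈ Q.Inc l D τ X x, (F z ∪ bl S z r'), 1 ≤ g y := by
    intro y hy
    obtain ⟨z, hz, hy⟩ := Set.mem_iUnion₂.1 hy
    have hz' := hfar z hz.1
    rcases hy with hy | hy
    · rw [hFd] at hy
      refine hg1 y (subset_nbh _ _ hy.1) fun hm => hy.2 (fw2b_side hS ?_)
      refine Cones.comp_mono _ ?_ x (hr (r + σ₀) (Nat.le_add_right _ _) ⟨hy.1, hm⟩)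
      intro a ha
      refine ⟨hsub ha.1, fun hb => hz' ?_⟩
      exact bl_mono _ (Nat.le_add_right _ _) (mem_bl_trans ha.2 (mem_bl_symm hS hb))
    · refine hg1 y ⟨z, hz.2.1, hy⟩ fun hm => hz' ?_
      exact bl_mono _ (by omega) (mem_bl_trans hm (mem_bl_symm hS hy))
  have ht := Bdry.tube hS hU hc hg hK (fun y hy s hs _ => by
    rw [hgrad y (fun z hz h => hy (Set.mem_biUnion hz (Or.inr h))) s hs,
      Finset.sum_eq_zero fun z hz =>
        if_neg fun h => hy (Set.mem_biUnion (hI.mem_toFinset.1 hz) (Or.inl h)), sub_zero]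
    rfl) x
  have h3 := hsee.1
  have h4 := hsee.2
  rcases ht with ht | ht <;> linarith

end Vale.Agent.P239
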