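import Vale.Agent.P239.Full.FFB2
import Vale.Agent.P239.Full.FW2b

/-! Task FTEnv: the environment of good walls. With `ω = cfg ξ p`, `C = cp (cfD ω) p.1`: `r' ξ p q = r ξ p q ∧ q.1 ∈ C ∧ TwoM (cut (cfY ω) C)`, `U ξ p = cut (cfY ω) C`. A.s. `fibR r' p = C` when `r' p p`
(`str`, `comp_eq`); `wallV_cut`, `two_iff`, `Tail.thin`, `WD.mono`, `exists_neck` and `no_neck` give `WOK`. `pos`: otherwise no component of any `cfD (cfg p)` is two-sided (every vertex of it carries a related point with the same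
configuration), so by `exists_two_comp` no `cfY` is two-sided.
-/

noncomputable section

open Classical MeasureTheory Filter Topology Set
open scoped Pointwise ENNReal

namespace Vale.Agent.P239

universe u
variable {G : Type u} [Group G] {S : Finset G} {l : ℕ} {Q : Cones S} {B : Bdry S}
  {X : Type u} [MeasurableSpace X]

/-- The component of the point. -/
def ftC (Q : Cones S) (l : ℕ) (E : MEnv G X) (ξ : X) (p : G × ℕ) : Set G :=
  Q.cp l (cfD (E.cfg ξ p)) p.1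

/-- The cut of the component of the point. -/
def ftU (Q : Cones S) (l : ℕ) (E : MEnv G X) (ξ : X) (p : G × ℕ) : Set G :=
  cut S (cfY (E.cfg ξ p)) (ftC Q l E ξ p)

/-- The restricted relation. -/
def ftR (Q : Cones S) (l : ℕ) (E : MEnv G X) (ξ : X) (p q : G × ℕ) : Prop :=
  E.r ξ p q ∧ q.1 ∈ ftC Q l E ξ p ∧ TwoM S (ftU Q l E ξ p)

theorem ftC_sh (E : MEnv G X) (g : G) (ξ : X) (p : G × ℕ) :
    ftC Q l E (E.A.sh g ξ) (g * p.1, p.2) = g • ftC Q l E ξ p := by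
  unfold ftC
  rw [E.cfg_sh, cfD_sh]
  exact cp_smul g _ _

theorem ftU_sh (E : MEnv G X) (g : G) (ξ : X) (p : G × ℕ) :
    ftU Q l E (E.A.sh g ξ) (g * p.1, p.2) = g • ftU Q l E ξ p := by
  unfold ftU
  rw [ftC_sh, E.cfg_sh, cfY_sh, cut_smul]

theorem ftC_eq (hS : Cay S) (E : MEnv G X) {ξ : X} {p q : G × ℕ} (h : E.cfg ξ p = E.cfg ξ q)
    (hq : q.1 ∈ ftC Q l E ξ p) : ftC Q l E ξ q = ftC Q l E ξ p := by
  unfold ftC at hq ⊢
  rw [← h]
  exact Cones.comp_eq hS hq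

theorem ftC_self (E : MEnv G X) {ξ : X} {p : G × ℕ} {y : G} (hq : y ∈ ftC Q l E ξ p) :
    p.1 ∈ ftC Q l E ξ p :=
  Cones.mem_comp_self _ hq.1

theorem ftR_ok (hS : Cay S) (E : MEnv G X) {ξ : X} (h : EqvOK (E.r ξ))
    (hc : ∀ p q, E.r ξ p q → E.cfg ξ p = E.cfg ξ q) : EqvOK (ftR Q l E ξ) where
  symm := fun p q hr => by
    have e := ftC_eq hS E (hc p q hr.1) hr.2.1
    refine ⟨h.symm _ _ hr.1, ?_, ?_⟩
    · rw [e]
      exact ftC_self E hr.2.1
    · unfold ftU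
      rw [e, ← hc p q hr.1]
      exact hr.2.2
  trans := fun p q s hr hr' => by
    have e := ftC_eq hS E (hc p q hr.1) hr.2.1
    refine ⟨h.trans _ _ _ hr.1 hr'.1, ?_, hr.2.2⟩
    rw [← e]
    exact hr'.2.1
  func := fun p x j j' hr hr' => h.func p x j j' hr.1 hr'.1

/-- The restricted random relation. -/
def ftEnv (hS : Cay S) (Q : Cones S) (l : ℕ) (E : MEnv G X) : REnv G X where
  A := E.A
  r := ftR Q l E
  meas := fun p q => by
    have := hS.countable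
    have hC : ∀ y, MeasurableSet {ξ | y ∈ ftC Q l E ξ p} := fun y =>
      meas_comp (fun y => meas_cfD (E.meas_cfg p) y) _ _ _
    have hU : ∀ y, MeasurableSet {ξ | y ∈ ftU Q l E ξ p} := fun y =>
      meas_cut (fun y => meas_cfY (E.meas_cfg p) y) hC y
    exact (E.meas p q).inter ((hC q.1).inter (meas_twoM hU))
  equi := fun g ξ p q => by
    unfold ftR
    rw [E.equi, ftC_sh, ftU_sh, twoM_smul]
    exact and_congr Iff.rfl (and_congr Set.smul_mem_smul_set_iff Iff.rfl)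
  fin := by
    refine ne_top_of_le_ne_top E.fin (ENNReal.tsum_le_tsum fun j => measure_mono ?_)
    exact fun ξ h => h.1
  ok := by
    filter_upwards [E.ok, E.str] with ξ h1 h2
    exact ftR_ok hS E h1 h2.1

theorem ft_wok (hH : RH S l Q) {ω : Cf G} (hω : CfOK S ω) (hF : Q.FBok l ω) {x : G}
    (hx : x ∈ cfD ω) (h2 : TwoM S (cut S (cfY ω) (Q.cp l (cfD ω) x))) :
    wallV S (cut S (cfY ω) (Q.cp l (cfD ω) x)) = Q.cp l (cfD ω) x ∧
      WOK B Q l (cut S (cfY ω) (Q.cp l (cfD ω) x)) := by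
  have hS := hH.cay
  have hw : wallV S (cut S (cfY ω) (Q.cp l (cfD ω) x)) = Q.cp l (cfD ω) x := by
    have hx' := hx
    rw [hω.wall] at hx' ⊢
    exact wallV_cut hH le_rfl hx'
  have hsub : Q.cp l (cfD ω) x ⊆ cfD ω := Cones.comp_subset _ _ _
  have ht : B.Two (hatSet (cut S (cfY ω) (Q.cp l (cfD ω) x))) :=
    (B.two_iff hS hω.tl (hw.le.trans hsub)).2 h2
  refine ⟨hw, ?_, ht, ?_, ?_, ?_⟩
  · rw [hw]
    intro y hy
    have e : Q.cp l (cfD ω) y = Q.cp l (cfD ω) x := Cones.comp_eq hS hy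
    rw [← e]
    exact (Cones.comp_comp _ _ _).ge
  · rw [hw]
    exact (hω.tl.thin hS).mono hsub
  · rw [hw]
    exact fun ρ => (hω.wd ρ).mono hsub
  · rw [hw]
    by_contra hn
    obtain ⟨τ, hτ⟩ := exists_neck hH hω.wd hx hn
    exact no_neck hH hω hF hx ht τ hτ

theorem PEnv.exists_tenv (hH : RH S l Q) (E : PEnv B X) : Nonempty (TEnv B Q l X) := by
  have hS := hH.cay
  refine ⟨⟨ftEnv hS Q l E.toMEnv, ftU Q l E.toMEnv, ftU_sh E.toMEnv, ?_, ?_⟩⟩
  · have h1 := E.ae_fbok hS Q l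
    have h2 := E.cok
    have h3 := E.str
    change ∀ᵐ ξ ∂E.A.P, ∀ p, ftR Q l E.toMEnv ξ p p →
      wallV S (ftU Q l E.toMEnv ξ p) = fibR (ftR Q l E.toMEnv ξ) p ∧
        WOK B Q l (ftU Q l E.toMEnv ξ p)
    filter_upwards [h1, h2, h3] with ξ k1 k2 k3 p hp
    obtain ⟨a, b⟩ := ft_wok (B := B) hH (k2 p hp.1) (k1 p hp.1) hp.2.1.1 hp.2.2
    refine ⟨a.trans ?_, b⟩
    ext y
    constructor
    · intro hy
      have hy' : y ∈ cfD (E.cfg ξ p) := Cones.comp_subset _ _ _ hy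
      rw [k3.2 p hp.1] at hy'
      obtain ⟨j, hj⟩ := hy'
      exact ⟨j, hj, hy, hp.2.2⟩
    · rintro ⟨j, hj⟩
      exact hj.2.1
  · intro hn
    refine E.pos ?_
    have h2 := E.cok
    have h3 := E.str
    have h4 := E.ok
    change ∀ᵐ ξ ∂E.A.P, ∀ p, ¬ ftR Q l E.toMEnv ξ p p at hn
    filter_upwards [hn, h2, h3, h4] with ξ k1 k2 k3 k4 p hp ht
    have hω := k2 p hp
    have hT : Thin S (wallV S (cfY (E.cfg ξ p))) := hω.wall ▸ hω.tl.thin hS
    obtain ⟨z, hz, h2z⟩ := exists_two_comp B hH (le_refl (2 * l + 1)) hT ht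
    have hw := wallV_cut hH (le_refl (2 * l + 1)) hz
    rw [← hω.wall] at hz h2z
    have hz' := hz
    rw [k3.2 p hp] at hz'
    obtain ⟨j, hj⟩ := hz'
    have e := k3.1 _ _ hj
    refine k1 (z, j) ⟨k4.refl_left (k4.symm _ _ hj), ?_, ?_⟩
    · unfold ftC
      rw [← e]
      exact Cones.mem_comp_self _ hz
    · unfold ftU ftC
      rw [← e]
      refine (B.two_iff hS hω.tl ?_).1 h2z
      rw [← hω.wall] at hw
      exact hw.le.trans (Cones.comp_subset _ _ _)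

end Vale.Agent.P239
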