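import Vale.Agent.P239.Full.FBadM
import Vale.Agent.P239.Full.FPE

/-! Task FWired: the stabiliser of a class is wired. Choose `p₀ = (g₀, j₀)` with `η = P E₀ > 0`, `E₀ = {ξ | r ξ p₀ p₀ ∧ (ξ, p₀) ∈ N}` (`ae_m_iff`). Use `wk_of_env` with `Y = Fin k × Bool → X`, `A = E.A.pi _`,
`Bad ξ x` = for some `c : Bool` no `i` has `sh x⁻¹ (ξ (i, c)) ∈ E₀`; probability `≤ 2 (1 - η)^k` (`Measure.pi_pi`). A.s. for `a ≠ a'`, all `x` and `t ∈ T ∪ {1}`: if `sh x⁻¹ (ξ a) ∈ E₀` and `sh (x t)⁻¹ (ξ a') ∈ E₀` then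
`(ξ a, (x g₀, j₀))` and `(ξ a', (x t g₀, j₀))` are `Bad` (`ae_pi_pair` with `measurable_bad`, `ae_all`, `bad_act`). Given `u`, take `u'` from `GDens ∅`. For good `x` pick layers `a x = (i, false)`, `a' x = (i', true)`, `val x = u' (x g₀) - ψ' (a x) (x g₀, j₀)`;
along an edge between good vertices `val` is unchanged (compare both with the point of `x t` in the layer `a' (x t)`). `λ x = u' x - val x` (zero at bad `x`) is square summable, so `pairE T f u' = pairE T f λ = 0` (`pairE_congr`, `pairE_sqSum`), `pairE_of_dense`.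
-/

noncomputable section

open Classical MeasureTheory Filter Topology Set
open scoped Pointwise ENNReal

namespace Vale.Agent.P239

universe u
variable {G : Type u} [Group G] {S : Finset G} {l : ℕ} {Q : Cones S} {B : Bdry S}
  {X : Type u} [MeasurableSpace X]

theorem fwired_prob {Y : Type u} [MeasurableSpace Y] (P : Measure Y) [IsProbabilityMeasure P]
    (E₀ : Set Y) (k : ℕ) :
    Measure.pi (fun _ : Fin k × Bool => P) {ξ | ∃ c : Bool, ∀ i, ξ (i, c) ∉ E₀} ≤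
      2 * P E₀ᶜ ^ k := by
  have h : ∀ c : Bool, Measure.pi (fun _ : Fin k × Bool => P) {ξ | ∀ i, ξ (i, c) ∉ E₀} =
      P E₀ᶜ ^ k := by
    intro c
    have e : {ξ : Fin k × Bool → Y | ∀ i, ξ (i, c) ∉ E₀} =
        Set.pi univ fun a => if a.2 = c then E₀ᶜ else univ := by
      ext ξ
      simp only [Set.mem_pi, mem_univ, forall_const, Set.mem_ofPred_eq, Prod.forall]
      refine ⟨fun h i b => ?_, fun h i => ?_⟩
      · split_ifs with hb
        · rw [hb]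
          exact h i
        · exact mem_univ _
      · simpa using h i c
    rw [e, Measure.pi_pi, Fintype.prod_prod_type]
    simp only [apply_ite P, measure_univ, Finset.prod_ite_eq', Finset.mem_univ, if_true,
      Finset.prod_const, Finset.card_univ, Fintype.card_fin]
  have e : {ξ : Fin k × Bool → Y | ∃ c : Bool, ∀ i, ξ (i, c) ∉ E₀} =
      {ξ | ∀ i, ξ (i, false) ∉ E₀} ∪ {ξ | ∀ i, ξ (i, true) ∉ E₀} := by
    ext ξ
    simp only [Bool.exists_bool, Set.mem_ofPred_eq, mem_union]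
  rw [e, two_mul]
  exact (measure_union_le _ _).trans (by rw [h, h])

/-- The deterministic part. -/
theorem fwired_det (hS : Cay S) {L : Type} [Fintype L] {T : Finset G} {f : G → G → ℝ}
    (hf : SqE T f) (hd : DivFree T f) {u : G → ℝ} (hu : FinEn S u) {ψ : L → G × ℕ → ℝ}
    (hψ : ∀ a, SqSum (ψ a)) (g₀ : G) (j₀ : ℕ) {Gd : G → Prop}
    (hG : ∀ x, ∀ b ∈ T, f x b ≠ 0 → Gd x ∧ Gd (x * b)) (a : G → L)
    (h : ∀ x, ∀ b ∈ T, Gd x → Gd (x * b) → u (x * g₀) - ψ (a x) (x * g₀, j₀) =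
      u (x * b * g₀) - ψ (a (x * b)) (x * b * g₀, j₀)) : pairE T f u = 0 := by
  have h1 : SqSum fun x => u (x * g₀) - u x := (hu.shift hS g₀).2
  have h2 : Summable fun x => ∑ c, ψ c (x * g₀, j₀) ^ 2 := summable_sum fun c _ =>
    (hψ c).comp_injective (i := fun x : G => (x * g₀, j₀)) fun x y hxy =>
      mul_right_cancel (Prod.ext_iff.1 hxy).1
  have h3 : SqSum fun x => ψ (a x) (x * g₀, j₀) - (u (x * g₀) - u x) := by
    refine Summable.of_nonneg_of_le (fun x => sq_nonneg _) (fun x => ?_)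
      ((h2.mul_left 2).add (h1.mul_left 2))
    have := Finset.single_le_sum (f := fun c => ψ c (x * g₀, j₀) ^ 2) (fun c _ => sq_nonneg _)
      (Finset.mem_univ (a x))
    nlinarith [sq_nonneg (ψ (a x) (x * g₀, j₀) + (u (x * g₀) - u x))]
  rw [← pairE_sqSum hf hd h3]
  refine pairE_congr fun x b hb h0 => ?_
  linarith [h x b hb (hG x b hb h0).1 (hG x b hb h0).2]

theorem REnv.wk_of_class (hS : Cay S) (E : REnv G X)
    (hd : ∀ k : ℕ, ∀ᵐ ξ ∂(E.A.pi (Fin k × Bool)).P, GDens Q (fun a => E.r (ξ a)) ∅)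
    {N : Set (X × Pt G)} (hm : MeasurableSet N) (h0 : E.m N ≠ 0)
    (hN : ∀ᵐ a ∂E.m, a ∈ N → ∀ᵐ b ∂E.m, b ∈ N → E.Bad Q a b) (T : Finset G)
    (hT : ∀ t ∈ T, E.act t⁻¹ ⁻¹' N =ᵐ[E.m] N) : Q.WK T := by
  have := hS.countable
  obtain ⟨p₀, hp₀⟩ : ∃ p₀ : G × ℕ,
      E.A.P {ξ | E.r ξ p₀ p₀ ∧ ((ξ, p₀) : X × Pt G) ∈ N} ≠ 0 := by
    by_contra hc
    push Not at hc
    refine h0 (measure_eq_zero_iff_ae_notMem.2 (E.ae_m_iff.2 (ae_all_iff.2 fun p => ?_)))
    filter_upwards [measure_eq_zero_iff_ae_notMem.1 (hc p)] with ξ hξ h1 h2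
    exact hξ ⟨h1, h2⟩
  obtain ⟨g₀, j₀⟩ := p₀
  obtain ⟨E₀, hE₀⟩ : ∃ E₀ : Set X,
      E₀ = {ξ | E.r ξ (g₀, j₀) (g₀, j₀) ∧ ((ξ, (g₀, j₀)) : X × Pt G) ∈ N} := ⟨_, rfl⟩
  rw [← hE₀] at hp₀
  have hmE : MeasurableSet E₀ := by
    rw [hE₀]
    exact (E.meas _ _).inter (measurable_prodMk_right hm)
  have hlt : E.A.P E₀ᶜ < 1 := by
    rw [prob_compl_eq_one_sub hmE]
    exact ENNReal.sub_lt_self ENNReal.one_ne_top one_ne_zero hp₀
  have hT' : ∀ t ∈ insert 1 T, E.act t⁻¹ ⁻¹' N =ᵐ[E.m] N := by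
    intro t ht
    rcases Finset.mem_insert.1 ht with rfl | ht
    · rw [inv_one, show E.act 1 ⁻¹' N = N from Set.ext fun z => by rw [mem_preimage, E.act_one]]
      exact EventuallyEq.rfl
    · exact hT t ht
  have hmΦ : MeasurableSet {z : X × X | ∀ t ∈ insert 1 T, z.1 ∈ E₀ → E.A.sh t⁻¹ z.2 ∈ E₀ →
      E.Bad Q (z.1, (g₀, j₀)) (z.2, (t * g₀, j₀))} := by
    rw [Set.ofPred_forall]
    refine MeasurableSet.iInter fun t => MeasurableSet.imp (MeasurableSet.const _)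
      (MeasurableSet.imp (measurable_fst hmE) (MeasurableSet.imp
        (((E.A.mp t⁻¹).measurable.comp measurable_snd) hmE) ?_))
    exact (by fun_prop : Measurable fun z : X × X =>
      ((((z.1, ((g₀, j₀) : G × ℕ)) : X × Pt G), ((z.2, ((t * g₀, j₀) : G × ℕ)) : X × Pt G)) :
        (X × Pt G) × (X × Pt G))) (E.measurable_bad hS Q)
  have hΦ : ∀ᵐ ξ ∂E.A.P, ∀ᵐ ξ' ∂E.A.P, ∀ t ∈ insert 1 T, ξ ∈ E₀ → E.A.sh t⁻¹ ξ' ∈ E₀ →
      E.Bad Q (ξ, (g₀, j₀)) (ξ', (t * g₀, j₀)) := by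
    have h1 : ∀ᵐ ξ' ∂E.A.P, ∀ t, t ∈ insert 1 T → ∀ p : G × ℕ, E.r ξ' p p →
        (E.act t⁻¹ (ξ', p) ∈ N ↔ ((ξ', p) : X × Pt G) ∈ N) := by
      refine ae_all_iff.2 fun t => ?_
      by_cases ht : t ∈ insert 1 T
      · filter_upwards [E.ae_m_iff.1 (hT' t ht).mem_iff] with ξ hξ _ using hξ
      · exact Eventually.of_forall fun _ h => absurd h ht
    filter_upwards [E.ae_m_iff.1 hN] with ξ hξ
    by_cases h2 : ξ ∈ E₀
    · have h3 := h2
      rw [hE₀] at h3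
      filter_upwards [E.ae_m_iff.1 (hξ _ h3.1 h3.2), h1] with ξ' h4 h5 t ht _ h6
      rw [hE₀] at h6
      have h7 : E.r ξ' (t * g₀, j₀) (t * g₀, j₀) := by
        rw [← E.equi t⁻¹]
        simpa only [inv_mul_cancel_left] using h6.1
      refine h4 _ h7 ((h5 t ht _ h7).1 ?_)
      simpa only [REnv.act, inv_mul_cancel_left] using h6.2
    · exact Eventually.of_forall fun _ _ _ h => absurd h h2
  refine wk_of_env hS Q T fun δ hδ => ?_
  obtain ⟨k, hk, hk0⟩ : ∃ k : ℕ, 2 * E.A.P E₀ᶜ ^ k ≤ δ ∧ 0 < k := by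
    have h1 := ENNReal.Tendsto.const_mul (a := 2)
      (ENNReal.tendsto_pow_atTop_nhds_zero_of_lt_one hlt) (Or.inr ENNReal.ofNat_ne_top)
    rw [mul_zero] at h1
    exact ((h1.eventually (ge_mem_nhds (pos_iff_ne_zero.2 hδ))).and (eventually_gt_atTop 0)).exists
  refine ⟨Fin k × Bool → X, inferInstance, E.A.pi (Fin k × Bool),
    fun ξ x => ∃ c : Bool, ∀ i, E.A.sh x⁻¹ (ξ (i, c)) ∉ E₀, fun x => ?_, fun g ξ x => ?_, ?_, ?_⟩
  · rw [Set.ofPred_exists]
    refine MeasurableSet.iUnion fun c => ?_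
    rw [Set.ofPred_forall]
    exact MeasurableSet.iInter fun i =>
      (((E.A.mp x⁻¹).measurable.comp (measurable_pi_apply (i, c))) hmE).compl
  · simp only [PAct.pi, ← E.A.sh_mul, mul_inv_rev, inv_mul_cancel_right]
  · simp only [inv_one, E.A.sh_one]
    exact (fwired_prob E.A.P E₀ k).trans hk
  · filter_upwards [hd k, (E.A.pi (Fin k × Bool)).ae_all (E.A.ae_pi_pair _ hmΦ hΦ)] with ξ h1 h2
      f hf hdf hb u φ hu
    refine pairE_of_dense hS hf hu.1 fun ε hε => ?_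
    obtain ⟨u', φ', ψ', hu', hψ', -, he, -⟩ := h1 u φ (fun _ _ => 0) hu (fun _ h => h.elim) ε hε
    refine ⟨u', hu'.1, he, ?_⟩
    have key : ∀ x a b, a ≠ b → ∀ t ∈ insert 1 T, E.A.sh x⁻¹ (ξ a) ∈ E₀ →
        E.A.sh (x * t)⁻¹ (ξ b) ∈ E₀ → u' (x * g₀) - ψ' a (x * g₀, j₀) =
          u' (x * t * g₀) - ψ' b (x * t * g₀, j₀) := by
      intro x a b hab t ht h3 h4
      have h5 := (E.bad_act x _ _).2 (h2 x⁻¹ a b hab t ht h3
        (by rw [mul_inv_rev, E.A.sh_mul] at h4; exact h4))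
      simp only [REnv.act, PAct.pi, ← E.A.sh_mul, mul_inv_cancel, E.A.sh_one, ← mul_assoc] at h5
      exact h5 u' φ' (ψ' a) (ψ' b) hu' (hψ' a) (hψ' b)
    have hc : ∀ x, ∀ c : Bool, ∃ i, (∀ c : Bool, ∃ i, E.A.sh x⁻¹ (ξ (i, c)) ∈ E₀) →
        E.A.sh x⁻¹ (ξ (i, c)) ∈ E₀ := by
      intro x c
      by_cases h3 : ∀ c : Bool, ∃ i, E.A.sh x⁻¹ (ξ (i, c)) ∈ E₀
      · exact (h3 c).imp fun i hi _ => hi
      · exact ⟨⟨0, hk0⟩, fun h => absurd h h3⟩
    choose a ha using hc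
    refine fwired_det hS hf hdf hu'.1 (fun a => (hψ' a).1) g₀ j₀
      (Gd := fun x => ∀ c : Bool, ∃ i, E.A.sh x⁻¹ (ξ (i, c)) ∈ E₀) (fun x b hb' h3 => ?_)
      (fun x => (a x false, false)) fun x b hb' h3 h4 => ?_
    · constructor
      · intro c
        by_contra h4
        exact h3 (hb x b hb' (Or.inl ⟨c, fun i hi => h4 ⟨i, hi⟩⟩))
      · intro c
        by_contra h4
        exact h3 (hb x b hb' (Or.inr ⟨c, fun i hi => h4 ⟨i, hi⟩⟩))
    · have h5 := key x (a x false, false) (a (x * b) true, true) (by simp) b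
        (Finset.mem_insert_of_mem hb') (ha x false h3) (ha _ true h4)
      have h6 := key (x * b) (a (x * b) false, false) (a (x * b) true, true) (by simp) 1
        (Finset.mem_insert_self _ _) (ha _ false h4) (by rw [mul_one]; exact ha _ true h4)
      rw [mul_one] at h6
      exact h5.trans h6.symm

end Vale.Agent.P239
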