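import Vale.Agent.P239.Full.FClsE
import Vale.Agent.P239.Full.FWired
import Vale.Agent.P239.Full.FDiff
import Vale.Agent.P239.Full.FTEnv
import Vale.Agent.P239.Full.FLaw
import Vale.Agent.P239.Full.FSel
import Vale.Agent.P239.Full.FFamB

/-! Task FThmR: the relative theorem. `not_bddCaps`, `exists_sel`, `exists_penv`, `exists_tenv`, `aeq_dich` for `Bad` (`sigmaFinite_m`, `measurable_bad`, `bad_symm`, `ae_trans`); first case `diffuse_false` with `𝔽 = ae m`
(`m_ne_zero`, `mp_act`, `U_act`, `ae_wok`, `ae_fvp`); second case `exists_M`, `wk_of_class`.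
-/

noncomputable section

open Classical MeasureTheory Filter Topology Set
open scoped Pointwise ENNReal

namespace Vale.Agent.P239

universe u
variable {G : Type u} [Group G] {S : Finset G} {l : ℕ} {Q : Cones S} {B : Bdry S}

theorem away_or_FThmR (U W : Set G) : away U W = U ∨ away U W = Uᶜ := by
  unfold away
  split_ifs
  · exact Or.inl rfl
  · exact Or.inr rfl

theorem thmR (B : Bdry S) (hH : RH S l Q) (hn : B.NonK Q) : ThmR B Q := by
  have := hH.cay.countable
  obtain ⟨P⟩ := exists_penv B hH.cay hH.gap fun δ hδ r =>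
    Bdry.exists_sel hH.cay hH.gap (Bdry.not_bddCaps hH hn) hδ r
  obtain ⟨E⟩ := P.exists_tenv hH
  have := E.toREnv.sigmaFinite_m
  rcases aeq_dich (m := E.m) (R := fun a b => E.Bad Q a b) (E.toREnv.measurable_bad hH.cay Q)
    (fun a b h => E.toREnv.bad_symm h) (E.ae_trans hH) with h | ⟨N, hm, h0, hN⟩
  · have := ae_neBot.2 (E.m_ne_zero hH.cay)
    refine (diffuse_false B hH (ae E.m) (fun a => E.U a.1 a.2) E.act
      (fun g => (E.toREnv.mp_act g).quasiMeasurePreserving.tendsto_ae) (fun g a => E.U_act g a)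
      ((E.ae_wok hH.cay).mono fun a ha => ⟨ha.thin, ha.two⟩) ?_).elim
    filter_upwards [h, E.ae_fvp hH] with a h1 h2
    filter_upwards [h1, h2] with b h3 h4
    exact ⟨_, _, away_or_FThmR _ _, away_or_FThmR _ _, h4 h3⟩
  · obtain ⟨M, A, R, h1, h2, h3, h4⟩ := E.exists_M hH hm h0 hN
    refine ⟨M, A, R, h1, h2, h3, fun T hT => E.toREnv.wk_of_class hH.cay
      (fun k => (E.ae_gdens hH _).mono fun ξ h => h ∅) hm h0 ?_ T fun t ht => h4 t (hT ht)⟩
    filter_upwards [hN] with a ha haN
    filter_upwards [ha haN] with b hb hbN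
    exact hb.2 hbN

end Vale.Agent.P239
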