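import Vale.Agent.P239.Full.FClB
import Vale.Agent.P239.Full.FKF
import Vale.Agent.P239.Full.FCoresA

/-! Task FUnt: cones touching a thin set; finitely generated pieces. `null_touch`: every cone is thin (`thin_of_tendsto` with `KF.translate`, `KF.tendsto_cn`), so a.e. `ξ` is cofinite and contains no cone (countably many, `Thin.null`). For such `ξ` in the set and `g`, `ε`:
for `γ` in the set pick `y γ ∈ cone i γ ∩ nbh r M`; `u (g γ) - φ i (g γ) = u (g y) - φ i (g y)`, which is within `ε` of `c g` unless `y` lies in a finite set (`FinEn.tendsto_nbh`), i.e. `γ` in finitely many cones. So `hat u (g • ξ) = c g` for all `g`; `noatom`.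
`comp_sub_fg`: `T = t ∩ ball (2 R + ρ)`, induction along the path. `isWCl_of`: translate by `m⁻¹`.
-/

noncomputable section

open Classical MeasureTheory Filter Topology Set
open scoped Pointwise ENNReal

namespace Vale.Agent.P239

universe u
variable {G : Type u} [Group G] {S : Finset G} {l : ℕ} {Q : Cones S} {B : Bdry S}

theorem null_touch (B : Bdry S) (hS : Cay S) (hg : Gap S) {u : G → ℝ} {φ : Fin Q.n → G → ℝ}
    (hb : Bdd u) (hu : Q.KF u φ) (hn : ∀ c : ℝ, ¬ ∀ᵐ ξ ∂B.μ 1, hat u ξ = c) {M : Set G}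
    {c : G → ℝ} (hM : ∀ g : G, Tendsto (fun x => u (g * x)) (cofinite ⊓ 𝓟 M) (𝓝 (c g)))
    (i : Fin Q.n) (r : ℕ) : B.Null (hatSet {γ | (Q.cone i γ ∩ nbh S r M).Nonempty}) := by
  have := hS.countable
  have h0 : ∀ γ, Thin S (Q.cone i γ) := fun γ =>
    B.thin_of_tendsto hS hg hb hu.1 hn (c := fun g => u (g * γ) - φ i (g * γ)) fun g =>
      ((hu.translate g).tendsto_cn 0 i γ).mono_left
        (inf_le_inf_left _ (principal_mono.2 (subset_nbh 0 _)))
  have h1 : ∀ᵐ ξ ∂B.μ 1, ∀ γ, ξ ∉ hatSet (Q.cone i γ) :=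
    ae_all_iff.2 fun γ => (B.null_iff_ae _).1 ((h0 γ).null B hS)
  have h3 := (B.null_iff_ae _).1 (B.noatom hS hg hb hu.1 hn c)
  rw [B.null_iff_ae]
  filter_upwards [h1, B.ae_cofinite hS, h3] with ξ h1 h2 h3 hξ
  refine h3 fun g => ?_
  rw [hat_smul]
  refine hat_eq_of_tendsto ?_
  have hk := hu.translate g
  have hψ : Tendsto (fun x => φ i (g * x)) cofinite (𝓝 0) := (hk.2 i).1.tendsto
  have h4 : Tendsto (fun x => u (g * x) - φ i (g * x)) (cofinite ⊓ 𝓟 (nbh S r M)) (𝓝 (c g)) := by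
    have := (hk.1.tendsto_nbh hS (hM g) r).sub (hψ.mono_left inf_le_left)
    rwa [sub_zero] at this
  have h5 : Tendsto (fun x => u (g * x) - φ i (g * x)) (ξ.uf : Filter G) (𝓝 (c g)) := by
    refine Metric.tendsto_nhds.2 fun ε hε => ?_
    have h6 := eventually_cofinite.1 (eventually_inf_principal.1 (Metric.tendsto_nhds.1 h4 ε hε))
    have h7 : (⋃ y ∈ {y | ¬ (y ∈ nbh S r M → dist (u (g * y) - φ i (g * y)) (c g) < ε)},
        Q.cone i y) ∉ ξ.uf := fun h => by
      obtain ⟨y, -, hy⟩ := (Ultrafilter.finite_biUnion_mem_iff h6).1 h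
      exact h1 y hy
    filter_upwards [Ultrafilter.compl_mem_iff_notMem.2 h7, (hξ : _ ∈ ξ.uf)] with γ h8 h9
    obtain ⟨y, hy, hy'⟩ := h9
    rw [← hk.val_eq hy]
    by_contra h10
    refine h8 (mem_biUnion (x := y) (fun h => h10 (h hy')) ?_)
    rw [Cones.cone_eq hy]
    exact Cones.mem_cone_self i γ
  have h8 := h5.add (hψ.mono_left h2)
  simpa using h8

theorem comp_sub_fg (hS : Cay S) {t : Subgroup G} {R : ℕ} (ρ : ℕ) {D : Set G}
    (hD : D ⊆ nbh S R t) (x : G) : ∃ T : Finset G, (T : Set G) ⊆ t ∧ ∃ m ∈ t,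
      rc S ρ D x ⊆ nbh S R (m • (Subgroup.closure (T : Set G) : Set G)) := by
  by_cases hx : x ∈ D
  · obtain ⟨m, hm, hmx⟩ := hD hx
    have hT : (((ball S (R + ρ + R)).filter (· ∈ t) : Finset G) : Set G) ⊆ t := fun a ha =>
      (Finset.mem_filter.1 ha).2
    refine ⟨(ball S (R + ρ + R)).filter (· ∈ t), hT, m, hm, fun y hy => ?_⟩
    obtain ⟨-, hy⟩ := hy
    induction hy with
    | refl => exact ⟨m, ⟨1, Subgroup.one_mem _, mul_one m⟩, hmx⟩
    | @tail y z _ hyz ih =>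
      obtain ⟨_, ⟨h, hh, rfl⟩, ha⟩ := ih
      obtain ⟨-, hz, hs | ⟨i, -⟩⟩ := hyz
      · obtain ⟨a', ha', haz⟩ := hD hz
        have h1 : (m * h)⁻¹ * a' ∈ ball S (R + ρ + R) := by
          have := mul_mem_ball (mul_mem_ball ha hs) (hS.inv_mem_ball haz)
          have e : (m • h)⁻¹ * y * (y⁻¹ * z) * (a'⁻¹ * z)⁻¹ = (m * h)⁻¹ * a' := by
            rw [smul_eq_mul]
            group
          rwa [e] at this
        have h2 : (m * h)⁻¹ * a' ∈ t :=
          t.mul_mem (t.inv_mem (t.mul_mem hm ((Subgroup.closure_le t).2 hT hh))) ha'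
        refine ⟨a', ⟨h * ((m * h)⁻¹ * a'), Subgroup.mul_mem _ hh
          (Subgroup.subset_closure (Finset.mem_filter.2 ⟨h1, h2⟩)), ?_⟩, haz⟩
        change m * (h * ((m * h)⁻¹ * a')) = a'
        group
      · exact i.elim0
  · exact ⟨∅, by simp, 1, t.one_mem, fun y hy => absurd hy.1 hx⟩

theorem isWCl_of (hS : Cay S) {t : Subgroup G} (ht : IsCl S t) {T : Finset G}
    (hT : (T : Set G) ⊆ t) {m : G} {U : Set G} {R : ℕ} (h2 : B.Two (hatSet U))
    (hU : wallV S U ⊆ nbh S R (m • (Subgroup.closure (T : Set G) : Set G))) : IsWCl B t := by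
  refine ⟨ht, T, hT, m⁻¹ • U, ?_, R, ?_⟩
  · rw [← smul_hatSet]
    exact h2.smul hS _
  · rw [wallV_smul]
    refine (smul_set_mono hU).trans ?_
    rw [← nbh_smul, inv_smul_smul]

/-- A cut along a class that separates two points has a finitely generated piece doing so. -/
theorem exists_fg_cut (hH : HypQ S l) {t : Subgroup G} {U : Set G} {R : ℕ}
    (hU : wallV S U ⊆ nbh S R t) {x y : G} (hx : x ∈ U) (hy : y ∉ U) :
    ∃ (U' : Set G) (T : Finset G) (m : G), x ∈ U' ∧ y ∉ U' ∧ wallV S U' ⊆ wallV S U ∧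
      (T : Set G) ⊆ t ∧ wallV S U' ⊆ nbh S R (m • (Subgroup.closure (T : Set G) : Set G)) := by
  obtain ⟨z, hz, h⟩ := exists_odd hH.rh le_rfl hx hy
  have h1 := wallV_cut hH.rh le_rfl hz
  obtain ⟨T, hT, m, -, h2⟩ := comp_sub_fg hH.cay (2 * l + 1) hU z
  rw [← rc_eq l, ← h1] at h2
  have h3 := Cones.comp_subset (Q := Cones.empty S) (l := l) (2 * l + 1) (wallV S U) z
  rw [← h1] at h3
  by_cases h4 : x ∈ cut S U ((Cones.empty S).comp l (2 * l + 1) (wallV S U) z)
  · exact ⟨_, T, m, h4, fun h5 => h ⟨fun _ => h5, fun _ => h4⟩, h3, hT, h2⟩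
  · refine ⟨_ᶜ, T, m, h4, fun h5 => h ⟨fun h6 => absurd h6 h4, fun h6 => absurd h6 h5⟩, ?_, hT, ?_⟩
    · rwa [wallV_compl]
    · rwa [wallV_compl]

end Vale.Agent.P239
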