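import Vale.Agent.P239.Full.FFin1
import Vale.Agent.P239.Full.FUnt
import Vale.Agent.P239.Full.FThmR

/-! Task FFinal: the contradiction at a vertex. `far_core`: let `R₁` be from `wall_sub`, `r` from `nbh_trc t (R' + 3 L + R₁)`, enlarged by `same_cls` and `R`; fix `i` (there is a core); by `null_touch` (`exists_fun`, `nonconst_of_not_tendsto`) some `γ ∈ V` has a cone disjoint from `nbh r (trc t)`.
`core_side`: every point of the core is joined inside the core to its wall, the wall is connected by steps of length `≤ 3 L` (`conn`), and no wall vertex of `U` is met (`exists_wall_path`).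
`false`: `rh`, `exists_bdry`, `nonK_of`, `thmR` give `M, A, R`; `U = lev A` is two-sided (`Good.aeq_lev`), `M ≠ ⊥`; the image of `M` lies in a class `t` (`exists_cl`, `wired_of_wk`); `extend`. `far_core` for `U` and `Uᶜ` gives cores `K₁ ⊆ U'`, `K₂ ∩ U' = ∅`
(the cones contain no wall vertex of `U`, `const_cone`). `exists_fg_cut`, `core_side`: `K₁ ⊆ U*`, `K₂ ∩ U* = ∅`, so `U*` is two-sided, `IsWCl t`, `WallOf t U*`. The inner wall vertices of `K₁` are infinitely many points of `U* ∩ nbh (cls K₁)` so `U* ∩ cls K₁` is infinite (`fin_nbh`, `wall_cls`);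
the same for `U*ᶜ` and `K₂` with `ended` shows that `U* ∩ cls K₂` is finite. This contradicts `clique`.
-/

noncomputable section

open Classical MeasureTheory Filter Topology Set
open scoped Pointwise ENNReal

namespace Vale.Agent.P239

universe u
variable {G : Type u} [Group G] {S : Finset G} {l L : ℕ} {B : Bdry S} {Z : Cores B L}
  (Y : Tr Z)

theorem ffinal_null {A A' : Set G} (h : A ⊆ A') (h' : ¬ B.Null (hatSet A)) :
    ¬ B.Null (hatSet A') := fun k =>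
  h' (measure_mono_null (fun ξ hξ => show A' ∈ (ξ.uf : Filter G) from mem_of_superset hξ h) k)

theorem ffinal_wall (hS : Cay S) (h1 : OneEnded S) {U : Set G} (h : B.Two (hatSet U)) :
    (wallV S U).Infinite := fun hf => by
  rcases h1 U ((wallV_finite_iff U).1 hf) with k | k
  · exact h.1 (B.null_hatSet_of_finite hS k)
  · exact h.2 (hatSet_compl U ▸ B.null_hatSet_of_finite hS k)

theorem ffinal_inner (hS : Cay S) (h1 : OneEnded S) {U : Set G} (h : B.Two (hatSet U)) :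
    (wallV S U ∩ U).Infinite := fun hf => by
  refine ffinal_wall hS h1 h ((nbh_finite (S := S) 1 hf).subset fun x hx => ?_)
  by_cases hU : x ∈ U
  · exact subset_nbh 1 _ ⟨hx, hU⟩
  · obtain ⟨s, hs, hx⟩ := hx
    have k : x * s ∈ U := by_contra fun k => hx (iff_of_false hU k)
    refine ⟨x * s, ⟨hS.mul_mem_wallV hs hx, k⟩, ?_⟩
    simpa using mem_ball_one (hS.symm s hs)

namespace Tr

theorem far_core (hS : Cay S) (tf : TorsionFree G) (hL : 1 ≤ L) (B' : Bdry Y.S') {t : Subgroup G}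
    (ht : IsCl S t) {V : Set Z.Γ} (hV : ¬ B'.Null (hatSet V)) (R R' : ℕ) :
    ∃ (i : Fin Y.Q.n) (γ : Z.Γ), γ ∈ V ∧ Z.cls ((γ : G) • Y.K i) ≠ t ∧
      Disjoint (Y.Q.cone i γ) (nbh Y.S' R (trc Z.Γ t)) ∧
      Disjoint (nbh S (3 * L) (wallV S ((γ : G) • Y.K i))) (nbh S R' t) := by
  obtain ⟨R₁, hR₁⟩ := Y.wall_sub hS hL
  obtain ⟨r₁, hr₁⟩ := Y.nbh_trc t (R' + 3 * L + R₁)
  obtain ⟨r₂, hr₂⟩ := Y.same_cls hS ht
  obtain ⟨K₀, hK₀, -⟩ := Z.ne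
  obtain ⟨i, -⟩ := Y.orbit K₀ hK₀
  obtain ⟨u, φ, hb, hu, hn, c, hc⟩ := Y.exists_fun hS tf ht
  have hg := Y.gap hS tf
  have hnull := null_touch B' Y.cay hg hb hu (nonconst_of_not_tendsto B' Y.cay hg hb hu.1 hn) hc i
    (r₁ + r₂ + R)
  obtain ⟨γ, hγ, hd⟩ : ∃ γ ∈ V,
      ¬ (Y.Q.cone i γ ∩ nbh Y.S' (r₁ + r₂ + R) (trc Z.Γ t)).Nonempty := by
    by_contra h
    refine ffinal_null (fun γ hγ => ?_) hV hnull
    by_contra k
    exact h ⟨γ, hγ, k⟩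
  refine ⟨i, γ, hγ, fun h => hd ⟨γ, Cones.mem_cone_self i γ, ?_⟩,
    Set.disjoint_left.2 fun x hx hx' => hd ⟨x, hx, ?_⟩, Set.disjoint_left.2 ?_⟩
  · exact nbh_mono (by omega) Subset.rfl (hr₂ i γ h)
  · exact nbh_mono (by omega) Subset.rfl hx'
  · rintro x ⟨a, ha, hax⟩ ⟨m, hm, hmx⟩
    obtain ⟨σ, hσ, haσ⟩ := hR₁ i γ a ha
    refine hd ⟨σ, hσ, nbh_mono (by omega) Subset.rfl (hr₁ σ ⟨m, hm, ?_⟩)⟩
    exact mem_bl_trans (mem_bl_trans (x := m) hmx (mem_bl_symm hS (z := a) hax))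
      (mem_bl_symm hS haσ)

include Y in
theorem ffinal_cls (hH : HypQ S l) (hL : 1 ≤ L) {K : Set G} (hK : K ∈ Z.𝒦) {t : Subgroup G}
    (ht : IsCl S t) (hne : Z.cls K ≠ t) {W : Set G} {R : ℕ} (hW : wallV S W ⊆ nbh S R t)
    (hKW : K ⊆ W) : (W ∩ Z.cls K).Infinite := fun hf => by
  obtain ⟨r, hr⟩ := Y.wall_cls hH.cay hL hK
  exact ffinal_inner hH.cay hH.one (Z.two K hK)
    ((fin_nbh hH.cay hH.tf ht (Z.cl K hK).1 hne.symm hW hf r).subset fun x hx =>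
      ⟨hKW hx.2, hr hx.1⟩)

theorem ffinal_cone {U : Set Z.Γ} {i : Fin Y.Q.n} {γ : Z.Γ}
    (h : Disjoint (Y.Q.cone i γ) (wallV Y.S' U)) : ∀ x ∈ Y.Q.cone i γ, (x ∈ U ↔ γ ∈ U) := by
  intro x hx
  refine (Cones.const_cone (fun x => x ∈ U) (fun y hy s hs => ?_) x hx).to_iff
  by_contra k
  exact Set.disjoint_left.1 h hy ⟨s, Y.Q.sub i hs, fun e => k (propext e.symm)⟩

end Tr

theorem Cores.core_side (hS : Cay S) (Z : Cores B L) {K : Set G} (hK : K ∈ Z.𝒦) {U₀ U : Set G}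
    (h0 : wallV S U ⊆ wallV S U₀) (h1 : ∀ x ∈ K, ∀ y ∈ K, (x ∈ U₀ ↔ y ∈ U₀))
    (h2 : Disjoint (nbh S (3 * L) (wallV S K)) (wallV S U₀)) :
    ∀ x ∈ K, ∀ y ∈ K, (x ∈ U ↔ y ∈ U) := by
  have h3 : ∀ a ∈ K, a ∉ wallV S U := by
    intro a ha hw
    obtain ⟨s, hs, k⟩ := h0 hw
    by_cases hb : a * s ∈ K
    · exact k (h1 a ha _ hb)
    · exact Set.disjoint_left.1 h2 (subset_nbh _ _ ⟨s, hs, fun e => hb (e.1 ha)⟩) ⟨s, hs, k⟩
  obtain ⟨w, -, hw⟩ := Z.wall_ne hS hK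
  have h4 : ∀ x ∈ K, ∃ z ∈ wallV S K, (x ∈ U ↔ z ∈ U) := by
    intro x hx
    obtain ⟨z, hz, ⟨a, ha, hza⟩, hr⟩ := fcoresA_path hS hx hw
    refine ⟨z, ⟨a, ha, fun e => hza (e.1 hz)⟩, ?_⟩
    clear hz hza
    induction hr with
    | refl => rfl
    | tail _ k ih =>
      obtain ⟨s, hs, rfl, hp, -⟩ := k
      exact ih.trans (by_contra fun e => h3 _ hp ⟨s, hs, e⟩)
  have h5 : ∀ x ∈ wallV S K, ∀ y ∈ wallV S K, (x ∈ U ↔ y ∈ U) := by
    intro x hx y hy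
    have hr := (Z.conn K hK x hx hy).2
    clear hy
    induction hr with
    | refl => rfl
    | tail _ k ih =>
      obtain ⟨hp, -, k | ⟨i, -⟩⟩ := k
      · refine ih.trans (by_contra fun e => ?_)
        obtain ⟨z, hz, hz'⟩ := fend_wall hS e k
        exact Set.disjoint_left.1 h2 ⟨_, hp, hz'⟩ (h0 hz)
      · exact i.elim0
  intro x hx y hy
  obtain ⟨a, ha, e1⟩ := h4 x hx
  obtain ⟨b, hb, e2⟩ := h4 y hy
  exact e1.trans ((h5 a ha b hb).trans e2.symm)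

include Y in
theorem Tr.false (hH : HypQ S l) (hn : B.NonD) (hL : 2 * l + 2 ≤ L) : False := by
  have hS := hH.cay
  have tf := hH.tf
  have hL1 : 1 ≤ L := by omega
  obtain ⟨l', hR⟩ := Y.rh hH hn hL
  obtain ⟨B'⟩ := Y.cay.exists_bdry hR.gap
  obtain ⟨K₀, hK₀, -⟩ := Z.ne
  obtain ⟨u, φ, hb, hu, hnt, -⟩ := Y.exists_fun hS tf (Z.cl K₀ hK₀).1
  obtain ⟨M, A, R, hA, hA2, hw, hWK⟩ := thmR B' hR
    (Bdry.nonK_of hb hu (nonconst_of_not_tendsto B' Y.cay hR.gap hb hu.1 hnt))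
  have he := hA.aeq_lev
  generalize B'.lev A = U at hw he
  have hU2 : B'.Two (hatSet U) := by
    refine ⟨fun k => hA2.1 (measure_mono_null (fun ξ hξ => ?_) (measure_union_null he.1 k)),
      fun k => hA2.2 (measure_mono_null (fun ξ hξ => ?_) (measure_union_null he.2 k))⟩
    · by_cases h : ξ ∈ hatSet U
      exacts [Or.inr h, Or.inl ⟨hξ, h⟩]
    · by_cases h : ξ ∈ hatSet U
      exacts [Or.inl ⟨h, hξ⟩, Or.inr h]
  obtain ⟨g, hg, hg1⟩ : ∃ g ∈ M, g ≠ 1 := by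
    by_contra h
    refine ffinal_wall Y.cay hR.one hU2 ((nbh_finite R ((finite_singleton 1).subset
      fun g hg => ?_)).subset hw)
    by_contra k
    exact h ⟨g, hg, k⟩
  obtain ⟨t, ht, hMt⟩ := exists_cl hS tf (M := M.map Z.Γ.subtype)
    ⟨g, ⟨g, hg, rfl⟩, fun k => hg1 (Subtype.ext k)⟩ fun T hT => by
      have e : upF (T.subtype (· ∈ Z.Γ)) = T := by
        refine Finset.subtype_map_of_mem fun x hx => ?_
        obtain ⟨y, -, rfl⟩ := hT hx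
        exact y.2
      rw [← e]
      refine Y.wired_of_wk hS (hWK _ fun x hx => ?_)
      obtain ⟨y, hy, k⟩ := hT (Finset.mem_subtype.1 hx)
      exact (Subtype.ext k : y = x) ▸ hy
  have hU : wallV Y.S' U ⊆ nbh Y.S' R (trc Z.Γ t) :=
    hw.trans (nbh_mono le_rfl fun x hx => hMt ⟨x, hx, rfl⟩)
  obtain ⟨U', R', hU', hext⟩ := Y.extend hS tf hL1 hR ht hU
  obtain ⟨i₁, γ₁, hγ₁, hne₁, hd₁, hd₁'⟩ := Y.far_core hS tf hL1 B' ht hU2.1 R R'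
  obtain ⟨i₂, γ₂, hγ₂, hne₂, hd₂, hd₂'⟩ := Y.far_core hS tf hL1 B' ht (V := Uᶜ)
    (hatSet_compl U ▸ hU2.2) R R'
  have k₁ : ∀ x ∈ (γ₁ : G) • Y.K i₁, x ∈ U' := fun x hx =>
    (hext i₁ γ₁ x hx).2 (finite_empty.subset fun y hy =>
      hy.2 ((Y.ffinal_cone (hd₁.mono_right hU) y hy.1).2 hγ₁))
  have k₂ : ∀ x ∈ (γ₂ : G) • Y.K i₂, x ∉ U' := fun x hx h =>
    Cones.cone_infinite i₂ γ₂ (((hext i₂ γ₂ x hx).1 h).subset fun y hy =>
      ⟨hy, fun k => hγ₂ ((Y.ffinal_cone (hd₂.mono_right hU) y hy).1 k)⟩)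
  have hK₁ := Y.smul_K_mem i₁ γ₁
  have hK₂ := Y.smul_K_mem i₂ γ₂
  generalize (γ₁ : G) • Y.K i₁ = K₁ at hK₁ k₁ hne₁ hd₁'
  generalize (γ₂ : G) • Y.K i₂ = K₂ at hK₂ k₂ hne₂ hd₂'
  obtain ⟨x₁, -, hx₁⟩ := (ffinal_inner hS hH.one (Z.two K₁ hK₁)).nonempty
  obtain ⟨x₂, -, hx₂⟩ := (ffinal_inner hS hH.one (Z.two K₂ hK₂)).nonempty
  obtain ⟨W, T, m, w₁, w₂, hW, hT, hWm⟩ := exists_fg_cut hH hU' (k₁ x₁ hx₁) (k₂ x₂ hx₂)
  have s₁ : K₁ ⊆ W := fun x hx => (Z.core_side hS hK₁ hW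
    (fun a ha b hb => iff_of_true (k₁ a ha) (k₁ b hb)) (hd₁'.mono_right hU') x hx x₁ hx₁).2 w₁
  have s₂ : K₂ ⊆ Wᶜ := fun x hx h => w₂ ((Z.core_side hS hK₂ hW
    (fun a ha b hb => iff_of_false (k₂ a ha) (k₂ b hb)) (hd₂'.mono_right hU') x hx x₂ hx₂).1 h)
  have hW2 : B.Two (hatSet W) :=
    ⟨ffinal_null s₁ (Z.two K₁ hK₁).1, hatSet_compl W ▸ ffinal_null s₂ (Z.two K₂ hK₂).1⟩
  have hW' := hW.trans hU'
  refine Y.ffinal_cls hH hL1 hK₁ ht hne₁ hW' s₁ ((Z.clique K₁ hK₁ K₂ hK₂ t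
    (isWCl_of hS ht hT hW2 hWm) hne₁.symm hne₂.symm W ⟨hW2, R', hW'⟩).2 ?_)
  refine (ended hH hn ht (Z.cl K₂ hK₂) hne₂.symm hW').resolve_right fun h => ?_
  exact Y.ffinal_cls hH hL1 hK₂ ht hne₂ (W := Wᶜ) (by rwa [wallV_compl]) s₂
    (h.subset fun x hx => ⟨hx.2, hx.1⟩)

end Vale.Agent.P239
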