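import Vale.Agent.P239.Full.FDef4
import Vale.Agent.P239.Full.FPE
import Vale.Agent.P239.Full.FEnv

/-! Task FGD1: summing the wired property over classes. Group the edges `e = (x, j, b)` by the class of `(x, j)` (the map `e ↦ {q | r (x, j) q}`, `Summable.tsum_fiberwise` or `HasSum.tsum_fiberwise`). For a class with point `p` put
`f x b = ∑' j, if r p (x, j) then h (x, j, b) else 0` (at most one `j`); it is square summable, supported in `fibR r p`, divergence free (at `y ∈ fibR r p` by `hd`, elsewhere all terms vanish), so `pairE T f u = 0`.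
-/

noncomputable section

open Classical MeasureTheory Filter Topology Set
open scoped Pointwise ENNReal

namespace Vale.Agent.P239

universe u
variable {G : Type u} [Group G] {S : Finset G}

theorem fgd1_class {r : G × ℕ → G × ℕ → Prop} (hr : EqvOK r) (T : Finset G) {p : G × ℕ}
    (hW : WD S T (fibR r p)) {u : G → ℝ} (hu : FinEn S u) {h : G × ℕ × G → ℝ}
    (h2 : SqSum h)
    (hs : ∀ e, h e ≠ 0 → r (e.1, e.2.1) (e.1, e.2.1) ∧ e.2.2 ∈ T ∧
      e.1 * e.2.2 ∈ fibR r (e.1, e.2.1))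
    (hsum : Summable fun e : G × ℕ × G =>
      if r p (e.1, e.2.1) then h e * (u (e.1 * e.2.2) - u e.1) else 0)
    (hd : ∀ q, r q q → ∑ b ∈ T, ((∑' j : ℕ, if r q (q.1 * b⁻¹, j) then h (q.1 * b⁻¹, j, b) else 0) -
      h (q.1, q.2, b)) = 0) :
    ∑' e : G × ℕ × G, (if r p (e.1, e.2.1) then h e * (u (e.1 * e.2.2) - u e.1) else 0) = 0 := by
  have hJ : ∀ x, ∃ j₀, ∀ j, r p (x, j) → j = j₀ := fun x => by
    by_cases hx : ∃ j, r p (x, j)
    · obtain ⟨j₀, h0⟩ := hx
      exact ⟨j₀, fun j hj => hr.func p x j j₀ hj h0⟩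
    · exact ⟨0, fun j hj => absurd ⟨j, hj⟩ hx⟩
  choose J hJ using hJ
  let f : G → G → ℝ := fun x b => if r p (x, J x) then h (x, J x, b) else 0
  have hf : ∀ x b, (∑' j : ℕ, if r p (x, j) then h (x, j, b) else 0) = f x b := fun x b =>
    tsum_eq_single (J x) fun j hj => if_neg fun h1 => hj (hJ x j h1)
  have hsupp : ∀ x b, f x b ≠ 0 → x ∈ fibR r p ∧ x * b ∈ fibR r p := fun x b hx => by
    by_cases h1 : r p (x, J x)
    · simp only [f, if_pos h1] at hx
      exact ⟨⟨_, h1⟩, hr.fibR_eq h1 ▸ (hs _ hx).2.2⟩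
    · exact absurd (if_neg h1) hx
  have hsq : SqE T f := fun b _ => by
    have hinj : Function.Injective fun x : G => (x, J x, b) := fun _ _ e => congrArg Prod.fst e
    refine Summable.of_nonneg_of_le (fun _ => sq_nonneg _) (fun x => ?_) (h2.comp_injective hinj)
    simp only [f, Function.comp_apply]
    split_ifs
    · exact le_rfl
    · rw [zero_pow two_ne_zero]
      exact sq_nonneg _
  have hdiv : DivFree T f := fun y => by
    by_cases h1 : r p (y, J y)
    · rw [← hd (y, J y) (hr.trans _ _ _ (hr.symm _ _ h1) h1)]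
      refine Finset.sum_congr rfl fun b _ => ?_
      have e : ∀ z, r (y, J y) z ↔ r p z := fun z =>
        ⟨hr.trans _ _ _ h1, hr.trans _ _ _ (hr.symm _ _ h1)⟩
      simp only [e, hf]
      simp only [f, if_pos h1]
    · refine Finset.sum_eq_zero fun b _ => ?_
      have h3 : f (y * b⁻¹) b = 0 := by
        by_contra h4
        obtain ⟨j, hj⟩ := (hsupp _ _ h4).2
        rw [inv_mul_cancel_right] at hj
        exact h1 (hJ y j hj ▸ hj)
      have h4 : f y b = 0 := if_neg h1
      rw [h3, h4, sub_self]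
  refine Eq.trans ?_ (hW u hu f hsq hsupp hdiv)
  rw [hsum.tsum_prod, pairE]
  refine tsum_congr fun x => ?_
  rw [tsum_eq_sum (s := {J x} ×ˢ T), Finset.sum_product, Finset.sum_singleton]
  · refine Finset.sum_congr rfl fun b _ => ?_
    simp only [f]
    split_ifs
    · rfl
    · rw [zero_mul]
  · intro z hz
    split_ifs with h1
    · have h3 : h (x, z) = 0 := by
        by_contra h4
        exact hz (Finset.mem_product.2 ⟨Finset.mem_singleton.2 (hJ x _ h1), (hs _ h4).2.1⟩)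
      rw [h3, zero_mul]
    · rfl

theorem pair_classes {r : G × ℕ → G × ℕ → Prop} (hr : EqvOK r) (T : Finset G)
    (hW : ∀ p, r p p → WD S T (fibR r p)) {u : G → ℝ} (hu : FinEn S u) {h : G × ℕ × G → ℝ}
    (h2 : SqSum h)
    (hs : ∀ e, h e ≠ 0 → r (e.1, e.2.1) (e.1, e.2.1) ∧ e.2.2 ∈ T ∧
      e.1 * e.2.2 ∈ fibR r (e.1, e.2.1))
    (hsum : Summable fun e => h e * (u (e.1 * e.2.2) - u e.1))
    (hd : ∀ q, r q q → ∑ b ∈ T, ((∑' j : ℕ, if r q (q.1 * b⁻¹, j) then h (q.1 * b⁻¹, j, b) else 0) -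
      h (q.1, q.2, b)) = 0) :
    ∑' e, h e * (u (e.1 * e.2.2) - u e.1) = 0 := by
  rw [← (hsum.hasSum.tsum_fiberwise fun e => {q | r (e.1, e.2.1) q}).tsum_eq]
  refine (tsum_congr fun c => ?_).trans tsum_zero
  by_cases hc : ∃ e : G × ℕ × G, {q | r (e.1, e.2.1) q} = c ∧ h e ≠ 0
  · obtain ⟨e₀, rfl, h0⟩ := hc
    have hp := (hs e₀ h0).1
    have he : ((fun e : G × ℕ × G => {q | r (e.1, e.2.1) q}) ⁻¹'
        {{q | r (e₀.1, e₀.2.1) q}}).indicator (fun e => h e * (u (e.1 * e.2.2) - u e.1)) =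
        fun e => if r (e₀.1, e₀.2.1) (e.1, e.2.1) then h e * (u (e.1 * e.2.2) - u e.1) else 0 := by
      funext e
      by_cases h1 : h e = 0
      · simp [Set.indicator, h1]
      · refine if_congr ⟨fun h3 => ?_, fun h3 => Set.ext fun z => ?_⟩ rfl rfl
        · exact (Set.ext_iff.1 h3 (e.1, e.2.1)).1 (hs e h1).1
        · exact ⟨hr.trans _ _ _ h3, hr.trans _ _ _ (hr.symm _ _ h3)⟩
    rw [tsum_subtype _ fun e : G × ℕ × G => h e * (u (e.1 * e.2.2) - u e.1), he]
    exact fgd1_class hr T (hW _ hp) hu h2 hs (he ▸ hsum.indicator _) hd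
  · refine (tsum_congr fun e => ?_).trans tsum_zero
    have h1 : h e = 0 := by
      by_contra h3
      exact hc ⟨e, e.2, h3⟩
    rw [h1, zero_mul]

end Vale.Agent.P239
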