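import Vale.Agent.P239.Full.FDef4
import Vale.Agent.P239.Full.FEnv

/-! Task FNeckM: measurability and equivariance of components, necks, blocks. `G` is countable, so all conditions are countable Boolean combinations.
`meas_rtg`: `ReflTransGen` is the union over `n` of the `n`-step relations (or over lists); finiteness of a set valued map: `∃ W : Finset, ∀ y, y ∈ F ξ → y ∈ W`; `encard = ∑' y, indicator`.
`CobLim`: quantifiers over `ℕ`, `G →₀ ℚ`, `Finset (G × G)` are countable, the finite sums are measurable functions. `Pk k (ind (U ξ)) x` is measurable by induction on `k`.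
-/

noncomputable section

open Classical MeasureTheory Filter Topology Set
open scoped Pointwise ENNReal

namespace Vale.Agent.P239

universe u
variable {G : Type u} [Group G] {S : Finset G} {l : ℕ} {Q : Cones S} {B : Bdry S}
  {X : Type u} [MeasurableSpace X]

/-- `n`-step relation. -/
def neckmSt {α : Type*} (R : α → α → Prop) (x : α) : ℕ → α → Prop
  | 0, y => x = y
  | n + 1, y => ∃ z, neckmSt R x n z ∧ R z y

theorem neckm_rtg_iff {α : Type*} (R : α → α → Prop) (x y : α) :
    Relation.ReflTransGen R x y ↔ ∃ n, neckmSt R x n y := by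
  constructor
  · intro h
    induction h with
    | refl => exact ⟨0, rfl⟩
    | tail _ hbc ih =>
      obtain ⟨n, hn⟩ := ih
      exact ⟨n + 1, _, hn, hbc⟩
  · rintro ⟨n, hn⟩
    induction n generalizing y with
    | zero =>
      have h : x = y := hn
      subst h
      exact Relation.ReflTransGen.refl
    | succ n ih =>
      obtain ⟨z, hz, hzy⟩ := hn
      exact (ih z hz).tail hzy

theorem neckm_set {α : Type*} {F : X → Set α} (h : ∀ y, MeasurableSet {ξ | y ∈ F ξ}) :
    Measurable F := measurable_set_iff.2 fun y => measurableSet_setOfPred.1 (h y)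

theorem neckm_ind {α : Type*} {F : X → Set α} (h : ∀ y, MeasurableSet {ξ | y ∈ F ξ}) (y : α) :
    Measurable fun ξ => if y ∈ F ξ then (1 : ℝ) else 0 :=
  Measurable.ite (h y) measurable_const measurable_const

section
variable [Countable G]

theorem meas_rtg {R : X → G → G → Prop} (h : ∀ a b, MeasurableSet {ξ | R ξ a b}) (x y : G) :
    MeasurableSet {ξ | Relation.ReflTransGen (R ξ) x y} := by
  have key : ∀ n y, Measurable fun ξ => neckmSt (R ξ) x n y := by
    intro n
    induction n with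
    | zero => exact fun y => measurable_const
    | succ n ih =>
      exact fun y => Measurable.exists fun z => (ih z).and (measurableSet_setOfPred.1 (h z y))
  simp only [neckm_rtg_iff]
  exact (Measurable.exists fun n => key n y).setOf

theorem meas_finite {α : Type*} [Countable α] {F : X → Set α}
    (h : ∀ y, MeasurableSet {ξ | y ∈ F ξ}) : MeasurableSet {ξ | (F ξ).Finite} :=   neckm_set h MeasurableSet.setOfPred_finite

theorem meas_encard {α : Type*} [Countable α] {F : X → Set α}
    (h : ∀ y, MeasurableSet {ξ | y ∈ F ξ}) : Measurable fun ξ => ((F ξ).encard : ℝ≥0∞) :=   (Measurable.of_discrete (f := fun n : ℕ∞ => (n : ℝ≥0∞))).comp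
    (measurable_encard.comp (neckm_set h))

theorem meas_ncard {α : Type*} [Countable α] {F : X → Set α}
    (h : ∀ y, MeasurableSet {ξ | y ∈ F ξ}) : Measurable fun ξ => ((F ξ).ncard : ℝ) :=   (Measurable.of_discrete (f := fun n : ℕ => (n : ℝ))).comp
    (measurable_ncard.comp (neckm_set h))

theorem meas_comp {D : X → Set G} (h : ∀ y, MeasurableSet {ξ | y ∈ D ξ}) (R : ℕ) (x y : G) :
    MeasurableSet {ξ | y ∈ Q.comp l R (D ξ) x} := by
  have hm : ∀ y, Measurable fun ξ => y ∈ D ξ := fun y => measurableSet_setOfPred.1 (h y)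
  exact ((hm x).and (measurableSet_setOfPred.1 (meas_rtg
    (R := fun ξ a b => a ∈ D ξ ∧ b ∈ D ξ ∧ Q.Step l R a b)
    (fun a b => ((hm a).and ((hm b).and measurable_const)).setOf) x y))).setOf

theorem meas_side {D : X → Set G} (h : ∀ y, MeasurableSet {ξ | y ∈ D ξ}) (τ : NT G) (z y : G) :
    MeasurableSet {ξ | y ∈ Q.side l (D ξ) τ z} := by
  have hm : ∀ y, Measurable fun ξ => y ∈ D ξ := fun y => measurableSet_setOfPred.1 (h y)
  have h2 : ∀ y, MeasurableSet {ξ | y ∈ D ξ \ bl S z τ.1} := fun y =>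
    ((hm y).and measurable_const).setOf
  exact (Measurable.exists fun π => measurable_const.and
    (measurableSet_setOfPred.1 (meas_comp (Q := Q) (l := l) h2 (2 * l + 1) (z * π) y))).setOf

theorem meas_cobLim {C A : X → Set G} (h : ∀ y, MeasurableSet {ξ | y ∈ C ξ})
    (h' : ∀ y, MeasurableSet {ξ | y ∈ A ξ}) (ρ : ℕ) :
    MeasurableSet {ξ | CobLim S ρ (C ξ) (A ξ)} := by
  have hm : ∀ y, Measurable fun ξ => y ∈ C ξ := fun y => measurableSet_setOfPred.1 (h y)
  refine (Measurable.forall fun m => Measurable.exists fun φ => Measurable.forall fun W =>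
    measurableSet_setOfPred.1 (measurableSet_le ?_ measurable_const)).setOf
  refine Finset.measurable_sum _ fun e _ => Measurable.ite
    (measurable_const.and ((hm _).and (hm _))).setOf ?_ measurable_const
  exact (((neckm_ind h' _).sub (neckm_ind h' _)).sub measurable_const).pow_const 2

theorem meas_neck {D : X → Set G} (h : ∀ y, MeasurableSet {ξ | y ∈ D ξ}) (τ : NT G) (z : G) :
    MeasurableSet {ξ | Q.Neck l (D ξ) τ z} := by
  have hm : ∀ y, Measurable fun ξ => y ∈ D ξ := fun y => measurableSet_setOfPred.1 (h y)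
  have hc : ∀ y, MeasurableSet {ξ | y ∈ Q.cp l (D ξ) z} := fun y => meas_comp h _ z y
  have hc' : ∀ y, Measurable fun ξ => y ∈ Q.cp l (D ξ) z := fun y =>
    measurableSet_setOfPred.1 (hc y)
  have hs : ∀ y, MeasurableSet {ξ | y ∈ Q.side l (D ξ) τ z} := fun y => meas_side h τ z y
  have hs' : ∀ y, Measurable fun ξ => y ∈ Q.side l (D ξ) τ z := fun y =>
    measurableSet_setOfPred.1 (hs y)
  have h1 : ∀ y, MeasurableSet {ξ | y ∈ Q.cp l (D ξ) z \ Q.side l (D ξ) τ z} := fun y =>
    ((hc' y).and (hs' y).not).setOf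
  have h2 : ∀ y, MeasurableSet {ξ | y ∈ Q.cp l (D ξ) z ∩ bl S z τ.2.2.1} := fun y =>
    ((hc' y).and measurable_const).setOf
  have h3 : ∀ ρ e, MeasurableSet {ξ | e ∈ crossE S ρ (Q.cp l (D ξ) z) (Q.side l (D ξ) τ z)} :=
    fun ρ e => (measurable_const.and ((hc' _).and ((hc' _).and ((hs' _).iff (hs' _)).not))).setOf
  refine ((hm z).and (measurable_const.and (measurable_const.and (Measurable.and ?_
    (Measurable.and ?_ (Measurable.and ?_ (Measurable.and ?_ ?_))))))).setOf
  · exact Measurable.forall fun π => measurable_const.imp (measurable_const.and (hc' _))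
  · exact (measurableSet_setOfPred.1 (meas_finite hs)).not
  · exact (measurableSet_setOfPred.1 (meas_finite h1)).not
  · exact Measurable.forall fun y => (hc' y).imp (measurable_const.imp
      (measurableSet_setOfPred.1 (meas_comp h2 _ z y)))
  · exact Measurable.forall fun ρ => (measurableSet_setOfPred.1 (meas_finite (h3 ρ))).and
      (measurableSet_setOfPred.1 (meas_cobLim hc hs ρ))

theorem meas_blk {D N : X → Set G} (h : ∀ y, MeasurableSet {ξ | y ∈ D ξ})
    (h' : ∀ y, MeasurableSet {ξ | y ∈ N ξ}) (τ : NT G) (x y : G) :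
    MeasurableSet {ξ | y ∈ Q.blk l (D ξ) τ (N ξ) x} := by
  have hn : ∀ y, Measurable fun ξ => y ∈ N ξ := fun y => measurableSet_setOfPred.1 (h' y)
  have hc : ∀ y, Measurable fun ξ => y ∈ Q.cp l (D ξ) x := fun y =>
    measurableSet_setOfPred.1 (meas_comp h _ x y)
  have hs : ∀ z y, Measurable fun ξ => y ∈ Q.side l (D ξ) τ z := fun z y =>
    measurableSet_setOfPred.1 (meas_side h τ z y)
  exact ((hc y).and (Measurable.forall fun z => (hn z).imp ((hc z).imp
    ((hs z x).iff (hs z y))))).setOf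

theorem meas_cut {Y C : X → Set G} (h : ∀ y, MeasurableSet {ξ | y ∈ Y ξ})
    (h' : ∀ y, MeasurableSet {ξ | y ∈ C ξ}) (x : G) :
    MeasurableSet {ξ | x ∈ cut S (Y ξ) (C ξ)} := by
  have hy : ∀ y, Measurable fun ξ => y ∈ Y ξ := fun y => measurableSet_setOfPred.1 (h y)
  have hc : ∀ y, Measurable fun ξ => y ∈ C ξ := fun y => measurableSet_setOfPred.1 (h' y)
  refine (Measurable.exists fun y => ((hc y).and (hy y)).and
    (measurableSet_setOfPred.1 (meas_rtg
      (R := fun ξ a b => ∃ s ∈ S, b = a * s ∧ ¬ (a ∈ C ξ ∧ ¬ (a ∈ Y ξ ↔ b ∈ Y ξ)))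
      (fun a b => ?_) x y))).setOf
  exact (Measurable.exists fun s => measurable_const.and (measurable_const.and
    ((hc a).and ((hy a).iff (hy b)).not).not)).setOf

theorem meas_twoM {U : X → Set G} (h : ∀ y, MeasurableSet {ξ | y ∈ U ξ}) :
    MeasurableSet {ξ | TwoM S (U ξ)} := by
  have key : ∀ k x, Measurable fun ξ => Pk S k (ind (U ξ)) x := by
    intro k
    induction k with
    | zero => exact fun x => neckm_ind h x
    | succ k ih =>
      intro x
      simp only [Pk_succ, avg]
      exact (Finset.measurable_sum _ fun s _ => ih _).div_const _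
  exact (Measurable.exists fun x => Measurable.exists fun m => Measurable.exists fun k₀ =>
    Measurable.forall fun k => measurable_const.imp
      ((measurableSet_setOfPred.1 (measurableSet_le measurable_const (key k x))).and
        (measurableSet_setOfPred.1 (measurableSet_le (key k x) measurable_const)))).setOf

theorem meas_cfD {ω : X → Cf G} (h : Measurable ω) (y : G) : MeasurableSet {ξ | y ∈ cfD (ω ξ)} :=   ((measurable_pi_apply (Sum.inl true : Lb)).comp ((measurable_pi_apply y).comp h))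
    (measurableSet_singleton true)

theorem meas_cfY {ω : X → Cf G} (h : Measurable ω) (y : G) : MeasurableSet {ξ | y ∈ cfY (ω ξ)} :=   ((measurable_pi_apply (Sum.inl false : Lb)).comp ((measurable_pi_apply y).comp h))
    (measurableSet_singleton true)

theorem meas_NX {ω : X → Cf G} (h : Measurable ω) (τ : NT G) (σ q : ℕ) (z : G) :
    MeasurableSet {ξ | z ∈ Q.NX l (ω ξ) τ σ q} := by
  have hz : MeasurableSet {ξ | z ∈ cfZ (ω ξ) σ q} :=
    ((measurable_pi_apply (Sum.inr (σ, q) : Lb)).comp ((measurable_pi_apply z).comp h))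
      (measurableSet_singleton true)
  exact ((measurableSet_setOfPred.1 hz).and
    (measurableSet_setOfPred.1 (meas_neck (meas_cfD h) τ z))).setOf

end

theorem cp_smul (g : G) (D : Set G) (x : G) : Q.cp l (g • D) (g * x) = g • Q.cp l D x :=   Cones.comp_smul _ g D x

theorem rc_smul (ρ : ℕ) (g : G) (D : Set G) (x : G) : rc S ρ (g • D) (g * x) = g • rc S ρ D x :=   Cones.comp_smul _ g D x

theorem side_smul (g : G) (D : Set G) (τ : NT G) (z : G) :
    Q.side l (g • D) τ (g * z) = g • Q.side l D τ z := by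
  ext y
  rw [Set.mem_smul_set_iff_inv_smul_mem]
  refine exists_congr fun π => and_congr_right fun _ => ?_
  rw [← bl_smul, ← Set.smul_set_sdiff, mul_assoc, cp_smul, Set.mem_smul_set_iff_inv_smul_mem]

theorem neckm_mem (g x : G) (A : Set G) : g * x ∈ g • A ↔ x ∈ A :=
  Set.smul_mem_smul_set_iff (a := g) (x := x) (s := A)

theorem neckm_ind_smul (g x : G) (A : Set G) : ind (g • A) (g * x) = ind A x := by
  by_cases hx : x ∈ A
  · rw [ind, ind, if_pos hx, if_pos ((neckm_mem g x A).2 hx)]
  · rw [ind, ind, if_neg hx, if_neg fun h => hx ((neckm_mem g x A).1 h)]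

theorem neckm_inf (g : G) (A : Set G) : (g • A).Infinite ↔ A.Infinite :=
  not_congr Set.finite_smul_set

theorem mem_crossE_smul (ρ : ℕ) (g : G) (C A : Set G) (x b : G) :
    (g * x, b) ∈ crossE S ρ (g • C) (g • A) ↔ (x, b) ∈ crossE S ρ C A := by
  simp only [crossE, Set.mem_setOf_eq, mul_assoc, neckm_mem]

theorem CobLim.smul {ρ : ℕ} {C A : Set G} (h : CobLim S ρ C A) (g : G) :
    CobLim S ρ (g • C) (g • A) := by
  intro m
  obtain ⟨φ, hφ⟩ := h m
  refine ⟨φ.equivMapDomain (Equiv.mulLeft g), fun W => ?_⟩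
  refine le_of_eq_of_le ?_ (hφ (W.map ((Equiv.mulLeft g⁻¹).prodCongr (Equiv.refl G)).toEmbedding))
  rw [Finset.sum_map]
  refine Finset.sum_congr rfl fun e _ => ?_
  obtain ⟨x, b⟩ := e
  obtain ⟨x, rfl⟩ : ∃ x', x = g * x' := ⟨g⁻¹ * x, by rw [mul_inv_cancel_left]⟩
  have h1 : ((Equiv.mulLeft g⁻¹).prodCongr (Equiv.refl G)).toEmbedding (g * x, b) = (x, b) := by
    simp
  have h2 : ∀ y, φ.equivMapDomain (Equiv.mulLeft g) (g * y) = φ y := fun y => by
    simp
  rw [h1]
  simp only [mul_assoc, neckm_mem, neckm_ind_smul, h2]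

theorem neckm_cob (ρ : ℕ) (g : G) (C A : Set G) : CobLim S ρ (g • C) (g • A) ↔ CobLim S ρ C A := by
  refine ⟨fun h => ?_, fun h => h.smul g⟩
  have h2 := h.smul g⁻¹
  rwa [inv_smul_smul, inv_smul_smul] at h2

theorem neckm_cross (ρ : ℕ) (g : G) (C A : Set G) :
    (crossE S ρ (g • C) (g • A)).Finite ↔ (crossE S ρ C A).Finite := by
  have h : crossE S ρ (g • C) (g • A) =
      ((Equiv.mulLeft g).prodCongr (Equiv.refl G)) '' crossE S ρ C A := by
    ext e
    obtain ⟨x, b⟩ := e
    obtain ⟨x, rfl⟩ : ∃ x', x = g * x' := ⟨g⁻¹ * x, by rw [mul_inv_cancel_left]⟩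
    rw [mem_crossE_smul]
    exact (Function.Injective.mem_set_image
      ((Equiv.mulLeft g).prodCongr (Equiv.refl G)).injective (a := (x, b))).symm
  rw [h]
  exact Set.finite_image_iff (Equiv.injective _).injOn

theorem neckm_forall (g : G) {p : G → Prop} : (∀ y, p y) ↔ ∀ y, p (g * y) :=
  (Equiv.mulLeft g).forall_congr_right.symm

theorem neck_smul (g : G) (D : Set G) (τ : NT G) (z : G) :
    Q.Neck l (g • D) τ (g * z) ↔ Q.Neck l D τ z := by
  unfold Cones.Neck
  rw [side_smul, cp_smul, neckm_mem, ← Set.smul_set_sdiff, neckm_inf, neckm_inf, ← bl_smul,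
    ← bl_smul, ← Set.smul_set_inter, cp_smul]
  refine and_congr_right fun _ => and_congr_right fun _ => and_congr_right fun _ =>
    and_congr ?_ (and_congr_right fun _ => and_congr_right fun _ => and_congr ?_ ?_)
  · simp only [mul_assoc, neckm_mem]
  · rw [neckm_forall g]
    simp only [neckm_mem]
  · simp only [neckm_cross, neckm_cob]

theorem NX_sh (g : G) (ω : Cf G) (τ : NT G) (σ q : ℕ) :
    Q.NX l (cfSh g ω) τ σ q = g • Q.NX l ω τ σ q := by
  ext z
  obtain ⟨z, rfl⟩ : ∃ x', z = g * x' := ⟨g⁻¹ * z, by rw [mul_inv_cancel_left]⟩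
  rw [neckm_mem]
  change g * z ∈ cfZ (cfSh g ω) σ q ∧ Q.Neck l (cfD (cfSh g ω)) τ (g * z) ↔
    z ∈ cfZ ω σ q ∧ Q.Neck l (cfD ω) τ z
  rw [cfZ_sh, cfD_sh, neckm_mem, neck_smul]

theorem blk_smul (g : G) (D N : Set G) (τ : NT G) (x : G) :
    Q.blk l (g • D) τ (g • N) (g * x) = g • Q.blk l D τ N x := by
  ext y
  obtain ⟨y, rfl⟩ : ∃ x', y = g * x' := ⟨g⁻¹ * y, by rw [mul_inv_cancel_left]⟩
  rw [neckm_mem]
  change g * y ∈ Q.cp l (g • D) (g * x) ∧ (∀ z ∈ g • N, z ∈ Q.cp l (g • D) (g * x) →
      (g * x ∈ Q.side l (g • D) τ z ↔ g * y ∈ Q.side l (g • D) τ z)) ↔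
    y ∈ Q.cp l D x ∧ ∀ z ∈ N, z ∈ Q.cp l D x → (x ∈ Q.side l D τ z ↔ y ∈ Q.side l D τ z)
  rw [neckm_forall g]
  simp only [cp_smul, side_smul, neckm_mem]

theorem zone_smul (g : G) (D : Set G) (τ : NT G) (z : G) :
    Q.zone l (g • D) τ (g * z) = g • Q.zone l D τ z := by
  unfold Cones.zone
  rw [cp_smul, ← bl_smul, Set.smul_set_inter]

theorem twoM_smul (g : G) (U : Set G) : TwoM S (g • U) ↔ TwoM S U := by
  refine ⟨fun h => ?_, fun h => h.smul g⟩
  have h2 := h.smul g⁻¹
  rwa [inv_smul_smul] at h2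

end Vale.Agent.P239
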