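import Vale.Agent.P239.Full.FFib

/-! Task FOp: operators given by equivariant kernels with finite rows.
`schur`: Cauchy-Schwarz `(∑_q k p q v q)² ≤ (∑_q |k p q|) (∑_q |k p q| v q²)`, then sum over `p` (finite sums, or pass to `ENNReal`).
`exists_op`: for `f` the function `F ξ p = ∑' q, k ξ p q * fibv f ξ q` is a.e. measurable in `ξ` (a.e. a limit of finite sums; replace it by a measurable version, e.g. `Measurable.tsum`-free: define it on the measurable set where the row is finite),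
`exists_field`; linearity and the bound via `fh_ext`, `enorm_sq_eq`; commutation with both kinds of symmetries by `IsTS.mem`.
-/

noncomputable section

open Classical MeasureTheory Filter Topology Set
open scoped Pointwise ENNReal

namespace Vale.Agent.P239

universe u
variable {G : Type u} [Group G] [Countable G] {X : Type u} [MeasurableSpace X] {A : PAct G X}
  {I : Type u} [Countable I]

theorem schur {α : Type*} {k : α → α → ℝ} {a b : ℝ} (ha : 0 ≤ a) (hb : 0 ≤ b)
    (hf : ∀ p, {q | k p q ≠ 0}.Finite) (h1 : ∀ p (W : Finset α), ∑ q ∈ W, |k p q| ≤ a)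
    (h2 : ∀ q (W : Finset α), ∑ p ∈ W, |k p q| ≤ b) {v : α → ℝ} (hv : SqSum v) :
    SqSum (fun p => ∑' q, k p q * v q) ∧
      ∑' p, (∑' q, k p q * v q) ^ 2 ≤ a * b * ∑' q, v q ^ 2 := by
  have key : ∀ U : Finset α, ∑ p ∈ U, (∑' q, k p q * v q) ^ 2 ≤ a * b * ∑' q, v q ^ 2 := by
    intro U
    obtain ⟨W, hW⟩ : ∃ W : Finset α, ∀ p ∈ U, ∀ q, q ∉ W → k p q = 0 :=
      ⟨U.biUnion fun p => (hf p).toFinset, fun p hp q hq => by
        by_contra h
        exact hq (Finset.mem_biUnion.2 ⟨p, hp, (hf p).mem_toFinset.2 h⟩)⟩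
    have h3 : ∀ p ∈ U, (∑' q, k p q * v q) ^ 2 ≤ a * ∑ q ∈ W, |k p q| * v q ^ 2 := fun p hp => by
      rw [tsum_eq_sum (s := W) fun q hq => by rw [hW p hp q hq, zero_mul]]
      have h4 : ∀ q ∈ W, 0 ≤ |k p q| * v q ^ 2 := fun q _ => by positivity
      refine (Finset.sum_sq_le_sum_mul_sum_of_sq_le_mul W (f := fun q => |k p q|)
        (fun q _ => abs_nonneg _) h4 fun q _ => ?_).trans
        (mul_le_mul_of_nonneg_right (h1 p W) (Finset.sum_nonneg h4))
      rw [← mul_assoc, abs_mul_abs_self, mul_pow, sq (k p q)]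
    refine (Finset.sum_le_sum h3).trans ?_
    rw [← Finset.mul_sum, Finset.sum_comm, mul_assoc]
    refine mul_le_mul_of_nonneg_left (le_trans ?_ (mul_le_mul_of_nonneg_left
      (Summable.sum_le_tsum W (fun _ _ => sq_nonneg _) hv) hb)) ha
    rw [Finset.mul_sum]
    refine Finset.sum_le_sum fun q _ => ?_
    rw [← Finset.sum_mul]
    exact mul_le_mul_of_nonneg_right (h2 q U) (sq_nonneg _)
  exact ⟨summable_of_sum_le (fun _ => sq_nonneg _) key, tsum_le_of_sum_le'
    (mul_nonneg (mul_nonneg ha hb) (tsum_nonneg fun _ => sq_nonneg _)) key⟩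

theorem IsTS.exists_op {τ : TS (FH A I) I} (hτ : IsTS A τ) {k : X → G × I → G × I → ℝ}
    (hm : ∀ p q, Measurable fun ξ => k ξ p q)
    (he : ∀ g ξ p q, k (A.sh g ξ) (g * p.1, p.2) (g * q.1, q.2) = k ξ p q)
    (hf : ∀ᵐ ξ ∂A.P, ∀ p, {q | k ξ p q ≠ 0}.Finite) {C : ℝ}
    (hb : ∀ᵐ ξ ∂A.P, ∀ v : G × I → ℝ, SqSum v → SqSum (fun p => ∑' q, k ξ p q * v q) ∧
      ∑' p, (∑' q, k ξ p q * v q) ^ 2 ≤ C * ∑' q, v q ^ 2) :
    ∃ T : FH A I →L[ℝ] FH A I, τ.Comm T ∧
      ∀ f, ∀ᵐ ξ ∂A.P, ∀ p, fibv (T f) ξ p = ∑' q, k ξ p q * fibv f ξ q := by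
  have h1 : ∀ f : FH A I, ∫⁻ ξ, ∑' p, ENNReal.ofReal ((∑' q, k ξ p q * fibv f ξ q) ^ 2) ∂A.P ≤
      ENNReal.ofReal C * ‖f‖ₑ ^ 2 := fun f => by
    rw [enorm_sq_eq, ← lintegral_const_mul' _ _ ENNReal.ofReal_ne_top]
    refine lintegral_mono_ae ?_
    filter_upwards [hb, ae_sqSum_fibv f] with ξ h2 h3
    obtain ⟨h4, h5⟩ := h2 _ h3
    rw [← ENNReal.ofReal_tsum_of_nonneg (fun _ => sq_nonneg _) h4,
      ← ENNReal.ofReal_tsum_of_nonneg (fun _ => sq_nonneg _) h3,
      ← ENNReal.ofReal_mul' (tsum_nonneg fun _ => sq_nonneg _)]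
    exact ENNReal.ofReal_le_ofReal h5
  choose T hT using fun f : FH A I => exists_field (A := A)
    (F := fun ξ p => ∑' q, k ξ p q * fibv f ξ q)
    (fun p => Measurable.tsum fun q => (hm p q).mul (measurable_fibv f q))
    (ne_top_of_le_ne_top (ENNReal.mul_ne_top ENNReal.ofReal_ne_top
      (ENNReal.pow_ne_top enorm_ne_top)) (h1 f))
  have hs : ∀ᵐ ξ ∂A.P, ∀ p (v : G × I → ℝ), Summable fun q => k ξ p q * v q := by
    filter_upwards [hf] with ξ h p v
    exact summable_of_ne_finset_zero (s := (h p).toFinset) fun q hq => by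
      rw [not_not.1 fun h2 => hq ((h p).mem_toFinset.2 h2), zero_mul]
  let L : FH A I →ₗ[ℝ] FH A I :=
    { toFun := T
      map_add' := fun f g => fh_ext (by
        filter_upwards [hT (f + g), hT f, hT g, fibv_add f g, fibv_add (T f) (T g), hs]
          with ξ e1 e2 e3 e4 e5 e6 p
        rw [e1, e5, e2, e3, ← (e6 p _).tsum_add (e6 p _)]
        exact tsum_congr fun q => by rw [e4, mul_add])
      map_smul' := fun c f => fh_ext (by
        filter_upwards [hT (c • f), hT f, fibv_smul c f, fibv_smul c (T f)]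
          with ξ e1 e2 e3 e4 p
        rw [RingHom.id_apply, e1, e4, e2, ← tsum_mul_left]
        exact tsum_congr fun q => by rw [e3, mul_left_comm]) }
  have hL : ∀ f, ‖L f‖ ≤ √C * ‖f‖ := fun f => by
    have h2 : ‖T f‖ₑ ^ 2 ≤ ENNReal.ofReal C * ‖f‖ₑ ^ 2 := by
      refine le_trans (le_of_eq ?_) (h1 f)
      rw [enorm_sq_eq]
      refine lintegral_congr_ae ?_
      filter_upwards [hT f] with ξ e
      simp only [e]
    have h3 := ENNReal.toReal_mono (ENNReal.mul_ne_top ENNReal.ofReal_ne_top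
      (ENNReal.pow_ne_top enorm_ne_top)) h2
    rw [ENNReal.toReal_mul, ENNReal.toReal_pow, ENNReal.toReal_pow, toReal_enorm, toReal_enorm,
      ENNReal.toReal_ofReal', ← Real.sq_sqrt', ← mul_pow] at h3
    exact (pow_le_pow_iff_left₀ (norm_nonneg _) (by positivity) two_ne_zero).1 h3
  refine ⟨L.mkContinuous _ hL, fun m hm' f => fh_ext ?_, hT⟩
  show ∀ᵐ ξ ∂A.P, ∀ p, fibv (T (m f)) ξ p = fibv (m (T f)) ξ p
  rcases hτ.mem m hm' with ⟨E, -, h⟩ | ⟨g, h⟩
  · filter_upwards [hT (m f), hT f, h f, h (T f)] with ξ e1 e2 e3 e4 p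
    rw [e1, e4, e2]
    split_ifs with hξ
    · simp only [e3, if_pos hξ]
    · simp only [e3, if_neg hξ, mul_zero, tsum_zero]
  · filter_upwards [hT (m f), (A.mp g⁻¹).quasiMeasurePreserving.ae (hT f), h f, h (T f)]
      with ξ e1 e2 e3 e4 p
    rw [e1, e4, e2]
    refine Eq.trans ?_ (((Equiv.mulLeft g⁻¹).prodCongr (Equiv.refl I)).tsum_eq _)
    exact tsum_congr fun q => by rw [e3, ← he g⁻¹ ξ p q]; rfl

/-- The field which is the indicator of one point. -/
theorem exists_point (A : PAct G X) (q : G × I) {E : Set X} (hE : MeasurableSet E) :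
    ∃ f : FH A I, ∀ᵐ ξ ∂A.P, ∀ p, fibv f ξ p = if p = q ∧ ξ ∈ E then 1 else 0 := by
  refine exists_field (fun p => Measurable.ite ((MeasurableSet.const _).inter hE)
    measurable_const measurable_const) (ne_top_of_le_ne_top ENNReal.one_ne_top ?_)
  refine (lintegral_mono (g := fun _ => 1) fun ξ => ?_).trans (by simp)
  show _ ≤ (1 : ℝ≥0∞)
  rw [tsum_eq_single q fun p hp => by simp [hp]]
  split_ifs <;> simp

end Vale.Agent.P239
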