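import Vale.Agent.P239.Full.FEnc
import Vale.Agent.P239.Full.FOp
import Vale.Agent.P239.Full.FNeckM

/-! Task FGD2a: the operators for layered environments (`IsTS.exists_op`). `ae_locfin`: Borel-Cantelli as in `REnv.ae_locfin`.
`exists_Ao`: with `P` from `exists_pathF` (choose it supported on gradient coordinates `inl s`, `s ∈ S`, or just use that it is finitely supported), the kernel is `k (x, edge (a,j,b)) (y, c) = if Ed then wt a x * P b (x⁻¹ y, c) else 0`;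
for `v` square summable `w_b x = ∑_q P b q * v (x q.1, q.2)` is square summable with norm `≤ ‖P b‖₁ ‖v‖`, and `∑_j wt² ≤ 1` over the finitely many existing `j`. For the formula apply `exists_pathF` to the translate `u (x ·)`.
`exists_Dg`: as for `NData.exists_Dg` in FIneqA, `wt ≤ 1`, `schur`.
-/

noncomputable section

open Classical MeasureTheory Filter Topology Set
open scoped Pointwise ENNReal

namespace Vale.Agent.P239

universe u
variable {G : Type u} [Group G] [Countable G] {S : Finset G} {Q : Cones S} {X : Type u}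
  [MeasurableSpace X] {L : Type} [Fintype L] (E : LEnv G X L) {τ : TS (FH E.A (EI Q L)) (EI Q L)}

namespace LEnv

theorem ae_locfin : ∀ᵐ ξ ∂E.A.P, ∀ a x, {j | E.r ξ a (x, j) (x, j)}.Finite := by
  refine eventually_all.2 fun a => ?_
  filter_upwards [E.A.ae_all (ae_finite_setOfPred_mem (E.fin a))] with ξ hξ x
  refine (hξ x⁻¹).subset fun j hj => ?_
  have h1 := (E.equi x⁻¹ ξ a (x, j) (x, j)).2 hj
  rw [inv_mul_cancel] at h1
  exact h1

theorem wt_pos (ξ : X) (a : L) (x : G) : 0 < E.wt ξ a x ∧ E.wt ξ a x ≤ 1 := by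
  have h1 : (1 : ℝ) ≤ Real.sqrt (1 + ({j | E.r ξ a (x, j) (x, j)}.ncard : ℝ)) :=
    Real.one_le_sqrt.2 (le_add_of_nonneg_right (Nat.cast_nonneg _))
  exact ⟨inv_pos.2 (one_pos.trans_le h1), inv_le_one_of_one_le₀ h1⟩

theorem gd2a_wt_sq (ξ : X) (a : L) (x : G) :
    ({j | E.r ξ a (x, j) (x, j)}.ncard : ℝ) * E.wt ξ a x ^ 2 ≤ 1 := by
  have h0 : (0 : ℝ) ≤ ({j | E.r ξ a (x, j) (x, j)}.ncard : ℝ) := Nat.cast_nonneg _
  rw [wt, inv_pow, Real.sq_sqrt (by linarith), ← div_eq_mul_inv, div_le_one (by linarith)]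
  linarith

theorem gd2a_wt_meas (a : L) (x : G) : Measurable fun ξ => E.wt ξ a x :=
  (Real.continuous_sqrt.measurable.comp (measurable_const.add
    (meas_ncard (F := fun ξ => {j | E.r ξ a (x, j) (x, j)}) fun j => E.meas a (x, j) (x, j)))).inv

theorem gd2a_wt_sh (g : G) (ξ : X) (a : L) (x : G) :
    E.wt (E.A.sh g ξ) a (g * x) = E.wt ξ a x := by
  have h : {j | E.r (E.A.sh g ξ) a (g * x, j) (g * x, j)} = {j | E.r ξ a (x, j) (x, j)} :=
    Set.ext fun j => E.equi g ξ a (x, j) (x, j)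
  rw [wt, wt, h]

theorem gd2a_ed_meas (A₀ : Set L) (T : L → Finset G) (a : L) (p : G × ℕ) (b : G) :
    MeasurableSet {ξ | E.Ed A₀ T ξ a p b} := by
  have h : MeasurableSet {ξ | ∃ i, E.r ξ a p (p.1 * b, i)} := by
    rw [Set.setOf_exists]
    exact MeasurableSet.iUnion fun i => E.meas a p _
  exact (MeasurableSet.const _).inter ((E.meas a p p).inter ((MeasurableSet.const _).inter h))

theorem gd2a_r_sh (g : G) (ξ : X) (a : L) (x : G) (j : ℕ) (b : G) (i : ℕ) :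
    E.r (E.A.sh g ξ) a (g * x, j) (g * x * b, i) ↔ E.r ξ a (x, j) (x * b, i) := by
  rw [mul_assoc]
  exact E.equi g ξ a (x, j) (x * b, i)

theorem gd2a_ed_sh (A₀ : Set L) (T : L → Finset G) (g : G) (ξ : X) (a : L) (x : G) (j : ℕ)
    (b : G) : E.Ed A₀ T (E.A.sh g ξ) a (g * x, j) b ↔ E.Ed A₀ T ξ a (x, j) b :=
  and_congr Iff.rfl (and_congr (E.equi g ξ a (x, j) (x, j))
    (and_congr Iff.rfl (exists_congr fun i => E.gd2a_r_sh g ξ a x j b i)))

/-- Kernel with rows at the edge coordinates. -/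
def gd2aK (Q : Cones S) (A₀ : Set L) (T : L → Finset G)
    (F : X → G → L × ℕ × G → G × EI Q L → ℝ) (ξ : X) (p q : G × EI Q L) : ℝ :=
  Sum.elim (fun _ => 0) (Sum.elim (fun _ => 0) (Sum.elim (fun _ => 0) fun e =>
    if E.Ed A₀ T ξ e.1 (p.1, e.2.1) e.2.2 then E.wt ξ e.1 p.1 * F ξ p.1 e q else 0)) p.2

theorem gd2aK_ne {A₀ : Set L} {T : L → Finset G} {F : X → G → L × ℕ × G → G × EI Q L → ℝ}
    {ξ : X} {p q : G × EI Q L} (h : E.gd2aK Q A₀ T F ξ p q ≠ 0) :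
    ∃ a j b, p.2 = Sum.inr (Sum.inr (Sum.inr (a, j, b))) ∧ E.Ed A₀ T ξ a (p.1, j) b ∧
      F ξ p.1 (a, j, b) q ≠ 0 := by
  obtain ⟨x, c | c | c | ⟨a, j, b⟩⟩ := p
  · exact absurd rfl h
  · exact absurd rfl h
  · exact absurd rfl h
  · refine ⟨a, j, b, rfl, ?_⟩
    change (if E.Ed A₀ T ξ a (x, j) b then E.wt ξ a x * F ξ x (a, j, b) q else 0) ≠ 0 at h
    split_ifs at h with h1
    · exact ⟨h1, right_ne_zero_of_mul h⟩
    · exact absurd rfl h

theorem gd2aK_ed {A₀ : Set L} {T : L → Finset G} (F : X → G → L × ℕ × G → G × EI Q L → ℝ)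
    {ξ : X} {a : L} {x : G} {j : ℕ} {b : G} (h : E.Ed A₀ T ξ a (x, j) b) (q : G × EI Q L) :
    E.gd2aK Q A₀ T F ξ (x, Sum.inr (Sum.inr (Sum.inr (a, j, b)))) q =
      E.wt ξ a x * F ξ x (a, j, b) q := if_pos h

theorem gd2a_op (hτ : IsTS E.A τ) (A₀ : Set L) (T : L → Finset G)
    {F : X → G → L × ℕ × G → G × EI Q L → ℝ} (hm : ∀ x e q, Measurable fun ξ => F ξ x e q)
    (he : ∀ g ξ x e q, F (E.A.sh g ξ) (g * x) e (g * q.1, q.2) = F ξ x e q)
    (hf : ∀ᵐ ξ ∂E.A.P, ∀ x e, {q | F ξ x e q ≠ 0}.Finite) {C : ℝ}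
    (hb : ∀ᵐ ξ ∂E.A.P, ∀ v : G × EI Q L → ℝ, SqSum v →
      SqSum (fun p => ∑' q, E.gd2aK Q A₀ T F ξ p q * v q) ∧
      ∑' p, (∑' q, E.gd2aK Q A₀ T F ξ p q * v q) ^ 2 ≤ C * ∑' q, v q ^ 2) :
    ∃ M, τ.Comm M ∧ ∀ f, ∀ᵐ ξ ∂E.A.P, E.EdSupp Q A₀ T ξ (fibv (M f) ξ) ∧
      ∀ a x j b, E.Ed A₀ T ξ a (x, j) b →
        fibv (M f) ξ (x, Sum.inr (Sum.inr (Sum.inr (a, j, b)))) =
          E.wt ξ a x * ∑' q, F ξ x (a, j, b) q * fibv f ξ q := by
  obtain ⟨M, h1, h2⟩ := hτ.exists_op (k := E.gd2aK Q A₀ T F) (C := C) (fun p q => by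
      obtain ⟨x, c | c | c | ⟨a, j, b⟩⟩ := p
      · exact measurable_const
      · exact measurable_const
      · exact measurable_const
      · exact Measurable.ite (E.gd2a_ed_meas A₀ T a (x, j) b)
          ((E.gd2a_wt_meas a x).mul (hm x (a, j, b) q)) measurable_const)
    (fun g ξ p q => by
      obtain ⟨x, c | c | c | ⟨a, j, b⟩⟩ := p
      · rfl
      · rfl
      · rfl
      · change (if E.Ed A₀ T (E.A.sh g ξ) a (g * x, j) b then
            E.wt (E.A.sh g ξ) a (g * x) * F (E.A.sh g ξ) (g * x) (a, j, b) (g * q.1, q.2) else 0) =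
          if E.Ed A₀ T ξ a (x, j) b then E.wt ξ a x * F ξ x (a, j, b) q else 0
        rw [he, E.gd2a_wt_sh]
        exact if_congr (E.gd2a_ed_sh A₀ T g ξ a x j b) rfl rfl)
    (by
      filter_upwards [hf] with ξ h p
      by_cases h0 : ∃ q, E.gd2aK Q A₀ T F ξ p q ≠ 0
      · obtain ⟨q₀, hq₀⟩ := h0
        obtain ⟨a, j, b, e1, -⟩ := E.gd2aK_ne hq₀
        refine (h p.1 (a, j, b)).subset fun q hq => ?_
        obtain ⟨a', j', b', e2, -, e3⟩ := E.gd2aK_ne hq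
        rw [e1] at e2
        cases e2
        exact e3
      · exact Set.finite_empty.subset fun q hq => h0 ⟨q, hq⟩) hb
  refine ⟨M, h1, fun f => ?_⟩
  filter_upwards [h2 f] with ξ h
  refine ⟨fun p hp => ?_, fun a x j b he' => ?_⟩
  · by_contra hc
    refine hp ?_
    rw [h]
    refine (tsum_congr fun q => ?_).trans tsum_zero
    refine mul_eq_zero_of_left (not_not.1 fun h3 => hc ?_) _
    obtain ⟨a, j, b, e1, e2, -⟩ := E.gd2aK_ne h3
    exact ⟨a, j, b, e1, e2⟩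
  · rw [h, ← tsum_mul_left]
    exact tsum_congr fun q => by rw [E.gd2aK_ed F he', mul_assoc]

omit [Countable G] [Fintype L] in
theorem gd2a_tsum_pr (P : G × EI Q L →₀ ℝ) (x : G) (v : G × EI Q L → ℝ) :
    ∑' q : G × EI Q L, P (x⁻¹ * q.1, q.2) * v q = prF P fun q => v (x * q.1, q.2) := by
  rw [← ((Equiv.mulLeft x).prodCongr (Equiv.refl (EI Q L))).tsum_eq, prF, Finsupp.sum]
  refine Eq.trans (tsum_congr fun q => ?_) (tsum_eq_sum (s := P.support) fun q hq => by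
      rw [Finsupp.notMem_support_iff.1 hq, zero_mul])
  change P (x⁻¹ * (x * q.1), q.2) * v (x * q.1, q.2) = _
  rw [inv_mul_cancel_left]

omit [Countable G] [Fintype L] in
theorem gd2a_pr_le (P : G × EI Q L →₀ ℝ) {v : G × EI Q L → ℝ} (hv : SqSum v) (U : Finset G) :
    ∑ x ∈ U, (prF P fun q => v (x * q.1, q.2)) ^ 2 ≤
      ((∑ q ∈ P.support, P q ^ 2) * P.support.card) * ∑' q, v q ^ 2 := by
  have h1 : ∀ x ∈ U, (prF P fun q => v (x * q.1, q.2)) ^ 2 ≤
      (∑ q ∈ P.support, P q ^ 2) * ∑ q ∈ P.support, v (x * q.1, q.2) ^ 2 := fun x _ =>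
    Finset.sum_mul_sq_le_sq_mul_sq P.support (fun q => P q) fun q => v (x * q.1, q.2)
  refine (Finset.sum_le_sum h1).trans ?_
  rw [← Finset.mul_sum, Finset.sum_comm, mul_assoc]
  refine mul_le_mul_of_nonneg_left ?_ (Finset.sum_nonneg fun _ _ => sq_nonneg _)
  rw [← nsmul_eq_mul]
  refine Finset.sum_le_card_nsmul _ _ _ fun q _ => ?_
  rw [← Finset.sum_image (s := U) (g := fun x => (x * q.1, q.2)) (f := fun p => v p ^ 2)
    fun x _ y _ h => mul_right_cancel (congrArg Prod.fst h)]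
  exact Summable.sum_le_tsum _ (fun _ _ => sq_nonneg _) hv

theorem gd2a_fib_le {A₀ : Set L} {T : L → Finset G} {ξ : X}
    (hξ : ∀ a x, {j | E.r ξ a (x, j) (x, j)}.Finite) {R : G × EI Q L → ℝ} {w : G → G → ℝ}
    (h0 : E.EdSupp Q A₀ T ξ R) (h1 : ∀ a x j b, E.Ed A₀ T ξ a (x, j) b →
      R (x, Sum.inr (Sum.inr (Sum.inr (a, j, b)))) = E.wt ξ a x * w b x) (U : Finset (G × EI Q L)) :
    ∑ p ∈ U, R p ^ 2 ≤ ∑ a, ∑ b ∈ T a, ∑ x ∈ U.image Prod.fst, w b x ^ 2 := by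
  let Z : Finset (Σ _ : L, Σ _ : G, Σ _ : G, ℕ) := Finset.univ.sigma fun a => (T a).sigma fun _ =>
    (U.image Prod.fst).sigma fun x => (hξ a x).toFinset
  let ι : (Σ _ : L, Σ _ : G, Σ _ : G, ℕ) → G × EI Q L := fun z =>
    (z.2.2.1, Sum.inr (Sum.inr (Sum.inr (z.1, z.2.2.2, z.2.1))))
  have h2 : ∑ p ∈ U, R p ^ 2 ≤ ∑ p ∈ Z.image ι, R p ^ 2 := by
    rw [← Finset.sum_filter_ne_zero U]
    refine Finset.sum_le_sum_of_subset_of_nonneg (fun p hp => ?_) fun _ _ _ => sq_nonneg _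
    obtain ⟨h3, h4⟩ := Finset.mem_filter.1 hp
    obtain ⟨a, j, b, e1, e2⟩ := h0 p fun h5 => h4 (by rw [h5]; norm_num)
    refine Finset.mem_image.2 ⟨⟨a, b, p.1, j⟩, ?_, Prod.ext rfl e1.symm⟩
    exact Finset.mem_sigma.2 ⟨Finset.mem_univ _, Finset.mem_sigma.2 ⟨e2.2.2.1,
      Finset.mem_sigma.2 ⟨Finset.mem_image_of_mem _ h3, (hξ a p.1).mem_toFinset.2 e2.2.1⟩⟩⟩
  refine h2.trans ((Finset.sum_image_le_of_nonneg fun _ _ => sq_nonneg _).trans ?_)
  rw [Finset.sum_sigma]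
  refine Finset.sum_le_sum fun a _ => ?_
  rw [Finset.sum_sigma]
  refine Finset.sum_le_sum fun b _ => ?_
  rw [Finset.sum_sigma]
  refine Finset.sum_le_sum fun x _ => ?_
  refine (Finset.sum_le_card_nsmul _ _ (E.wt ξ a x ^ 2 * w b x ^ 2) fun j _ => ?_).trans ?_
  · change R (x, Sum.inr (Sum.inr (Sum.inr (a, j, b)))) ^ 2 ≤ _
    by_cases h3 : R (x, Sum.inr (Sum.inr (Sum.inr (a, j, b)))) = 0
    · rw [h3, sq, mul_zero]
      positivity
    · obtain ⟨a', j', b', e1, e2⟩ := h0 _ h3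
      cases e1
      rw [h1 a x j b e2, mul_pow]
  · rw [nsmul_eq_mul, ← mul_assoc, ← Set.ncard_eq_toFinset_card _ (hξ a x)]
    exact mul_le_of_le_one_left (sq_nonneg _) (E.gd2a_wt_sq ξ a x)

omit [Group G] [Countable G] in
theorem gd2a_sum_le {α : Type*} {f : α → ℝ} (Z : Finset α) (hz : ∀ q, f q ≠ 0 → q ∈ Z)
    (h1 : ∀ q, |f q| ≤ 1) (W : Finset α) : ∑ q ∈ W, |f q| ≤ Z.card := by
  rw [← Finset.sum_filter_ne_zero W]
  have h2 : W.filter (fun q => |f q| ≠ 0) ⊆ Z := fun q hq => hz q fun h =>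
    (Finset.mem_filter.1 hq).2 (by rw [h, abs_zero])
  refine (Finset.sum_le_sum_of_subset_of_nonneg h2 fun _ _ _ => abs_nonneg _).trans ?_
  refine (Finset.sum_le_card_nsmul _ _ 1 fun q _ => h1 q).trans ?_
  rw [nsmul_eq_mul, mul_one]

/-- Rows of the gradient. -/
def gd2aD (Q : Cones S) (ξ : X) (x : G) (e : L × ℕ × G) (q : G × EI Q L) : ℝ :=
  (if q.1 = x * e.2.2 ∧ ∃ i, q.2 = Sum.inr (Sum.inr (Sum.inl (e.1, i))) ∧
      E.r ξ e.1 (x, e.2.1) (x * e.2.2, i) then 1 else 0) -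
    if q.1 = x ∧ q.2 = Sum.inr (Sum.inr (Sum.inl (e.1, e.2.1))) then 1 else 0

theorem gd2aD_ne {ξ : X} {x : G} {a : L} {j : ℕ} {b : G} {q : G × EI Q L}
    (h : E.gd2aD Q ξ x (a, j, b) q ≠ 0) :
    (∃ i, q = (x * b, Sum.inr (Sum.inr (Sum.inl (a, i)))) ∧ E.r ξ a (x, j) (x * b, i)) ∨
      q = (x, Sum.inr (Sum.inr (Sum.inl (a, j)))) := by
  by_contra hc
  rw [not_or] at hc
  refine h ?_
  rw [gd2aD, if_neg, if_neg, sub_zero]
  · exact fun h1 => hc.2 (Prod.ext h1.1 h1.2)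
  · rintro ⟨h1, i, h2, h3⟩
    exact hc.1 ⟨i, Prod.ext h1 h2, h3⟩

theorem gd2aD_abs (ξ : X) (x : G) (e : L × ℕ × G) (q : G × EI Q L) :
    |E.gd2aD Q ξ x e q| ≤ 1 := by
  rw [gd2aD]
  split_ifs <;> norm_num

theorem gd2aD_row {ξ : X} (hξ : ∀ a, EqvOK (E.r ξ a)) (x : G) (e : L × ℕ × G) :
    ∃ Z : Finset (G × EI Q L), Z.card ≤ 2 ∧ ∀ q, E.gd2aD Q ξ x e q ≠ 0 → q ∈ Z := by
  obtain ⟨a, j, b⟩ := e
  obtain ⟨i, hi⟩ : ∃ i, ∀ i', E.r ξ a (x, j) (x * b, i') → i' = i := by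
    by_cases h : ∃ i, E.r ξ a (x, j) (x * b, i)
    · obtain ⟨i, hi⟩ := h
      exact ⟨i, fun i' h' => (hξ a).func _ _ _ _ h' hi⟩
    · exact ⟨0, fun i' h' => absurd ⟨i', h'⟩ h⟩
  refine ⟨{(x * b, Sum.inr (Sum.inr (Sum.inl (a, i)))), (x, Sum.inr (Sum.inr (Sum.inl (a, j))))},
    Finset.card_le_two, fun q hq => ?_⟩
  rcases E.gd2aD_ne hq with ⟨i', e1, e2⟩ | e1
  · rw [e1, hi i' e2]
    exact Finset.mem_insert_self _ _
  · rw [e1]
    exact Finset.mem_insert_of_mem (Finset.mem_singleton_self _)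

theorem gd2aD_col {ξ : X} (hξ : ∀ a, EqvOK (E.r ξ a)) (A₀ : Set L) (T : L → Finset G)
    (q : G × EI Q L) : ∃ Z : Finset (G × EI Q L), Z.card ≤ 2 * ∑ a, (T a).card ∧
      ∀ p, E.gd2aK Q A₀ T (E.gd2aD Q) ξ p q ≠ 0 → p ∈ Z := by
  by_cases h0 : ∃ a i, q.2 = Sum.inr (Sum.inr (Sum.inl (a, i)))
  · obtain ⟨a, i, e0⟩ := h0
    have h1 : ∀ b : G, ∃ j, ∀ j', E.r ξ a (q.1 * b⁻¹, j') (q.1, i) → j' = j := fun b => by
      by_cases h : ∃ j, E.r ξ a (q.1 * b⁻¹, j) (q.1, i)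
      · obtain ⟨j, hj⟩ := h
        exact ⟨j, fun j' h' => (hξ a).func _ _ _ _ ((hξ a).symm _ _ h') ((hξ a).symm _ _ hj)⟩
      · exact ⟨0, fun j' h' => absurd ⟨j', h'⟩ h⟩
    choose c hc using h1
    refine ⟨((T a).image fun b => (q.1 * b⁻¹, Sum.inr (Sum.inr (Sum.inr (a, c b, b))))) ∪
      (T a).image fun b => (q.1, Sum.inr (Sum.inr (Sum.inr (a, i, b)))), ?_, fun p hp => ?_⟩
    · refine (Finset.card_union_le _ _).trans ?_
      have h2 : (T a).card ≤ ∑ a, (T a).card :=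
        Finset.single_le_sum (f := fun a => (T a).card) (fun _ _ => Nat.zero_le _)
          (Finset.mem_univ a)
      rw [two_mul]
      exact add_le_add (Finset.card_image_le.trans h2) (Finset.card_image_le.trans h2)
    · obtain ⟨a', j, b, e1, e2, e3⟩ := E.gd2aK_ne hp
      rcases E.gd2aD_ne e3 with ⟨i', e4, e5⟩ | e4
      · have e6 : q.1 = p.1 * b := congrArg Prod.fst e4
        have e7 := e0.symm.trans (congrArg Prod.snd e4)
        cases e7
        have e8 : p.1 = q.1 * b⁻¹ := by rw [e6, mul_inv_cancel_right]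
        rw [← e6, e8] at e5
        refine Finset.mem_union_left _ (Finset.mem_image.2 ⟨b, e2.2.2.1, ?_⟩)
        rw [← hc b j e5]
        exact Prod.ext e8.symm e1.symm
      · have e6 : q.1 = p.1 := (Prod.ext_iff.1 e4).1
        have e7 := e0.symm.trans (congrArg Prod.snd e4)
        cases e7
        exact Finset.mem_union_right _ (Finset.mem_image.2 ⟨b, e2.2.2.1, Prod.ext e6 e1.symm⟩)
  · refine ⟨∅, Nat.zero_le _, fun p hp => absurd ?_ h0⟩
    obtain ⟨a', j, b, -, -, e3⟩ := E.gd2aK_ne hp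
    rcases E.gd2aD_ne e3 with ⟨i', e4, -⟩ | e4
    · exact ⟨a', i', congrArg Prod.snd e4⟩
    · exact ⟨a', j, congrArg Prod.snd e4⟩

theorem gd2aD_abs' (ξ : X) (A₀ : Set L) (T : L → Finset G) (p q : G × EI Q L) :
    |E.gd2aK Q A₀ T (E.gd2aD Q) ξ p q| ≤ 1 := by
  by_cases h : E.gd2aK Q A₀ T (E.gd2aD Q) ξ p q = 0
  · rw [h, abs_zero]
    exact zero_le_one
  · obtain ⟨a, j, b, e1, e2, -⟩ := E.gd2aK_ne h
    obtain ⟨x, c⟩ := p
    cases e1
    rw [E.gd2aK_ed _ e2, abs_mul, abs_of_pos (E.wt_pos ξ a x).1]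
    exact mul_le_one₀ (E.wt_pos ξ a x).2 (abs_nonneg _) (E.gd2aD_abs ξ x _ q)

theorem exists_Ao (hS : Cay S) (hτ : IsTS E.A τ) (A₀ : Set L) (T : L → Finset G) :
    ∃ M, τ.Comm M ∧ E.IsAo Q A₀ T M := by
  obtain ⟨P, hP⟩ := exists_pathF hS Q L
  obtain ⟨M, h1, h2⟩ := E.gd2a_op hτ A₀ T (F := fun _ x e q => P e.2.2 (x⁻¹ * q.1, q.2))
    (C := ∑ a, ∑ b ∈ T a, (∑ q ∈ (P b).support, P b q ^ 2) * (P b).support.card)
    (fun _ _ _ => measurable_const)
    (fun g ξ x e q => by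
      change P e.2.2 ((g * x)⁻¹ * (g * q.1), q.2) = _
      rw [mul_inv_rev, mul_assoc, inv_mul_cancel_left])
    (Eventually.of_forall fun ξ x e => by
      refine (((P e.2.2).support.image fun q => (x * q.1, q.2)).finite_toSet).subset fun q hq => ?_
      refine Finset.mem_coe.2 (Finset.mem_image.2 ⟨(x⁻¹ * q.1, q.2),
        Finsupp.mem_support_iff.2 hq, ?_⟩)
      rw [mul_inv_cancel_left])
    (by
      filter_upwards [E.ae_locfin] with ξ hξ v hv
      have key : ∀ U : Finset (G × EI Q L), ∑ p ∈ U,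
          (∑' q, E.gd2aK Q A₀ T (fun _ x e q => P e.2.2 (x⁻¹ * q.1, q.2)) ξ p q * v q) ^ 2 ≤
          (∑ a, ∑ b ∈ T a, (∑ q ∈ (P b).support, P b q ^ 2) * (P b).support.card) *
            ∑' q, v q ^ 2 := fun U => by
        refine (E.gd2a_fib_le (A₀ := A₀) (T := T) hξ
          (w := fun b x => prF (P b) fun q => v (x * q.1, q.2)) (fun p hp => ?_)
          (fun a x j b he => ?_) U).trans ?_
        · by_contra hc
          refine hp ((tsum_congr fun q => ?_).trans tsum_zero)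
          refine mul_eq_zero_of_left (not_not.1 fun h3 => hc ?_) _
          obtain ⟨a, j, b, e1, e2, -⟩ := E.gd2aK_ne h3
          exact ⟨a, j, b, e1, e2⟩
        · rw [← gd2a_tsum_pr, ← tsum_mul_left]
          exact tsum_congr fun q => by rw [E.gd2aK_ed _ he, mul_assoc]
        · rw [Finset.sum_mul]
          refine Finset.sum_le_sum fun a _ => ?_
          rw [Finset.sum_mul]
          exact Finset.sum_le_sum fun b _ => gd2a_pr_le (P b) hv _
      exact ⟨summable_of_sum_le (fun _ => sq_nonneg _) key, tsum_le_of_sum_le'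
        ((Finset.sum_empty (f := fun p => _)).symm.trans_le (key ∅)) key⟩)
  refine ⟨M, h1, fun f => ?_⟩
  filter_upwards [h2 f] with ξ h
  refine ⟨h.1, fun u hu a x j b he => ?_⟩
  rw [h.2 a x j b he]
  congr 1
  refine (gd2a_tsum_pr (P b) x _).trans ((hP _ (fun y => u (x * y)) (fun y s hs => ?_) b).trans ?_)
  · rw [← mul_assoc]
    exact hu (x * y) s hs
  · rw [mul_one]

theorem exists_Dg (hτ : IsTS E.A τ) (A₀ : Set L) (T : L → Finset G) :
    ∃ M, τ.Comm M ∧ E.IsDg Q A₀ T M := by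
  obtain ⟨M, h1, h2⟩ := E.gd2a_op hτ A₀ T (F := E.gd2aD Q)
    (C := (2 : ℕ) * (2 * ∑ a, (T a).card : ℕ))
    (fun x e q => by
      refine Measurable.sub (Measurable.ite ((MeasurableSet.const _).inter ?_) measurable_const
        measurable_const) measurable_const
      change MeasurableSet {ξ | ∃ i, q.2 = Sum.inr (Sum.inr (Sum.inl (e.1, i))) ∧
        E.r ξ e.1 (x, e.2.1) (x * e.2.2, i)}
      rw [Set.setOf_exists]
      exact MeasurableSet.iUnion fun i => (MeasurableSet.const _).inter (E.meas _ _ _))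
    (fun g ξ x e q => by
      rw [gd2aD, gd2aD]
      congr 1
      · refine if_congr (and_congr ?_ (exists_congr fun i => and_congr Iff.rfl
          (E.gd2a_r_sh g ξ _ x _ _ i))) rfl rfl
        rw [mul_assoc]
        exact mul_right_inj g
      · exact if_congr (and_congr (mul_right_inj g) Iff.rfl) rfl rfl)
    (by
      filter_upwards [E.ok] with ξ hξ x e
      obtain ⟨Z, -, hZ⟩ := E.gd2aD_row (Q := Q) hξ x e
      exact Z.finite_toSet.subset hZ)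
    (by
      filter_upwards [E.ok] with ξ hξ v hv
      have h3 : ∀ p, ∃ Z : Finset (G × EI Q L), Z.card ≤ 2 ∧
          ∀ q, E.gd2aK Q A₀ T (E.gd2aD Q) ξ p q ≠ 0 → q ∈ Z := fun p => by
        by_cases h0 : ∃ e, p.2 = Sum.inr (Sum.inr (Sum.inr e))
        · obtain ⟨e, e1⟩ := h0
          obtain ⟨Z, h4, hZ⟩ := E.gd2aD_row (Q := Q) hξ p.1 e
          refine ⟨Z, h4, fun q hq => hZ q ?_⟩
          obtain ⟨a', j', b', e2, -, e3⟩ := E.gd2aK_ne hq
          rw [e1] at e2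
          cases e2
          exact e3
        · refine ⟨∅, Nat.zero_le _, fun q hq => absurd ?_ h0⟩
          obtain ⟨a', j', b', e2, -⟩ := E.gd2aK_ne hq
          exact ⟨_, e2⟩
      refine schur (Nat.cast_nonneg _) (Nat.cast_nonneg _) (fun p => ?_) (fun p W => ?_)
        (fun q W => ?_) hv
      · obtain ⟨Z, -, hZ⟩ := h3 p
        exact Z.finite_toSet.subset hZ
      · obtain ⟨Z, h4, hZ⟩ := h3 p
        exact (gd2a_sum_le Z hZ (E.gd2aD_abs' ξ A₀ T p) W).trans (Nat.cast_le.2 h4)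
      · obtain ⟨Z, h4, hZ⟩ := E.gd2aD_col hξ A₀ T q
        exact (gd2a_sum_le Z hZ (fun p => E.gd2aD_abs' ξ A₀ T p q) W).trans (Nat.cast_le.2 h4))
  refine ⟨M, h1, fun f => ?_⟩
  filter_upwards [h2 f, E.ok] with ξ h hξ
  refine ⟨h.1, fun a x j b i he hr => ?_⟩
  rw [h.2 a x j b he]
  congr 1
  have e1 : ∀ q : G × EI Q L, E.gd2aD Q ξ x (a, j, b) q * fibv f ξ q =
      (if q = (x * b, Sum.inr (Sum.inr (Sum.inl (a, i)))) then fibv f ξ q else 0) -
        if q = (x, Sum.inr (Sum.inr (Sum.inl (a, j)))) then fibv f ξ q else 0 := fun q => by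
    rw [gd2aD, sub_mul, ite_mul, ite_mul, one_mul, zero_mul]
    congr 1
    · refine if_congr ⟨?_, ?_⟩ rfl rfl
      · rintro ⟨e2, i', e3, e4⟩
        rw [(hξ a).func _ _ _ _ hr e4]
        exact Prod.ext e2 e3
      · rintro rfl
        exact ⟨rfl, i, rfl, hr⟩
    · refine if_congr ⟨fun e2 => Prod.ext e2.1 e2.2, ?_⟩ rfl rfl
      rintro rfl
      exact ⟨rfl, rfl⟩
  have e2 : ∀ p : G × EI Q L, HasSum (fun q => if q = p then fibv f ξ q else 0) (fibv f ξ p) :=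
    fun p => by
      have h5 := hasSum_single (f := fun q => if q = p then fibv f ξ q else 0) p
        fun q hq => if_neg hq
      rwa [if_pos rfl] at h5
  rw [tsum_congr e1]
  exact ((e2 _).sub (e2 _)).tsum_eq

end LEnv

end Vale.Agent.P239
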