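import Vale.Agent.P239.Full.FGD2a
import Vale.Agent.P239.Full.FGD1
import Vale.Agent.P239.Full.FDimA

/-! Task FGD2b: weighted gradients of finite energy functions are limits of gradients. Show membership in `((subV.map Dg)ᗮ)ᗮ`. Let `g ∈ (subV.map Dg)ᗮ`; `subV.map Dg` is `Stab` (`inv_supp`, `Stab.map`). `orth_fib` with the point fields
at `(y, inr (inr (inl (a, i))))` on the event that `(y, i)` exists (`exists_point`, `a ∉ A₀`) shows that a.s. `h a (x, j, b) = if Ed a (x, j) b then wt a x * g (x, edge (a, j, b)) else 0` satisfies `hd` of `pair_classes`.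
`⟨g, Ao w⟩ = ∫ ∑_p g p * (Ao w) p` (`inner_eq_integral`), and the fibre sum is `∑_a ∑_e h a e * (u (x b) - u x) = 0` (summable as a product of two square summable functions).
-/

noncomputable section

open Classical MeasureTheory Filter Topology Set
open scoped Pointwise ENNReal

namespace Vale.Agent.P239

universe u
variable {G : Type u} [Group G] [Countable G] {S : Finset G} {Q : Cones S} {X : Type u}
  [MeasurableSpace X] {L : Type} [Fintype L] (E : LEnv G X L) {τ : TS (FH E.A (EI Q L)) (EI Q L)}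

omit [Countable G] in
theorem gd2b_div {r : G × ℕ → G × ℕ → Prop} (hr : EqvOK r) (T : Finset G) {h : G × ℕ × G → ℝ}
    (hs : ∀ e, h e ≠ 0 → e.2.2 ∈ T) (q : G × ℕ)
    (h0 : ∑' e : G × ℕ × G, ((if e.1 * e.2.2 = q.1 ∧ r q (e.1, e.2.1) then h e else 0) -
      if (e.1, e.2.1) = q then h e else 0) = 0) :
    ∑ b ∈ T, ((∑' j : ℕ, if r q (q.1 * b⁻¹, j) then h (q.1 * b⁻¹, j, b) else 0) -
      h (q.1, q.2, b)) = 0 := by
  have a1 : ∀ b : G, HasSum (fun e : G × ℕ × G =>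
      if e.2.2 = b ∧ e.1 * e.2.2 = q.1 ∧ r q (e.1, e.2.1) then h e else 0)
      (∑' j : ℕ, if r q (q.1 * b⁻¹, j) then h (q.1 * b⁻¹, j, b) else 0) := by
    intro b
    have hi : Function.Injective fun j : ℕ => ((q.1 * b⁻¹, j, b) : G × ℕ × G) := fun j j' e =>
      congrArg (fun z : G × ℕ × G => z.2.1) e
    refine (hi.hasSum_iff ?_).1 ?_
    · rintro ⟨x, j, c⟩ he
      refine if_neg ?_
      rintro ⟨rfl, h1, -⟩
      refine he ⟨j, ?_⟩
      have h2 : q.1 * (x, j, c).2.2⁻¹ = x := by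
        rw [← h1]; simp
      simp only [h2]
    · have hf : (Function.support fun j : ℕ =>
          if r q (q.1 * b⁻¹, j) then h (q.1 * b⁻¹, j, b) else 0).Finite := by
        refine Set.Subsingleton.finite fun j hj j' hj' => ?_
        have e1 : r q (q.1 * b⁻¹, j) := by
          by_contra hn
          exact hj (if_neg hn)
        have e2 : r q (q.1 * b⁻¹, j') := by
          by_contra hn
          exact hj' (if_neg hn)
        exact hr.func _ _ _ _ e1 e2
      have h3' : Summable fun j : ℕ => if r q (q.1 * b⁻¹, j) then h (q.1 * b⁻¹, j, b) else 0 :=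
        summable_of_hasFiniteSupport hf
      have h3 := h3'.hasSum
      have e : ((fun e : G × ℕ × G =>
          if e.2.2 = b ∧ e.1 * e.2.2 = q.1 ∧ r q (e.1, e.2.1) then h e else 0) ∘
          fun j : ℕ => ((q.1 * b⁻¹, j, b) : G × ℕ × G)) =
          fun j : ℕ => if r q (q.1 * b⁻¹, j) then h (q.1 * b⁻¹, j, b) else 0 := by
        funext j
        simp
      rw [e]
      exact h3
  have a2 : ∀ b : G, HasSum (fun e : G × ℕ × G => if e = (q.1, q.2, b) then h (q.1, q.2, b) else 0)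
      (h (q.1, q.2, b)) := fun b => hasSum_ite_eq _ _
  have a3 := hasSum_sum fun b (_ : b ∈ T) => (a1 b).sub (a2 b)
  refine (a3.tsum_eq.symm.trans (tsum_congr fun e => ?_)).trans h0
  obtain ⟨x, j, c⟩ := e
  by_cases hc : c ∈ T
  · rw [Finset.sum_eq_single c]
    · have e1 : ((x, j, c) = (q.1, q.2, c)) ↔ (x, j) = q := by
        obtain ⟨y, i⟩ := q
        simp
      simp only [true_and, e1]
      by_cases h5 : (x, j) = q
      · subst h5
        simp
      · simp [h5]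
    · intro b _ hb
      have e1 : ¬ ((x, j, c) = (q.1, q.2, b)) := fun e => hb (congrArg (fun z : G × ℕ × G => z.2.2) e).symm
      have e2 : ¬ (c = b) := fun e => hb e.symm
      simp [e1, e2]
    · intro hn
      exact absurd hc hn
  · have h6 : h (x, j, c) = 0 := by
      by_contra hn
      exact hc (hs _ hn)
    simp only [h6, ite_self, sub_self]
    refine Finset.sum_eq_zero fun b hb => ?_
    have e1 : ¬ ((x, j, c) = (q.1, q.2, b)) := fun e =>
      hc (by rw [show c = b from congrArg (fun z : G × ℕ × G => z.2.2) e]; exact hb)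
    simp [e1]

/-- Edge coordinates. -/
def gd2bI (Q : Cones S) (z : L × G × ℕ × G) : G × EI Q L :=
  (z.2.1, Sum.inr (Sum.inr (Sum.inr (z.1, z.2.2.1, z.2.2.2))))

omit [Countable G] [Fintype L] in
theorem gd2bI_inj : Function.Injective (gd2bI Q : L × G × ℕ × G → G × EI Q L) := by
  rintro ⟨a, x, j, b⟩ ⟨a', x', j', b'⟩ e
  simp only [gd2bI, Prod.mk.injEq, Sum.inr.injEq] at e
  obtain ⟨rfl, rfl, rfl, rfl⟩ := e
  rfl

/-- The weighted edge function of a layer. -/
def gd2bH (A₀ : Set L) (T : L → Finset G) (ξ : X) (g : G × EI Q L → ℝ) (a : L) (e : G × ℕ × G) : ℝ :=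
  if E.Ed A₀ T ξ a (e.1, e.2.1) e.2.2 then E.wt ξ a e.1 * g (gd2bI Q (a, e)) else 0

omit [Countable G] [Fintype L] in
theorem gd2b_tsum {A₀ : Set L} {T : L → Finset G} {ξ : X} (g : G × EI Q L → ℝ)
    {D : G × EI Q L → ℝ} (hD : E.EdSupp Q A₀ T ξ D) :
    ∑' p, g p * D p = ∑' z, g (gd2bI Q z) * D (gd2bI Q z) := by
  refine (gd2bI_inj.tsum_eq (f := fun p => g p * D p) ?_).symm
  rintro ⟨x, c⟩ hp
  obtain ⟨a, j, b, h1, -⟩ := hD (x, c) (right_ne_zero_of_mul hp)
  exact ⟨(a, x, j, b), Prod.ext rfl h1.symm⟩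

omit [Countable G] [Fintype L] in
theorem gd2b_zero {A₀ : Set L} {T : L → Finset G} {ξ : X}
    {D : G × EI Q L → ℝ} (hD : E.EdSupp Q A₀ T ξ D) {a : L} {e : G × ℕ × G}
    (he : ¬ E.Ed A₀ T ξ a (e.1, e.2.1) e.2.2) : D (gd2bI Q (a, e)) = 0 := by
  by_contra hn
  obtain ⟨a', j, b, h1, h2⟩ := hD _ hn
  simp only [gd2bI, Sum.inr.injEq, Prod.mk.injEq] at h1 h2
  obtain ⟨rfl, rfl, rfl⟩ := h1
  exact he h2

omit [Countable G] [Fintype L] in
theorem gd2b_hd {A₀ : Set L} {T : L → Finset G} {ξ : X} (hr : ∀ a, EqvOK (E.r ξ a))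
    (g : G × EI Q L → ℝ) {D f : G × EI Q L → ℝ} (hD : E.EdSupp Q A₀ T ξ D)
    (hf : ∀ a x j b i, E.Ed A₀ T ξ a (x, j) b → E.r ξ a (x, j) (x * b, i) →
      D (x, Sum.inr (Sum.inr (Sum.inr (a, j, b)))) = E.wt ξ a x *
        (f (x * b, Sum.inr (Sum.inr (Sum.inl (a, i)))) - f (x, Sum.inr (Sum.inr (Sum.inl (a, j))))))
    {a : L} {q : G × ℕ}
    (hq : ∀ p, f p = if p = (q.1, Sum.inr (Sum.inr (Sum.inl (a, q.2)))) then 1 else 0)
    (h0 : ∑' p, g p * D p = 0) :
    ∑ b ∈ T a, ((∑' j : ℕ, if E.r ξ a q (q.1 * b⁻¹, j) then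
      gd2bH E A₀ T ξ g a (q.1 * b⁻¹, j, b) else 0) - gd2bH E A₀ T ξ g a (q.1, q.2, b)) = 0 := by
  refine gd2b_div (hr a) (T a) (fun e he => ?_) q ?_
  · by_contra hn
    exact he (if_neg fun h => hn h.2.2.1)
  · rw [gd2b_tsum E g hD] at h0
    have hi : Function.Injective fun e : G × ℕ × G => ((a, e) : L × G × ℕ × G) := fun e e' h =>
      congrArg Prod.snd h
    rw [← hi.tsum_eq (f := fun z => g (gd2bI Q z) * D (gd2bI Q z))] at h0
    · refine (tsum_congr fun e => ?_).trans h0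
      obtain ⟨x, j, b⟩ := e
      obtain ⟨y, i⟩ := q
      by_cases he : E.Ed A₀ T ξ a (x, j) b
      · obtain ⟨i', hi'⟩ := he.2.2.2
        have h1 := hf a x j b i' he hi'
        have h2 : gd2bH E A₀ T ξ g a (x, j, b) = E.wt ξ a x * g (gd2bI Q (a, x, j, b)) := if_pos he
        have h3 : D (gd2bI Q (a, x, j, b)) = _ := h1
        have h4 : (x * b = y ∧ E.r ξ a (y, i) (x, j)) ↔ (x * b = y ∧ i' = i) := by
          refine and_congr_right fun hy => ?_
          subst hy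
          constructor
          · intro h
            exact (hr a).func _ _ _ _ hi' ((hr a).symm _ _ h)
          · rintro rfl
            exact (hr a).symm _ _ hi'
        simp only [h2, h3, hq, h4, Prod.mk.injEq, Sum.inr.injEq, Sum.inl.injEq, true_and]
        split_ifs <;> ring
      · have h2 : gd2bH E A₀ T ξ g a (x, j, b) = 0 := if_neg he
        have h3 : D (gd2bI Q (a, x, j, b)) = 0 := gd2b_zero E hD (e := (x, j, b)) he
        simp only [h2, h3, ite_self, sub_self, mul_zero]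
    · rintro ⟨a', x, j, b⟩ hz
      by_cases ha : a' = a
      · exact ⟨(x, j, b), by rw [ha]⟩
      · exfalso
        refine right_ne_zero_of_mul hz ?_
        by_cases he : E.Ed A₀ T ξ a' (x, j) b
        · obtain ⟨i', hi'⟩ := he.2.2.2
          have h3 : D (gd2bI Q (a', x, j, b)) = _ := hf a' x j b i' he hi'
          rw [h3, hq, hq]
          simp [ha]
        · exact gd2b_zero E hD (e := (x, j, b)) he

omit [Countable G] in
theorem gd2b_mul {α : Type*} {f g : α → ℝ} (hf : SqSum f) (hg : SqSum g) :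
    Summable fun p => f p * g p := by
  refine Summable.of_norm_bounded (hf.add hg) fun p => ?_
  rw [Real.norm_eq_abs, abs_le]
  constructor <;> nlinarith [sq_nonneg (f p + g p), sq_nonneg (f p - g p), sq_nonneg (f p),
    sq_nonneg (g p)]

theorem gd2b_fib {A₀ : Set L} {T : L → Finset G} {ξ : X} (hr : ∀ a, EqvOK (E.r ξ a))
    (hW : ∀ a, a ∉ A₀ → ∀ p, E.r ξ a p p → WD S (T a) (fibR (E.r ξ a) p))
    {g M : G × EI Q L → ℝ} (hg : SqSum g) (hM : SqSum M) (hs : E.EdSupp Q A₀ T ξ M)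
    {u : G → ℝ} (hu : FinEn S u)
    (hf : ∀ a x j b, E.Ed A₀ T ξ a (x, j) b →
      M (x, Sum.inr (Sum.inr (Sum.inr (a, j, b)))) = E.wt ξ a x * (u (x * b) - u x))
    (hd : ∀ a, a ∉ A₀ → ∀ q, E.r ξ a q q → ∑ b ∈ T a, ((∑' j : ℕ, if E.r ξ a q (q.1 * b⁻¹, j) then
      gd2bH E A₀ T ξ g a (q.1 * b⁻¹, j, b) else 0) - gd2bH E A₀ T ξ g a (q.1, q.2, b)) = 0) :
    ∑' p, g p * M p = 0 := by
  rw [gd2b_tsum E g hs]
  have h1 : Summable fun z : L × G × ℕ × G => g (gd2bI Q z) * M (gd2bI Q z) :=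
    (gd2b_mul hg hM).comp_injective gd2bI_inj
  rw [h1.tsum_prod, tsum_fintype]
  refine Finset.sum_eq_zero fun a _ => ?_
  have h2 : ∀ e : G × ℕ × G, g (gd2bI Q (a, e)) * M (gd2bI Q (a, e)) =
      gd2bH E A₀ T ξ g a e * (u (e.1 * e.2.2) - u e.1) := by
    rintro ⟨x, j, b⟩
    by_cases he : E.Ed A₀ T ξ a (x, j) b
    · have h3 : gd2bH E A₀ T ξ g a (x, j, b) = E.wt ξ a x * g (gd2bI Q (a, x, j, b)) := if_pos he
      have h4 : M (gd2bI Q (a, x, j, b)) = _ := hf a x j b he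
      rw [h3, h4]
      ring
    · have h3 : gd2bH E A₀ T ξ g a (x, j, b) = 0 := if_neg he
      have h4 : M (gd2bI Q (a, x, j, b)) = 0 := gd2b_zero E hs (e := (x, j, b)) he
      rw [h3, h4, mul_zero, zero_mul]
  have h5 := h1.prod_factor a
  simp only [h2] at h5 ⊢
  by_cases ha : a ∈ A₀
  · have h6 : ∀ e, gd2bH E A₀ T ξ g a e = 0 := fun e => if_neg fun h => h.1 ha
    simp only [h6, zero_mul, tsum_zero]
  · refine pair_classes (hr a) (T a) (hW a ha) hu ?_ (fun e he => ?_) h5 (hd a ha)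
    · have h7 : Summable fun z : L × G × ℕ × G => g (gd2bI Q z) ^ 2 :=
        Summable.comp_injective hg gd2bI_inj
      refine Summable.of_nonneg_of_le (fun e => sq_nonneg _) (fun e => ?_) (h7.prod_factor a)
      unfold gd2bH
      split_ifs
      · obtain ⟨w0, w1⟩ := E.wt_pos ξ a e.1
        rw [mul_pow]
        exact mul_le_of_le_one_left (sq_nonneg _) (pow_le_one₀ w0.le w1)
      · rw [zero_pow two_ne_zero]
        exact sq_nonneg _
    · have h8 : E.Ed A₀ T ξ a (e.1, e.2.1) e.2.2 := by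
        by_contra hn
        exact he (if_neg hn)
      exact h8.2

theorem LEnv.Ao_mem (hτ : IsTS E.A τ) {A₀ : Set L} {T : L → Finset G}
    (hW : ∀ᵐ ξ ∂E.A.P, ∀ a, a ∉ A₀ → ∀ p, E.r ξ a p p → WD S (T a) (fibR (E.r ξ a) p))
    {Ao Dg : FH E.A (EI Q L) →L[ℝ] FH E.A (EI Q L)} (hA : E.IsAo Q A₀ T Ao) (hc : τ.Comm Dg)
    (hD : E.IsDg Q A₀ T Dg) {w : FH E.A (EI Q L)}
    (hw : ∀ᵐ ξ ∂E.A.P, ∃ u, FinEn S u ∧ ∀ x, ∀ s ∈ S, fibv w ξ (x, Sum.inl s) = u (x * s) - u x) :
    Ao w ∈ ((E.subV Q A₀).map (Dg : FH E.A (EI Q L) →ₗ[ℝ] FH E.A (EI Q L))).topologicalClosure := by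
  rw [← Submodule.orthogonal_orthogonal_eq_closure, Submodule.mem_orthogonal]
  intro g hg
  have hst : τ.Stab (E.subV Q A₀) := by
    refine (hτ.inv_supp fun γ ξ p => ?_).2
    refine exists_congr fun a => exists_congr fun j => and_congr_right fun _ =>
      and_congr_right fun _ => ?_
    exact E.equi γ ξ a (p.1, j) (p.1, j)
  have hst' := hst.map τ hc
  have key : ∀ (a : L) (q : G × ℕ), ∀ᵐ ξ ∂E.A.P, a ∉ A₀ → E.r ξ a q q →
      ∑ b ∈ T a, ((∑' j : ℕ, if E.r ξ a q (q.1 * b⁻¹, j) then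
        gd2bH E A₀ T ξ (fibv g ξ) a (q.1 * b⁻¹, j, b) else 0) -
          gd2bH E A₀ T ξ (fibv g ξ) a (q.1, q.2, b)) = 0 := by
    intro a q
    by_cases ha : a ∈ A₀
    · exact Eventually.of_forall fun ξ h => absurd ha h
    obtain ⟨f, hf⟩ := exists_point (I := EI Q L) E.A
      (q.1, Sum.inr (Sum.inr (Sum.inl (a, q.2)))) (E.meas a q q)
    have hfV : f ∈ E.subV Q A₀ := by
      change ∀ᵐ ξ ∂E.A.P, fibv f ξ ∈ suppM _
      filter_upwards [hf] with ξ h1 p hp
      rw [h1]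
      refine if_neg ?_
      rintro ⟨rfl, h2⟩
      exact hp ⟨a, q.2, rfl, ha, h2⟩
    have h3 := hτ.orth_fib hst' hg (Submodule.mem_map_of_mem hfV)
    filter_upwards [hf, h3, hD f, E.ok] with ξ h1 h4 h5 h6 _ h7
    refine gd2b_hd E h6 (fibv g ξ) h5.1 h5.2 (fun p => ?_) h4
    rw [h1]
    by_cases hp : p = (q.1, Sum.inr (Sum.inr (Sum.inl (a, q.2))))
    · rw [if_pos hp, if_pos ⟨hp, h7⟩]
    · rw [if_neg hp, if_neg fun h => hp h.1]
  have key' := ae_all_iff.2 fun a => ae_all_iff.2 (key a)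
  rw [inner_eq_integral]
  refine integral_eq_zero_of_ae ?_
  filter_upwards [key', hW, hA w, hw, E.ok, ae_sqSum_fibv g, ae_sqSum_fibv (Ao w)] with ξ k1 k2 k3
    k4 k5 k6 k7
  obtain ⟨u, hu, hu'⟩ := k4
  exact gd2b_fib E k5 k2 k6 k7 k3.1 hu (k3.2 u hu') fun a ha q hq => k1 a q ha hq

end Vale.Agent.P239
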