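import Vale.Agent.P239.Full.FDef

/-! Task FPre: pretrees with finite intervals (pure combinatorics).
`sep_sub`: if `B q s t` and `B r s q` then `B r s t` (`r ≠ t` by `t1`; `t2` gives `B q s r` or `B q r t`; the first contradicts `t1`; if not `B r s t` then `t2` gives `B r t q`, contradicting `t1` with the second).
`exists_adj`: minimise the size of the interval. `first`: if `B s₀ t₀ r` take `s₀`, if `B t₀ s₀ r` take `t₀`; otherwise the intervals from `s₀` and from `t₀` to `r` agree and are nonempty, take `q` in it with the smallest interval from `s₀`.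
`two_vertices`: two common elements force equality (`V_eq`); one common element `t`; or none: apply `first` in both directions.
-/

noncomputable section

open Classical MeasureTheory Filter Topology Set
open scoped Pointwise ENNReal

namespace Vale.Agent.P239



structure IsPre {α : Type*} (C : Set α) (B : α → α → α → Prop) : Prop where
  symm : ∀ r s t, B r s t → B r t s
  ne : ∀ r s t, B r s t → r ≠ s ∧ r ≠ t ∧ s ≠ t
  t1 : ∀ q ∈ C, ∀ s ∈ C, ∀ r ∈ C, B q s r → ¬ B s q r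
  t2 : ∀ q s r w, B q s r → q ≠ w → B q s w ∨ B q w r
  fin : ∀ s ∈ C, ∀ t ∈ C, {r | r ∈ C ∧ B r s t}.Finite

/-- The elements not separated from `s` and `t`. -/
def preV {α : Type*} (C : Set α) (B : α → α → α → Prop) (s t : α) : Set α :=
  {u | u ∈ C ∧ ∀ r ∈ C, ¬ B r s u ∧ ¬ B r t u}

/-- Adjacent pairs. -/
def preAdj {α : Type*} (C : Set α) (B : α → α → α → Prop) (s t : α) : Prop :=
  s ∈ C ∧ t ∈ C ∧ s ≠ t ∧ ∀ r ∈ C, ¬ B r s t

namespace IsPre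
variable {α : Type*} {C : Set α} {B : α → α → α → Prop} (h : IsPre C B)
include h

theorem sep_sub {q r s t : α} (hq : q ∈ C) (hr : r ∈ C) (hs : s ∈ C) (ht : t ∈ C) (h1 : B q s t)
    (h2 : B r s q) : B r s t := by
  have hrt : r ≠ t := by
    rintro rfl
    exact h.t1 q hq r hr s hs (h.symm _ _ _ h1) (h.symm _ _ _ h2)
  rcases h.t2 r s q t h2 hrt with h3 | h3
  · exact h3
  rcases h.t2 q s t r h1 (h.ne _ _ _ h2).2.1.symm with h4 | h4
  · exact absurd (h.symm _ _ _ h2) (h.t1 q hq r hr s hs (h.symm _ _ _ h4))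
  · exact absurd (h.symm _ _ _ h3) (h.t1 q hq r hr t ht h4)

theorem fpre_min {s : α} (hs : s ∈ C) {P : Set α} (hP : P ⊆ C) (hne : P.Nonempty) :
    ∃ q ∈ P, ∀ r ∈ P, ¬ B r s q := by
  obtain ⟨q, hq, hmin⟩ := (measure fun q => {r | r ∈ C ∧ B r s q}.ncard).wf.has_min P hne
  refine ⟨q, hq, fun r hr hB => hmin r hr ?_⟩
  refine Set.ncard_lt_ncard ⟨fun p hp => ⟨hp.1, h.sep_sub (hP hr) hp.1 hs (hP hq) hB hp.2⟩,
    fun hsub => ?_⟩ (h.fin s hs q (hP hq))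
  exact (h.ne _ _ _ (hsub ⟨hP hr, hB⟩).2).2.1 rfl

theorem exists_adj {s t : α} (hs : s ∈ C) (ht : t ∈ C) (hne : s ≠ t) : ∃ u, preAdj C B s u := by
  obtain ⟨q, hq, hmin⟩ := h.fpre_min hs (P := {u | u ∈ C ∧ s ≠ u}) (fun _ hu => hu.1) ⟨t, ht, hne⟩
  exact ⟨q, hs, hq.1, hq.2, fun r hr hB => hmin r ⟨hr, (h.ne _ _ _ hB).1.symm⟩ hB⟩

theorem left_mem {s t : α} (ha : preAdj C B s t) : s ∈ preV C B s t :=
  ⟨ha.1, fun r hr => ⟨fun hB => (h.ne _ _ _ hB).2.2 rfl, fun hB => ha.2.2.2 r hr (h.symm _ _ _ hB)⟩⟩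

theorem right_mem {s t : α} (ha : preAdj C B s t) : t ∈ preV C B s t :=
  ⟨ha.2.1, fun r hr => ⟨ha.2.2.2 r hr, fun hB => (h.ne _ _ _ hB).2.2 rfl⟩⟩

theorem clique {s t : α} (ha : preAdj C B s t) {u v : α} (hu : u ∈ preV C B s t)
    (hv : v ∈ preV C B s t) : ∀ r ∈ C, ¬ B r u v := by
  intro r hr hB
  by_cases e : r = s
  · rcases h.t2 r u v t hB (e ▸ ha.2.2.1) with h1 | h1
    · exact (hu.2 r hr).2 (h.symm _ _ _ h1)
    · exact (hv.2 r hr).2 h1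
  · rcases h.t2 r u v s hB e with h1 | h1
    · exact (hu.2 r hr).1 (h.symm _ _ _ h1)
    · exact (hv.2 r hr).1 h1

theorem V_eq {s t : α} (ha : preAdj C B s t) {u v : α} (hu : u ∈ preV C B s t)
    (hv : v ∈ preV C B s t) (hne : u ≠ v) : preV C B u v = preV C B s t := by
  have key : ∀ x ∈ preV C B u v, ∀ r ∈ C, ∀ y, ¬ B r y u → ¬ B r y v → ¬ B r y x := by
    intro x hx r hr y h1 h2 hB
    by_cases e : r = u
    · exact (h.t2 r y x v hB (e ▸ hne)).elim h2 (hx.2 r hr).2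
    · exact (h.t2 r y x u hB e).elim h1 (hx.2 r hr).1
  ext x
  exact ⟨fun hx => ⟨hx.1, fun r hr => ⟨key x hx r hr s (hu.2 r hr).1 (hv.2 r hr).1,
      key x hx r hr t (hu.2 r hr).2 (hv.2 r hr).2⟩⟩,
    fun hx => ⟨hx.1, fun r hr => ⟨h.clique ha hu hx r hr, h.clique ha hv hx r hr⟩⟩⟩

theorem first {s t : α} (ha : preAdj C B s t) {r : α} (hr : r ∈ C) (hn : r ∉ preV C B s t) :
    ∃ q ∈ preV C B s t, ∀ u ∈ preV C B s t, u ≠ q → B q r u := by
  obtain ⟨hs, ht, hst, hadj⟩ := id ha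
  by_cases h1 : B s t r
  · exact ⟨s, h.left_mem ha, fun u hu hne =>
      h.symm _ _ _ ((h.t2 s t r u h1 hne.symm).resolve_left (hu.2 s hs).2)⟩
  by_cases h2 : B t s r
  · exact ⟨t, h.right_mem ha, fun u hu hne =>
      h.symm _ _ _ ((h.t2 t s r u h2 hne.symm).resolve_left (hu.2 t ht).1)⟩
  have a1 : ∀ p ∈ C, B p s r → B p t r := fun p hp hB =>
    (h.t2 p s r t hB fun e => h2 (e ▸ hB)).resolve_left (hadj p hp)
  have a2 : ∀ p ∈ C, B p t r → B p s r := fun p hp hB =>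
    (h.t2 p t r s hB fun e => h1 (e ▸ hB)).resolve_left fun hB' => hadj p hp (h.symm _ _ _ hB')
  obtain ⟨q, hq, hmin⟩ := h.fpre_min hs (P := {p | p ∈ C ∧ B p s r}) (fun _ hp => hp.1) (by
    by_contra hc
    exact hn ⟨hr, fun p hp => ⟨fun hB => hc ⟨p, hp, hB⟩, fun hB => hc ⟨p, hp, a2 p hp hB⟩⟩⟩)
  have a3 : ∀ p ∈ C, ¬ B p s q := fun p hp hB =>
    hmin p ⟨hp, h.sep_sub hq.1 hp hs hr hq.2 hB⟩ hB
  refine ⟨q, ⟨hq.1, fun p hp => ⟨a3 p hp, fun hB => ?_⟩⟩, fun u hu hne =>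
    h.symm _ _ _ ((h.t2 q s r u hq.2 hne.symm).resolve_left (hu.2 q hq.1).1)⟩
  have a4 := h.sep_sub hq.1 hp ht hr (a1 q hq.1 hq.2) hB
  exact (h.t2 p t q s hB fun e => h1 (e ▸ a4)).elim (fun hB' => hadj p hp (h.symm _ _ _ hB'))
    (a3 p hp)

theorem fpre_other {s t : α} (ha : preAdj C B s t) (q : α) : ∃ u ∈ preV C B s t, u ≠ q := by
  by_cases e : s = q
  · exact ⟨t, h.right_mem ha, e ▸ ha.2.2.1.symm⟩
  · exact ⟨s, h.left_mem ha, e⟩

theorem two_vertices {s t s' t' : α} (ha : preAdj C B s t) (ha' : preAdj C B s' t')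
    (hne : preV C B s t ≠ preV C B s' t') :
    ∃ q ∈ preV C B s t, ∃ q' ∈ preV C B s' t', ∃ u ∈ preV C B s t, ∃ u' ∈ preV C B s' t',
      u ≠ q ∧ u' ≠ q' ∧ ((q = q' ∧ B q u u') ∨ (q ≠ q' ∧ B q u q' ∧ B q' u' q)) := by
  by_cases hc : ∃ c ∈ preV C B s t, c ∈ preV C B s' t'
  · obtain ⟨c, h1, h2⟩ := hc
    obtain ⟨u, hu, hu1⟩ := h.fpre_other ha c
    obtain ⟨u', hu', hu2⟩ := h.fpre_other ha' c
    obtain ⟨q, hq, h3⟩ := h.first ha hu'.1 fun h4 =>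
      hne ((h.V_eq ha h4 h1 hu2).symm.trans (h.V_eq ha' hu' h2 hu2))
    have e : c = q := by
      by_contra e
      exact h.clique ha' hu' h2 q hq.1 (h3 c h1 e)
    subst e
    exact ⟨c, h1, c, h2, u, hu, u', hu', hu1, hu2, Or.inl ⟨rfl, h.symm _ _ _ (h3 u hu hu1)⟩⟩
  · obtain ⟨q, hq, h1⟩ := h.first ha ha'.1 fun h4 => hc ⟨s', h4, h.left_mem ha'⟩
    obtain ⟨q', hq', h2⟩ := h.first ha' hq.1 fun h4 => hc ⟨q, hq, h4⟩
    obtain ⟨u, hu, hu1⟩ := h.fpre_other ha q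
    obtain ⟨u', hu', hu2⟩ := h.fpre_other ha' q'
    have e : q ≠ q' := fun e => hc ⟨q, hq, e ▸ hq'⟩
    exact ⟨q, hq, q', hq', u, hu, u', hu', hu1, hu2, Or.inr ⟨e, h.symm _ _ _
      ((h.t2 q s' u q' (h1 u hu hu1) e).resolve_left (h.clique ha' (h.left_mem ha') hq' q hq.1)),
      h.symm _ _ _ (h2 u' hu' hu2)⟩⟩

end IsPre

end Vale.Agent.P239
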