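import Vale.Agent.P239.Full.FCls
import Vale.Agent.P239.Full.FPre

/-! Task FVert: a class system with two classes has a vertex.
`Btw` is a pretree (`btw_symm`, `t1`, `t2`, `finite_sep`). `V = preV s₀ t₀` for an adjacent pair, `b s = a s u` for a chosen `u ∈ V`, `u ≠ s` (`clique` with `r = s` gives `b_eq`), `Γ = {g | act g '' V = V}`.
`act g` maps `preV s t` onto `preV (act g s) (act g t)` (`btw_act`). `cof`: for `x` with all `h (b s) x ≤ lam`, the vertex `V x = act x⁻¹ '' V` has all its half spaces `a q u` (`q ≠ u` in `V x`) of measure `≤ lam` at `1` (`equi`).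
Only finitely many vertices have this property: for two different vertices `two_vertices` gives half spaces `a q u`, `a q' u'` covering the boundary (`dir`, `disj`), so at most one vertex has all half spaces of measure `< 1/2`;
for the others some `a q u` is seen with `ε = min (1/2) (1 - lam)`; finitely many functions (`finite_h`), at most two classes `q` per function (`no_three`), and `q` with the function determines the vertex (first case of `two_vertices`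
or `V_eq`). Choose one point `x` for each such vertex: if `V x = V y` then `y * x⁻¹ ∈ Γ`.
-/

noncomputable section

open Classical MeasureTheory Filter Topology Set
open scoped Pointwise ENNReal

namespace Vale.Agent.P239

universe u
variable {G : Type u} [Group G] {S : Finset G} {l : ℕ} {Q : Cones S} {B : Bdry S}

namespace Bdry.ClassSys
variable {α : Type*} (Y : B.ClassSys Q α)

theorem fv_pre (hH : RH S l Q) : IsPre Y.C Y.Btw :=
  ⟨fun _ _ _ => Y.btw_symm, fun _ _ _ h => ⟨h.1, h.2.1, Y.btw_ne h⟩,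
    fun _ hq _ hs _ hr => Y.t1 hH hq hs hr, fun _ _ _ _ => Y.t2,
    fun _ hs _ ht => Y.finite_sep hH hs ht⟩

theorem fv_inv (g : G) (s : α) : Y.act g⁻¹ (Y.act g s) = s := by
  rw [← Y.act_mul, inv_mul_cancel, Y.act_one]

theorem fv_btw (hS : Cay S) (g : G) {r s t : α} (hr : r ∈ Y.C) (hs : s ∈ Y.C) (ht : t ∈ Y.C)
    (h : Y.Btw r (Y.act g s) (Y.act g t)) : Y.Btw (Y.act g⁻¹ r) s t := by
  have := Y.btw_act hS g⁻¹ hr (Y.act_mem g s hs) (Y.act_mem g t ht) h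
  rwa [Y.fv_inv, Y.fv_inv] at this

theorem fv_mem (hS : Cay S) (g : G) {s t u : α} (hs : s ∈ Y.C) (ht : t ∈ Y.C)
    (hu : u ∈ preV Y.C Y.Btw s t) : Y.act g u ∈ preV Y.C Y.Btw (Y.act g s) (Y.act g t) :=
  ⟨Y.act_mem g u hu.1, fun r hr =>
    ⟨fun h => (hu.2 _ (Y.act_mem g⁻¹ r hr)).1 (Y.fv_btw hS g hr hs hu.1 h),
      fun h => (hu.2 _ (Y.act_mem g⁻¹ r hr)).2 (Y.fv_btw hS g hr ht hu.1 h)⟩⟩

theorem fv_image (hS : Cay S) (g : G) {s t : α} (hs : s ∈ Y.C) (ht : t ∈ Y.C) :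
    Y.act g '' preV Y.C Y.Btw s t = preV Y.C Y.Btw (Y.act g s) (Y.act g t) := by
  refine Subset.antisymm ?_ fun u hu => ⟨Y.act g⁻¹ u, ?_, ?_⟩
  · rintro _ ⟨u, hu, rfl⟩
    exact Y.fv_mem hS g hs ht hu
  · have := Y.fv_mem hS g⁻¹ (Y.act_mem g s hs) (Y.act_mem g t ht) hu
    rwa [Y.fv_inv, Y.fv_inv] at this
  · rw [← Y.act_mul, mul_inv_cancel, Y.act_one]

theorem fv_adj (hS : Cay S) (g : G) {s t : α} (h : preAdj Y.C Y.Btw s t) :
    preAdj Y.C Y.Btw (Y.act g s) (Y.act g t) :=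
  ⟨Y.act_mem g s h.1, Y.act_mem g t h.2.1, fun e => h.2.2.1 (Y.act_inj g e), fun r hr hb =>
    h.2.2.2 _ (Y.act_mem g⁻¹ r hr) (Y.fv_btw hS g hr h.1 h.2.1 hb)⟩

/-- vertices as sets of classes -/
def FvV (W : Set α) : Prop := ∃ s t, preAdj Y.C Y.Btw s t ∧ W = preV Y.C Y.Btw s t

theorem fv_dir {q u u' : α} (hq : q ∈ Y.C) (hu : u ∈ Y.C) (hu' : u' ∈ Y.C) (h : Y.Btw q u u') :
    ∀ᵐ ξ ∂B.μ 1, ξ ∉ (Y.a q u)ᶜ ∩ (Y.a q u')ᶜ :=
  (B.null_iff_ae _).1 ((Y.dir q hq u hu u' hu' h.1 h.2.1).resolve_left h.2.2)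

theorem fv_cover (hH : RH S l Q) {W W' : Set α} (h : Y.FvV W) (h' : Y.FvV W') (hne : W ≠ W') :
    ∃ q ∈ W, ∃ u ∈ W, ∃ q' ∈ W', ∃ u' ∈ W', q ≠ u ∧ q' ≠ u' ∧
      1 ≤ B.h (Y.a q u) 1 + B.h (Y.a q' u') 1 := by
  obtain ⟨s, t, ha, rfl⟩ := h
  obtain ⟨s', t', ha', rfl⟩ := h'
  obtain ⟨q, hq, q', hq', u, hu, u', hu', n1, n2, h⟩ := (Y.fv_pre hH).two_vertices ha ha' hne
  refine ⟨q, hq, u, hu, q', hq', u', hu', n1.symm, n2.symm, ?_⟩
  have k : B.Sub (Y.a q u)ᶜ (Y.a q' u') := by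
    rw [B.sub_iff]
    rcases h with ⟨rfl, h⟩ | ⟨n, h1, h2⟩
    · filter_upwards [Y.fv_dir hq.1 hu.1 hu'.1 h] with ξ h1 h2
      by_contra h3
      exact h1 ⟨h2, h3⟩
    · filter_upwards [Y.fv_dir hq.1 hu.1 hq'.1 h1, Y.fv_dir hq'.1 hu'.1 hq.1 h2,
        (B.null_iff_ae _).1 (Y.disj q hq.1 q' hq'.1 n)] with ξ k1 k2 k3 k4
      by_contra k5
      exact k3 ⟨by_contra fun k6 => k1 ⟨k4, k6⟩, by_contra fun k6 => k2 ⟨k5, k6⟩⟩
  have := B.h_mono hH.cay k 1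
  rw [B.h_compl (Y.good q hq.1 u hu.1 n1.symm).1.1] at this
  linarith

theorem fv_uniq (hH : RH S l Q) {W W' : Set α} (h : Y.FvV W) (h' : Y.FvV W') {q u u' : α}
    (hq : q ∈ W) (hq' : q ∈ W') (hu : u ∈ W) (hu' : u' ∈ W') (n : q ≠ u) (n' : q ≠ u')
    (e : B.AEq (Y.a q u) (Y.a q u')) : W = W' := by
  obtain ⟨s, t, ha, rfl⟩ := h
  obtain ⟨s', t', ha', rfl⟩ := h'
  have P := Y.fv_pre hH
  have k : u' ∈ preV Y.C Y.Btw q u := by
    refine ⟨hu'.1, fun r hr => ⟨P.clique ha' hq' hu' r hr, fun hb => ?_⟩⟩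
    by_cases hrq : r = q
    · subst hrq
      exact hb.2.2 e
    · exact (Y.t2 hb hrq).elim (P.clique ha hu hq r hr) (P.clique ha' hq' hu' r hr)
  rw [P.V_eq ha hq hu n] at k
  rw [← P.V_eq ha hq k n', P.V_eq ha' hq' hu' n']

theorem fv_sub {W : Set α} (h : Y.FvV W) : W ⊆ Y.C := by
  obtain ⟨s, t, -, rfl⟩ := h
  exact fun u hu => hu.1

theorem fv_two (hH : RH S l Q) (f : G → ℝ) :
    {q | q ∈ Y.C ∧ ∃ u ∈ Y.C, q ≠ u ∧ f = B.h (Y.a q u)}.Finite := by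
  by_contra hn
  obtain ⟨T, hT, hc⟩ := Set.Infinite.exists_subset_card_eq hn 3
  obtain ⟨x, y, z, d1, d2, d3, rfl⟩ := Finset.card_eq_three.1 hc
  obtain ⟨h1, u, k1, n1, e1⟩ := hT (show x ∈ _ by simp)
  obtain ⟨h2, v, k2, n2, e2⟩ := hT (show y ∈ _ by simp)
  obtain ⟨h3, w, k3, n3, e3⟩ := hT (show z ∈ _ by simp)
  exact Y.no_three hH h1 h2 h3 k1 k2 k3 n1 n2 n3 d1 d2 d3
    ((Y.good _ h1 _ k1 n1).1.aeq_of_h (Y.good _ h2 _ k2 n2).1 (e1.symm.trans e2))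
    ((Y.good _ h1 _ k1 n1).1.aeq_of_h (Y.good _ h3 _ k3 n3).1 (e1.symm.trans e3))

theorem fv_finite (hH : RH S l Q) {lam : ℝ} (hl : lam < 1) :
    {W | Y.FvV W ∧ ∀ q ∈ W, ∀ u ∈ W, q ≠ u → B.h (Y.a q u) 1 ≤ lam}.Finite := by
  have h1 : {W | Y.FvV W ∧ ∀ q ∈ W, ∀ u ∈ W, q ≠ u → B.h (Y.a q u) 1 < 1 / 2}.Subsingleton := by
    intro W hW W' hW'
    by_contra hne
    obtain ⟨q, hq, u, hu, q', hq', u', hu', n, n', h⟩ := Y.fv_cover hH hW.1 hW'.1 hne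
    linarith [hW.2 q hq u hu n, hW'.2 q' hq' u' hu' n']
  have h2 : ∀ (f : G → ℝ) (q : α),
      {W | Y.FvV W ∧ q ∈ W ∧ ∃ u ∈ W, q ≠ u ∧ f = B.h (Y.a q u)}.Subsingleton := by
    rintro f q W ⟨hW, hq, u, hu, n, e⟩ W' ⟨hW', hq', u', hu', n', e'⟩
    exact Y.fv_uniq hH hW hW' hq hq' hu hu' n n'
      ((Y.good _ (Y.fv_sub hW hq) _ (Y.fv_sub hW hu) n).1.aeq_of_h
        (Y.good _ (Y.fv_sub hW hq) _ (Y.fv_sub hW' hu') n').1 (e.symm.trans e'))
  have hε : 0 < min (1 / 2) (1 - lam) := lt_min (by norm_num) (by linarith)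
  refine (h1.finite.union ((Y.finite_h hH hε).biUnion fun f _ =>
    (Y.fv_two hH f).biUnion fun q _ => (h2 f q).finite)).subset fun W hW => ?_
  by_cases h : ∀ q ∈ W, ∀ u ∈ W, q ≠ u → B.h (Y.a q u) 1 < 1 / 2
  · exact Or.inl ⟨hW.1, h⟩
  push Not at h
  obtain ⟨q, hq, u, hu, n, h⟩ := h
  have cq := Y.fv_sub hW.1 hq
  have cu := Y.fv_sub hW.1 hu
  refine Or.inr (mem_biUnion (x := B.h (Y.a q u)) ⟨q, cq, u, cu, n, ⟨(min_le_left _ _).trans h, ?_⟩,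
    rfl⟩ (mem_biUnion (x := q) ⟨cq, u, cu, n, rfl⟩ ⟨hW.1, hq, u, hu, n, rfl⟩))
  rw [B.h_compl (Y.good q cq u cu n).1.1]
  linarith [min_le_right (1 / 2) (1 - lam), hW.2 q hq u hu n]

/-- the stabiliser of a set of classes -/
def fvStab (V : Set α) : Subgroup G where
  carrier := {g | Y.act g '' V = V}
  one_mem' := by
    change Y.act 1 '' V = V
    simp only [Y.act_one, image_id']
  mul_mem' := fun {g h} hg hh => by
    change Y.act (g * h) '' V = V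
    simp only [Y.act_mul]
    rw [← image_image, show Y.act h '' V = V from hh, show Y.act g '' V = V from hg]
  inv_mem' := fun {g} hg => by
    change Y.act g⁻¹ '' V = V
    conv_lhs => rw [← show Y.act g '' V = V from hg]
    simp only [image_image, Y.fv_inv, image_id']

end Bdry.ClassSys

theorem Bdry.ClassSys.exists_vertex (hH : RH S l Q) {α : Type*} (Y : B.ClassSys Q α) {s t : α}
    (hs : s ∈ Y.C) (ht : t ∈ Y.C) (hne : s ≠ t) : Nonempty Y.Vertex := by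
  have P := Y.fv_pre hH
  obtain ⟨t₀, ha⟩ := P.exists_adj hs ht hne
  let o : α → α := fun r => if r = s then t₀ else s
  have ho : ∀ r, o r ∈ preV Y.C Y.Btw s t₀ ∧ r ≠ o r := fun r => by
    by_cases h : r = s
    · simp only [o, if_pos h]
      exact ⟨P.right_mem ha, h ▸ ha.2.2.1⟩
    · simp only [o, if_neg h]
      exact ⟨P.left_mem ha, h⟩
  have hb : ∀ q ∈ preV Y.C Y.Btw s t₀, ∀ u ∈ preV Y.C Y.Btw s t₀, q ≠ u →
      B.AEq (Y.a q (o q)) (Y.a q u) := fun q hq u hu n =>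
    by_contra fun h => P.clique ha (ho q).1 hu q hq.1 ⟨(ho q).2, n, h⟩
  refine ⟨⟨preV Y.C Y.Btw s t₀, fun r => Y.a r (o r), Y.fvStab (preV Y.C Y.Btw s t₀),
    fun u hu => hu.1, ⟨s, P.left_mem ha, t₀, P.right_mem ha, ha.2.2.1⟩, hb,
    fun q hq => (Y.good q hq.1 _ (ho q).1.1 (ho q).2).1, fun q hq u hu => P.clique ha hq hu,
    fun γ hγ q hq => ?_, fun lam hl => ?_⟩⟩
  · rw [← show Y.act γ '' _ = _ from hγ]
    exact mem_image_of_mem _ hq
  let φ : G → Set α := fun x => Y.act x⁻¹ '' preV Y.C Y.Btw s t₀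
  refine ⟨_, (Y.fv_finite hH hl).image (Function.invFun φ), fun x hx => ?_⟩
  have e : φ (Function.invFun φ (φ x)) = φ x := Function.invFun_eq ⟨x, rfl⟩
  refine ⟨x * (Function.invFun φ (φ x))⁻¹, ?_, φ x, ⟨⟨_, _, Y.fv_adj hH.cay x⁻¹ ha,
    Y.fv_image hH.cay _ hs ha.2.1⟩, ?_⟩, by group⟩
  · change Y.act _ '' _ = _
    simp only [Y.act_mul]
    rw [← image_image, show Y.act (Function.invFun φ (φ x))⁻¹ '' _ = Y.act x⁻¹ '' _ from e,
      image_image]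
    simp only [← Y.act_mul, mul_inv_cancel, Y.act_one, image_id']
  · rintro _ ⟨q, hq, rfl⟩ _ ⟨u, hu, rfl⟩ n
    have n' : q ≠ u := fun h => n (by rw [h])
    have e1 := Y.equi x⁻¹ q hq.1 u hu.1 n'
    have e2 := hb q hq u hu n'
    rw [B.h_congr hH.cay e1.1 e1.2, ← inv_mul_cancel x, B.h_smul, ← B.h_congr hH.cay e2.1 e2.2]
    exact hx q hq

end Vale.Agent.P239
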