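import Vale.Agent.P239.Full.FEnd
import Vale.Agent.P239.Full.FPair
import Vale.Agent.P239.Full.FSys
import Vale.Agent.P239.Full.FVert

/-! Task FGSys: the class system of wall carrying classes and its vertex. `exists_gsys`: `exists_classSys` with `W = Set G`, `𝔽 s = 𝓟 {U | WallOf B s U}`, `side s t U = hatSet (away U t)`, `wact g U = g • U`.
`h1`: `IsCl.thin`, `Thin.good`. `h3`: `ended`, `away_finite`, `fin_nbh` (for `away U t`, whose wall is that of `U`), `exists_sep` with `KS.tendsto`, `fvp_of_sides`. `h5`: `(g • U ∩ cjg g t).Finite ↔ (U ∩ t).Finite` (`exists_nbh_cjg`, `ended`, `fin_nbh` for `U` or `Uᶜ`).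
`exists_vdata`: `exists_vertex`; `vis`: `wall_a`, `cofinite_vis`, `mem_of_cjg`; `wall`: a two-sided `P` is a `WallOf`, otherwise one side is null; `clique`: if `U ∩ s` is finite and `U ∩ s'` is not, both sides of `U` lie in `a t s`, `a t s'`, which are a.e. equal, contradicting `two_a`.
-/

noncomputable section

open Classical MeasureTheory Filter Topology Set
open scoped Pointwise ENNReal

namespace Vale.Agent.P239

universe u
variable {G : Type u} [Group G] {S : Finset G} {l : ℕ} {B : Bdry S}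

omit [Group G] in
theorem fgs_away (U W : Set G) : away U W = U ∨ away U W = Uᶜ := by
  unfold away
  split_ifs
  exacts [Or.inl rfl, Or.inr rfl]

theorem fgs_inf (hH : HypQ S l) {U : Set G} (h : B.Two (hatSet U)) : (wallV S U).Infinite := by
  intro hf
  rcases hH.one U ((wallV_finite_iff U).1 hf) with h1 | h1
  · exact h.1 (B.null_hatSet_of_finite hH.cay h1)
  · exact h.2 (hatSet_compl U ▸ B.null_hatSet_of_finite hH.cay h1)

theorem fgs_side (hH : HypQ S l) (hn : B.NonD) {s t : Subgroup G} (hs : IsWCl B s)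
    (ht : IsWCl B t) (hne : s ≠ t) {U U' : Set G} {R R' : ℕ} (hU : wallV S U ⊆ nbh S R s)
    (hU' : wallV S U' ⊆ nbh S R' t) : (away U t ∩ wallV S (away U' s)).Finite := by
  rw [wallV_away]
  exact (fin_nbh hH.cay hH.tf hs.1 ht.1 hne (U := away U t) (by rwa [wallV_away])
    (away_finite (ended hH hn hs.1 ht hne hU)) R').subset (inter_subset_inter_right _ hU')

theorem fgs_fvp (hH : HypQ S l) (hn : B.NonD) {s t : Subgroup G} (hs : IsWCl B s)
    (ht : IsWCl B t) (hne : s ≠ t) {U U' : Set G} (hU : WallOf B s U) (hU' : WallOf B t U') :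
    B.FVP (Cones.empty S) (hatSet (away U t)) (hatSet (away U' s)) := by
  obtain ⟨h2, R, hR⟩ := hU
  obtain ⟨-, R', hR'⟩ := hU'
  obtain ⟨v, φ, ψ, -, -, hv, hφ, hψ, hc, -⟩ := exists_sep hH.cay hH.tf hs.1 ht.1 hne (m := 0)
    Fin.elim0 fun k => k.elim0
  have k1 := hφ.tendsto hH.cay hv R 1
  have k2 := hψ.tendsto hH.cay hv R' 1
  rw [one_smul] at k1 k2
  refine fvp_of_sides B hH.rh (v := v) (φ := fun i => Fin.elim0 i) ⟨hv, fun i => Fin.elim0 i⟩
    (c := v 1 - φ 1) (c' := v 1 - ψ 1) (fun h => hc (sub_right_injective h)) ?_ ?_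
    (fgs_side hH hn hs ht hne hR hR') (fgs_side hH hn ht hs hne.symm hR' hR) ?_
  · rw [wallV_away]
    exact k1.mono_left (inf_le_inf_left _ (principal_mono.2 hR))
  · rw [wallV_away]
    exact k2.mono_left (inf_le_inf_left _ (principal_mono.2 hR'))
  · rw [wallV_away]
    exact fgs_inf hH h2

theorem fgs_fin (hH : HypQ S l) {s t : Subgroup G} (hs : IsCl S s) (ht : IsCl S t) (hne : s ≠ t)
    {U : Set G} {R : ℕ} (hU : wallV S U ⊆ nbh S R s) (hf : (U ∩ t).Finite) (g : G) :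
    (g • U ∩ cjg g t).Finite := by
  obtain ⟨r, hr⟩ := exists_nbh_cjg hH.cay g
  have h1 := (fin_nbh hH.cay hH.tf hs ht hne hU hf r).smul_set (a := g)
  rw [smul_set_inter, ← nbh_smul] at h1
  exact h1.subset (inter_subset_inter_right _ (hr t).2)

theorem fgs_smul (hH : HypQ S l) (hn : B.NonD) {s t : Subgroup G} (hs : IsWCl B s)
    (ht : IsWCl B t) (hne : s ≠ t) {U : Set G} (hU : WallOf B s U) (g : G) :
    away (g • U) (cjg g t) = g • away U t := by
  obtain ⟨-, R, hR⟩ := hU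
  unfold away
  by_cases h : (U ∩ t).Finite
  · rw [if_pos h, if_pos (fgs_fin hH hs.1 ht.1 hne hR h g)]
  · rw [if_neg h, if_neg, smul_set_compl]
    intro h1
    have h2 := (ended hH hn hs.1 ht hne hR).resolve_left h
    have h3 := fgs_fin hH hs.1 ht.1 hne (U := Uᶜ) (by rwa [wallV_compl])
      (by rwa [inter_comm]) g
    rw [smul_set_compl] at h3
    refine (ht.1.conj hH.cay g).infinite ((h1.union h3).subset fun x hx => ?_)
    by_cases hx' : x ∈ g • U
    · exact Or.inl ⟨hx', hx⟩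
    · exact Or.inr ⟨hx', hx⟩

theorem exists_gsys (hH : HypQ S l) (hn : B.NonD) :
    ∃ Y : B.ClassSys (Cones.empty S) (Subgroup G), Y.C = {t | IsWCl B t} ∧ Y.act = cjg ∧
      ∀ s t, IsWCl B s → IsWCl B t → s ≠ t → ∀ U, WallOf B s U →
        B.Sub (hatSet (away U t)) (Y.a s t) := by
  have key := Bdry.exists_classSys (B := B) (Q := Cones.empty S) hH.cay
    {t | IsWCl B t} cjg cjg_one cjg_mul (fun g s hs => IsWCl.conj hH.cay hs g)
    (fun s => 𝓟 {U | WallOf B s U}) (fun _ => inferInstance) ?_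
    (fun _ t U => hatSet (away U t)) (fun g U => g • U) ?_ ?_ ?_ ?_ ?_ ?_
  · obtain ⟨Y, h1, h2, h3⟩ := key
    exact ⟨Y, h1, h2, fun s t hs ht hne U hU => eventually_principal.1 (h3 s hs t ht hne) U hU⟩
  · rintro s ⟨-, T, hT, U, hU⟩
    exact principal_neBot_iff.2 ⟨U, hU.mono ((Subgroup.closure_le s).2 hT)⟩
  · intro s hs t _ _
    refine eventually_principal.2 ?_
    rintro U ⟨h2, R, hR⟩
    refine ⟨Thin.good B hH.cay hH.gap ?_, ?_⟩
    · rw [wallV_away]
      exact (hs.1.thin hH.cay hH.gap hn R).mono hR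
    · rcases fgs_away U t with h | h <;> rw [h]
      · exact h2
      · rw [hatSet_compl]
        exact h2.compl
  · intro s _ t _ t' _ _ _
    refine Eventually.of_forall fun U => ?_
    rcases fgs_away U t with h | h <;> rcases fgs_away U t' with h' | h' <;>
      simp only [h, h', hatSet_compl, compl_compl, true_or, or_true]
  · intro s hs t ht hne
    exact eventually_principal.2 fun U hU => eventually_principal.2 fun U' hU' =>
      fgs_fvp hH hn hs ht hne hU hU'
  · intro g s _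
    exact tendsto_principal_principal.2 fun U hU => WallOf.conj hH.cay hU g
  · intro g s hs t ht hne
    refine eventually_principal.2 fun U hU => ?_
    rw [smul_hatSet, fgs_smul hH hn hs ht hne hU]
  · exact fun g U => smul_inv_smul g U

theorem exists_vdata (hH : HypQ S l) (hn : B.NonD) {s t : Subgroup G} (hs : IsWCl B s)
    (ht : IsWCl B t) (hne : s ≠ t) : Nonempty (VData B) := by
  obtain ⟨Y, hC, hact, hsub⟩ := exists_gsys hH hn
  have hC' : ∀ s, s ∈ Y.C ↔ IsWCl B s := fun s => by rw [hC, mem_ofPred_eq]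
  obtain ⟨Z⟩ := Y.exists_vertex hH.rh ((hC' s).2 hs) ((hC' t).2 ht) hne
  have oth : ∀ s ∈ Z.V, ∃ u ∈ Z.V, s ≠ u := fun s _ => by
    obtain ⟨a, ha, b, hb, hab⟩ := Z.two
    by_cases h : s = a
    · exact ⟨b, hb, h ▸ hab⟩
    · exact ⟨a, ha, h⟩
  have half : ∀ s ∈ Z.V, ∀ s' ∈ Z.V, ∀ t, IsWCl B t → t ≠ s → t ≠ s' → ∀ U, WallOf B t U →
      (U ∩ s).Finite → (U ∩ s').Finite := by
    intro s hs s' hs' t ht n n' U hU hf
    by_contra hf'
    have e : B.AEq (Y.a t s) (Y.a t s') := by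
      by_contra h
      exact Z.clique s hs s' hs' t ((hC' t).2 ht) ⟨n, n', h⟩
    have k1 := hsub t s ht ((hC' s).1 (Z.sub hs)) n U hU
    have k2 := hsub t s' ht ((hC' s').1 (Z.sub hs')) n' U hU
    rw [away, if_pos hf] at k1
    rw [away, if_neg hf', hatSet_compl] at k2
    exact (Y.two_a ((hC' t).2 ht) (Z.sub hs) n).2 (Bdry.fcl_both k1 (k2.trans e.2))
  refine ⟨⟨Z.V, Z.b, Z.Γ, fun s hs => (hC' s).1 (Z.sub hs), Z.two, fun s hs => ⟨Z.b_good s hs, ?_⟩,
    fun s hs t ht n => ?_, fun γ hγ s hs => ?_, Z.cof, fun s hs ε hε => ?_, fun s hs P R hP => ?_,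
    fun s hs s' hs' t ht n n' U hU =>
      ⟨half s hs s' hs' t ht n n' U hU, half s' hs' s hs t ht n' n U hU⟩⟩⟩
  · obtain ⟨u, hu, n⟩ := oth s hs
    have e := Z.b_eq s hs u hu n
    have k := Y.two_a (Z.sub hs) (Z.sub hu) n
    exact ⟨fun h => k.1 (h.of_sub e.2), fun h => k.2 (h.of_sub e.compl.2)⟩
  · exact Bdry.fcl_inter (Z.b_eq s hs t ht n).1
      ((Z.b_eq t ht s hs n.symm).1.trans (Y.fcl_disj (Z.sub ht) (Z.sub hs) n.symm))
  · obtain ⟨u, hu, n⟩ := oth s hs
    rw [← hact]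
    exact ⟨Z.inv γ hγ s hs, ((Z.b_eq _ (Z.inv γ hγ s hs) _ (Z.inv γ hγ u hu) fun h =>
      n (Y.act_inj γ h)).trans (Y.equi γ s (Z.sub hs) u (Z.sub hu) n)).trans
        ((Z.b_eq s hs u hu n).symm.smul hH.cay γ)⟩
  · obtain ⟨u, hu, n⟩ := oth s hs
    have e := Z.b_eq s hs u hu n
    have hw : Y.Wall s (Z.b s) := ⟨(Z.b_good s hs).1, fun t ht n' =>
      ((Y.wall_a (Z.sub hs) (Z.sub hu) n).2 t ht n').imp (fun k => e.1.trans k)
        fun k => e.compl.1.trans k⟩
    obtain ⟨F, hF, h⟩ := Y.cofinite_vis hH.rh (Z.sub hs) hw hε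
    obtain ⟨r, hr⟩ := hH.cay.finite_subset_bl hF 1
    refine ⟨r, fun x hx => ?_⟩
    obtain ⟨m, h1, h2⟩ := h x hx
    rw [hact] at h1
    have h3 : (1 : G)⁻¹ * (m⁻¹ * x) ∈ ball S r := hr h2
    rw [inv_one, one_mul] at h3
    exact ⟨m, ((hC' s).1 (Z.sub hs)).1.mem_of_cjg hH.cay h1, h3⟩
  · by_cases h2 : B.Two (hatSet P)
    · obtain ⟨u, hu, n⟩ := oth s hs
      have k := (hsub s u ((hC' s).1 (Z.sub hs)) ((hC' u).1 (Z.sub hu)) n P ⟨h2, R, hP⟩).trans
        (Z.b_eq s hs u hu n).2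
      rcases fgs_away P u with h | h <;> rw [h] at k
      · exact Or.inl k
      · rw [hatSet_compl] at k
        exact Or.inr k
    · refine (not_and_or.1 h2).imp (fun h => ?_) fun h => ?_
      · exact measure_mono_null diff_subset (not_not.1 h)
      · exact measure_mono_null diff_subset (not_not.1 h)

end Vale.Agent.P239
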