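import Vale.Agent.P239.Full.FAx6

/-! Task FGam: the vertex group satisfies the relative hypotheses. `nonconst_of_not_tendsto`: `sqSum_of_hat_zero` for `u - c`. `gap`: if `S'` is Foelner then `WD S' S' univ` (`harmVanish_of_folner`, `wd_of_harmVanish`), so `upF S'` is wired (`wired_of_wk`),
`t = hull (closure (upF S'))` is a class containing `Γ`; every `cls K` meets it nontrivially (`cone_cls`, cones are infinite), contradicting `ne`. `exists_fun`, `sep_fun`: `exists_sep` with the family of all `cls (K i)` (and `t`; `Fin.cons`), `kf_restrict`;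
cones lie in neighbourhoods of the classes (`cone_cls`), `KS.tendsto`, `nbh_trc'`; the inclusion `Γ → G` is injective so it maps `cofinite` to `cofinite`.
-/

noncomputable section

open Classical MeasureTheory Filter Topology Set
open scoped Pointwise ENNReal

namespace Vale.Agent.P239

universe u
variable {G : Type u} [Group G] {S : Finset G} {l L : ℕ} {B : Bdry S} {Z : Cores B L}
  (Y : Tr Z)

theorem nonconst_of_not_tendsto (B : Bdry S) (hS : Cay S) (hg : Gap S) {u : G → ℝ} (hb : Bdd u)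
    (hu : FinEn S u) (h : ∀ c : ℝ, ¬ Tendsto u cofinite (𝓝 c)) :
    ∀ c : ℝ, ¬ ∀ᵐ ξ ∂B.μ 1, hat u ξ = c := by
  intro κ hκ
  have hb2 : Bdd fun x => u x - κ := by
    obtain ⟨C, hC⟩ := hb
    exact ⟨C + |κ|, fun x => (abs_sub _ _).trans (add_le_add (hC x) le_rfl)⟩
  have hp : SqSum fun x => u x - κ := by
    refine Bdry.sqSum_of_hat_zero (B := B) hS hg hb2 (hu.sub (finEn_const κ)) ?_
    filter_upwards [hκ] with ξ hξ
    have h1 := (hb.tendsto_hat ξ).sub_const κ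
    rw [hξ, sub_self] at h1
    exact hat_eq_of_tendsto h1
  refine h κ ?_
  simpa using hp.tendsto.add_const κ

namespace Tr

include Y in
theorem fgam_ne_one (hS : Cay S) {K : Set G} (hK : K ∈ Z.𝒦) :
    ∃ g : Z.Γ, g ≠ 1 ∧ (g : G) ∈ Z.cls K := by
  obtain ⟨i, γ, rfl⟩ := Y.orbit K hK
  obtain ⟨σ, hσ, hne⟩ := (Cones.cone_infinite (Q := Y.Q) i γ).exists_notMem_finite
    (Set.finite_singleton γ)
  refine ⟨σ * γ⁻¹, fun h => hne (mul_inv_eq_one.1 h), ?_⟩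
  simpa using Y.cone_cls hS hσ

theorem fgam_tendsto (hS : Cay S) {s : Subgroup G} {v φ : G → ℝ} (hv : FinEn S v)
    (h : KS s v φ) (g : G) (r : ℕ) :
    Tendsto (fun x : Z.Γ => v (g * x)) (cofinite ⊓ 𝓟 (nbh Y.S' r (trc Z.Γ s)))
      (𝓝 (v g - φ g)) := by
  obtain ⟨R, hR⟩ := Y.nbh_trc' hS s r
  have h1 := KS.tendsto hS (hv.translate g).1 (h.translate g) R 1
  rw [one_smul, mul_one] at h1
  exact h1.comp (Subtype.val_injective.tendsto_cofinite.inf (tendsto_principal_principal.2 hR))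

theorem gap (hS : Cay S) (tf : TorsionFree G) : Gap Y.S' := by
  refine Y.cay.folner_or_gap.resolve_left fun hF => ?_
  have h1 : WD Y.S' Y.S' univ := wd_of_harmVanish Y.cay (Y.cay.harmVanish_of_folner hF)
  have h2 : Y.Q.WK Y.S' := fun u φ hu f hf hd =>
    h1 u hu.1 f hf (fun _ _ _ => ⟨trivial, trivial⟩) hd
  have h3 := Y.wired_of_wk hS h2
  have h4 : ∀ g : Z.Γ, (g : G) ∈ Subgroup.closure (upF Y.S' : Set G) := fun g => by
    rw [closure_upF, Y.cay.gen]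
    exact ⟨g, trivial, rfl⟩
  have h5 : ∀ K ∈ Z.𝒦, Z.cls K = hull S (Subgroup.closure (upF Y.S' : Set G)) := by
    intro K hK
    obtain ⟨g, hg, hg'⟩ := Y.fgam_ne_one hS hK
    have hg1 : (g : G) ≠ 1 := fun h => hg (Subtype.ext h)
    exact IsCl.eq_of_mem hS tf (Z.cl K hK).1 ⟨_, h3, infinite_of_mem tf hg1 (h4 g), rfl⟩ hg1 hg'
      (le_hull S _ (h4 g))
  obtain ⟨K, hK, K', hK', hne⟩ := Z.ne
  exact hne ((h5 K hK).trans (h5 K' hK').symm)

include Y in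
theorem fgam_neBot (hS : Cay S) (tf : TorsionFree G) {K : Set G} (hK : K ∈ Z.𝒦) :
    (cofinite ⊓ 𝓟 (nbh Y.S' 0 (trc Z.Γ (Z.cls K)))).NeBot := by
  obtain ⟨g, hg, hg'⟩ := Y.fgam_ne_one hS hK
  have h1 := infinite_of_mem (tf_sub tf Z.Γ) (H := (Z.cls K).subgroupOf Z.Γ) hg hg'
  exact cofinite_inf_principal_neBot_iff.2 (h1.mono (subset_nbh 0 (trc Z.Γ (Z.cls K))))

theorem exists_fun (hS : Cay S) (tf : TorsionFree G) {t : Subgroup G} (ht : IsCl S t) :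
    ∃ (u : Z.Γ → ℝ) (φ : Fin Y.Q.n → Z.Γ → ℝ), Bdd u ∧ Y.Q.KF u φ ∧
      (∀ c : ℝ, ¬ Tendsto u cofinite (𝓝 c)) ∧ ∃ c : Z.Γ → ℝ, ∀ g : Z.Γ,
        Tendsto (fun x => u (g * x)) (cofinite ⊓ 𝓟 (trc Z.Γ t)) (𝓝 (c g)) := by
  obtain ⟨K, hK, K', hK', hne⟩ := Z.ne
  obtain ⟨v, φ, ψ, χ, hb, hv, h1, h2, h3, h4⟩ := exists_sep hS tf (Z.cl K hK).1 (Z.cl K' hK').1 hne
    (Fin.cons t fun i => Z.cls (Y.K i) : Fin (Y.Q.n + 1) → Subgroup G)
    (Fin.cases ht fun i => (Z.cl _ (Y.K_mem i)).1)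
  refine ⟨fun γ => v γ, fun i γ => χ i.succ γ, ?_, Y.kf_restrict hS hv fun i => h4 i.succ,
    fun c hc => h3 ?_, fun g => v g - χ 0 g, fun g => ?_⟩
  · obtain ⟨C, hC⟩ := hb
    exact ⟨C, fun x => hC x⟩
  · have k1 := Y.fgam_tendsto hS hv h1 1 0
    have k2 := Y.fgam_tendsto hS hv h2 1 0
    simp only [one_mul] at k1 k2
    have n1 := Y.fgam_neBot hS tf hK
    have n2 := Y.fgam_neBot hS tf hK'
    have e1 := tendsto_nhds_unique k1 (hc.mono_left inf_le_left)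
    have e2 := tendsto_nhds_unique k2 (hc.mono_left inf_le_left)
    linarith
  · exact (Y.fgam_tendsto hS hv (h4 0) g 0).mono_left
      (inf_le_inf_left _ (principal_mono.2 (subset_nbh 0 _)))

theorem sep_fun (hS : Cay S) (tf : TorsionFree G) {t : Subgroup G} (ht : IsCl S t) (i : Fin Y.Q.n)
    (γ : Z.Γ) (hne : Z.cls ((γ : G) • Y.K i) ≠ t) :
    ∃ (u : Z.Γ → ℝ) (φ : Fin Y.Q.n → Z.Γ → ℝ) (c c' : ℝ), Y.Q.KF u φ ∧ c ≠ c' ∧
      Tendsto u (cofinite ⊓ 𝓟 (Y.Q.cone i γ)) (𝓝 c') ∧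
      ∀ r, Tendsto u (cofinite ⊓ 𝓟 (nbh Y.S' r (trc Z.Γ t))) (𝓝 c) := by
  obtain ⟨v, φ, ψ, χ, -, hv, h1, h2, h3, h4⟩ := exists_sep hS tf (Z.cl _ (Y.smul_K_mem i γ)).1 ht hne
    (fun i => Z.cls (Y.K i)) fun i => (Z.cl _ (Y.K_mem i)).1
  obtain ⟨r, hr⟩ := Y.cay.exists_ball γ
  refine ⟨fun γ => v γ, fun i γ => χ i γ, v 1 - ψ 1, v 1 - φ 1, Y.kf_restrict hS hv h4,
    fun h => h3 (by linarith), ?_, fun r' => ?_⟩
  · have k1 := Y.fgam_tendsto hS hv h1 1 r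
    simp only [one_mul] at k1
    refine k1.mono_left (inf_le_inf_left _ (principal_mono.2 fun σ hσ => ⟨σ * γ⁻¹, ?_, ?_⟩))
    · simpa [trc] using Y.cone_cls hS hσ
    · simpa [mul_assoc] using hr
  · simpa only [one_mul] using Y.fgam_tendsto hS hv h2 1 r'

theorem rh (hH : HypQ S l) (hn : B.NonD) (hL : 2 * l + 2 ≤ L) : ∃ l', RH Y.S' l' Y.Q := by
  obtain ⟨l', h2, h3⟩ := Y.ax23 hH hL
  exact ⟨l', Y.cay, Y.gap hH.cay hH.tf, Y.one hH hL, tf_sub hH.tf _, h2,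
    fun c F hF h1 _ h4 => h3 c F hF h1 h4, Y.ax6 hH hn hL, Y.iso hH hn (by omega)⟩

end Tr

end Vale.Agent.P239
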