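import Vale.Agent.P239.Full.FMP

/-! Task FGreen: powers of the random walk.
`exists_rho`: `Gap` gives `⟨P f, f⟩ ≤ (1 - c) ‖f‖²` (energy = `2 |S| ⟨(1 - P) f, f⟩`, see `ry_parts`, `ryL`), positivity of the entries gives
`|⟨P f, f⟩| ≤ ⟨P |f|, |f|⟩`, and `P` is symmetric, so by polarisation `‖P‖ ≤ 1 - c`.
`sum_tail_le`: `∑_{x ∈ D} Pk k (ind N) x ≤ √|D| ρ^k √|N|` (Cauchy-Schwarz), `|N| ≤ |ball r| |D|`, geometric series.
`tw`: `h₀ = lim Pk k (ind U)` exists since `|Pk (k+1) (ind U) - Pk k (ind U)| ≤ Pk k (ind D)`; it is harmonic and `|h₀ - ind U| ≤ min (tail D 0) 1 =: m`;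
`H (hat m)` is harmonic and `≤ tail D 0` (`H_min_le`) hence `≤ Pk k (tail D 0) = tail D k → 0`, so `hat m = 0` a.e., `hat h₀ = 1_(hatSet U)` a.e. and `h₀ = h (hatSet U)` (`H_hat_of_harm`).
`Tail.thin`: `g = tail (D \ bl x σ) 0`, and `Pk k (ind (D \ bl x σ)) x = 0` for `k ≤ σ`, so `g x ≤ tail D (σ+1) x → 0`.
-/

noncomputable section

open Classical MeasureTheory Filter Topology Set
open scoped Pointwise ENNReal

namespace Vale.Agent.P239

universe u
variable {G : Type u} [Group G] {S : Finset G} {l : ℕ} {Q : Cones S} {B : Bdry S}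

theorem Pk_succ (k : ℕ) (u : G → ℝ) : Pk S (k + 1) u = avg S (Pk S k u) := by
  exact Function.iterate_succ_apply' _ _ _


theorem fg_avg_mono {u v : G → ℝ} (h : ∀ x, u x ≤ v x) (x : G) : avg S u x ≤ avg S v x :=
  div_le_div_of_nonneg_right (Finset.sum_le_sum fun _ _ => h _) (Nat.cast_nonneg _)

theorem fg_avg_nonneg {u : G → ℝ} (h : ∀ x, 0 ≤ u x) (x : G) : 0 ≤ avg S u x :=
  div_nonneg (Finset.sum_nonneg fun _ _ => h _) (Nat.cast_nonneg _)

theorem fg_avg_const (hS : Cay S) (c : ℝ) (x : G) : avg S (fun _ => c) x = c := by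
  have hc : (0 : ℝ) < S.card := by exact_mod_cast hS.card_pos
  rw [avg, Finset.sum_const, nsmul_eq_mul, mul_div_cancel_left₀ _ hc.ne']

omit [Group G] in
theorem fg_ind_nonneg (U : Set G) (x : G) : 0 ≤ ind U x := by
  unfold ind
  split_ifs <;> norm_num

omit [Group G] in
theorem fg_ind_le_one (U : Set G) (x : G) : ind U x ≤ 1 := by
  unfold ind
  split_ifs <;> norm_num

omit [Group G] in
theorem fg_ind_mono {U V : Set G} (h : U ⊆ V) (x : G) : ind U x ≤ ind V x := by
  by_cases hx : x ∈ U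
  · rw [ind, ind, if_pos hx, if_pos (h hx)]
  · rw [ind, if_neg hx]
    exact fg_ind_nonneg V x

theorem Pk_mono (k : ℕ) {u v : G → ℝ} (h : ∀ x, u x ≤ v x) (x : G) : Pk S k u x ≤ Pk S k v x := by
  induction k generalizing x with
  | zero => exact h x
  | succ k ih =>
    rw [Pk_succ, Pk_succ]
    exact fg_avg_mono ih x


theorem Pk_nonneg (k : ℕ) {u : G → ℝ} (h : ∀ x, 0 ≤ u x) (x : G) : 0 ≤ Pk S k u x := by
  induction k generalizing x with
  | zero => exact h x
  | succ k ih =>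
    rw [Pk_succ]
    exact fg_avg_nonneg ih x


theorem Pk_add (k : ℕ) (u v : G → ℝ) (x : G) :
    Pk S k (fun y => u y + v y) x = Pk S k u x + Pk S k v x := by
  induction k generalizing x with
  | zero => rfl
  | succ k ih => simp only [Pk_succ, avg, ih, Finset.sum_add_distrib, add_div]


theorem Pk_sub (k : ℕ) (u v : G → ℝ) (x : G) :
    Pk S k (fun y => u y - v y) x = Pk S k u x - Pk S k v x := by
  induction k generalizing x with
  | zero => rfl
  | succ k ih => simp only [Pk_succ, avg, ih, Finset.sum_sub_distrib, sub_div]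


theorem Pk_harm (k : ℕ) {u : G → ℝ} (h : Harm S u) : Pk S k u = u := by
  exact Function.iterate_fixed (funext h) k


theorem Pk_ind_le_one (hS : Cay S) (k : ℕ) (U : Set G) (x : G) : Pk S k (ind U) x ≤ 1 := by
  exact (Pk_mono k (fg_ind_le_one U) x).trans_eq (congrFun (Pk_harm k (fg_avg_const hS 1)) x)


theorem Pk_congr (k : ℕ) {u v : G → ℝ} {x : G} (h : ∀ y ∈ bl S x k, u y = v y) :
    Pk S k u x = Pk S k v x := by
  induction k generalizing x with
  | zero => exact h x (mem_bl_self x 0)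
  | succ k ih =>
    rw [Pk_succ, Pk_succ]
    refine congrArg (· / (S.card : ℝ)) (Finset.sum_congr rfl fun s hs => ih fun y hy => h y ?_)
    exact bl_mono x (by omega) (mem_bl_trans (mul_mem_bl (mem_bl_self x 0) hs) hy)


theorem Pk_translate (k : ℕ) (u : G → ℝ) (g x : G) :
    Pk S k (fun y => u (g * y)) x = Pk S k u (g * x) := by
  induction k generalizing x with
  | zero => rfl
  | succ k ih => simp only [Pk_succ, avg, ih, mul_assoc]


theorem Pk_ind_smul (k : ℕ) (U : Set G) (g x : G) :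
    Pk S k (ind (g • U)) (g * x) = Pk S k (ind U) x := by
  rw [← Pk_translate]
  simp only [ind, ← smul_eq_mul g, smul_mem_smul_set_iff]
  rfl


theorem tail_smul (D : Set G) (k : ℕ) (g x : G) : tail S (g • D) k (g * x) = tail S D k x := by
  simp only [tail, Pk_ind_smul]


theorem fg_form (hS : Cay S) (p q : lp (fun _ : G => ℝ) 2) :
    ∑' x, ∑ s ∈ S, (p (x * s) - p x) * (q (x * s) - q x) = 2 * S.card * inner ℝ (ryL S p) q := by
  rw [ry_parts hS (ry_mem.1 (lp.memℓp p)).finEn (ry_mem.1 (lp.memℓp q)), ry_inner]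
  simp only [ry_sum hS, mul_assoc, tsum_mul_left, ryL_apply]
  ring

theorem fg_norm (hS : Cay S) (hg : Gap S) : ‖ContinuousLinearMap.id ℝ _ - ryL S‖ < 1 := by
  obtain ⟨C, hC0, hC⟩ := hg
  have hc : (0 : ℝ) < S.card := by exact_mod_cast hS.card_pos
  set T := ContinuousLinearMap.id ℝ _ - ryL S with hT
  have hT1 : ∀ p q, inner ℝ (T p) q = inner ℝ p q - inner ℝ (ryL S p) q := fun p q =>
    inner_sub_left _ _ _
  have hT2 : ∀ p x, T p x = avg S p x := fun p x => by
    rw [hT, sub_apply, lp.coeFn_sub, Pi.sub_apply, ryL_apply,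
      ContinuousLinearMap.id_apply, sub_sub_cancel]
  have hs : T.IsSymmetric := fun p q => by
    have h1 := fg_form hS p q
    have h2 := fg_form hS q p
    simp only [mul_comm (q _ - q _)] at h2
    rw [ContinuousLinearMap.coe_coe, real_inner_comm (T q), hT1, hT1, real_inner_comm p q,
      mul_left_cancel₀ (by positivity) (h1.symm.trans h2)]
  obtain ⟨ρ, hρ0, hρ1, hρ⟩ : ∃ ρ : ℝ, 0 ≤ ρ ∧ ρ < 1 ∧ ∀ p, inner ℝ (T p) p ≤ ρ * ‖p‖ ^ 2 := by
    have hd : 0 < (2 * S.card * (C + 1))⁻¹ := by positivity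
    refine ⟨max (1 - (2 * S.card * (C + 1))⁻¹) 0, le_max_right _ _, max_lt (by linarith) one_pos,
      fun p => ?_⟩
    have h2 : energy S p = 2 * S.card * inner ℝ (ryL S p) p := by
      rw [← fg_form hS]
      simp only [energy, grad2, sq]
    have h3 := hC p (ry_mem.1 (lp.memℓp p))
    rw [← ry_norm, h2] at h3
    have h4 : 0 ≤ 2 * S.card * inner ℝ (ryL S p) p := h2 ▸ energy_nonneg p
    have h5 : (2 * S.card * (C + 1))⁻¹ * ‖p‖ ^ 2 ≤ inner ℝ (ryL S p) p := by
      rw [inv_mul_le_iff₀ (by positivity)]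
      nlinarith
    rw [hT1, real_inner_self_eq_norm_sq]
    refine le_trans ?_ (mul_le_mul_of_nonneg_right (le_max_left _ _) (sq_nonneg _))
    linarith
  refine lt_of_le_of_lt ?_ hρ1
  rw [T.norm_eq_iSup_rayleighQuotient hs]
  refine ciSup_le fun p => ?_
  rw [ContinuousLinearMap.rayleighQuotient, ContinuousLinearMap.reApplyInnerSelf_apply, abs_div,
    abs_sq, RCLike.re_to_real]
  refine div_le_of_le_mul₀ (sq_nonneg _) hρ0 (abs_le.2 ⟨?_, hρ p⟩)
  have hp : SqSum p := ry_mem.1 (lp.memℓp p)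
  let q : lp (fun _ : G => ℝ) 2 := ⟨fun x => |p x|, ry_mem.2 (by simpa only [SqSum, sq_abs] using hp)⟩
  have hq : ‖q‖ ^ 2 = ‖p‖ ^ 2 := by
    rw [ry_norm, ry_norm]
    exact tsum_congr fun x => sq_abs _
  rw [neg_le, ← hq]
  refine le_trans ?_ (hρ q)
  rw [ry_inner, ry_inner, ← tsum_neg]
  refine Summable.tsum_le_tsum (fun x => ?_) (ry_mul (ry_mem.1 (lp.memℓp _)) hp).neg
    (ry_mul (ry_mem.1 (lp.memℓp _)) (ry_mem.1 (lp.memℓp q)))
  rw [hT2, hT2]
  refine (neg_le_abs _).trans ?_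
  rw [abs_mul]
  refine mul_le_mul_of_nonneg_right ?_ (abs_nonneg _)
  rw [avg, avg, abs_div, abs_of_pos hc]
  exact div_le_div_of_nonneg_right (Finset.abs_sum_le_sum_abs _ _) hc.le

theorem exists_rho (hS : Cay S) (hg : Gap S) : ∃ ρ : ℝ, 0 ≤ ρ ∧ ρ < 1 ∧ ∀ u : G → ℝ, SqSum u →
    SqSum (avg S u) ∧ ∑' x, avg S u x ^ 2 ≤ ρ ^ 2 * ∑' x, u x ^ 2 := by
  refine ⟨_, norm_nonneg _, fg_norm hS hg, fun u hu => ?_⟩
  let p : lp (fun _ : G => ℝ) 2 := ⟨u, ry_mem.2 hu⟩
  have h : avg S u = (ContinuousLinearMap.id ℝ _ - ryL S :) p := funext fun x => by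
    rw [sub_apply, lp.coeFn_sub, Pi.sub_apply, ryL_apply,
      ContinuousLinearMap.id_apply, sub_sub_cancel]
  rw [h, ← ry_norm, ← ry_norm p, ← mul_pow]
  exact ⟨ry_mem.1 (lp.memℓp _),
    pow_le_pow_left₀ (norm_nonneg _) (ContinuousLinearMap.le_opNorm _ _) 2⟩


theorem fg_sum (hS : Cay S) (hg : Gap S) : ∃ ρ : ℝ, 0 ≤ ρ ∧ ρ < 1 ∧ ∀ N : Set G, N.Finite →
    ∀ (D : Finset G) (k : ℕ), ∑ x ∈ D, Pk S k (ind N) x ≤ ρ ^ k * √(D.card * N.ncard) := by
  obtain ⟨ρ, h0, h1, h⟩ := exists_rho hS hg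
  refine ⟨ρ, h0, h1, fun N hN D k => ?_⟩
  have hz : ∀ x ∉ hN.toFinset, ind N x ^ 2 = 0 := fun x hx => by
    rw [ind, if_neg (mt hN.mem_toFinset.2 hx), zero_pow two_ne_zero]
  have hk : ∀ k, SqSum (Pk S k (ind N)) ∧ ∑' x, Pk S k (ind N) x ^ 2 ≤ (ρ ^ k) ^ 2 * N.ncard := by
    intro k
    induction k with
    | zero =>
      refine ⟨summable_of_ne_finset_zero hz, ?_⟩
      show ∑' x, ind N x ^ 2 ≤ _
      rw [tsum_eq_sum hz, ncard_eq_toFinset_card N hN, pow_zero, one_pow, one_mul,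
        Finset.card_eq_sum_ones, Nat.cast_sum]
      exact Finset.sum_le_sum fun x _ => by
        rw [Nat.cast_one]
        exact pow_le_one₀ (fg_ind_nonneg N x) (fg_ind_le_one N x)
    | succ k ih =>
      rw [Pk_succ]
      refine ⟨(h _ ih.1).1, (h _ ih.1).2.trans ?_⟩
      rw [pow_succ' ρ k, mul_pow ρ, mul_assoc]
      exact mul_le_mul_of_nonneg_left ih.2 (sq_nonneg _)
  refine le_of_sq_le_sq ?_ (by positivity)
  rw [mul_pow, Real.sq_sqrt (by positivity), mul_left_comm]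
  exact sq_sum_le_card_mul_sum_sq.trans (mul_le_mul_of_nonneg_left
    (((hk k).1.sum_le_tsum D fun _ _ => sq_nonneg _).trans (hk k).2) (Nat.cast_nonneg _))

theorem fg_summable {D : Set G} (h : Tail S D) (k : ℕ) (x : G) :
    Summable fun m => Pk S (k + m) (ind D) x := by
  simpa only [add_comm k] using (summable_nat_add_iff k).2 (h x)

theorem tail_of_finite (hS : Cay S) (hg : Gap S) {D : Set G} (hD : D.Finite) : Tail S D := by
  obtain ⟨ρ, h0, h1, h⟩ := fg_sum hS hg
  exact fun x => Summable.of_nonneg_of_le (fun k => Pk_nonneg k (fg_ind_nonneg D) x)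
    (fun k => (Finset.sum_singleton (fun x => Pk S k (ind D) x) x).ge.trans (h D hD {x} k))
    ((summable_geometric_of_lt_one h0 h1).mul_right _)


theorem sum_tail_le (hS : Cay S) (hg : Gap S) (r : ℕ) : ∃ C ρ : ℝ, 0 ≤ C ∧ 0 ≤ ρ ∧ ρ < 1 ∧
    ∀ (D : Finset G) (k : ℕ), ∑ x ∈ D, tail S (nbh S r (D : Set G)) k x ≤ C * ρ ^ k * D.card := by
  obtain ⟨ρ, h0, h1, h⟩ := fg_sum hS hg
  have h2 : 0 < 1 - ρ := sub_pos.2 h1
  refine ⟨√(ball S r).card * (1 - ρ)⁻¹, ρ, by positivity, h0, h1, fun D k => ?_⟩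
  have hN := nbh_finite (S := S) r D.finite_toSet
  have hs := fg_summable (tail_of_finite hS hg hN) k
  have h3 : √(D.card * (nbh S r (D : Set G)).ncard) ≤ √(ball S r).card * D.card := by
    have h4 : ((nbh S r (D : Set G)).ncard : ℝ) ≤ (ball S r).card * D.card := by
      exact_mod_cast ncard_coe_finset D ▸ nbh_ncard_le (S := S) r D.finite_toSet
    refine Real.sqrt_le_iff.2 ⟨by positivity, ?_⟩
    rw [mul_pow, Real.sq_sqrt (Nat.cast_nonneg _)]
    nlinarith [(Nat.cast_nonneg D.card : (0 : ℝ) ≤ _)]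
  have h5 := ((hasSum_geometric_of_lt_one h0 h1).mul_left (ρ ^ k)).mul_right
    (√(ball S r).card * D.card)
  simp only [tail]
  rw [← Summable.tsum_finsetSum fun x _ => hs x]
  refine (Summable.tsum_le_tsum (fun m => (h _ hN D (k + m)).trans ?_)
    (summable_sum fun x _ => hs x) h5.summable).trans_eq (h5.tsum_eq.trans (by ring))
  rw [pow_add]
  exact mul_le_mul_of_nonneg_left h3 (by positivity)


theorem tail_nonneg (D : Set G) (k : ℕ) (x : G) : 0 ≤ tail S D k x := by
  exact tsum_nonneg fun _ => Pk_nonneg _ (fg_ind_nonneg D) x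


theorem Tail.mono {D D' : Set G} (h : Tail S D) (h' : D' ⊆ D) : Tail S D' := by
  exact fun x => Summable.of_nonneg_of_le (fun k => Pk_nonneg k (fg_ind_nonneg _) x)
    (fun k => Pk_mono k (fg_ind_mono h') x) (h x)


theorem fg_avg_tail {D : Set G} (h : Tail S D) (k : ℕ) (x : G) :
    avg S (tail S D k) x = tail S D (k + 1) x := by
  rw [avg, tail]
  simp only [add_right_comm k 1, Pk_succ, avg, tail]
  rw [tsum_div_const, Summable.tsum_finsetSum fun s _ => fg_summable h k (x * s)]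

theorem fg_tail_succ {D : Set G} (h : Tail S D) (k : ℕ) (x : G) :
    tail S D k x = Pk S k (ind D) x + tail S D (k + 1) x := by
  rw [tail, (fg_summable h k x).tsum_eq_zero_add, tail]
  simp only [add_zero, add_assoc, add_comm 1]

theorem Tail.eq {D : Set G} (h : Tail S D) (x : G) :
    tail S D 0 x - avg S (tail S D 0) x = ind D x := by
  rw [fg_avg_tail h, fg_tail_succ h 0, add_sub_cancel_right]
  rfl


theorem Tail.supH {D : Set G} (h : Tail S D) : SupH S (tail S D 0) := by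
  exact ⟨tail_nonneg D 0, fun x => sub_nonneg.1 ((fg_ind_nonneg D x).trans_eq (h.eq x).symm)⟩


theorem Tail.Pk_tail {D : Set G} (h : Tail S D) (k : ℕ) (x : G) :
    Pk S k (tail S D 0) x = tail S D k x := by
  induction k generalizing x with
  | zero => rfl
  | succ k ih => rw [Pk_succ, funext ih, fg_avg_tail h]


theorem Tail.tendsto {D : Set G} (h : Tail S D) (x : G) :
    Tendsto (fun k => tail S D k x) atTop (𝓝 0) := by
  simpa only [tail, add_comm] using tendsto_sum_nat_add fun k => Pk S k (ind D) x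


theorem Tail.thin (hS : Cay S) {D : Set G} (h : Tail S D) : Thin S D := by
  intro x ε hε
  obtain ⟨σ, hσ⟩ := ((h.tendsto x).eventually (ge_mem_nhds hε)).exists
  have h' := h.mono (sdiff_subset (t := bl S x σ))
  refine ⟨bl S x σ, _, bl_finite x σ, h'.supH, fun y hy hy' => ?_, ?_⟩
  · have h1 := h'.eq y
    rw [ind, if_pos ⟨hy, hy'⟩] at h1
    linarith [fg_avg_nonneg (S := S) (tail_nonneg (S := S) (D \ bl S x σ) 0) y]
  · have h1 : ∀ k ≤ σ, tail S (D \ bl S x σ) 0 x = tail S (D \ bl S x σ) k x := by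
      intro k hk
      induction k with
      | zero => rfl
      | succ k ih =>
        rw [ih (by omega), fg_tail_succ h' k, Pk_congr (u := ind _) (v := fun _ => 0) k fun y hy =>
          if_neg fun h2 : y ∈ D \ _ => h2.2 (bl_mono x (by omega) hy), Pk_harm k (fg_avg_const hS 0), zero_add]
    rw [h1 σ le_rfl]
    exact (Summable.tsum_le_tsum (fun m => Pk_mono _ (fg_ind_mono sdiff_subset) x)
      (fg_summable h' σ x) (fg_summable h σ x)).trans hσ


/-- If the potential is finite at one point it is finite everywhere. -/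
theorem tail_of_one (hS : Cay S) {D : Set G} {x : G} (h : Summable fun k => Pk S k (ind D) x) :
    Tail S D := by
  have hc : (0 : ℝ) < S.card := by exact_mod_cast hS.card_pos
  have h1 : ∀ y, ∀ s ∈ S, (Summable fun k => Pk S k (ind D) y) →
      Summable fun k => Pk S k (ind D) (y * s) := by
    intro y s hs hy
    refine Summable.of_nonneg_of_le (fun k => Pk_nonneg k (fg_ind_nonneg _) _) (fun k => ?_)
      (((summable_nat_add_iff 1).2 hy).mul_right (S.card : ℝ))
    rw [Pk_succ, avg, div_mul_cancel₀ _ hc.ne']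
    exact Finset.single_le_sum (f := fun s => Pk S k (ind D) (y * s))
      (fun _ _ => Pk_nonneg k (fg_ind_nonneg _) _) hs
  intro y
  refine (hS.const_of_edges (fun y => Summable fun k => Pk S k (ind D) y)
    (fun z s hs => propext ⟨fun hz => ?_, h1 z s hs⟩) x y).mp h
  simpa only [mul_inv_cancel_right] using h1 _ _ (hS.symm s hs) hz


theorem fg_step (hS : Cay S) {D U : Set G} (hU : wallV S U ⊆ D) (k : ℕ) (x : G) :
    dist (Pk S k (ind U) x) (Pk S (k + 1) (ind U) x) ≤ Pk S k (ind D) x := by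
  have h : ∀ y, |ind U y - avg S (ind U) y| ≤ ind D y := by
    intro y
    by_cases hy : y ∈ D
    · have h1 := fg_avg_nonneg (S := S) (fg_ind_nonneg U) y
      have h2 := (fg_avg_mono (fg_ind_le_one U) y).trans_eq (fg_avg_const hS 1 y)
      rw [show ind D y = 1 from if_pos hy, abs_le]
      constructor <;> linarith [fg_ind_nonneg U y, fg_ind_le_one U y]
    · have h1 : avg S (ind U) y = avg S (fun _ => ind U y) y := by
        refine congrArg (· / (S.card : ℝ)) (Finset.sum_congr rfl fun s hs => ?_)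
        have h2 : y ∈ U ↔ y * s ∈ U := by
          by_contra h2
          exact hy (hU ⟨s, hs, h2⟩)
        simp only [ind, h2]
      rw [h1, fg_avg_const hS, sub_self, abs_zero]
      exact fg_ind_nonneg D y
  have h1 := Pk_mono (S := S) k (fun y => (abs_le.1 (h y)).2) x
  have h2 := Pk_mono (S := S) k (u := fun y => avg S (ind U) y - ind U y) (v := ind D)
    (fun y => by linarith [(abs_le.1 (h y)).1]) x
  rw [Pk_sub] at h1 h2
  rw [Real.dist_eq, abs_sub_le_iff]
  exact ⟨h1, h2⟩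

omit [Group G] in
theorem fg_bdd {u : G → ℝ} (h0 : ∀ x, 0 ≤ u x) (h1 : ∀ x, u x ≤ 1) : Bdd u :=
  ⟨1, fun x => abs_le.2 ⟨by linarith [h0 x], h1 x⟩⟩

theorem Bdry.tw (B : Bdry S) (hS : Cay S) {D U : Set G} (hD : Tail S D) (hU : wallV S U ⊆ D)
    (k : ℕ) (x : G) : |B.h (hatSet U) x - Pk S k (ind U) x| ≤ tail S D k x := by
  choose h₀ hh using fun y => cauchySeq_tendsto_of_complete
    (cauchySeq_of_dist_le_of_summable _ (fun k => fg_step hS hU k y) (hD y))
  have hd : ∀ k y, |h₀ y - Pk S k (ind U) y| ≤ tail S D k y := fun k y => by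
    rw [abs_sub_comm]
    exact dist_le_tsum_of_dist_le_of_tendsto _ (fun k => fg_step hS hU k y) (hD y) (hh y) k
  have h0 : ∀ y, 0 ≤ h₀ y := fun y => ge_of_tendsto' (hh y) fun k => Pk_nonneg k (fg_ind_nonneg U) y
  have h1 : ∀ y, h₀ y ≤ 1 := fun y => le_of_tendsto' (hh y) fun k => Pk_ind_le_one hS k U y
  have hH : Harm S h₀ := fun y => by
    refine tendsto_nhds_unique ?_ ((tendsto_add_atTop_iff_nat 1).2 (hh y))
    simp only [Pk_succ, avg]
    exact (tendsto_finsetSum _ fun s _ => hh (y * s)).div_const _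
  have b0 := fg_bdd h0 h1
  have bU := fg_bdd (fg_ind_nonneg U) (fg_ind_le_one U)
  have bm : Bdd fun y => min (tail S D 0 y) 1 :=
    fg_bdd (fun y => le_min (tail_nonneg D 0 y) zero_le_one) fun y => min_le_right _ _
  have hm : B.H (hat fun y => min (tail S D 0 y) 1) x ≤ 0 := by
    refine ge_of_tendsto' (hD.tendsto x) fun k => ?_
    rw [← Pk_harm k (B.H_harm hS bm.measurable_hat bm.bdd_hat), ← hD.Pk_tail]
    exact Pk_mono k (B.H_min_le hS hD.supH) x
  have hi : (hatSet U).indicator (fun _ => (1 : ℝ)) = hat (ind U) := funext fun ξ => by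
    rw [show ind U = U.indicator fun _ => 1 from funext fun y => by simp [ind, indicator_apply],
      hat_indicator U ⟨1, fun _ => by simp⟩, funext (hat_const (G := G) 1)]
  have he : B.h (hatSet U) x = h₀ x := by
    rw [B.h_eq_H (measurableSet_hatSet U), hi, ← B.H_hat_of_harm b0 hH, ← sub_eq_zero,
      ← abs_nonpos_iff, Bdry.H, Bdry.H,
      ← integral_sub (B.integrable bU.measurable_hat bU.bdd_hat x)
        (B.integrable b0.measurable_hat b0.bdd_hat x)]
    refine (abs_integral_le_integral_abs.trans (integral_mono_of_nonneg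
      (ae_of_all _ fun _ => abs_nonneg _) (B.integrable bm.measurable_hat bm.bdd_hat x)
      (ae_of_all _ fun ξ => ?_))).trans hm
    refine le_of_tendsto_of_tendsto' ((bU.tendsto_hat ξ).sub (b0.tendsto_hat ξ)).abs
      (bm.tendsto_hat ξ) fun y => le_min ((abs_sub_comm _ _).trans_le (hd 0 y)) (abs_le.2 ?_)
    constructor <;> linarith [h0 y, h1 y, fg_ind_nonneg U y, fg_ind_le_one U y]
  rw [he]
  exact hd k x


/-- A measurable form of two-sidedness. -/
def TwoM (S : Finset G) (U : Set G) : Prop :=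
  ∃ (x : G) (m k₀ : ℕ), ∀ k, k₀ ≤ k →
    1 / ((m : ℝ) + 1) ≤ Pk S k (ind U) x ∧ Pk S k (ind U) x ≤ 1 - 1 / ((m : ℝ) + 1)

theorem TwoM.smul {U : Set G} (h : TwoM S U) (g : G) : TwoM S (g • U) := by
  obtain ⟨x, m, k₀, h⟩ := h
  exact ⟨g * x, m, k₀, fun k hk => by rw [Pk_ind_smul]; exact h k hk⟩


theorem Bdry.two_iff (B : Bdry S) (hS : Cay S) {D U : Set G} (hD : Tail S D)
    (hU : wallV S U ⊆ D) : B.Two (hatSet U) ↔ TwoM S U := by
  have hl : ∀ x, Tendsto (fun k => Pk S k (ind U) x) atTop (𝓝 (B.h (hatSet U) x)) := fun x =>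
    tendsto_iff_dist_tendsto_zero.2 (squeeze_zero (fun _ => dist_nonneg)
      (fun k => (abs_sub_comm _ _).trans_le (B.tw hS hD hU k x)) (hD.tendsto x))
  have hc := B.h_compl (measurableSet_hatSet U)
  constructor
  · intro h
    have h1 := B.h_pos hS h.1 1
    have h2 := B.h_pos hS h.2 1
    obtain ⟨m, hm⟩ := exists_nat_one_div_lt (lt_min h1 h2)
    rw [lt_min_iff, hc] at hm
    obtain ⟨k₀, hk⟩ := eventually_atTop.1 (((hl 1).eventually (le_mem_nhds hm.1)).and
      ((hl 1).eventually (ge_mem_nhds (lt_sub_comm.1 hm.2))))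
    exact ⟨1, m, k₀, hk⟩
  · rintro ⟨x, m, k₀, h⟩
    have h1 := ge_of_tendsto (hl x) (eventually_atTop.2 ⟨k₀, fun k hk => (h k hk).1⟩)
    have h2 := le_of_tendsto (hl x) (eventually_atTop.2 ⟨k₀, fun k hk => (h k hk).2⟩)
    have h3 : (0 : ℝ) < 1 / ((m : ℝ) + 1) := Nat.one_div_pos_of_nat
    have hn : ∀ A, B.Null A → B.h A x = 0 := fun A hA => by
      rw [Bdry.h, measureReal_def, (B.null_iff hS x A).2 hA, ENNReal.toReal_zero]
    exact ⟨fun hA => by linarith [hn _ hA], fun hA => by linarith [hn _ hA, hc x]⟩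


end Vale.Agent.P239
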