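import Vale.Agent.P239.Full.FBas
import Vale.Agent.P239.Main

/-! Task FHypQ: the qualitative filling properties from duality. Copy the proof of `Dual.cofill` (CxCay.lean) without the estimates: `σ` has finite support, `D.d2 x = 0`, exactness of `D` in that degree gives `y` (no bound needed).
If `c` is locally exact everywhere then `σ = 0`, take `y = 0`, `c1 = 0`, and the defect is empty.
-/

noncomputable section

open Classical MeasureTheory Filter Topology Set
open scoped Pointwise ENNReal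

namespace Vale.Agent.P239

universe u
variable {G : Type u} [Group G] {S : Finset G} {n0 n1 n2 n3 n4 : ℕ}

theorem Dual.scCof {F : Cx G n0 n1 n2 n3 n4} {D : Cx G n4 n3 n2 n1 n0} {χ : G →* ℤˣ}
    (h : Dual F D χ) (hS : Cay S) : ∃ l,
      (∀ c : G → G → ℤ, (∀ y, LocExact S l c y) → ExOn S c univ) ∧
      ∀ c : G → G → ℤ, {y | ¬ LocExact S l c y}.Finite → ∃ w, (defect S c w).Finite := by
  obtain ⟨M⟩ := F.exists_cmp hS
  obtain ⟨T1, hT1⟩ := (M.ea1.comp F.e2).exists_finset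
  obtain ⟨T2, hT2⟩ := M.ek.exists_finset
  obtain ⟨l, hl⟩ := hS.finite_subset_ball (T1.finite_toSet.union T2.finite_toSet)
  have key : ∀ c : G → G → ℤ, {y | ¬ LocExact S l c y}.Finite → ∃ w : G → ℤ,
      (defect S c w).Finite ∧ ((∀ y, LocExact S l c y) →
        ∀ g, ∀ s ∈ S, c g s = w (g * s) - w g) := by
    intro c hbad
    obtain ⟨lam, hlam⟩ : ∃ lam : G × S → ℤ, lam = fun e : G × S => c e.1 e.2 := ⟨_, rfl⟩
    obtain ⟨σ, hσ⟩ : ∃ σ : G × Fin n2 → ℤ, σ = fun p => pairZ lam (M.a1.comp F.d2 (bs p)) :=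
      ⟨_, rfl⟩
    have hσp : ∀ z, pairZ σ z = pairZ lam (M.a1 (F.d2 z)) := fun z => by
      rw [hσ]
      exact pairZ_comp lam (M.a1.comp F.d2) z
    have hσs : ∀ p, σ p ≠ 0 → p ∈ hbad.toFinset ×ˢ (Finset.univ : Finset (Fin n2)) := by
      intro p hp
      refine Finset.mem_product.2 ⟨hbad.mem_toFinset.2 fun hx => hp ?_, Finset.mem_univ _⟩
      rw [hσ, hlam]
      refine cc_loc hx ?_ fun q hq => hl _ (Or.inl (hT1 p q hq))
      rw [AddMonoidHom.comp_apply, M.a_comm, F.exact1.apply_apply_eq_zero, map_zero]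
    obtain ⟨x, hx⟩ := cc_twist χ (c := σ) ((Finset.finite_toSet _).subset hσs)
    obtain ⟨y, hy, hy0⟩ : ∃ y, D.d3 y = x ∧ (x = 0 → y = 0) := by
      by_cases hx0 : x = 0
      · exact ⟨0, by rw [map_zero, hx0], fun _ => rfl⟩
      · obtain ⟨y, hy⟩ := (D.exact2 x).1 (cc_tw_cyc h.t2 hx fun z => by
          rw [hσp, F.exact2.apply_apply_eq_zero, map_zero, cc_pairZ_zero])
        exact ⟨y, hy, fun h0 => (hx0 h0).elim⟩
    have h3 := cc_tw_solve h.t3 (y := y) (fun p => by rw [hy, hx])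
    obtain ⟨c1, hc1⟩ : ∃ c1 : G × Fin n1 → ℤ, c1 = fun q => (χ q.1 : ℤ) * y q := ⟨_, rfl⟩
    rw [← hc1] at h3
    have hc1f : {q | c1 q ≠ 0}.Finite := y.support.finite_toSet.subset fun q hq => by
      rw [hc1] at hq
      exact Finsupp.mem_support_iff.2 (right_ne_zero_of_mul hq)
    have ht := cc_pull_finite M.eb1 hc1f
    obtain ⟨Ω, hΩ⟩ := F.exists_hom_factor ((pairZHom lam).comp M.a1 - pairZHom c1) fun z => by
      change pairZ lam (M.a1 (F.d2 z)) - pairZ c1 (F.d2 z) = 0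
      rw [← h3, hσp, sub_self]
    obtain ⟨W, hW⟩ : ∃ W : Ch G Unit →+ ℤ, W = Ω.comp M.b0 - (pairZHom lam).comp M.h0 :=
      ⟨_, rfl⟩
    have h4 : ∀ e : G × S, W (bs (e.1 * e.2, ())) - W (bs (e.1, ())) =
        lam e + pairZ lam (M.k (bs e)) - pairZ c1 (M.b1 (bs e)) := by
      intro e
      have h5 : pairZ lam (M.a1 (M.b1 (bs e))) - pairZ c1 (M.b1 (bs e)) =
          Ω (F.d1 (M.b1 (bs e))) := hΩ _
      rw [M.hom1, cc_pairZ_add, cc_pairZ_add, pairZ_single, M.b_comm] at h5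
      rw [← map_sub, ← cayD_bs, hW]
      change Ω (M.b0 (cayD S (bs e))) - pairZ lam (M.h0 (cayD S (bs e))) = _
      linarith
    have h9 : ∀ g s (hs : s ∈ S), LocExact S l c g → pairZ c1 (M.b1 (bs (g, ⟨s, hs⟩))) = 0 →
        c g s = W (bs (g * s, ())) - W (bs (g, ())) := by
      intro g s hs hg h6
      have h7 := h4 (g, ⟨s, hs⟩)
      have h8 : pairZ lam (M.k (bs (g, ⟨s, hs⟩))) = 0 := by
        rw [hlam]
        exact cc_loc hg (M.k_cyc _) fun q hq => hl _ (Or.inr (hT2 _ q hq))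
      rw [h6, h8, add_zero, sub_zero, hlam] at h7
      exact h7.symm
    refine ⟨fun g => W (bs (g, ())), ?_, fun hall g s hs => h9 g s hs (hall g) ?_⟩
    · refine ((ht.image fun e : G × S => (e.1, (e.2 : G))).union
        (hbad.prod S.finite_toSet)).subset ?_
      rintro ⟨g, s⟩ ⟨hs, he⟩
      by_cases hg : LocExact S l c g
      · exact Or.inl ⟨(g, ⟨s, hs⟩), fun h6 => he (h9 g s hs hg h6), rfl⟩
      · exact Or.inr ⟨hg, hs⟩
    · have hx0 : x = 0 := by
        ext p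
        rw [hx, Finsupp.zero_apply]
        refine mul_eq_zero_of_right _ ?_
        by_contra hp
        exact hbad.mem_toFinset.1 (Finset.mem_product.1 (hσs p hp)).1 (hall _)
      rw [hc1, hy0 hx0]
      simp [pairZ]
  refine ⟨l, fun c hc => ?_, fun c hc => (key c hc).imp fun w hw => hw.1⟩
  obtain ⟨w, -, hw⟩ := key c (finite_empty.subset fun y hy => hy (hc y))
  exact ⟨w, fun g _ s hs => hw hc g s hs⟩

end Vale.Agent.P239
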