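import Vale.Agent.P239.Full.FDef4
import Vale.Agent.P239.Full.FOp
import Vale.Agent.P239.Full.FEnv

/-! Task FIneqA: the three operators exist (`IsTS.exists_op` with `schur`).
Kernels (rows `(x, inr (j, b))`, columns `(y, inl i)` or the same edge): `Dg`: `if Ed (x,j) b then 1[y = x b ∧ r (x,j) (y,i)] - 1[y = x ∧ i = j]`; rows have at most two entries (`EqvOK.func`), columns at most `2 |ball ρ|`
(for each `b` at most one `j` with `r (y b⁻¹, j) (y, i)`). `J`: the summand of `IsJ`; it is nonzero only if `(x, b) ∈ crossE (C q) (A q)` (`same`, `self`), so `x ∈ bl q.1 r`: rows have at most `|ball r|` entries, columns at most `|ball r| |ball ρ|`.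
`R`: diagonal.
-/

noncomputable section

open Classical MeasureTheory Filter Topology Set
open scoped Pointwise ENNReal

namespace Vale.Agent.P239

universe u
variable {G : Type u} [Group G] [Countable G] {S : Finset G} {X : Type u} [MeasurableSpace X]
  {E : REnv G X} {ρ : ℕ} (Z : NData S E ρ) {τ : TS (FH E.A (ℕ ⊕ ℕ × G)) (ℕ ⊕ ℕ × G)}

theorem fia_sum {α β : Type*} {k : α → ℝ} (h1 : ∀ q, |k q| ≤ 1) (φ : α → β) (F : Finset β)
    (hm : ∀ q, k q ≠ 0 → φ q ∈ F) (hi : ∀ q q', k q ≠ 0 → k q' ≠ 0 → φ q = φ q' → q = q') :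
    {q | k q ≠ 0}.Finite ∧ ∀ W : Finset α, ∑ q ∈ W, |k q| ≤ F.card := by
  refine ⟨Set.Finite.of_injOn (f := φ) (t := (F : Set β)) (fun q hq => hm q hq)
    (fun q hq q' hq' h => hi q q' hq hq' h) F.finite_toSet, fun W => ?_⟩
  rw [← Finset.sum_filter_ne_zero]
  refine (Finset.sum_le_card_nsmul _ _ 1 fun q _ => h1 q).trans ?_
  rw [nsmul_eq_mul, mul_one, Nat.cast_le]
  refine Finset.card_le_card_of_injOn φ (fun q hq => ?_) fun q hq q' hq' h => ?_
  · exact hm q (abs_ne_zero.1 (Finset.mem_filter.1 hq).2)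
  · exact hi q q' (abs_ne_zero.1 (Finset.mem_filter.1 hq).2)
      (abs_ne_zero.1 (Finset.mem_filter.1 hq').2) h

theorem fia_base {A : PAct G X} {I : Type u} [Countable I] {τ : TS (FH A I) I} (hτ : IsTS A τ)
    {k : X → G × I → G × I → ℝ} (hm : ∀ p q, Measurable fun ξ => k ξ p q)
    (he : ∀ g ξ p q, k (A.sh g ξ) (g * p.1, p.2) (g * q.1, q.2) = k ξ p q)
    (h1 : ∀ ξ p q, |k ξ p q| ≤ 1) {β : Type*} (F : Finset β) (φ : G × I → G × I → β)
    (h : ∀ᵐ ξ ∂A.P, (∀ p q, k ξ p q ≠ 0 → φ p q ∈ F) ∧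
      (∀ p q q', k ξ p q ≠ 0 → k ξ p q' ≠ 0 → φ p q = φ p q' → q = q') ∧
      ∀ q p p', k ξ p q ≠ 0 → k ξ p' q ≠ 0 → φ p q = φ p' q → p = p') :
    ∃ T : FH A I →L[ℝ] FH A I, τ.Comm T ∧
      ∀ f, ∀ᵐ ξ ∂A.P, ∀ p, fibv (T f) ξ p = ∑' q, k ξ p q * fibv f ξ q := by
  refine hτ.exists_op hm he ?_ (C := (F.card : ℝ) * F.card) ?_
  · filter_upwards [h] with ξ hξ p
    exact (fia_sum (h1 ξ p) (φ p) F (hξ.1 p) (hξ.2.1 p)).1
  · filter_upwards [h] with ξ hξ v hv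
    exact schur (Nat.cast_nonneg _) (Nat.cast_nonneg _)
      (fun p => (fia_sum (h1 ξ p) (φ p) F (hξ.1 p) (hξ.2.1 p)).1)
      (fun p => (fia_sum (h1 ξ p) (φ p) F (hξ.1 p) (hξ.2.1 p)).2)
      (fun q => (fia_sum (k := fun p => k ξ p q) (fun p => h1 ξ p q) (fun p => φ p q) F
        (fun p => hξ.1 p q) (hξ.2.2 q)).2) hv

theorem fia_op (hτ : IsTS E.A τ) {c : X → G × ℕ → G → G × ℕ → ℝ}
    (hm : ∀ p b q, Measurable fun ξ => c ξ p b q)
    (he : ∀ g ξ p b q, c (E.A.sh g ξ) (g * p.1, p.2) b (g * q.1, q.2) = c ξ p b q)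
    (h1 : ∀ ξ p b q, |c ξ p b q| ≤ 1) (F B : Finset G)
    (h : ∀ᵐ ξ ∂E.A.P, ∀ p b q, c ξ p b q ≠ 0 → E.r ξ p q ∧ b ∈ B ∧ p.1⁻¹ * q.1 ∈ F) :
    ∃ T : FH E.A (ℕ ⊕ ℕ × G) →L[ℝ] FH E.A (ℕ ⊕ ℕ × G), τ.Comm T ∧
      ∀ f, ∀ᵐ ξ ∂E.A.P, (∀ x j, fibv (T f) ξ (x, Sum.inl j) = 0) ∧
        ∀ x j b, fibv (T f) ξ (x, Sum.inr (j, b)) =
          ∑' q : G × ℕ, c ξ (x, j) b q * fibv f ξ (q.1, Sum.inl q.2) := by
  obtain ⟨T, hT, hT'⟩ := fia_base hτ (k := fun ξ p q => Sum.elim (fun _ => 0)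
      (fun e : ℕ × G => Sum.elim (fun i => c ξ (p.1, e.1) e.2 (q.1, i)) (fun _ => 0) q.2) p.2)
    (by
      rintro ⟨x, j | e⟩ ⟨y, i | e'⟩
      · exact measurable_const
      · exact measurable_const
      · exact hm _ _ _
      · exact measurable_const)
    (by
      rintro g ξ ⟨x, j | e⟩ ⟨y, i | e'⟩
      · rfl
      · rfl
      · exact he g ξ (x, e.1) e.2 (y, i)
      · rfl)
    (by
      rintro ξ ⟨x, j | e⟩ ⟨y, i | e'⟩
      · simp
      · simp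
      · exact h1 _ _ _ _
      · simp)
    (F ×ˢ B) (fun p q => (p.1⁻¹ * q.1, Sum.elim (fun _ => 1) Prod.snd p.2))
    (by
      filter_upwards [h, E.ok] with ξ hξ ho
      refine ⟨?_, ?_, ?_⟩
      · rintro ⟨x, j | e⟩ ⟨y, i | e'⟩ h0
        · exact absurd rfl h0
        · exact absurd rfl h0
        · exact Finset.mem_product.2 ⟨(hξ _ _ _ h0).2.2, (hξ _ _ _ h0).2.1⟩
        · exact absurd rfl h0
      · rintro ⟨x, j | e⟩ ⟨y, i | e'⟩ ⟨y', i' | e''⟩ h0 h0' h2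
        all_goals first | exact absurd rfl h0 | exact absurd rfl h0' | skip
        obtain rfl : y = y' := mul_left_cancel (Prod.ext_iff.1 h2).1
        rw [ho.func _ _ _ _ (hξ _ _ _ h0).1 (hξ _ _ _ h0').1]
      · rintro ⟨y, i | e'⟩ ⟨x, j | ⟨j, b⟩⟩ ⟨x', j' | ⟨j', b'⟩⟩ h0 h0' h2
        all_goals first | exact absurd rfl h0 | exact absurd rfl h0' | skip
        obtain rfl : x = x' := inv_injective (mul_right_cancel (Prod.ext_iff.1 h2).1)
        obtain rfl : b = b' := (Prod.ext_iff.1 h2).2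
        obtain rfl : j = j' :=
          ho.func _ _ _ _ (ho.symm _ _ (hξ _ _ _ h0).1) (ho.symm _ _ (hξ _ _ _ h0').1)
        rfl)
  refine ⟨T, hT, fun f => (hT' f).mono fun ξ hξ => ⟨fun x j => ?_, fun x j b => ?_⟩⟩
  · rw [hξ]
    simp
  · rw [hξ]
    have hi : Function.Injective fun q : G × ℕ => ((q.1, Sum.inl q.2) : G × (ℕ ⊕ ℕ × G)) :=
      fun q q' h2 => Prod.ext (Prod.ext_iff.1 h2).1 (Sum.inl_injective (Prod.ext_iff.1 h2).2)
    refine (hi.tsum_eq ?_).symm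
    rintro ⟨y, i | e⟩ h0
    · exact ⟨(y, i), rfl⟩
    · exact absurd (zero_mul _) h0

theorem fia_ite {P : Prop} [Decidable P] : |(if P then 1 else 0 : ℝ)| ≤ 1 := by
  split_ifs <;> simp

theorem fia_mem {g x : G} {D : Set G} : g * x ∈ g • D ↔ x ∈ D :=
  Set.smul_mem_smul_set_iff (a := g) (x := x)

namespace NData

theorem fia_mEd (p : G × ℕ) (b : G) : MeasurableSet {ξ | Z.Ed ξ p b} :=
  (Z.mV p).inter ((MeasurableSet.const _).inter (Z.mC p _))

theorem fia_eEd (g : G) (ξ : X) (p : G × ℕ) (b : G) :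
    Z.Ed (E.A.sh g ξ) (g * p.1, p.2) b ↔ Z.Ed ξ p b := by
  unfold NData.Ed
  rw [Z.eV, Z.eC, mul_assoc, fia_mem]

theorem exists_Dg (hτ : IsTS E.A τ) : ∃ T, τ.Comm T ∧ Z.IsDg T := by
  obtain ⟨T₁, a1, a2⟩ := fia_op hτ
    (c := fun ξ p b q => if Z.Ed ξ p b ∧ E.r ξ p q ∧ p.1⁻¹ * q.1 = b then 1 else 0)
    (fun p b q => Measurable.ite ((Z.fia_mEd p b).inter ((E.meas p q).inter
      (MeasurableSet.const _))) measurable_const measurable_const)
    (fun g ξ p b q => by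
      rw [Z.fia_eEd, E.equi, mul_inv_rev, mul_assoc, inv_mul_cancel_left])
    (fun _ _ _ _ => fia_ite) (ball S ρ) (ball S ρ)
    (Eventually.of_forall fun ξ p b q h0 => by
      obtain ⟨h1, h2, h3⟩ := (ite_ne_right_iff.1 h0).1
      exact ⟨h2, h1.2.1, h3 ▸ h1.2.1⟩)
  obtain ⟨T₂, b1, b2⟩ := fia_op hτ
    (c := fun ξ p b q => if Z.Ed ξ p b ∧ q = p then 1 else 0)
    (fun p b q => Measurable.ite ((Z.fia_mEd p b).inter (MeasurableSet.const _))
      measurable_const measurable_const)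
    (fun g ξ p b q => if_congr (and_congr (Z.fia_eEd g ξ p b)
      (by rw [Prod.ext_iff, Prod.ext_iff, mul_right_inj])) rfl rfl)
    (fun _ _ _ _ => fia_ite) {1} (ball S ρ)
    (Z.str.mono fun ξ hξ p b q h0 => by
      obtain ⟨h1, rfl⟩ := (ite_ne_right_iff.1 h0).1
      exact ⟨hξ.ex _ h1.1, h1.2.1, by simp⟩)
  refine ⟨T₁ - T₂, fun m hm x => ?_, fun f => ?_⟩
  · rw [sub_apply, sub_apply, map_sub, a1 m hm, b1 m hm]
  · filter_upwards [a2 f, b2 f, fibv_sub (T₁ f) (T₂ f), E.ok] with ξ e1 e2 e3 ho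
    rw [sub_apply]
    refine ⟨fun x j => by rw [e3, e1.1, e2.1, sub_zero], fun x j b hb => ?_,
      fun x j b i hb hr => ?_⟩
    · rw [e3, e1.2, e2.2]
      simp [hb]
    · rw [e3, e1.2, e2.2, tsum_eq_single (x * b, i), tsum_eq_single (x, j),
        if_pos ⟨hb, hr, inv_mul_cancel_left _ _⟩, if_pos ⟨hb, rfl⟩, one_mul, one_mul]
      · intro q hq
        rw [if_neg fun h => hq h.2, zero_mul]
      · rintro ⟨y, i'⟩ hq
        rw [if_neg, zero_mul]
        rintro ⟨-, h2, h3⟩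
        obtain rfl : y = x * b := by rw [← h3, mul_inv_cancel_left]
        exact hq (by rw [ho.func _ _ _ _ h2 hr])

theorem exists_J (hS : Cay S) (hτ : IsTS E.A τ) : ∃ T, τ.Comm T ∧ Z.IsJ T := by
  obtain ⟨T, a1, a2⟩ := fia_op hτ
    (c := fun ξ p b q => if Z.Ed ξ p b ∧ Z.N ξ q ∧ E.r ξ p q ∧ q.1 ∈ Z.C ξ p then
      ind (Z.A ξ q) (p.1 * b) - ind (Z.A ξ q) p.1 else 0)
    (fun p b q => Measurable.ite ((Z.fia_mEd p b).inter ((Z.mN q).inter ((E.meas p q).inter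
      (Z.mC p _)))) ((Measurable.ite (Z.mA q _) measurable_const measurable_const).sub
        (Measurable.ite (Z.mA q _) measurable_const measurable_const)) measurable_const)
    (fun g ξ p b q => by
      unfold ind
      rw [Z.fia_eEd, E.equi, Z.eN, Z.eC, Z.eA, mul_assoc, fia_mem, fia_mem, fia_mem])
    (fun _ _ _ _ => by
      unfold ind
      split_ifs <;> simp)
    (ball S Z.r) (ball S ρ)
    (Z.str.mono fun ξ hξ p b q h0 => by
      obtain ⟨⟨h1, h2, h3, h4⟩, h5⟩ := ite_ne_right_iff.1 h0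
      refine ⟨h3, h1.2.1, ?_⟩
      have h6 := (hξ.same p q h1.1 h3 h4).2
      have h7 := hξ.self p h1.1
      have h8 := hS.inv_mem_ball (hξ.cross q h2 (p.1, b) ⟨h1.2.1, h6 ▸ h7.2 h7.1, h6 ▸ h1.2.2,
        fun h9 => h5 (by unfold ind; rw [h9, sub_self])⟩)
      rwa [mul_inv_rev, inv_inv] at h8)
  refine ⟨T, a1, fun f => (a2 f).mono fun ξ e => ⟨e.1, fun x j b => ?_⟩⟩
  rw [e.2]
  exact tsum_congr fun q => by rw [ite_mul, zero_mul]

theorem exists_R (hτ : IsTS E.A τ) : ∃ T, τ.Comm T ∧ Z.IsR T := by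
  obtain ⟨T, a1, a2⟩ := fia_base hτ (k := fun ξ p q => if q = p ∧ Sum.elim (fun _ => False)
      (fun e : ℕ × G => p.1 * e.2 ∈ Z.β ξ (p.1, e.1)) p.2 then 1 else 0)
    (by
      rintro ⟨x, j | e⟩ q
      · exact Measurable.ite (MeasurableSet.const (q = (x, Sum.inl j) ∧ False))
          measurable_const measurable_const
      · exact Measurable.ite ((MeasurableSet.const _).inter (Z.mβ _ _))
          measurable_const measurable_const)
    (by
      rintro g ξ ⟨x, j | e⟩ q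
      · simp
      · refine if_congr (and_congr ?_ ?_) rfl rfl
        · rw [Prod.ext_iff, Prod.ext_iff, mul_right_inj]
        · show g * x * e.2 ∈ Z.β (E.A.sh g ξ) (g * (x, e.1).1, (x, e.1).2) ↔ x * e.2 ∈ Z.β ξ (x, e.1)
          rw [Z.eβ, mul_assoc, fia_mem])
    (fun _ _ _ => fia_ite) ({()} : Finset Unit) (fun _ _ => ())
    (Eventually.of_forall fun ξ => ⟨fun _ _ _ => Finset.mem_singleton_self _,
      fun p q q' h0 h0' _ => ((ite_ne_right_iff.1 h0).1.1).trans (ite_ne_right_iff.1 h0').1.1.symm,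
      fun q p p' h0 h0' _ =>
        ((ite_ne_right_iff.1 h0).1.1).symm.trans (ite_ne_right_iff.1 h0').1.1⟩)
  refine ⟨T, a1, fun f => (a2 f).mono fun ξ e => ⟨fun x j => ?_, fun x j b => ?_⟩⟩
  · rw [e]
    simp
  · rw [e, tsum_eq_single (x, Sum.inr (j, b)) fun q hq => by rw [if_neg fun h => hq h.1, zero_mul]]
    simp

end NData

end Vale.Agent.P239
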