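import Vale.Agent.P239.Full.FDef4
import Vale.Agent.P239.Full.FOp
import Vale.Agent.P239.Full.FEnv
import Vale.Agent.P239.Full.FCob
import Vale.Agent.P239.Full.FDimA

/-! Task FIneqB: the image of `J` lies in the closure of the gradients.
Show `J a ∈ ((subV.map Dg)ᗮ)ᗮ` (`Submodule.orthogonal_orthogonal_eq_closure`). Let `g ∈ (subV.map Dg)ᗮ`. `subV.map Dg` is `Stab` (`inv_supp`, `Stab.map`), so `orth_fib` applies to `g` and `Dg v` for the point fields `v` at `(y, inl i)` on the event `V (y, i)` (`exists_point`):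
a.s. for every `q = (y, i)` with `V q`: `∑_{b} (g on the edge from (y b⁻¹, j), r q (y b⁻¹, j), Ed) - ∑_{b} (g on the edge from q) = 0`. For a neck `p` put `f x b = ∑' j, if r p (x, j) ∧ x ∈ C p ∧ Ed (x, j) b then g (x, inr (j, b)) else 0` (at most one `j`);
it is square summable, supported in `C p`, divergence free, so `coblim_orth` gives `∑_{edges} g * (column p of J) = 0`. Finally `⟨g, J a⟩ = ∫ ∑_e g e ∑_p k e p a p = ∫ ∑_p a p ∑_e g e k e p = 0`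
(absolutely summable: rows and columns of `k` have boundedly many entries of size `≤ 1`; or approximate `a` fibrewise by finitely supported functions).
-/

noncomputable section

open Classical MeasureTheory Filter Topology Set
open scoped Pointwise ENNReal

namespace Vale.Agent.P239

universe u
variable {G : Type u} [Group G] [Countable G] {S : Finset G} {X : Type u} [MeasurableSpace X]
  {E : REnv G X} {ρ : ℕ} (Z : NData S E ρ) {τ : TS (FH E.A (ℕ ⊕ ℕ × G)) (ℕ ⊕ ℕ × G)}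

def ibCol (S : Finset G) (ρ : ℕ) (R : G × ℕ → G × ℕ → Prop) (C : G × ℕ → Set G)
    (V : G × ℕ → Prop) (p : G × ℕ) (u : G → ℝ) (e : (G × ℕ) × G) : ℝ :=
  if (V e.1 ∧ e.2 ∈ ball S ρ ∧ e.1.1 * e.2 ∈ C e.1) ∧ R e.1 p ∧ p.1 ∈ C e.1 then
    u (e.1.1 * e.2) - u e.1.1 else 0

def ibS (R : G × ℕ → G × ℕ → Prop) (p : G × ℕ) (x : G) : ℕ :=
  if h : ∃ j, R p (x, j) then h.choose else 0

def ibF (S : Finset G) (ρ : ℕ) (R : G × ℕ → G × ℕ → Prop) (C : G × ℕ → Set G)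
    (γ : (G × ℕ) × G → ℝ) (p : G × ℕ) (x b : G) : ℝ :=
  if b ∈ ball S ρ ∧ x ∈ C p ∧ x * b ∈ C p then γ ((x, ibS R p x), b) else 0

def ibI (e : (G × ℕ) × G) : G × (ℕ ⊕ ℕ × G) := (e.1.1, Sum.inr (e.1.2, e.2))

omit [Group G] [Countable G] in
theorem ibI_tsum {F : G × (ℕ ⊕ ℕ × G) → ℝ} (h : ∀ x j, F (x, Sum.inl j) = 0) :
    ∑' e, F e = ∑' e, F (ibI e) := by
  refine (Function.Injective.tsum_eq ?_ ?_).symm
  · rintro ⟨⟨x, j⟩, b⟩ ⟨⟨x', j'⟩, b'⟩ he
    simp only [ibI, Prod.mk.injEq, Sum.inr.injEq] at he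
    obtain ⟨rfl, rfl, rfl⟩ := he
    rfl
  · rintro ⟨x, j | ⟨j, b⟩⟩ he
    · exact absurd (h x j) he
    · exact ⟨((x, j), b), rfl⟩

omit [Group G] [Countable G] in
theorem ibI_sq {F : G × (ℕ ⊕ ℕ × G) → ℝ} (h : SqSum F) : SqSum fun e => F (ibI e) := by
  refine Summable.comp_injective (f := fun e => F e ^ 2) (i := ibI) h ?_
  rintro ⟨⟨x, j⟩, b⟩ ⟨⟨x', j'⟩, b'⟩ he
  simp only [ibI, Prod.mk.injEq, Sum.inr.injEq] at he
  obtain ⟨rfl, rfl, rfl⟩ := he
  rfl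

theorem ib_summ {α β : Type*} {F : α → ℝ} {w : β → ℝ} (hw : Summable w) (φ : α → β)
    (h0 : ∀ a, 0 ≤ F a) (hi : ∀ a a', F a ≠ 0 → F a' ≠ 0 → φ a = φ a' → a = a')
    (hle : ∀ a, F a ≠ 0 → F a ≤ w (φ a)) : Summable F := by
  have h1 : Summable fun a : Function.support F => w (φ a) :=
    hw.comp_injective (i := fun a : Function.support F => φ a)
      fun a a' h => Subtype.ext (hi _ _ a.2 a'.2 h)
  have h2 : Summable fun a : Function.support F => F a :=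
    Summable.of_nonneg_of_le (fun a => h0 a) (fun a => hle a a.2) h1
  obtain ⟨c, hc⟩ := h2
  exact ⟨c, hasSum_subtype_support.1 hc⟩

omit [Countable G] in
theorem ib_div (T : Finset G) (f : G → G → ℝ) (y : G) :
    pairE T f (ind {y}) = ∑ b ∈ T, (f (y * b⁻¹) b - f y b) := by
  refine (hasSum_sum fun b _ => ?_).tsum_eq
  have h1 : HasSum (fun x => f x b * ind {y} (x * b)) (f (y * b⁻¹) b * ind {y} (y * b⁻¹ * b)) :=
    hasSum_single (f := fun x => f x b * ind {y} (x * b)) (y * b⁻¹) fun x hx => by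
      have : x * b ∉ ({y} : Set G) := fun h => hx (eq_mul_inv_of_mul_eq h)
      simp only [ind, if_neg this, mul_zero]
  have h2 : HasSum (fun x => f x b * ind {y} x) (f y b * ind {y} y) :=
    hasSum_single (f := fun x => f x b * ind {y} x) y fun x hx => by
      have : x ∉ ({y} : Set G) := hx
      simp only [ind, if_neg this, mul_zero]
  have h3 := h1.sub h2
  have e1 : ind ({y} : Set G) y = 1 := if_pos rfl
  rw [inv_mul_cancel_right, e1, mul_one, mul_one] at h3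
  simpa only [mul_sub] using h3

section Det
variable {R : G × ℕ → G × ℕ → Prop} {C A β : G × ℕ → Set G} {V N : G × ℕ → Prop} {r : ℕ}
omit [Countable G]

theorem ib_s (hN : NStr S ρ r R C A β V N) {p : G × ℕ} (hp : V p) {x : G} (hx : x ∈ C p) :
    R p (x, ibS R p x) := by
  have h : ∃ j, R p (x, j) := hN.sub p hp hx
  rw [ibS, dif_pos h]
  exact h.choose_spec

theorem ib_self (hN : NStr S ρ r R C A β V N) {p : G × ℕ} (hp : V p) : p.1 ∈ C p :=
  (hN.self p hp).2 (hN.self p hp).1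

theorem ib_cond (ho : EqvOK R) (hN : NStr S ρ r R C A β V N) {p : G × ℕ} (hp : V p)
    (e : (G × ℕ) × G) :
    ((V e.1 ∧ e.2 ∈ ball S ρ ∧ e.1.1 * e.2 ∈ C e.1) ∧ R e.1 p ∧ p.1 ∈ C e.1) ↔
      (e.1.2 = ibS R p e.1.1 ∧ e.2 ∈ ball S ρ ∧ e.1.1 ∈ C p ∧ e.1.1 * e.2 ∈ C p) := by
  constructor
  · rintro ⟨⟨h1, h2, h3⟩, h4, h5⟩
    have e1 := (hN.same _ _ h1 h4 h5).2
    have h6 : e.1.1 ∈ C p := e1 ▸ ib_self hN h1
    exact ⟨ho.func p e.1.1 _ _ (ho.symm _ _ h4) (ib_s hN hp h6), h2, h6, e1 ▸ h3⟩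
  · rintro ⟨h1, h2, h3, h4⟩
    have h5 : R p e.1 := by
      have := ib_s hN hp h3
      rwa [← h1] at this
    obtain ⟨h6, e1⟩ := hN.same _ _ hp h5 h3
    exact ⟨⟨h6, h2, e1 ▸ h4⟩, ho.symm _ _ h5, e1 ▸ ib_self hN hp⟩

theorem ib_pair (ho : EqvOK R) (hN : NStr S ρ r R C A β V N) {p : G × ℕ} (hp : V p)
    (γ : (G × ℕ) × G → ℝ) {U : Set G} (hf : (crossE S ρ (C p) U).Finite) :
    ∑' e, γ e * ibCol S ρ R C V p (ind U) e = pairE (ball S ρ) (ibF S ρ R C γ p) (ind U) := by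
  have inj : Function.Injective fun z : G × G => ((z.1, ibS R p z.1), z.2) := fun z z' h =>
    Prod.ext (congrArg (fun e : (G × ℕ) × G => e.1.1) h) (congrArg (fun e : (G × ℕ) × G => e.2) h)
  rw [← inj.tsum_eq (f := fun e => γ e * ibCol S ρ R C V p (ind U) e) ?_]
  · have e1 : ∀ z : G × G, γ ((z.1, ibS R p z.1), z.2) *
        ibCol S ρ R C V p (ind U) ((z.1, ibS R p z.1), z.2) =
        ibF S ρ R C γ p z.1 z.2 * (ind U (z.1 * z.2) - ind U z.1) := by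
      intro z
      have h := ib_cond ho hN hp ((z.1, ibS R p z.1), z.2)
      by_cases hz : z.2 ∈ ball S ρ ∧ z.1 ∈ C p ∧ z.1 * z.2 ∈ C p
      · rw [ibCol, ibF, if_pos (h.2 ⟨rfl, hz⟩), if_pos hz]
      · rw [ibCol, ibF, if_neg (fun h' => hz (h.1 h').2), if_neg hz, mul_zero, zero_mul]
    rw [tsum_congr e1]
    have hs : Summable fun z : G × G =>
        ibF S ρ R C γ p z.1 z.2 * (ind U (z.1 * z.2) - ind U z.1) := by
      refine summable_of_ne_finset_zero (s := hf.toFinset) fun z hz => ?_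
      rw [Finite.mem_toFinset] at hz
      by_cases h : z.2 ∈ ball S ρ ∧ z.1 ∈ C p ∧ z.1 * z.2 ∈ C p
      · have h' : z.1 ∈ U ↔ z.1 * z.2 ∈ U := not_not.1 fun h' => hz ⟨h.1, h.2.1, h.2.2, h'⟩
        simp only [ind, h', sub_self, mul_zero]
      · rw [ibF, if_neg h, zero_mul]
    rw [hs.tsum_prod]
    refine tsum_congr fun x => tsum_eq_sum fun b hb => ?_
    rw [ibF, if_neg (fun h => hb h.1), zero_mul]
  · intro e he
    have h : (V e.1 ∧ e.2 ∈ ball S ρ ∧ e.1.1 * e.2 ∈ C e.1) ∧ R e.1 p ∧ p.1 ∈ C e.1 := by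
      by_contra h
      exact he (by simp only [ibCol, if_neg h, mul_zero])
    exact ⟨(e.1.1, e.2), Prod.ext (Prod.ext rfl ((ib_cond ho hN hp e).1 h).1.symm) rfl⟩

theorem ib_neck (ho : EqvOK R) (hN : NStr S ρ r R C A β V N) {γ : (G × ℕ) × G → ℝ} (hγ : SqSum γ)
    (h : ∀ q, V q → ∑' e, γ e * ibCol S ρ R C V q (ind {q.1}) e = 0) {p : G × ℕ} (hp : N p) :
    ∑' e, γ e * ibCol S ρ R C V p (ind (A p)) e = 0 := by
  have hv := hN.nv p hp
  have hf : (crossE S ρ (C p) (A p)).Finite :=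
    ((bl_finite (S := S) p.1 r).prod (ball S ρ).finite_toSet).subset fun e he =>
      ⟨hN.cross p hp e he, he.1⟩
  rw [ib_pair ho hN hv γ hf]
  refine coblim_orth (hN.cob p hp) hf (fun b _ => ?_) (fun x b hx => ?_) fun y => ?_
  · refine Summable.of_nonneg_of_le (fun x => sq_nonneg _) (fun x => ?_)
      (Summable.comp_injective (f := fun e => γ e ^ 2) (i := fun x => ((x, ibS R p x), b)) hγ
        fun x x' hx => congrArg (fun e : (G × ℕ) × G => e.1.1) hx)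
    change ibF S ρ R C γ p x b ^ 2 ≤ γ ((x, ibS R p x), b) ^ 2
    unfold ibF
    split_ifs
    · exact le_rfl
    · simpa using sq_nonneg _
  · by_contra h'
    exact hx (if_neg fun h2 => h' h2.2)
  · by_cases hy : y ∈ C p
    · have h1 := ib_s hN hv hy
      obtain ⟨h2, e1⟩ := hN.same _ _ hv h1 hy
      have h3 := h _ h2
      have e2 : ibCol S ρ R C V (y, ibS R p y) (ind {y}) = ibCol S ρ R C V p (ind {y}) := by
        funext e
        refine if_congr (and_congr_right fun h4 => ⟨fun h5 => ?_, fun h5 => ?_⟩) rfl rfl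
        · refine ⟨ho.trans _ _ _ h5.1 (ho.symm _ _ h1), ?_⟩
          rw [← (hN.same _ _ h4.1 h5.1 h5.2).2, e1]
          exact ib_self hN hv
        · refine ⟨ho.trans _ _ _ h5.1 h1, ?_⟩
          rw [← (hN.same _ _ h4.1 h5.1 h5.2).2]
          exact hy
      rw [e2, ib_pair ho hN hv γ ((edgeBd_finite_of_finite (S := ball S ρ)
        (finite_singleton y)).subset fun e he => ⟨he.1, he.2.2.2⟩), ib_div] at h3
      exact h3
    · refine Finset.sum_eq_zero fun b _ => ?_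
      rw [ibF, ibF, if_neg (fun h => hy (by simpa using h.2.2)), if_neg (fun h => hy h.2.1),
        sub_self]

theorem ib_swap (ho : EqvOK R) (hN : NStr S ρ r R C A β V N) {γ : (G × ℕ) × G → ℝ} (hγ : SqSum γ)
    {α : G × ℕ → ℝ} (hα : SqSum α) :
    Summable fun z : ((G × ℕ) × G) × (G × ℕ) =>
      γ z.1 * ((if N z.2 then ibCol S ρ R C V z.2 (ind (A z.2)) z.1 else 0) * α z.2) := by
  set K : ((G × ℕ) × G) × (G × ℕ) → ℝ := fun z =>
    if N z.2 then ibCol S ρ R C V z.2 (ind (A z.2)) z.1 else 0 with hK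
  have k1 : ∀ z, |K z| ≤ 1 := by
    intro z
    simp only [hK, ibCol, ind]
    split_ifs <;> norm_num
  have k2 : ∀ z, K z ≠ 0 → R z.1.1 z.2 ∧ z.1.2 ∈ ball S ρ ∧ z.2.1⁻¹ * z.1.1.1 ∈ ball S r := by
    intro z hz
    have h1 : N z.2 := by
      by_contra h
      exact hz (if_neg h)
    have h2 : (V z.1.1 ∧ z.1.2 ∈ ball S ρ ∧ z.1.1.1 * z.1.2 ∈ C z.1.1) ∧ R z.1.1 z.2 ∧
        z.2.1 ∈ C z.1.1 := by
      by_contra h
      exact hz (by simp only [hK, ibCol, if_neg h, ite_self])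
    have h3 := (ib_cond ho hN (hN.nv _ h1) z.1).1 h2
    refine ⟨h2.2.1, h2.1.2.1, hN.cross _ h1 (z.1.1.1, z.1.2) ⟨h3.2.1, h3.2.2.1, h3.2.2.2, ?_⟩⟩
    intro h4
    refine hz ?_
    have h5 : z.1.1.1 ∈ A z.2 ↔ z.1.1.1 * z.1.2 ∈ A z.2 := h4
    simp only [hK, ibCol, ind, h5, sub_self, ite_self]
  have hb : ∀ T : Finset G, Summable fun c : G => if c ∈ T then (1 : ℝ) else 0 := fun T =>
    summable_of_ne_finset_zero (s := T) fun c hc => if_neg hc
  have hb0 : ∀ T : Finset G, (0 : G → ℝ) ≤ fun c : G => if c ∈ T then (1 : ℝ) else 0 :=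
    fun T c => by
      change (0 : ℝ) ≤ if c ∈ T then (1 : ℝ) else 0
      split_ifs <;> norm_num
  have s1 : Summable fun z => |K z| * γ z.1 ^ 2 := by
    refine ib_summ (Summable.mul_of_nonneg hγ (hb (ball S r)) (fun _ => sq_nonneg _) (hb0 _))
      (fun z => (z.1, z.2.1⁻¹ * z.1.1.1)) (fun z => by positivity) ?_ ?_
    · rintro ⟨e, x, j⟩ ⟨e', x', j'⟩ h1 h2 h3
      obtain ⟨rfl, h4⟩ := Prod.mk.inj h3
      obtain rfl : x = x' := inv_injective (mul_right_cancel h4)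
      obtain rfl : j = j' := ho.func _ _ _ _
        (k2 _ (abs_ne_zero.1 (left_ne_zero_of_mul h1))).1
        (k2 _ (abs_ne_zero.1 (left_ne_zero_of_mul h2))).1
      rfl
    · intro z hz
      rw [if_pos (k2 _ (abs_ne_zero.1 (left_ne_zero_of_mul hz))).2.2, mul_one]
      exact mul_le_of_le_one_left (sq_nonneg _) (k1 z)
  have s2 : Summable fun z => |K z| * α z.2 ^ 2 := by
    refine ib_summ (Summable.mul_of_nonneg hα (Summable.mul_of_nonneg (hb (ball S r))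
      (hb (ball S ρ)) (hb0 _) (hb0 _)) (fun _ => sq_nonneg _)
        (fun c => mul_nonneg (hb0 _ c.1) (hb0 _ c.2)))
      (fun z => (z.2, z.2.1⁻¹ * z.1.1.1, z.1.2)) (fun z => by positivity) ?_ ?_
    · rintro ⟨⟨⟨x, j⟩, b⟩, q⟩ ⟨⟨⟨x', j'⟩, b'⟩, q'⟩ h1 h2 h3
      obtain ⟨rfl, h4⟩ := Prod.mk.inj h3
      obtain ⟨h5, rfl⟩ := Prod.mk.inj h4
      obtain rfl : x = x' := mul_left_cancel h5
      obtain rfl : j = j' := ho.func _ _ _ _
        (ho.symm _ _ (k2 _ (abs_ne_zero.1 (left_ne_zero_of_mul h1))).1)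
        (ho.symm _ _ (k2 _ (abs_ne_zero.1 (left_ne_zero_of_mul h2))).1)
      rfl
    · intro z hz
      have h := k2 _ (abs_ne_zero.1 (left_ne_zero_of_mul hz))
      rw [if_pos h.2.2, if_pos h.2.1, mul_one, mul_one]
      exact mul_le_of_le_one_left (sq_nonneg _) (k1 z)
  refine Summable.of_norm_bounded (s1.add s2) fun z => ?_
  change ‖γ z.1 * (K z * α z.2)‖ ≤ _
  rw [Real.norm_eq_abs, abs_mul, abs_mul, ← sq_abs (γ z.1), ← sq_abs (α z.2)]
  nlinarith [mul_nonneg (abs_nonneg (K z)) (sq_nonneg (|γ z.1| - |α z.2|)),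
    mul_nonneg (abs_nonneg (K z)) (sq_nonneg (|γ z.1|)),
    mul_nonneg (abs_nonneg (K z)) (sq_nonneg (|α z.2|))]

theorem ib_main (ho : EqvOK R) (hN : NStr S ρ r R C A β V N) {γ : (G × ℕ) × G → ℝ} (hγ : SqSum γ)
    (h : ∀ q, V q → ∑' e, γ e * ibCol S ρ R C V q (ind {q.1}) e = 0)
    {α : G × ℕ → ℝ} (hα : SqSum α) :
    ∑' e, γ e * ∑' q, (if N q then ibCol S ρ R C V q (ind (A q)) e else 0) * α q = 0 := by
  simp only [← tsum_mul_left]
  rw [← Summable.tsum_comm (f := fun e q =>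
    γ e * ((if N q then ibCol S ρ R C V q (ind (A q)) e else 0) * α q)) (ib_swap ho hN hγ hα)]
  refine (tsum_congr fun q => ?_).trans tsum_zero
  by_cases hq : N q
  · simp only [if_pos hq, ← mul_assoc]
    rw [tsum_mul_right, ib_neck ho hN hγ h hq, zero_mul]
  · simp only [if_neg hq, zero_mul, mul_zero, tsum_zero]

theorem ibCol_pos {p : G × ℕ} {u : G → ℝ} {x b : G} {j : ℕ}
    (h : (V (x, j) ∧ b ∈ ball S ρ ∧ x * b ∈ C (x, j)) ∧ R (x, j) p ∧ p.1 ∈ C (x, j)) :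
    ibCol S ρ R C V p u ((x, j), b) = u (x * b) - u x := if_pos h

theorem ibCol_neg {p : G × ℕ} {u : G → ℝ} {x b : G} {j : ℕ}
    (h : ¬ ((V (x, j) ∧ b ∈ ball S ρ ∧ x * b ∈ C (x, j)) ∧ R (x, j) p ∧ p.1 ∈ C (x, j))) :
    ibCol S ρ R C V p u ((x, j), b) = 0 := if_neg h

theorem ib_pt (ho : EqvOK R) (hN : NStr S ρ r R C A β V N) (q : G × ℕ) {x b : G} {j i : ℕ}
    (he : V (x, j) ∧ b ∈ ball S ρ ∧ x * b ∈ C (x, j)) (hi : R (x, j) (x * b, i))
    {w : G × ℕ → ℝ} (h1 : w q = 1) (h0 : ∀ p, p ≠ q → w p = 0) :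
    w (x * b, i) - w (x, j) = ibCol S ρ R C V q (ind {q.1}) ((x, j), b) := by
  obtain ⟨y, k⟩ := q
  by_cases h : R (x, j) (y, k) ∧ y ∈ C (x, j)
  · rw [ibCol_pos ⟨he, h⟩]
    have e1 : ∀ z n, R (x, j) (z, n) → w (z, n) = ind {y} z := by
      intro z n hz
      by_cases h' : z = y
      · subst h'
        rw [ho.func _ _ _ _ hz h.1, h1]
        exact (if_pos rfl).symm
      · rw [h0 _ fun h2 => h' (Prod.mk.inj h2).1]
        exact (if_neg h').symm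
    rw [e1 _ _ hi, e1 _ _ (hN.ex _ he.1)]
  · rw [ibCol_neg fun h' => h h'.2, h0, h0, sub_self]
    · intro h'
      obtain ⟨rfl, rfl⟩ := Prod.mk.inj h'
      exact h ⟨hN.ex _ he.1, ib_self hN he.1⟩
    · intro h'
      obtain ⟨rfl, rfl⟩ := Prod.mk.inj h'
      exact h ⟨hi, he.2.2⟩

end Det

theorem NData.J_mem (hS : Cay S) (hτ : IsTS E.A τ)
    {Dg J : FH E.A (ℕ ⊕ ℕ × G) →L[ℝ] FH E.A (ℕ ⊕ ℕ × G)} (hc : τ.Comm Dg) (hD : Z.IsDg Dg)
    (hJ : Z.IsJ J) (a : FH E.A (ℕ ⊕ ℕ × G)) :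
    J a ∈ (Z.subV.map (Dg : FH E.A (ℕ ⊕ ℕ × G) →ₗ[ℝ] FH E.A (ℕ ⊕ ℕ × G))).topologicalClosure := by
  rw [← Submodule.orthogonal_orthogonal_eq_closure, Submodule.mem_orthogonal]
  intro g hg
  have hst : τ.Stab (Z.subV.map (Dg : FH E.A (ℕ ⊕ ℕ × G) →ₗ[ℝ] FH E.A (ℕ ⊕ ℕ × G))) :=
    TS.Stab.map τ (hτ.inv_supp (E := fun ξ p => ∃ j, p.2 = Sum.inl j ∧ Z.V ξ (p.1, j))
      fun g ξ p => exists_congr fun j => and_congr_right fun _ => Z.eV g ξ (p.1, j)).2 hc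
  have h1 : ∀ q : G × ℕ, ∀ᵐ ξ ∂E.A.P, Z.V ξ q → ∑' e, fibv g ξ (ibI e) *
      ibCol S ρ (E.r ξ) (Z.C ξ) (Z.V ξ) q (ind {q.1}) e = 0 := by
    intro q
    obtain ⟨v, hv⟩ := exists_point E.A ((q.1, Sum.inl q.2) : G × (ℕ ⊕ ℕ × G)) (Z.mV q)
    have hm : v ∈ Z.subV := by
      change ∀ᵐ ξ ∂E.A.P, fibv v ξ ∈ suppM _
      filter_upwards [hv] with ξ hξ p hp
      rw [hξ]
      refine if_neg fun h => hp ?_
      rw [h.1]
      exact ⟨q.2, rfl, h.2⟩
    filter_upwards [hτ.orth_fib hst hg (Submodule.mem_map_of_mem hm), hD v, hv, Z.str, E.ok]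
      with ξ h2 h3 h4 h5 h6 hq
    rw [← h2]
    change _ = ∑' p, fibv g ξ p * fibv (Dg v) ξ p
    rw [ibI_tsum (F := fun p => fibv g ξ p * fibv (Dg v) ξ p) fun x j => by
      rw [h3.1, mul_zero]]
    refine tsum_congr ?_
    rintro ⟨⟨x, j⟩, b⟩
    refine congrArg (fibv g ξ (ibI ((x, j), b)) * ·) ?_
    change _ = fibv (Dg v) ξ (x, Sum.inr (j, b))
    by_cases he : Z.Ed ξ (x, j) b
    · obtain ⟨i, hi⟩ := h5.sub _ he.1 he.2.2
      rw [h3.2.2 x j b i he hi]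
      refine (ib_pt h6 h5 q he hi (w := fun z => fibv v ξ (z.1, Sum.inl z.2)) ?_ ?_).symm
      · exact (h4 _).trans (if_pos ⟨rfl, hq⟩)
      · exact fun p hp => (h4 _).trans (if_neg fun h =>
          hp (Prod.ext (Prod.mk.inj h.1).1 (Sum.inl.inj (Prod.mk.inj h.1).2)))
    · rw [h3.2.1 x j b he]
      exact ibCol_neg fun h => he h.1
  rw [inner_eq_integral]
  refine integral_eq_zero_of_ae ?_
  filter_upwards [ae_all_iff.2 h1, hJ a, Z.str, E.ok, ae_sqSum_fibv g, ae_sqSum_fibv a]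
    with ξ h2 h3 h5 h6 h7 h8
  change ∑' p, fibv g ξ p * fibv (J a) ξ p = 0
  rw [ibI_tsum (F := fun p => fibv g ξ p * fibv (J a) ξ p) fun x j => by rw [h3.1, mul_zero],
    ← ib_main h6 h5 (ibI_sq h7) h2 (α := fun q => fibv a ξ (q.1, Sum.inl q.2))
      (Summable.comp_injective (f := fun e => fibv a ξ e ^ 2)
        (i := fun q : G × ℕ => (q.1, Sum.inl q.2)) h8 fun q q' h =>
          Prod.ext (Prod.mk.inj h).1 (Sum.inl.inj (Prod.mk.inj h).2))]
  refine tsum_congr ?_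
  rintro ⟨⟨x, j⟩, b⟩
  refine congrArg (fibv g ξ (ibI ((x, j), b)) * ·) ?_
  change fibv (J a) ξ (x, Sum.inr (j, b)) = _
  rw [h3.2]
  refine tsum_congr fun q => ?_
  by_cases hq : Z.N ξ q
  · rw [if_pos hq]
    by_cases h : Z.Ed ξ (x, j) b ∧ E.r ξ (x, j) q ∧ q.1 ∈ Z.C ξ (x, j)
    · rw [if_pos ⟨h.1, hq, h.2⟩, ibCol_pos h]
    · rw [if_neg (fun h' => h ⟨h'.1, h'.2.2⟩), ibCol_neg h, zero_mul]
  · rw [if_neg hq, if_neg (fun h' => hq h'.2.1), zero_mul]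

end Vale.Agent.P239
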