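import Vale.Agent.P239.Full.FIneqA
import Vale.Agent.P239.Full.FIneqB
import Vale.Agent.P239.Full.FDimB
import Vale.Agent.P239.Full.FDimM
import Vale.Agent.P239.Full.FNeckM

/-! Task FIneqC: the density of necks is at most the density of finite pieces of blocks.
`dim_ker_le`: `dim_le_of_inner` with `c (inl j) = ∫ 1[V (1,j)] / |rc|`, `c (inr _) = 0`. A fibre of `w ∈ subV ⊓ ker (R Dg)` is constant on the points over `rc ρ (β (1,j)) 1` related to `(1, j)` (`sameβ`, `sub`),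
so `|rc| w(1,j)² ≤ ∑_p w(p)²`; `inner_δ`, Cauchy-Schwarz (`ENNReal.lintegral_mul_le_Lp_mul_Lq` or `lintegral_mul_norm_pow_le`), `enorm_sq_eq`.
`ineq`: `exists_isTS`, `dim_le_ker` with `V = subV`, `N = subN`, `dim_supp`; `R J = 0` by `blk`, `J` is injective on `subN` by `port`.
-/

noncomputable section

open Classical MeasureTheory Filter Topology Set
open scoped Pointwise ENNReal

namespace Vale.Agent.P239

universe u
variable {G : Type u} [Group G] [Countable G] {S : Finset G} {X : Type u} [MeasurableSpace X]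
  {E : REnv G X} {ρ : ℕ} (Z : NData S E ρ) {τ : TS (FH E.A (ℕ ⊕ ℕ × G)) (ℕ ⊕ ℕ × G)}

theorem fic_cs {μ : Measure X} {g a b : X → ℝ≥0∞} (ha : Measurable a) (hb : Measurable b)
    (h : ∀ᵐ ξ ∂μ, g ξ ^ 2 ≤ a ξ * b ξ) :
    (∫⁻ ξ, g ξ ∂μ) ^ 2 ≤ (∫⁻ ξ, a ξ ∂μ) * ∫⁻ ξ, b ξ ∂μ := by
  have sq : ∀ x : ℝ≥0∞, (x ^ (1 / 2 : ℝ)) ^ 2 = x := fun x => by
    rw [← ENNReal.rpow_natCast, ← ENNReal.rpow_mul]
    norm_num
  have h1 : ∫⁻ ξ, g ξ ∂μ ≤ ∫⁻ ξ, a ξ ^ (1 / 2 : ℝ) * b ξ ^ (1 / 2 : ℝ) ∂μ := by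
    refine lintegral_mono_ae ?_
    filter_upwards [h] with ξ hξ
    refine (ENNReal.pow_le_pow_left_iff (n := 2) two_ne_zero).1 ?_
    rwa [mul_pow, sq, sq]
  have h2 := ENNReal.lintegral_mul_norm_pow_le (μ := μ) ha.aemeasurable hb.aemeasurable
    (p := 1 / 2) (q := 1 / 2) (by norm_num) (by norm_num) (by norm_num)
  refine (pow_le_pow_left' (h1.trans h2) 2).trans_eq ?_
  rw [mul_pow, sq, sq]

theorem fic_tsum (c : ℕ → ℝ≥0∞) :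
    ∑' i : ℕ ⊕ ℕ × G, Sum.elim c (fun _ => 0) i = ∑' j, c j := by
  refine (Sum.inl_injective.tsum_eq (f := fun i : ℕ ⊕ ℕ × G => Sum.elim c (fun _ => 0) i) ?_).symm
  rintro (j | e) h
  · exact ⟨j, rfl⟩
  · exact absurd rfl h

theorem fic_dim (hτ : IsTS E.A τ) {W : X → G × ℕ → Prop} (hm : ∀ p, MeasurableSet {ξ | W ξ p}) :
    τ.dim (fibSub E.A fun ξ => suppM fun p : G × (ℕ ⊕ ℕ × G) =>
      ∃ j, p.2 = Sum.inl j ∧ W ξ (p.1, j)) = ∑' j : ℕ, E.A.P {ξ | W ξ (1, j)} := by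
  rw [hτ.dim_supp (E := fun ξ p => ∃ j, p.2 = Sum.inl j ∧ W ξ (p.1, j)), ← fic_tsum (G := G)]
  · refine tsum_congr ?_
    rintro (j | e)
    · simp
    · simp
  · rintro ⟨x, j | e⟩
    · simpa using hm (x, j)
    · simp

theorem fic_inv (hτ : IsTS E.A τ) {W : X → G × ℕ → Prop}
    (he : ∀ g ξ p, W (E.A.sh g ξ) (g * p.1, p.2) ↔ W ξ p) :
    τ.Inv (fibSub E.A fun ξ => suppM fun p : G × (ℕ ⊕ ℕ × G) =>
      ∃ j, p.2 = Sum.inl j ∧ W ξ (p.1, j)) :=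
  hτ.inv_supp (E := fun ξ p => ∃ j, p.2 = Sum.inl j ∧ W ξ (p.1, j)) fun g ξ p =>
    exists_congr fun j => and_congr_right fun _ => he g ξ (p.1, j)

omit [Countable G] in
theorem fic_const {r : ℕ} {R : G × ℕ → G × ℕ → Prop} {C A β : G × ℕ → Set G}
    {V N : G × ℕ → Prop} (hs : NStr S ρ r R C A β V N) (ho : EqvOK R) {v : G × ℕ → ℝ}
    (hv : ∀ x j b i, V (x, j) → b ∈ ball S ρ → x * b ∈ C (x, j) → x * b ∈ β (x, j) →
      R (x, j) (x * b, i) → v (x * b, i) = v (x, j)) {p : G × ℕ} (hp : V p) {y : G}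
    (hy : y ∈ rc S ρ (β p) p.1) : ∃ i, R p (y, i) ∧ v (y, i) = v p := by
  obtain ⟨-, hy⟩ := hy
  induction hy with
  | refl => exact ⟨p.2, hs.ex p hp, rfl⟩
  | @tail a b _ hab ih =>
    obtain ⟨i, hi, hv1⟩ := ih
    obtain ⟨ha, hb, hst⟩ := hab
    have hc : a⁻¹ * b ∈ ball S ρ := by
      rcases hst with h | ⟨k, -⟩
      · exact h
      · exact k.elim0
    obtain ⟨hVa, hCa⟩ := hs.same p (a, i) hp hi ((hs.self p hp).2 ha)
    have hβ := hs.sameβ p (a, i) hp hi ha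
    obtain ⟨i', hi'⟩ := hs.sub p hp ((hs.self p hp).2 hb)
    have e : a * (a⁻¹ * b) = b := mul_inv_cancel_left a b
    have h1 := hv a i (a⁻¹ * b) i' hVa hc (by rw [e, hCa]; exact (hs.self p hp).2 hb)
      (by rw [e, hβ]; exact hb) (by rw [e]; exact ho.trans _ _ _ (ho.symm _ _ hi) hi')
    rw [e] at h1
    exact ⟨i', hi', h1.trans hv1⟩

omit [Countable G] [Group G] in
theorem fic_count {D : Set G} {w : G × (ℕ ⊕ ℕ × G) → ℝ} {c : ℝ} (hD : D.Nonempty)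
    (h : ∀ y ∈ D, ∃ i, w (y, Sum.inl i) = c) (hf : ∑' p, ENNReal.ofReal (w p ^ 2) ≠ ⊤) :
    ‖c‖ₑ ^ 2 ≤ (D.encard : ℝ≥0∞)⁻¹ * ∑' p, ENNReal.ofReal (w p ^ 2) := by
  choose φ hφ using h
  have hi : Function.Injective fun y : D => ((y.1, Sum.inl (φ y.1 y.2)) : G × (ℕ ⊕ ℕ × G)) :=
    fun y y' e => Subtype.ext (congrArg Prod.fst e)
  have h1 := ENNReal.tsum_comp_le_tsum_of_injective hi fun p => ENNReal.ofReal (w p ^ 2)
  simp only [hφ] at h1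
  rw [ENNReal.tsum_set_const] at h1
  have h0 : (D.encard : ℝ≥0∞) ≠ 0 := by
    simpa using hD.ne_empty
  rw [ffib_enorm_sq, Real.norm_eq_abs, sq_abs, mul_comm, ← div_eq_mul_inv,
    ENNReal.le_div_iff_mul_le (Or.inl h0) (Or.inr hf), mul_comm]
  exact h1

namespace NData

theorem dim_ker_le (hτ : IsTS E.A τ) {Dg R : FH E.A (ℕ ⊕ ℕ × G) →L[ℝ] FH E.A (ℕ ⊕ ℕ × G)}
    (hD : Z.IsDg Dg) (hR : Z.IsR R) :
    τ.dim (Z.subV ⊓ LinearMap.ker ((R ∘L Dg : FH E.A (ℕ ⊕ ℕ × G) →L[ℝ] FH E.A (ℕ ⊕ ℕ × G)) :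
      FH E.A (ℕ ⊕ ℕ × G) →ₗ[ℝ] FH E.A (ℕ ⊕ ℕ × G))) ≤
      ∑' j : ℕ, ∫⁻ ξ, (if Z.V ξ (1, j) then ((rc S ρ (Z.β ξ (1, j)) 1).encard : ℝ≥0∞)⁻¹ else 0)
        ∂E.A.P := by
  rw [← fic_tsum (G := G)]
  refine τ.dim_le_of_inner ?_
  rintro i w ⟨hw, hk⟩
  have hw' : ∀ᵐ ξ ∂E.A.P, ∀ p : G × (ℕ ⊕ ℕ × G),
      ¬ (∃ j, p.2 = Sum.inl j ∧ Z.V ξ (p.1, j)) → fibv w ξ p = 0 := hw
  have hk' : R (Dg w) = 0 := hk
  rw [hτ.inner_δ]
  rcases i with j | e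
  · have h1 : ENNReal.ofReal (∫ ξ, fibv w ξ (1, Sum.inl j) ∂E.A.P) ≤
        ∫⁻ ξ, ‖fibv w ξ (1, Sum.inl j)‖ₑ ∂E.A.P :=
      (Real.ofReal_le_enorm _).trans (enorm_integral_le_lintegral_enorm _)
    refine (pow_le_pow_left' h1 2).trans ?_
    rw [enorm_sq_eq]
    refine fic_cs (Measurable.ite (Z.mV _) (meas_encard fun y =>
      meas_comp (Q := Cones.empty S) (l := 0) (Z.mβ (1, j)) ρ 1 y).inv measurable_const)
      (Measurable.tsum fun p => ffib_meas_sq w p) ?_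
    have hz := hR (Dg w)
    rw [hk'] at hz
    filter_upwards [hw', hz, hD w, fibv_zero (A := E.A) (I := ℕ ⊕ ℕ × G), Z.str, E.ok,
      ae_lt_top (Measurable.tsum fun p => ffib_meas_sq w p) (ffib_fin w)]
      with ξ a1 a2 a3 a4 hs ho hf
    by_cases hV : Z.V ξ (1, j)
    · rw [if_pos hV]
      refine fic_count ⟨1, (hs.self _ hV).1, Relation.ReflTransGen.refl⟩ (fun y hy => ?_) hf.ne
      obtain ⟨i, -, hi⟩ := fic_const hs ho (v := fun q => fibv w ξ (q.1, Sum.inl q.2))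
        (fun x k b i h1 h2 h3 h4 h5 => by
          have e1 := a2.2 x k b
          rw [a4, if_pos h4, a3.2.2 x k b i ⟨h1, h2, h3⟩ h5] at e1
          exact sub_eq_zero.1 e1.symm) hV hy
      exact ⟨i, hi⟩
    · rw [a1 (1, Sum.inl j) (by simpa using hV)]
      simp
  · have h1 : ∫ ξ, fibv w ξ (1, Sum.inr e) ∂E.A.P = 0 :=
      integral_eq_zero_of_ae (hw'.mono fun ξ a => a _ (by simp))
    rw [h1]
    simp

theorem fic_RJ {J R : FH E.A (ℕ ⊕ ℕ × G) →L[ℝ] FH E.A (ℕ ⊕ ℕ × G)} (hJ : Z.IsJ J) (hR : Z.IsR R)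
    (a : FH E.A (ℕ ⊕ ℕ × G)) : R (J a) = 0 := by
  refine fh_ext ?_
  filter_upwards [hR (J a), hJ a, fibv_zero (A := E.A) (I := ℕ ⊕ ℕ × G), Z.str]
    with ξ a1 a2 a3 hs
  rintro ⟨x, j | ⟨j, b⟩⟩
  · rw [a3, a1.1]
  · rw [a3, a1.2]
    split_ifs with hb
    · rw [a2.2]
      refine (tsum_congr fun q => ?_).trans tsum_zero
      split_ifs with hq
      · have h := hs.blk (x, j) q hq.1.1 hq.2.1 hq.2.2.1 hq.2.2.2 _ hb
        have e : ind (Z.A ξ q) (x * b) = ind (Z.A ξ q) x := if_congr h.symm rfl rfl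
        rw [e, sub_self, zero_mul]
      · rfl
    · rfl

theorem fic_inj {J : FH E.A (ℕ ⊕ ℕ × G) →L[ℝ] FH E.A (ℕ ⊕ ℕ × G)} (hJ : Z.IsJ J)
    {a : FH E.A (ℕ ⊕ ℕ × G)} (ha : a ∈ Z.subN) (h0 : J a = 0) : a = 0 := by
  have ha' : ∀ᵐ ξ ∂E.A.P, ∀ p : G × (ℕ ⊕ ℕ × G),
      ¬ (∃ j, p.2 = Sum.inl j ∧ Z.N ξ (p.1, j)) → fibv a ξ p = 0 := ha
  have hz := hJ a
  rw [h0] at hz
  refine fh_ext ?_
  filter_upwards [ha', hz, fibv_zero (A := E.A) (I := ℕ ⊕ ℕ × G), Z.str] with ξ a1 a2 a3 hs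
  rintro ⟨x, j | e⟩
  · rw [a3]
    by_cases hN : Z.N ξ (x, j)
    · obtain ⟨b, hb, hC, hne, hq⟩ := hs.port _ hN
      have hV := hs.nv _ hN
      have e1 := a2.2 x j b
      rw [a3, tsum_eq_single (x, j), if_pos ⟨⟨hV, hb, hC⟩, hN, hs.ex _ hV,
        (hs.self _ hV).2 (hs.self _ hV).1⟩] at e1
      · refine (mul_eq_zero.1 e1.symm).resolve_left fun h => hne ?_
        unfold ind at h
        by_cases h1 : x ∈ Z.A ξ (x, j) <;> by_cases h2 : x * b ∈ Z.A ξ (x, j) <;> simp_all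
      · intro q hqp
        split_ifs with hc
        · have h := hq q hc.2.1 hc.2.2.1 hc.2.2.2 hqp
          have e : ind (Z.A ξ q) (x * b) = ind (Z.A ξ q) x := if_congr h.symm rfl rfl
          rw [e, sub_self, zero_mul]
        · rfl
    · exact a1 _ (by simpa using hN)
  · rw [a3]
    exact a1 _ (by simp)

theorem ineq (hS : Cay S) : ∑' j : ℕ, E.A.P {ξ | Z.N ξ (1, j)} ≤
    ∑' j : ℕ, ∫⁻ ξ, (if Z.V ξ (1, j) then ((rc S ρ (Z.β ξ (1, j)) 1).encard : ℝ≥0∞)⁻¹ else 0)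
      ∂E.A.P := by
  obtain ⟨τ, hτ⟩ := exists_isTS E.A (ℕ ⊕ ℕ × G)
  obtain ⟨Dg, cD, hD⟩ := Z.exists_Dg hτ
  obtain ⟨J, cJ, hJ⟩ := Z.exists_J hS hτ
  obtain ⟨R, cR, hR⟩ := Z.exists_R hτ
  have dV : τ.dim Z.subV = ∑' j : ℕ, E.A.P {ξ | Z.V ξ (1, j)} := fic_dim hτ Z.mV
  have dN : τ.dim Z.subN = ∑' j : ℕ, E.A.P {ξ | Z.N ξ (1, j)} := fic_dim hτ Z.mN
  have fV : τ.dim Z.subV ≠ ⊤ := by
    rw [dV]
    refine ne_top_of_le_ne_top E.fin (ENNReal.tsum_le_tsum fun j => measure_mono_ae ?_)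
    filter_upwards [Z.str] with ξ hs h
    exact hs.ex _ h
  have fN : τ.dim Z.subN ≠ ⊤ := by
    rw [dN]
    refine ne_top_of_le_ne_top E.fin (ENNReal.tsum_le_tsum fun j => measure_mono_ae ?_)
    filter_upwards [Z.str] with ξ hs h
    exact hs.ex _ (hs.nv _ h)
  rw [← dN]
  exact (τ.dim_le_ker (fic_inv hτ Z.eV) (fic_inv hτ Z.eN) fV fN cD cR cJ
    (fun a _ => Z.J_mem hS hτ cD hD hJ a) (fun a _ => Z.fic_RJ hJ hR a)
    fun a ha h0 => Z.fic_inj hJ ha h0).trans (Z.dim_ker_le hτ hD hR)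

end NData

end Vale.Agent.P239
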