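import Vale.Agent.P239.Full.FCoreB
import Vale.Agent.P239.Full.FRep

/-! Task FLab: labels of a triple with harmonic measures `p` (left), `q` (right), `z = 1 - p - q` (middle).
`lab_local`: one of `p y, q y, z y` is below `1/(4 N^(m+1))`, so below `1/4` on `bl y (m+1)` (`gl_harnack`, `gl_harm_z` in FinA.lean). If it is `z` there are no `Z` labels; if it is `p` every non `Z` vertex has `p < q`;
if it is `q` no vertex is in `labR`. `lab_final`: for `x ∉ K ∪ labZ` let `k = w x - indZ labR x`, `U₀ = {y ∉ K ∪ labZ | w y - indZ labR y = k}`, `g = z / ε ≥ 1` on `K ∪ labZ`. Far points of `U₀` have `w = c`, so they are all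
outside `labR` (there `q ≤ 1/2`, so a.e. `ξ ∈ hatSet U₀` has `hat q = 0` by goodness of `R`) or all in `labR` (there `p < 1/2`); `mp`.
-/

noncomputable section

open Classical MeasureTheory Filter Topology Set
open scoped Pointwise ENNReal

namespace Vale.Agent.P239

universe u
variable {G : Type u} [Group G] {S : Finset G} {l : ℕ} {Q : Cones S} {B : Bdry S}

def labZ (p q : G → ℝ) : Set G := {x | 1 / 4 ≤ 1 - p x - q x}

def labR (p q : G → ℝ) : Set G := {x | x ∉ labZ p q ∧ p x < q x}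

/-- The gradient of the indicator of `R` on the edges avoiding `Z`. -/
def labC (Z R : Set G) (x s : G) : ℤ := if x ∉ Z ∧ x * s ∉ Z then dZ R x s else 0

theorem labC_abs (Z R : Set G) (x s : G) : |labC Z R x s| ≤ 1 := by
  unfold labC dZ indZ
  split_ifs <;> simp

theorem flab_ne {Z R : Set G} {x s : G} (h : labC Z R x s ≠ 0) :
    x ∉ Z ∧ x * s ∉ Z ∧ ¬ (x ∈ R ↔ x * s ∈ R) := by
  unfold labC at h
  split_ifs at h with h1
  · refine ⟨h1.1, h1.2, fun h2 => h ?_⟩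
    unfold dZ indZ
    rw [if_congr h2 rfl rfl, sub_self]
  · exact absurd rfl h

theorem flab_zero {Z R : Set G} {x s : G} (h : x ∉ Z → x * s ∉ Z → (x ∈ R ↔ x * s ∈ R)) :
    labC Z R x s = 0 := by
  by_contra hc
  obtain ⟨h1, h2, h3⟩ := flab_ne hc
  exact h3 (h h1 h2)

theorem flab_small (hS : Cay S) {u : G → ℝ} (hu : Harm S u) (h0 : ∀ x, 0 ≤ u x) {r : ℕ} {y : G}
    (hy : u y < 1 / (4 * (S.card : ℝ) ^ r)) {x : G} (hx : x ∈ bl S y r) : u x < 1 / 4 := by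
  have h1 := gl_harnack hS hu h0 y r _ hx
  rw [mul_inv_cancel_left] at h1
  have hN : (0 : ℝ) < (S.card : ℝ) ^ r := pow_pos (by linarith [gl_one_le hS]) r
  rw [lt_div_iff₀ (by positivity)] at hy
  linarith

theorem labC_ne_zero {Z R : Set G} {x s : G} (hs : s ∈ S) (h : labC Z R x s ≠ 0) :
    x ∈ wallV S R := by
  exact ⟨s, hs, (flab_ne h).2.2⟩

theorem lab_local (hS : Cay S) {p q : G → ℝ} (hp : Harm S p) (hq : Harm S q) (hp0 : ∀ x, 0 ≤ p x)
    (hq0 : ∀ x, 0 ≤ q x) (hpq : ∀ x, p x + q x ≤ 1) (m : ℕ) {y : G}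
    (hy : ¬ Vis (1 / (4 * (S.card : ℝ) ^ (m + 1))) p q y) :
    (∀ x ∈ bl S y m, ∀ s ∈ S, labC (labZ p q) (labR p q) x s = dZ (labR p q) x s) ∨
      ∀ x ∈ bl S y m, ∀ s ∈ S, labC (labZ p q) (labR p q) x s = 0 := by
  have hz := gl_harm_z hS hp hq
  have hz0 : ∀ x, 0 ≤ 1 - p x - q x := fun x => by linarith [hpq x]
  have hb : ∀ x ∈ bl S y m, x ∈ bl S y (m + 1) := fun x hx => bl_mono y (Nat.le_succ m) hx
  simp only [Vis, not_and_or, not_le] at hy
  rcases hy with hy | hy | hy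
  · right
    have key : ∀ x ∈ bl S y (m + 1), x ∉ labZ p q → x ∈ labR p q := fun x hx h => by
      have h1 := flab_small hS hp hp0 hy hx
      have h2 : 1 - p x - q x < 1 / 4 := not_le.1 h
      exact ⟨h, by linarith⟩
    exact fun x hx s hs => flab_zero fun h1 h2 =>
      iff_of_true (key _ (hb x hx) h1) (key _ (mul_mem_bl hx hs) h2)
  · right
    have key : ∀ x ∈ bl S y (m + 1), x ∉ labR p q := fun x hx h => by
      have h1 := flab_small hS hq hq0 hy hx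
      have h2 : 1 - p x - q x < 1 / 4 := not_le.1 h.1
      linarith [h.2]
    exact fun x hx s hs => flab_zero fun _ _ =>
      iff_of_false (key _ (hb x hx)) (key _ (mul_mem_bl hx hs))
  · left
    have key : ∀ x ∈ bl S y (m + 1), x ∉ labZ p q := fun x hx =>
      not_le.2 (flab_small hS hz hz0 hy hx)
    exact fun x hx s hs => if_pos ⟨key _ (hb x hx), key _ (mul_mem_bl hx hs)⟩

theorem lab_locExact (hS : Cay S) {p q : G → ℝ} (hp : Harm S p) (hq : Harm S q)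
    (hp0 : ∀ x, 0 ≤ p x) (hq0 : ∀ x, 0 ≤ q x) (hpq : ∀ x, p x + q x ≤ 1) {m : ℕ} (hm : l ≤ m) {y : G}
    (hy : ¬ Vis (1 / (4 * (S.card : ℝ) ^ (m + 1))) p q y) :
    LocExact S l (labC (labZ p q) (labR p q)) y := by
  rw [locExact_iff]
  rcases lab_local hS hp hq hp0 hq0 hpq m hy with h | h
  · exact ⟨indZ (labR p q), fun x hx s hs => h x (bl_mono y hm hx) s hs⟩
  · exact ⟨fun _ => 0, fun x hx s hs => (h x (bl_mono y hm hx) s hs).trans (sub_self _).symm⟩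

theorem lab_adm {p q : G → ℝ} (hp0 : ∀ x, 0 ≤ p x) (hpq : ∀ x, p x + q x ≤ 1) (x : G) :
    (x ∈ labR p q → 1 / 4 ≤ q x) ∧ (x ∉ labR p q → q x ≤ 3 / 4) := by
  refine ⟨fun h => ?_, fun h => ?_⟩
  · have h2 : 1 - p x - q x < 1 / 4 := not_le.1 h.1
    linarith [h.2]
  · by_cases hZ : x ∈ labZ p q
    · have h2 : 1 / 4 ≤ 1 - p x - q x := hZ
      linarith [hp0 x]
    · have h2 : q x ≤ p x := not_lt.1 fun h' => h ⟨hZ, h'⟩
      linarith [hpq x]

theorem lab_supp (hS : Cay S) {p q : G → ℝ} (hp : Harm S p) (hq : Harm S q) (hp0 : ∀ x, 0 ≤ p x)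
    (hq0 : ∀ x, 0 ≤ q x) {x s : G} (hs : s ∈ S) (h : labC (labZ p q) (labR p q) x s ≠ 0) :
    1 / (4 * (S.card : ℝ)) ≤ p x ∧ 1 / (4 * (S.card : ℝ)) ≤ q x := by
  obtain ⟨h1, h2, h3⟩ := flab_ne h
  have hN := gl_one_le hS
  have a1 : 1 - p x - q x < 1 / 4 := not_le.1 h1
  have a2 : 1 - p (x * s) - q (x * s) < 1 / 4 := not_le.1 h2
  have b1 := gl_step hS hp hp0 x hs
  have b2 := gl_step hS hq hq0 x hs
  have b3 := le_mul_of_one_le_left (hp0 x) hN
  have b4 := le_mul_of_one_le_left (hq0 x) hN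
  rw [div_le_iff₀ (by positivity), div_le_iff₀ (by positivity)]
  by_cases hx : x ∈ labR p q
  · have c1 : q (x * s) ≤ p (x * s) := not_lt.1 fun h' => h3 (iff_of_true hx ⟨h2, h'⟩)
    have c2 := hx.2
    constructor <;> linarith
  · have c1 : x * s ∈ labR p q := by
      by_contra hc
      exact h3 (iff_of_false hx hc)
    have c2 := c1.2
    have c3 : q x ≤ p x := not_lt.1 fun h' => hx ⟨h1, h'⟩
    constructor <;> linarith

theorem lab_tame (hS : Cay S) {p q : G → ℝ} (hp : Harm S p) (hq : Harm S q) (hp0 : ∀ x, 0 ≤ p x)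
    (hq0 : ∀ x, 0 ≤ q x) (hpq : ∀ x, p x + q x ≤ 1) {D₀ m : ℕ} (hm : 3 * D₀ + 1 ≤ m)
    (hT : Q.Tame l (dZ (labR p q)) ∅ D₀) :
    Q.Tame l (labC (labZ p q) (labR p q))
      {y | Vis (1 / (4 * (S.card : ℝ) ^ (m + 1))) p q y} D₀ := by
  rintro i γ y hy hK ⟨s, hs, hne⟩
  have h := (lab_local hS hp hq hp0 hq0 hpq m hK).resolve_right
    fun h => hne (h y (mem_bl_self y m) s hs)
  obtain ⟨D, hD, h1, h2⟩ := hT i γ y hy (notMem_empty y)
    ⟨s, hs, by rwa [← h y (mem_bl_self y m) s hs]⟩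
  refine ⟨D, hD, fun x hx hx' ⟨t, ht, h3⟩ => h1 x hx hx' ⟨t, ht, ?_⟩, h2.congr fun x _ t ht => ?_⟩
  · rwa [← h x (bl_mono y (by omega) hx') t ht]
  · split_ifs with h3
    · exact h x (bl_mono y (by omega) h3) t ht
    · rfl

theorem flab_far (hS : Cay S) {A : Set (Bd G)} (hA : B.Good A) {U F : Set G} (hF : F.Finite)
    (h : ∀ y ∈ U, y ∉ F → B.h A y ≤ 1 / 2) : ∀ᵐ ξ ∂B.μ 1, ξ ∈ hatSet U → ξ ∉ A := by
  filter_upwards [hA.2, B.ae_cofinite hS] with ξ h1 h2 h3 h4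
  rw [indicator_of_mem h4] at h1
  have h5 : hat (B.h A) ξ ≤ 1 / 2 := by
    refine fmp_hat_le (B.h_bdd A) ?_
    filter_upwards [h3, h2 hF.compl_mem_cofinite] with y hy hy'
    exact h y hy hy'
  linarith

theorem Bdry.lab_final (hS : Cay S) {L R : Set (Bd G)} (hL : B.Good L) (hR : B.Good R)
    (hd : B.Null (L ∩ R)) {w : G → ℤ} {c : ℤ} (hw : {x | w x ≠ c}.Finite) {K : Set G} {ε : ℝ}
    (hε : 0 < ε) (hε' : ε ≤ 1 / 4) (hK : ∀ y ∈ K, ε ≤ 1 - B.h L y - B.h R y)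
    (h : ∀ x, x ∉ K → ∀ s ∈ S,
      labC (labZ (B.h L) (B.h R)) (labR (B.h L) (B.h R)) x s = w (x * s) - w x) (x : G) :
    B.h L x ≤ (1 - B.h L x - B.h R x) / ε ∨ B.h R x ≤ (1 - B.h L x - B.h R x) / ε := by
  have hz0 : ∀ y, 0 ≤ 1 - B.h L y - B.h R y := fun y => by
    rw [← B.h_compl_union hS hL.1 hR.1 hd]
    exact B.h_nonneg _ _
  have hz := gl_harm_z hS (B.h_harm hS hL.1) (B.h_harm hS hR.1)
  have hg : SupH S fun y => (1 - B.h L y - B.h R y) / ε := by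
    refine ⟨fun y => div_nonneg (hz0 y) hε.le, fun y => le_of_eq ?_⟩
    simp only [div_eq_inv_mul]
    rw [fmp_avg_mul, hz y]
  have hone : ∀ y, y ∈ K ∨ y ∈ labZ (B.h L) (B.h R) → 1 ≤ (1 - B.h L y - B.h R y) / ε := by
    intro y hy
    rw [le_div_iff₀ hε, one_mul]
    rcases hy with hy | hy
    · exact hK y hy
    · exact hε'.trans hy
  by_cases hx : x ∈ K ∨ x ∈ labZ (B.h L) (B.h R)
  · exact Or.inl ((B.h_le_one L x).trans (hone x hx))
  obtain ⟨k, hk⟩ : ∃ k, w x - indZ (labR (B.h L) (B.h R)) x = k := ⟨_, rfl⟩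
  set U : Set G := {y | ¬ (y ∈ K ∨ y ∈ labZ (B.h L) (B.h R)) ∧
    w y - indZ (labR (B.h L) (B.h R)) y = k} with hU
  have hxU : x ∈ U := ⟨hx, hk⟩
  have h2 : ∀ A, ∀ y ∈ U, ∀ s ∈ S, y * s ∈ U ∨
      B.h A (y * s) ≤ (1 - B.h L (y * s) - B.h R (y * s)) / ε := by
    intro A y hy s hs
    by_cases hys : y * s ∈ K ∨ y * s ∈ labZ (B.h L) (B.h R)
    · exact Or.inr ((B.h_le_one A _).trans (hone _ hys))
    · refine Or.inl ⟨hys, ?_⟩
      have h3 := h y (fun h' => hy.1 (Or.inl h')) s hs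
      rw [labC, if_pos ⟨fun h' => hy.1 (Or.inr h'), fun h' => hys (Or.inr h')⟩, dZ] at h3
      linarith [hy.2]
  by_cases hc : c - k = 1
  · refine Or.inl (Bdry.fmp_good_le hS hL hg (h2 L) (flab_far hS hL hw fun y hy hy' => ?_) x hxU)
    have h3 : w y = c := not_not.1 hy'
    have h4 : y ∈ labR (B.h L) (B.h R) := by
      by_contra h5
      have h6 := hy.2
      rw [indZ, if_neg h5] at h6
      omega
    linarith [h4.2, hz0 y]
  · refine Or.inr (Bdry.fmp_good_le hS hR hg (h2 R) (flab_far hS hR hw fun y hy hy' => ?_) x hxU)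
    have h3 : w y = c := not_not.1 hy'
    have h4 : B.h R y ≤ B.h L y := by
      refine not_lt.1 fun h5 => ?_
      have h6 := hy.2
      rw [indZ, if_pos ⟨fun h' => hy.1 (Or.inr h'), h5⟩] at h6
      omega
    linarith [hz0 y]

end Vale.Agent.P239
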