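import Vale.Agent.P239.Full.FDef

/-! Task FLuck: Lueck approximation for integer matrices.
`L = Nᵀ N` is a real symmetric positive semidefinite matrix with integer entries and eigenvalues in `[0, K]` (`Matrix.IsHermitian.eigenvalues`, `eigenvectorBasis`). Its characteristic polynomial is the image of an integer polynomial
and equals `∏ (X - λ i)` (`charpoly_eq`); the lowest nonzero coefficient is `± ∏_{λ ≠ 0} λ`, a nonzero integer. So `1 ≤ κ^m K^n` if `m` eigenvalues lie in `(0, κ)`, i.e. `m ≤ n log K / log (1/κ)`. Hence `∑_{λ > 0} (1 - λ/K)^(2k) ≤ ε n` for large `k`.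
`(1 - N Nᵀ / K)^k N = N (1 - L/K)^k`; expand `v g` in the eigenbasis `e`: `∑_g ‖N (1 - L/K)^k v g‖² = ∑_λ (1 - λ/K)^(2k) λ ∑_g ⟨e, v g⟩²` and `λ ∑_g ⟨e, v g⟩² = ∑_g ⟨N e / √λ, N v g⟩² ≤ C` by the Bessel hypothesis (duality).
-/

noncomputable section

open Classical MeasureTheory Filter Topology Set
open scoped Pointwise ENNReal

namespace Vale.Agent.P239

universe u

/-- The product of the nonzero eigenvalues of an integer symmetric matrix is a nonzero integer. -/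
theorem luck_prod {ι : Type*} [Fintype ι] [DecidableEq ι] (M : Matrix ι ι ℤ)
    (hM : (M.map (Int.cast : ℤ → ℝ)).IsHermitian) :
    1 ≤ |∏ i ∈ Finset.univ.filter (fun i => hM.eigenvalues i ≠ 0), (-hM.eigenvalues i)| := by
  have h1 := hM.charpoly_eq
  have h2 : (M.map (Int.cast : ℤ → ℝ)).charpoly = M.charpoly.map (Int.castRingHom ℝ) :=
    Matrix.charpoly_map M (Int.castRingHom ℝ)
  rw [h2, ← Finset.prod_filter_mul_prod_filter_not Finset.univ (fun i => hM.eigenvalues i = 0)] at h1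
  have h3 : ∏ i ∈ Finset.univ.filter (fun i => hM.eigenvalues i = 0),
      (Polynomial.X - Polynomial.C ((hM.eigenvalues i : ℝ) : ℝ)) =
      Polynomial.X ^ (Finset.univ.filter (fun i => hM.eigenvalues i = 0)).card := by
    rw [← Finset.prod_const]
    refine Finset.prod_congr rfl fun i hi => ?_
    rw [(Finset.mem_filter.1 hi).2]
    simp
  simp only [RCLike.ofReal_real_eq_id, id] at h1
  rw [h3] at h1
  have h4 := congrArg (fun p => Polynomial.coeff p
    (0 + (Finset.univ.filter (fun i => hM.eigenvalues i = 0)).card)) h1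
  simp only [Polynomial.coeff_X_pow_mul, Polynomial.coeff_map] at h4
  rw [Polynomial.coeff_zero_eq_eval_zero, Polynomial.eval_prod] at h4
  simp only [Polynomial.eval_sub, Polynomial.eval_X, Polynomial.eval_C, zero_sub] at h4
  have h5 : ∏ i ∈ Finset.univ.filter (fun i => hM.eigenvalues i ≠ 0), (-hM.eigenvalues i) ≠ 0 :=
    Finset.prod_ne_zero_iff.2 fun i hi => neg_ne_zero.2 (Finset.mem_filter.1 hi).2
  have h6 : ∏ i ∈ Finset.univ.filter (fun i => hM.eigenvalues i ≠ 0), (-hM.eigenvalues i) =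
      ((M.charpoly.coeff (0 + (Finset.univ.filter (fun i => hM.eigenvalues i = 0)).card) : ℤ) : ℝ) :=
    h4.symm
  rw [h6] at h5 ⊢
  have h7 := Int.one_le_abs (Int.cast_ne_zero.1 h5)
  exact_mod_cast h7

theorem luck_log {ι : Type*} [Fintype ι] [DecidableEq ι] (M : Matrix ι ι ℤ)
    (hM : (M.map (Int.cast : ℤ → ℝ)).IsHermitian) :
    0 ≤ ∑ i, Real.log (hM.eigenvalues i) := by
  have h := Real.log_nonneg (luck_prod M hM)
  rw [Real.log_abs, Real.log_prod fun i hi => neg_ne_zero.2 (Finset.mem_filter.1 hi).2] at h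
  simp only [Real.log_neg_eq_log] at h
  rw [Finset.sum_filter] at h
  refine h.trans_eq (Finset.sum_congr rfl fun i _ => ?_)
  split_ifs with hi
  · rfl
  · rw [not_not.1 hi, Real.log_zero]

theorem luck_point (K : ℝ) (hK : 1 ≤ K) {a ε : ℝ} (ha : 0 < a) (hε : 0 < ε) : ∃ k : ℕ,
    ∀ x : ℝ, 0 ≤ x → x ≤ K →
      (if x = 0 then 0 else (1 - x / K) ^ (2 * k)) ≤ ε + (Real.log K - Real.log x) / a := by
  have hK0 : 0 < K := by linarith
  have hτ : 0 < Real.exp (-a) := Real.exp_pos _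
  have hτ1 : Real.exp (-a) < 1 := Real.exp_lt_one_iff.2 (by linarith)
  have hq0 : 0 ≤ 1 - Real.exp (-a) / K := by
    have : Real.exp (-a) / K ≤ 1 := (div_le_one hK0).2 (by linarith)
    linarith
  have hq1 : 1 - Real.exp (-a) / K < 1 := by
    have : 0 < Real.exp (-a) / K := div_pos hτ hK0
    linarith
  obtain ⟨k, hk⟩ := exists_pow_lt_of_lt_one hε hq1
  refine ⟨k, fun x hx0 hxK => ?_⟩
  have hlK : 0 ≤ Real.log K := Real.log_nonneg hK
  split_ifs with hx
  · rw [hx, Real.log_zero, sub_zero]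
    positivity
  · have hx1 : 0 < x := lt_of_le_of_ne hx0 (Ne.symm hx)
    have h0 : 0 ≤ 1 - x / K := by
      have : x / K ≤ 1 := (div_le_one hK0).2 hxK
      linarith
    have h1 : 1 - x / K ≤ 1 := by
      have : 0 ≤ x / K := div_nonneg hx0 hK0.le
      linarith
    by_cases hs : x ≤ Real.exp (-a)
    · have h2 : Real.log x ≤ -a := by
        have := Real.log_le_log hx1 hs
        rwa [Real.log_exp] at this
      have h3 : 1 ≤ (Real.log K - Real.log x) / a := (one_le_div ha).2 (by linarith)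
      have h4 : (1 - x / K) ^ (2 * k) ≤ 1 := pow_le_one₀ h0 h1
      linarith
    · have h2 : 1 - x / K ≤ 1 - Real.exp (-a) / K := by
        have : Real.exp (-a) / K ≤ x / K := div_le_div_of_nonneg_right (not_le.1 hs).le hK0.le
        linarith
      have h3 : (1 - x / K) ^ (2 * k) ≤ (1 - x / K) ^ k := pow_le_pow_of_le_one h0 h1 (by omega)
      have h4 : (1 - x / K) ^ k ≤ (1 - Real.exp (-a) / K) ^ k := pow_le_pow_left₀ h0 h2 k
      have h5 : 0 ≤ (Real.log K - Real.log x) / a :=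
        div_nonneg (sub_nonneg.2 (Real.log_le_log hx1 hxK)) ha.le
      linarith

theorem luck_count (K : ℝ) (hK : 1 ≤ K) {ε : ℝ} (hε : 0 < ε) : ∃ k : ℕ,
    ∀ (ι : Type u) [Fintype ι] [DecidableEq ι] (M : Matrix ι ι ℤ)
      (hM : (M.map (Int.cast : ℤ → ℝ)).IsHermitian),
      (∀ i, 0 ≤ hM.eigenvalues i ∧ hM.eigenvalues i ≤ K) →
      ∑ i, (if hM.eigenvalues i = 0 then 0 else (1 - hM.eigenvalues i / K) ^ (2 * k)) ≤
        ε * Fintype.card ι := by
  have hlK : 0 ≤ Real.log K := Real.log_nonneg hK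
  have ha : 0 < 2 * Real.log K / ε + 1 := by positivity
  obtain ⟨k, hk⟩ := luck_point K hK ha (half_pos hε)
  refine ⟨k, fun ι _ _ M hM hb => ?_⟩
  refine (Finset.sum_le_sum fun i _ => hk _ (hb i).1 (hb i).2).trans ?_
  have h1 := luck_log M hM
  rw [Finset.sum_add_distrib, ← Finset.sum_div _ _ (2 * Real.log K / ε + 1), Finset.sum_sub_distrib]
  simp only [Finset.sum_const, Finset.card_univ, nsmul_eq_mul]
  have hn : (0 : ℝ) ≤ Fintype.card ι := Nat.cast_nonneg _
  have h2 : (Fintype.card ι * Real.log K - ∑ i, Real.log (hM.eigenvalues i)) /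
      (2 * Real.log K / ε + 1) ≤ Fintype.card ι * (ε / 2) := by
    rw [div_le_iff₀ ha]
    have e : Fintype.card ι * (ε / 2) * (2 * Real.log K / ε + 1) =
        Fintype.card ι * Real.log K + Fintype.card ι * (ε / 2) := by
      field_simp
    have : 0 ≤ (Fintype.card ι : ℝ) * (ε / 2) := by positivity
    rw [e]
    linarith
  linarith

section Eig
variable {ι : Type*} [Fintype ι] [DecidableEq ι] {L : Matrix ι ι ℝ} (hL : L.IsHermitian)

/-- Eigenvectors as plain functions. -/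
def eigV (j : ι) : ι → ℝ := (hL.eigenvectorBasis j).ofLp

theorem eigV_mul (j : ι) : L.mulVec (eigV hL j) = hL.eigenvalues j • eigV hL j :=
  hL.mulVec_eigenvectorBasis j

theorem eigV_parseval (x y : ι → ℝ) :
    x ⬝ᵥ y = ∑ j, (eigV hL j ⬝ᵥ x) * (eigV hL j ⬝ᵥ y) := by
  have h := hL.eigenvectorBasis.sum_inner_mul_inner (WithLp.toLp 2 x) (WithLp.toLp 2 y)
  simp only [EuclideanSpace.inner_eq_star_dotProduct, star_trivial] at h
  rw [dotProduct_comm x y, ← h]
  refine Finset.sum_congr rfl fun j _ => ?_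
  rw [dotProduct_comm y]
  rfl

theorem eigV_norm (j : ι) : eigV hL j ⬝ᵥ eigV hL j = 1 := by
  have h := real_inner_self_eq_norm_sq (hL.eigenvectorBasis j)
  rw [hL.eigenvectorBasis.orthonormal.1 j, EuclideanSpace.inner_eq_star_dotProduct, star_trivial] at h
  rw [one_pow] at h
  exact h

theorem eigV_dot (j : ι) (w : ι → ℝ) :
    eigV hL j ⬝ᵥ L.mulVec w = hL.eigenvalues j * (eigV hL j ⬝ᵥ w) := by
  have hT : L.transpose = L := by
    have := hL.eq
    rwa [Matrix.conjTranspose_eq_transpose_of_trivial] at this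
  rw [Matrix.dotProduct_mulVec, ← Matrix.mulVec_transpose, hT, eigV_mul, smul_dotProduct, smul_eq_mul]

theorem eigV_pow (c : ℝ) (j : ι) (k : ℕ) (w : ι → ℝ) :
    eigV hL j ⬝ᵥ ((1 - c • L) ^ k).mulVec w =
      (1 - c * hL.eigenvalues j) ^ k * (eigV hL j ⬝ᵥ w) := by
  induction k with
  | zero => simp
  | succ k ih =>
    rw [pow_succ', ← Matrix.mulVec_mulVec, Matrix.sub_mulVec, Matrix.one_mulVec,
      Matrix.smul_mulVec, dotProduct_sub, dotProduct_smul, eigV_dot, ih, smul_eq_mul]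
    ring

end Eig

theorem luck_swap {ι κ : Type*} [Fintype ι] [Fintype κ] [DecidableEq ι] [DecidableEq κ]
    (A : Matrix κ ι ℝ) (c : ℝ) (k : ℕ) :
    (1 - c • (A * A.transpose)) ^ k * A = A * (1 - c • (A.transpose * A)) ^ k := by
  have h1 : (1 - c • (A * A.transpose)) * A = A * (1 - c • (A.transpose * A)) := by
    rw [Matrix.sub_mul, Matrix.mul_sub, Matrix.one_mul, Matrix.mul_one, Matrix.smul_mul,
      Matrix.mul_smul, Matrix.mul_assoc]
  induction k with
  | zero => simp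
  | succ k ih => rw [pow_succ, Matrix.mul_assoc, h1, ← Matrix.mul_assoc, ih, Matrix.mul_assoc, ← pow_succ]

theorem luck_dot {ι κ : Type*} [Fintype ι] [Fintype κ] (A : Matrix κ ι ℝ) (x y : ι → ℝ) :
    A.mulVec x ⬝ᵥ A.mulVec y = x ⬝ᵥ (A.transpose * A).mulVec y := by
  rw [← Matrix.mulVec_mulVec, Matrix.dotProduct_mulVec x, Matrix.vecMul_transpose]

theorem luck_sq {κ : Type*} [Fintype κ] (x : κ → ℝ) : ∑ e, x e ^ 2 = x ⬝ᵥ x := by
  simp only [dotProduct, sq]

/-- Duality: the Bessel bound. -/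
theorem luck_bessel {κ γ : Type*} [Fintype κ] (W : Finset γ) (y : γ → κ → ℝ) {C : ℝ} (hC : 0 ≤ C)
    (hB : ∀ a : γ → ℝ, ∑ e, (∑ g ∈ W, a g * y g e) ^ 2 ≤ C * ∑ g ∈ W, a g ^ 2)
    (u : κ → ℝ) {l : ℝ} (hu : u ⬝ᵥ u = l) (c : γ → ℝ) (hc : ∀ g, u ⬝ᵥ y g = l * c g) :
    l * ∑ g ∈ W, c g ^ 2 ≤ C := by
  have h1 : ∑ e, u e * ∑ g ∈ W, c g * y g e = l * ∑ g ∈ W, c g ^ 2 := by
    simp only [Finset.mul_sum]
    rw [Finset.sum_comm]
    refine Finset.sum_congr rfl fun g _ => ?_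
    have : ∑ e, u e * (c g * y g e) = c g * (u ⬝ᵥ y g) := by
      simp only [dotProduct, Finset.mul_sum]
      exact Finset.sum_congr rfl fun e _ => by ring
    rw [this, hc]
    ring
  have h2 := Finset.sum_mul_sq_le_sq_mul_sq Finset.univ u (fun e => ∑ g ∈ W, c g * y g e)
  rw [h1, luck_sq u, hu] at h2
  have hl : 0 ≤ l := by
    rw [← hu, ← luck_sq]
    positivity
  have h3 := mul_le_mul_of_nonneg_left (hB c) hl
  by_contra hcon
  have h4 : C < l * ∑ g ∈ W, c g ^ 2 := not_le.1 hcon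
  have h5 : 0 < l * ∑ g ∈ W, c g ^ 2 := lt_of_le_of_lt hC h4
  have h6 := mul_lt_mul_of_pos_right h4 h5
  nlinarith

theorem luck_hs (K : ℝ) (hK : 1 ≤ K) {ε : ℝ} (hε : 0 < ε) : ∃ k : ℕ,
    ∀ (ι κ γ : Type u) [Fintype ι] [Fintype κ] [DecidableEq κ] (N : Matrix κ ι ℤ) (W : Finset γ)
      (v : γ → ι → ℝ) (C : ℝ), 0 ≤ C →
      (∀ w : ι → ℝ, ∑ e, ((N.map (Int.cast : ℤ → ℝ)).mulVec w e) ^ 2 ≤ K * ∑ i, w i ^ 2) →
      (∀ a : γ → ℝ, ∑ e, (∑ g ∈ W, a g * (N.map (Int.cast : ℤ → ℝ)).mulVec (v g) e) ^ 2 ≤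
        C * ∑ g ∈ W, a g ^ 2) →
      ∑ g ∈ W, ∑ e, (((1 - K⁻¹ • (N.map (Int.cast : ℤ → ℝ) * (N.map (Int.cast : ℤ → ℝ)).transpose)) ^ k).mulVec
        ((N.map (Int.cast : ℤ → ℝ)).mulVec (v g)) e) ^ 2 ≤ C * ε * Fintype.card ι := by
  obtain ⟨k, hk⟩ := luck_count.{u} K hK hε
  refine ⟨k, fun ι κ γ _ _ _ N W v C hC hN hB => ?_⟩
  set A := N.map (Int.cast : ℤ → ℝ) with hA
  have hLe : (N.transpose * N).map (Int.cast : ℤ → ℝ) = A.transpose * A := by
    ext i j
    simp [hA, Matrix.mul_apply]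
  have hL : ((N.transpose * N).map (Int.cast : ℤ → ℝ)).IsHermitian := by
    rw [hLe, ← Matrix.conjTranspose_eq_transpose_of_trivial]
    exact Matrix.isHermitian_conjTranspose_mul_self A
  have hev : ∀ j, A.mulVec (eigV hL j) ⬝ᵥ A.mulVec (eigV hL j) = hL.eigenvalues j := fun j => by
    rw [luck_dot, ← hLe, eigV_dot, eigV_norm, mul_one]
  have hb : ∀ j, 0 ≤ hL.eigenvalues j ∧ hL.eigenvalues j ≤ K := fun j => by
    have h1 := hN (eigV hL j)
    rw [luck_sq (eigV hL j), eigV_norm, mul_one] at h1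
    rw [← hev, ← luck_sq]
    exact ⟨by positivity, h1⟩
  have h1 := hk ι (N.transpose * N) hL hb
  have h2 : ∀ g, ∑ e, (((1 - K⁻¹ • (A * A.transpose)) ^ k).mulVec (A.mulVec (v g)) e) ^ 2 =
      ∑ j, (1 - hL.eigenvalues j / K) ^ (2 * k) * (hL.eigenvalues j * (eigV hL j ⬝ᵥ v g) ^ 2) := by
    intro g
    rw [luck_sq, Matrix.mulVec_mulVec, luck_swap, ← Matrix.mulVec_mulVec, luck_dot, ← hLe,
      eigV_parseval hL]
    refine Finset.sum_congr rfl fun j _ => ?_
    rw [eigV_dot, eigV_pow, div_eq_inv_mul]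
    ring
  have h3 : ∀ j, hL.eigenvalues j * ∑ g ∈ W, (eigV hL j ⬝ᵥ v g) ^ 2 ≤ C := fun j =>
    luck_bessel W (fun g => A.mulVec (v g)) hC hB (A.mulVec (eigV hL j)) (hev j) _ fun g => by
      rw [luck_dot, ← hLe, eigV_dot]
  simp only [h2]
  rw [Finset.sum_comm, mul_assoc]
  refine le_trans ?_ (mul_le_mul_of_nonneg_left h1 hC)
  rw [Finset.mul_sum]
  refine Finset.sum_le_sum fun j _ => ?_
  rw [← Finset.mul_sum, ← Finset.mul_sum]
  split_ifs with hj
  · rw [hj]
    simp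
  · rw [mul_comm C]
    refine mul_le_mul_of_nonneg_left (h3 j) ?_
    rw [pow_mul]
    positivity

end Vale.Agent.P239
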