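import Vale.Agent.P239.Full.FGlue

/-! Task FMRep: repair around boundedly many centres (no cones). `lrep`: otherwise take `c n` failing for `ρs = n`, a pointwise limit along a subsequence (values in `{-1, 0, 1}`, `G` countable; see the proofs of `urep` and `uniform_rep`), `RH.rlr` for `hH.rh`
(the cone conditions are empty). `cluster_sep`: induction on `K` (generalising `r`): if `Z` is not `f r`-separated remove a point and replace `r` by `r + f r`.
`multi_rep`: `f D = 4 ρs D + l + 2 + D + ρs D` with `ρs D` from `lrep D (1 + l)`; `r'` = maximum of `ρs D` over `D ≤ D*`; translate (`Rep.translate`), `RH.glue` with `D₁ = 0`.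
-/

noncomputable section

open Classical MeasureTheory Filter Topology Set
open scoped Pointwise ENNReal

namespace Vale.Agent.P239

universe u
variable {G : Type u} [Group G] {S : Finset G} {l : ℕ} {B : Bdry S}

theorem HypQ.lrep (hH : HypQ S l) (D m : ℕ) : ∃ ρs : ℕ, ∀ c : G → G → ℤ, (∀ x s, |c x s| ≤ 1) →
    (∀ y ∈ ball S ρs, y ∉ ball S D → LocExact S l c y) →
    ∃ (κ : G → G → ℤ) (ρ ρ₁ ρ₂ : ℕ), ρ + m ≤ ρ₁ ∧ D ≤ ρ ∧ ρ₁ ≤ ρ₂ ∧ ρ₂ ≤ ρs ∧
      (Cones.empty S).Rep l c κ 1 ρ ρ₁ ρ₂ := by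
  by_contra hc
  push Not at hc
  choose cs hb h1 h2 using hc
  have hS := hH.cay
  have hlim : ∀ x s, ∃ k, ∀ᶠ n in (hyperfilter ℕ : Filter ℕ), cs n x s = k := fun x s => by
    have h0 : ∀ᶠ n in (hyperfilter ℕ : Filter ℕ), cs n x s = -1 ∨ cs n x s = 0 ∨ cs n x s = 1 :=
      Eventually.of_forall fun n => by
        have := abs_le.1 (hb n x s)
        omega
    rcases Ultrafilter.eventually_or.1 h0 with h | h
    · exact ⟨_, h⟩
    · rcases Ultrafilter.eventually_or.1 h with h | h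
      · exact ⟨_, h⟩
      · exact ⟨_, h⟩
  choose c hl using hlim
  have hge : ∀ k, ∀ᶠ n in (hyperfilter ℕ : Filter ℕ), k ≤ n := fun k =>
    hyperfilter_le_cofinite (Nat.cofinite_eq_atTop ▸ eventually_ge_atTop k)
  obtain ⟨w, hw⟩ := hH.cof c ((ball S D).finite_toSet.subset fun y hy => by
    by_contra hy'
    obtain ⟨k, hk⟩ := hS.exists_ball y
    exact hy ((locExact_iff _ _).2 (frep_lim hl ((hge k).mono fun n hn =>
      (locExact_iff _ _).1 (h1 n y (ball_mono hn hk) hy')))))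
  obtain ⟨κ, ρ, hρ, hκ, hκ'⟩ := frep_kappa hS hw D
  obtain ⟨n, hn, hn'⟩ :=
    ((frep_fin (S := S) (bl_finite (S := S) 1 (ρ + m + l)) hl).and (hge (ρ + m))).exists
  refine h2 n κ ρ (ρ + m) (ρ + m) le_rfl hρ le_rfl hn'
    ⟨fun x s h => frep_bl1.2 (hκ x s h), fun y hy => ?_, fun i => i.elim0⟩
  rw [locExact_iff]
  refine (hκ'.mono (Set.subset_univ _)).congr fun x hx s hs => ?_
  rw [hn x (mem_bl_trans hy hx) s hs]

theorem cluster_sep (hS : Cay S) (f : ℕ → ℕ) (K r : ℕ) : ∃ D₁ : ℕ, ∀ Z : Finset G, Z.card ≤ K →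
    ∃ D ≤ D₁, ∃ X ⊆ Z, nbh S r (Z : Set G) ⊆ nbh S D (X : Set G) ∧
      ∀ x ∈ X, ∀ y ∈ X, y ∈ bl S x (f D) → x = y := by
  induction K generalizing r with
  | zero =>
    refine ⟨r, fun Z hZ => ⟨r, le_rfl, Z, Finset.Subset.refl _, subset_rfl, fun x hx => ?_⟩⟩
    rw [Finset.card_eq_zero.1 (Nat.le_zero.1 hZ)] at hx
    exact absurd hx (Finset.notMem_empty x)
  | succ K ih =>
    obtain ⟨D₁, hD₁⟩ := ih (f r + r)
    refine ⟨r + D₁, fun Z hZ => ?_⟩
    by_cases h : ∀ x ∈ Z, ∀ y ∈ Z, y ∈ bl S x (f r) → x = y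
    · exact ⟨r, by omega, Z, Finset.Subset.refl _, subset_rfl, h⟩
    · push Not at h
      obtain ⟨x, hx, y, hy, hxy, hne⟩ := h
      obtain ⟨D, hD, X, hX, h1, h2⟩ := hD₁ (Z.erase y) (by
        rw [Finset.card_erase_of_mem hy]
        omega)
      refine ⟨D, by omega, X, hX.trans (Finset.erase_subset _ _), fun z ⟨a, ha, hz⟩ => h1 ?_, h2⟩
      by_cases e : a = y
      · subst e
        exact ⟨x, Finset.mem_coe.2 (Finset.mem_erase.2 ⟨hne, hx⟩), mem_bl_trans (S := S) hxy hz⟩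
      · exact ⟨a, Finset.mem_coe.2 (Finset.mem_erase.2 ⟨e, ha⟩), ball_mono (by omega) hz⟩

theorem HypQ.multi_rep (hH : HypQ S l) (K r : ℕ) : ∃ r' : ℕ, ∀ (c : G → G → ℤ) (Z : Finset G),
    Z.card ≤ K → (∀ x s, |c x s| ≤ 1) → {x | ∃ s ∈ S, c x s ≠ 0}.Finite →
    (∀ y, y ∉ nbh S r (Z : Set G) → LocExact S l c y) →
    ∃ w, ∀ e ∈ defect S c w, e.1 ∈ nbh S r' (Z : Set G) := by
  have hS := hH.cay
  choose ρs hρs using fun D => hH.lrep D (3 * 0 + 1 + l)
  obtain ⟨D₁, hD₁⟩ := cluster_sep hS (fun D => 4 * ρs D + l + 2 + (ρs D + D)) K r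
  refine ⟨(Finset.range (D₁ + 1)).sup ρs, fun c Z hZ hb hf hc => ?_⟩
  obtain ⟨D, hD, X, hX, h1, h2⟩ := hD₁ Z hZ
  obtain ⟨w, hw⟩ := hH.rh.glue hf X.finite_toSet (D₀ := D) (D₁ := 0) (ρs := ρs D)
    (fun x hx y hy h => h2 x hx y hy (bl_mono x (Nat.le_add_right _ _) h))
    (fun x hx => by
      obtain ⟨κ, ρ, ρ₁, ρ₂, k1, k2, k3, k4, hR⟩ := hρs D (fun y s => c (x * y) s)
        (fun y s => hb _ s) fun y hy hy' => by
          have e : ∀ k, x * y ∈ bl S x k ↔ y ∈ ball S k := fun k => by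
            change x⁻¹ * (x * y) ∈ ball S k ↔ _
            rw [inv_mul_cancel_left]
          have h3 := (locExact_iff _ _).1 (hc (x * y) fun h => by
            obtain ⟨x', hx', h4⟩ := h1 h
            have h5 : x = x' := h2 x hx x' hx' (bl_mono x (Nat.le_add_left _ _)
              (mem_bl_trans ((e _).2 hy) (mem_bl_symm hS (show x * y ∈ bl S x' D from h4))))
            subst h5
            exact hy' ((e _).1 h4))
          rw [← bl_smul] at h3
          exact (locExact_iff _ _).2 (h3.translate x)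
      rw [← inv_mul_cancel x] at hR
      have h6 := hR.translate x⁻¹
      simp only [mul_inv_cancel_left] at h6
      exact ⟨_, ρ, ρ₁, ρ₂, k1, k2, k3, k4, h6⟩)
    (fun y hy => hc y fun h => hy (h1 h)) fun i => i.elim0
  exact ⟨w, fun e he => nbh_mono (Finset.le_sup (Finset.mem_range.2 (Nat.lt_succ_of_le hD)))
    (Finset.coe_subset.2 hX) (hw e he)⟩

end Vale.Agent.P239
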