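import Vale.Agent.P239.Full.FTrA

/-! Task FTr: the transport data exist. `x0` an outer wall vertex, `π` from `exists_pi`, `K i` from `exists_reps`, `S' = {γ : Γ | (γ : G) ∈ ball S R₁}` (`Finset.subtype`), `T i = S'.filter (γ • K i = K i)` with `R₁` larger than `2 R₀ + 3 L`,
the radii of `stab_gen`, and `R_i + L + R₀` (`stab_cof`). Generation: by induction on the word length of `x0⁻¹ x`: if `x ∈ X` then `π x ∈ closure S'`, and if `x ∈ K ∈ 𝒦` then `π z ∈ closure S'` for all `z ∈ wallV K` (`conn`, `edge`); apply it to `γ x0`.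
-/

noncomputable section

open Classical MeasureTheory Filter Topology Set
open scoped Pointwise ENNReal

namespace Vale.Agent.P239

universe u
variable {G : Type u} [Group G] {S : Finset G} {l L : ℕ} {B : Bdry S}

theorem ftr_gen (hS : Cay S) (Z : Cores B L) (hL : 2 ≤ L) {x0 : G} (hx0 : x0 ∈ Z.X) (C : Set G)
    (h0 : x0 ∈ C) (hE : ∀ x ∈ nbh S 1 Z.X, ∀ y ∈ nbh S 1 Z.X, y ∈ bl S x (3 * L) → x ∈ C → y ∈ C) :
    Z.X ⊆ C := by
  have hW : ∀ K ∈ Z.𝒦, ∀ z ∈ wallV S K, z ∈ C → wallV S K ⊆ C := by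
    intro K hK z hz hc y hy
    obtain ⟨_, h⟩ := Z.conn K hK z hz hy
    clear hy
    induction h with
    | refl => exact hc
    | tail _ h2 ih =>
      obtain ⟨a1, a2, a3 | ⟨i, _⟩⟩ := h2
      · exact hE _ (Z.wall_X hS (by omega) hK a1) _ (Z.wall_X hS (by omega) hK a2) a3 ih
      · exact i.elim0
  have key : ∀ r, ∀ b ∈ ball S r,
      (x0 * b ∈ Z.X → x0 * b ∈ C) ∧ ∀ K ∈ Z.𝒦, x0 * b ∈ K → wallV S K ⊆ C := by
    intro r
    induction r with
    | zero =>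
      intro b hb
      rw [mem_ball_zero.1 hb, mul_one]
      exact ⟨fun _ => h0, fun K hK h => absurd h (hx0 K hK)⟩
    | succ r ih =>
      intro b hb
      rcases mem_ball_succ.1 hb with h | ⟨b', hb', s, hs, rfl⟩
      · exact ih b h
      obtain ⟨i1, i2⟩ := ih b' hb'
      rw [← mul_assoc]
      refine ⟨fun hy => ?_, fun K hK hy => ?_⟩
      · by_cases hx : x0 * b' ∈ Z.X
        · refine hE _ (subset_nbh 1 _ hx) _ (subset_nbh 1 _ hy) ?_ (i1 hx)
          exact bl_mono _ (by omega) (mul_mem_bl (mem_bl_self _ 0) hs)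
        · obtain ⟨K, hK, hx⟩ : ∃ K ∈ Z.𝒦, x0 * b' ∈ K := by
            by_contra h
            exact hx fun K hK h' => h ⟨K, hK, h'⟩
          exact i2 K hK hx (hS.mul_mem_wallV hs fun h => hy K hK (h.1 hx))
      · by_cases hx : x0 * b' ∈ K
        · exact i2 K hK hx
        · have hw : x0 * b' ∈ wallV S K := ⟨s, hs, fun h => hx (h.2 hy)⟩
          exact hW K hK _ hw (i1 (Z.outer_X hS (by omega) hK ⟨hw, hx⟩))
  intro x hx
  obtain ⟨r, hr⟩ := hS.exists_ball (x0⁻¹ * x)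
  have := (key r _ hr).1
  rw [mul_inv_cancel_left] at this
  exact this hx

theorem Cores.exists_tr (hS : Cay S) (h1 : OneEnded S) (Z : Cores B L) (hL : 2 ≤ L) :
    Nonempty (Tr Z) := by
  obtain ⟨K0, hK0, -⟩ := Z.ne
  obtain ⟨x0, hx⟩ := Z.wall_ne hS hK0
  have hx0 := Z.outer_X hS (by omega) hK0 hx
  obtain ⟨π, p1, p2, p3⟩ := Z.exists_pi hS x0
  obtain ⟨R0, hR0⟩ := p3 1
  obtain ⟨n, K, k1, k2, k3⟩ := Z.exists_reps hS hL
  choose Rc hRc using fun i => Z.stab_cof hS hL (k1 i)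
  choose Rg hRg using fun i => Z.stab_gen hS hL (k1 i)
  obtain ⟨R, r1, r2, r3⟩ : ∃ R, R0 + 3 * L + R0 ≤ R ∧ (∀ i, Rg i ≤ R) ∧
      ∀ i, Rc i + L + R0 ≤ R := by
    refine ⟨R0 + 3 * L + R0 + Finset.univ.sup Rg + Finset.univ.sup Rc, by omega, fun i => ?_,
      fun i => ?_⟩
    · have := Finset.le_sup (f := Rg) (Finset.mem_univ i)
      omega
    · have := Finset.le_sup (f := Rc) (Finset.mem_univ i)
      omega
  obtain ⟨S', hS'⟩ : ∃ S' : Finset Z.Γ, ∀ γ, γ ∈ S' ↔ (γ : G) ∈ ball S R :=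
    ⟨(ball S R).subtype _, fun γ => Finset.mem_subtype⟩
  have hH : ∀ i (γ : Z.Γ), γ ∈ Subgroup.closure
      ((S'.filter fun σ : Z.Γ => (σ : G) • K i = K i : Finset Z.Γ) : Set Z.Γ) ↔
      (γ : G) • K i = K i := by
    intro i γ
    refine ⟨fun h => ?_, fun h => Subgroup.closure_mono (fun σ hσ => ?_) (hRg i γ h)⟩
    · have : Subgroup.closure
          ((S'.filter fun σ : Z.Γ => (σ : G) • K i = K i : Finset Z.Γ) : Set Z.Γ) ≤
          (MulAction.stabilizer G (K i)).comap Z.Γ.subtype :=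
        (Subgroup.closure_le _).2 fun σ hσ => (Finset.mem_filter.1 hσ).2
      exact this h
    · exact Finset.mem_filter.2 ⟨(hS' σ).2 (ball_mono (r2 i) hσ.2), hσ.1⟩
  have hsymm : ∀ s ∈ S', s⁻¹ ∈ S' := fun s hs => (hS' _).2 (hS.inv_mem_ball ((hS' s).1 hs))
  have hedge : ∀ x ∈ nbh S 1 Z.X, ∀ y ∈ nbh S 1 Z.X, y ∈ bl S x (3 * L) →
      (π x)⁻¹ * π y ∈ S' := fun x hx y hy h =>
    (hS' _).2 (bl_mono _ r1 (mem_bl_trans (mem_bl_trans (hR0 x hx) h) (mem_bl_symm hS (hR0 y hy))))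
  refine ⟨⟨x0, hx0, π, p1, p2, S', ⟨n, fun i => S'.filter fun σ : Z.Γ => (σ : G) • K i = K i,
    fun i => Finset.filter_subset _ _, fun i t ht => ?_, fun i => ?_⟩, K, k1, k2, k3,
    ⟨hsymm, ?_, ?_⟩, hH, ⟨R0, hR0⟩, hedge, fun i γ x hx hn => ?_⟩⟩
  · obtain ⟨a1, a2⟩ := Finset.mem_filter.1 ht
    exact Finset.mem_filter.2 ⟨hsymm t a1, inv_smul_eq_iff.2 a2.symm⟩
  · exact (Z.stab_infinite hS h1 hL (k1 i)).mono fun γ hγ => (hH i γ).2 hγ
  · refine eq_top_iff.2 fun γ _ => ?_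
    have h := ftr_gen hS Z hL hx0 {x | π x ∈ Subgroup.closure (S' : Set Z.Γ)}
      (by rw [mem_ofPred_eq, p2]; exact one_mem _) (fun x hx y hy h hc => by
        have := mul_mem hc (Subgroup.subset_closure (hedge x hx y hy h))
        rwa [mul_inv_cancel_left] at this) ((Z.smul_mem_X γ.2).2 hx0)
    rwa [mem_ofPred_eq, p1, p2, mul_one] at h
  · exact infinite_univ_iff.1 ((Z.stab_infinite hS h1 hL hK0).mono (subset_univ _))
  · obtain ⟨a, ha, hax⟩ := hn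
    rw [wallV_smul] at ha
    obtain ⟨a', ha', rfl⟩ := ha
    obtain ⟨σ, s1, s2, s3⟩ := hRc i a' ha'
    refine ⟨γ * ⟨σ, s1⟩, ?_, mem_ball_one ((hS' _).2 ?_)⟩
    · change γ⁻¹ * (γ * ⟨σ, s1⟩) ∈ Subgroup.closure _
      rw [inv_mul_cancel_left]
      exact (hH i _).2 s2
    · have s4 : (γ : G) • a' ∈ bl S ((γ : G) * σ) (Rc i) := by
        rw [← bl_smul]
        exact smul_mem_smul_set s3
      exact bl_mono _ (r3 i) (mem_bl_trans (mem_bl_trans s4 hax) (mem_bl_symm hS (hR0 x hx)))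

end Vale.Agent.P239
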