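import Vale.Agent.P239.Full.FFinal
import Vale.Agent.P239.Full.FGSys
import Vale.Agent.P239.Full.FCoresB
import Vale.Agent.P239.Full.FTr
import Vale.Agent.P239.Full.FHypQ
import Vale.Agent.P239.Bridge

/-! Task FMain: assembly. `exists_wcl`: `thmR` for `hH.rh` (`nonK_of`); the wall of `lev A` is infinite so `M ≠ ⊥`; `exists_cl`; `IsCl.thin`, `exists_two_comp`, `wallV_cut`, `rc_eq`, `comp_sub_fg`, `isWCl_of`.
`HypQ.false`: if all wall carrying classes are equal to `t` then `cjg g t = t` for all `g`, so `t = ⊤`; otherwise `exists_vdata`, `exists_cores` with `L = 2 l + 2`, `exists_tr`, `Tr.false`.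
`core_full`: `folner_or_gap`, `exists_bdry`, `exists_nonD`. `main_full`: copy `main_coord` (Main.lean). `st_full`: as `st_main` (Bridge.lean).
-/

noncomputable section

open Classical MeasureTheory Filter Topology Set
open scoped Pointwise ENNReal

namespace Vale.Agent.P239

universe u
variable {G : Type u} [Group G] {S : Finset G} {l : ℕ} {B : Bdry S}

theorem exists_wcl (hH : HypQ S l) (hn : B.NonD) : ∃ t, IsWCl B t := by
  have hS := hH.cay
  obtain ⟨u, hb, hu, hc⟩ := id hn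
  obtain ⟨M, A, R, hA, h2, hw, hk⟩ := thmR B hH.rh
    (Bdry.nonK_of (Q := Cones.empty S) (φ := fun i => i.elim0) hb ⟨hu, fun i => i.elim0⟩ hc)
  have hae := hA.aeq_lev
  have h3 : B.Two (hatSet (B.lev A)) :=
    ⟨fun h => h2.1 (h.of_sub hae.1), fun h => h2.2 (h.of_sub hae.compl.1)⟩
  have hM : ∃ g ∈ M, g ≠ 1 := by
    by_contra hcon
    have hf : (M : Set G).Finite := (Set.finite_singleton (1 : G)).subset fun g hg => by
      by_contra h
      exact hcon ⟨g, hg, h⟩
    rcases hH.one _ ((wallV_finite_iff _).1 ((nbh_finite R hf).subset hw)) with h | h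
    · exact h3.1 (B.null_hatSet_of_finite hS h)
    · refine h3.2 ?_
      rw [← hatSet_compl]
      exact B.null_hatSet_of_finite hS h
  obtain ⟨t, ht, hle⟩ := exists_cl hS hH.tf hM fun T hT u hu f hf _ hd =>
    hk T hT u (fun i => i.elim0) ⟨hu, fun i => i.elim0⟩ f hf hd
  have hw' : wallV S (B.lev A) ⊆ nbh S R t := hw.trans (nbh_mono le_rfl hle)
  obtain ⟨z, hz, h4⟩ := exists_two_comp B hH.rh (R := 2 * l + 1) le_rfl
    ((ht.thin hS hH.gap hn R).mono hw') h3
  obtain ⟨T, hT, m, -, h5⟩ := comp_sub_fg hS (2 * l + 1) hw' z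
  refine ⟨t, isWCl_of hS ht hT (m := m) (R := R) h4 ?_⟩
  rw [wallV_cut hH.rh le_rfl hz, rc_eq]
  exact h5

theorem HypQ.false (hH : HypQ S l) (hn : B.NonD) : False := by
  have hS := hH.cay
  obtain ⟨t, ht⟩ := exists_wcl hH hn
  by_cases h : ∀ s, IsWCl B s → s = t
  · refine ht.1.ne_top hS hH.gap hn ((Subgroup.eq_top_iff' t).2 fun g => ?_)
    exact ht.1.mem_of_cjg hS (h _ (ht.conj hS g))
  · obtain ⟨s, hs⟩ := not_forall.1 h
    obtain ⟨hs, hne⟩ := Classical.not_imp.1 hs
    obtain ⟨Z⟩ := exists_vdata hH hn hs ht hne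
    obtain ⟨C⟩ := Z.exists_cores hH (L := 2 * l + 2) le_rfl
    obtain ⟨Y⟩ := C.exists_tr hS hH.one (by omega)
    exact Y.false hH hn le_rfl

theorem core_full (hS : Cay S) (h1 : OneEnded S) (tf : TorsionFree G)
    (sc : ∀ c : G → G → ℤ, (∀ y, LocExact S l c y) → ExOn S c univ)
    (cof : ∀ c : G → G → ℤ, {y | ¬ LocExact S l c y}.Finite → ∃ w, (defect S c w).Finite) :
    HarmVanish S := by
  rcases hS.folner_or_gap with hF | hg
  · exact hS.harmVanish_of_folner hF
  · by_contra h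
    obtain ⟨B⟩ := hS.exists_bdry hg
    exact HypQ.false ⟨hS, hg, h1, tf, sc, cof⟩ (B.exists_nonD hS hg h)

theorem main_full (R : FreeRes4 G) (hR : R.IsPD4) : R.SingerVanishing := by
  obtain ⟨F, hF⟩ := R.exists_coord
  obtain ⟨D, χ, hD⟩ := hF.exists_dual hR
  obtain ⟨S, hs, hg⟩ := F.exists_gen
  have : Infinite G := hD.infinite
  have hS : Cay S := ⟨hs, hg, inferInstance⟩
  obtain ⟨l, hl, hl'⟩ := hD.scCof hS
  have hv : HarmVanish S := core_full hS (hD.oneEnded hS) F.torsionFree hl hl'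
  refine ⟨reduced_of_hv _ _ (fun x => by simp) ?_, reduced_of_hv _ _
    (fun x => R.exact1.apply_apply_eq_zero x) ?_, reduced_of_hv _ _
    (fun x => R.exact3.apply_apply_eq_zero x) ?_, reduced_of_hv _ _ (fun x => by simp) ?_⟩
  · intro c hc hz _
    rw [← hF.c1] at hz
    exact F.hv0 hc hz
  · rw [← hF.c1, ← hF.c2]
    exact F.hv1 hS hv
  · rw [← hF.c3, ← hF.c4]
    exact hD.hv3 (D.hv1 hS hv)
  · intro c hc _ hz
    rw [← hF.c4] at hz
    exact hD.hv4 hc hz

theorem st_full (R : St.Res4 (ZG G)) (h : R.TrivialAction (io G)) (hR : R.IsPD4) :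
    R.SingerVanishing (io G) :=
  sing_bridge h (main_full _ (ofSt_pd h hR))

end Vale.Agent.P239
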