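import Vale.Agent.P239.Full.FEnv

/-! Task FSprA: sprinkling translates of a finite configuration by Bernoulli percolation.
Let `n = |D|`, `μ = Measure.infinitePi` (over `G`) of the Bernoulli measure on `Bool` with parameter `1/n`; it is invariant under `β ↦ β (g⁻¹ * ·)`. Fix an injective `e : G → ℕ` (countable). For `β : G → Bool` the copies through `x` are the `d ∈ D` with `β (x * d⁻¹)`
(centre `g = x * d⁻¹`), the index of `d` is `idx β x d = #{d' ∈ D | β (x * d'⁻¹) ∧ e d' < e d}`. Define `F β x (i, b, inl a) = decide (∃ d ∈ D, β (x d⁻¹) ∧ idx β x d = i ∧ ω (d * b) a)` and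
`F β x (i, b, inr j) = decide (∃ d ∈ D, β (x d⁻¹) ∧ idx β x d = i ∧ d * b ∈ D ∧ idx β (x b) (d b) = j)`. `F` is measurable and equivariant, `P = map F μ`. `StrC (F β)` holds for all `β` (the set is measurable: countable Boolean combination).
Completeness: the event forces at least `m + 1` copies through `y`, Markov with expectation `n * (1/n)`. Upper bound: `∑_j` over indices is `∑_d 1[β d⁻¹] f (cfSh d⁻¹ ω)`. Lower bound: the disjoint events that `d` is the only copy through `1` have probability `(1/n) (1 - 1/n)^(n-1) ≥ 1/(4n)`.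
-/

noncomputable section

open Classical MeasureTheory Filter Topology Set
open scoped Pointwise ENNReal

namespace Vale.Agent.P239

universe u
variable {G : Type u} [Group G] {S : Finset G}

omit [Group G] in
theorem spr_ber {p : ℝ} (h0 : 0 ≤ p) (h1 : p ≤ 1) : ∃ ν : Measure Bool, IsProbabilityMeasure ν ∧
    ν {true} = ENNReal.ofReal p ∧ ν {false} = ENNReal.ofReal (1 - p) := by
  refine ⟨ENNReal.ofReal p • Measure.dirac true + ENNReal.ofReal (1 - p) • Measure.dirac false,
    ⟨?_⟩, by simp, by simp⟩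
  simp [← ENNReal.ofReal_add h0 (sub_nonneg.2 h1)]

theorem spr_mu (D : Finset G) (hne : D.Nonempty) : ∃ μ : Measure (G → Bool),
    IsProbabilityMeasure μ ∧ (∀ h : G, μ.map (fun β g => β (h⁻¹ * g)) = μ) ∧
      (∀ g, μ {β | β g = true} ≤ ENNReal.ofReal (1 / D.card)) ∧
      ∀ d ∈ D, ENNReal.ofReal (1 / D.card / 4) ≤
        μ {β | β d⁻¹ = true ∧ ∀ d' ∈ D, d' ≠ d → β d'⁻¹ = false} := by
  have hn : (1 : ℝ) ≤ D.card := by exact_mod_cast hne.card_pos
  have p0 : (0 : ℝ) < 1 / D.card := by positivity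
  have p1 : (1 : ℝ) / D.card ≤ 1 := (div_le_one (by positivity)).2 hn
  obtain ⟨ν, hν, h1, h2⟩ := spr_ber (p := 1 / D.card / 2) (by positivity) (by linarith)
  refine ⟨Measure.infinitePi fun _ : G => ν, inferInstance, fun h =>
    Measure.map_infinitePi_infinitePi_of_inj (mul_right_injective h⁻¹), fun g => ?_, fun d hd => ?_⟩
  · have h3 := (measurePreserving_eval_infinitePi (fun _ : G => ν) g).measure_preimage
      (measurableSet_singleton true).nullMeasurableSet
    rw [h1] at h3
    exact h3.le.trans (ENNReal.ofReal_le_ofReal (by linarith))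
  have h3 : {β : G → Bool | β d⁻¹ = true ∧ ∀ d' ∈ D, d' ≠ d → β d'⁻¹ = false} =
      (fun β g => β g⁻¹) ⁻¹' Set.pi D fun g => if g = d then {true} else {false} := by
    ext β
    refine ⟨fun h g hg => ?_, fun h => ⟨by simpa using h d hd, fun g hg e => ?_⟩⟩
    · by_cases e : g = d
      · simpa [e] using h.1
      · simpa [e] using h.2 g hg e
    · simpa [e] using h g hg
  rw [h3, ← Measure.map_apply (by fun_prop) (.pi D.countable_toSet fun _ _ => .of_discrete),
    Measure.map_infinitePi_infinitePi_of_inj inv_injective,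
    Measure.infinitePi_pi _ fun _ _ => .of_discrete, ← Finset.mul_prod_erase _ _ hd, if_pos rfl,
    Finset.prod_congr rfl fun g hg => by rw [if_neg (Finset.ne_of_mem_erase hg)],
    Finset.prod_const, h1, h2, ← ENNReal.ofReal_pow (by linarith),
    ← ENNReal.ofReal_mul (by positivity)]
  refine ENNReal.ofReal_le_ofReal ?_
  have h4 := one_add_mul_le_pow (a := -(1 / D.card / 2 : ℝ)) (by linarith) (D.erase d).card
  have h5 : ((D.erase d).card : ℝ) * (1 / D.card) ≤ 1 := by
    rw [mul_one_div, div_le_one (by positivity)]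
    exact_mod_cast Finset.card_erase_le
  rw [← sub_eq_add_neg] at h4
  nlinarith

/-- The number of copies through `x` with a smaller label. -/
def sprN (e : G → ℕ) (D : Finset G) (β : G → Bool) (x : G) (k : ℕ) : ℕ :=
  (D.filter fun d => β (x * d⁻¹) = true ∧ e d < k).card

/-- The copy with centre `g` is the `i`-th copy through `x`. -/
def sprC (e : G → ℕ) (D : Finset G) (β : G → Bool) (g x : G) (i : ℕ) : Prop :=
  g⁻¹ * x ∈ D ∧ β g = true ∧ sprN e D β x (e (g⁻¹ * x)) = i

/-- The sprinkled collection. -/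
def sprF (e : G → ℕ) (D : Finset G) (ω : Cf G) (β : G → Bool) : SX G := fun x t =>
  t.2.2.elim (fun a => decide (∃ g, sprC e D β g x t.1 ∧ ω (g⁻¹ * (x * t.2.1)) a = true))
    fun j => decide (∃ g, sprC e D β g x t.1 ∧ sprC e D β g (x * t.2.1) j)

section spr
variable {e : G → ℕ} {D : Finset G} {ω : Cf G} {β : G → Bool}

theorem spr_lt {g x : G} (h1 : g⁻¹ * x ∈ D) (h2 : β g = true) {k : ℕ} (h : e (g⁻¹ * x) < k) :
    sprN e D β x (e (g⁻¹ * x)) < sprN e D β x k := by
  refine Finset.card_lt_card ⟨fun d hd => ?_, fun hs => ?_⟩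
  · rw [Finset.mem_filter] at hd ⊢
    exact ⟨hd.1, hd.2.1, hd.2.2.trans h⟩
  · have h3 := hs (Finset.mem_filter.2 ⟨h1, by simpa using h2, h⟩)
    exact lt_irrefl _ (Finset.mem_filter.1 h3).2.2

theorem spr_uniq (he : Function.Injective e) {g g' x : G} {i : ℕ} (h : sprC e D β g x i)
    (h' : sprC e D β g' x i) : g = g' := by
  rcases lt_trichotomy (e (g⁻¹ * x)) (e (g'⁻¹ * x)) with t | t | t
  · exact absurd (h.2.2.trans h'.2.2.symm) (spr_lt h.1 h.2.1 t).ne
  · simpa using he t
  · exact absurd (h'.2.2.trans h.2.2.symm) (spr_lt h'.1 h'.2.1 t).ne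

theorem spr_mt {p q : G × ℕ} : sxMt (sprF e D ω β) p q ↔
    ∃ g, sprC e D β g p.1 p.2 ∧ sprC e D β g q.1 q.2 := by
  simp [sxMt, sprF]

theorem spr_cfg (he : Function.Injective e) {g : G} {p : G × ℕ} (h : sprC e D β g p.1 p.2) :
    sxCfg (sprF e D ω β) p = cfSh g ω := by
  funext y a
  simp only [sxCfg, sprF, cfSh, Sum.elim_inl, mul_inv_cancel_left]
  rw [Bool.eq_iff_iff, decide_eq_true_iff]
  exact ⟨fun ⟨g', h1, h2⟩ => spr_uniq he h h1 ▸ h2, fun h1 => ⟨g, h, h1⟩⟩

theorem spr_str (he : Function.Injective e) (hD : (D : Set G) = cfD ω) (β : G → Bool) :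
    StrC (sprF e D ω β) := by
  refine ⟨⟨fun p q h => ?_, fun p q s h h' => ?_, fun p x j j' h h' => ?_⟩, fun p q h => ?_⟩
  · obtain ⟨g, h1, h2⟩ := spr_mt.1 h
    exact spr_mt.2 ⟨g, h2, h1⟩
  · obtain ⟨g, h1, h2⟩ := spr_mt.1 h
    obtain ⟨g', h3, h4⟩ := spr_mt.1 h'
    exact spr_mt.2 ⟨g, h1, spr_uniq he h3 h2 ▸ h4⟩
  · obtain ⟨g, h1, h2⟩ := spr_mt.1 h
    obtain ⟨g', h3, h4⟩ := spr_mt.1 h'
    rw [spr_uniq he h3 h1] at h4
    exact h2.2.2.symm.trans h4.2.2
  · obtain ⟨g, h1, h2⟩ := spr_mt.1 h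
    rw [spr_cfg he h1, spr_cfg he h2]
    exact ⟨rfl, hD.subset h2.1⟩

theorem spr_sh (h : G) (β : G → Bool) :
    sprF e D ω (fun g => β (h⁻¹ * g)) = sxSh h (sprF e D ω β) := by
  have h1 : ∀ g x i, sprC e D (fun g => β (h⁻¹ * g)) (h * g) x i ↔ sprC e D β g (h⁻¹ * x) i :=
    fun g x i => by simp [sprC, sprN, mul_assoc]
  funext x ⟨i, b, t⟩
  rcases t with a | j
  · simp only [sprF, sxSh, Sum.elim_inl, decide_eq_decide]
    rw [(Group.mulLeft_bijective h).surjective.exists]
    simp only [h1, mul_inv_rev, mul_assoc]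
  · simp only [sprF, sxSh, Sum.elim_inr, decide_eq_decide]
    rw [(Group.mulLeft_bijective h).surjective.exists]
    simp only [h1, mul_assoc]

theorem spr_measC (g x : G) (i : ℕ) : Measurable fun β : G → Bool => sprC e D β g x i := by
  refine measurable_const.and (((measurable_pi_apply g).eq_const _).and (Measurable.eq_const ?_ _))
  simp only [sprN, Finset.card_filter]
  exact Finset.measurable_sum _ fun d _ => Measurable.ite
    (((measurable_pi_apply _).eq_const _).and measurable_const).setOf measurable_const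
      measurable_const

omit [Group G] in
theorem spr_dec {X : Type*} [MeasurableSpace X] {P : X → Prop} (h : Measurable P) :
    Measurable fun x => decide (P x) :=
  (Measurable.of_discrete (f := fun q : Prop => decide q)).comp h

theorem spr_meas [Countable G] : Measurable (sprF e D ω) := by
  refine measurable_pi_lambda _ fun x => measurable_pi_lambda _ fun ⟨i, b, t⟩ => ?_
  rcases t with a | j
  · exact spr_dec (.exists fun g => (spr_measC g x i).and measurable_const)
  · exact spr_dec (.exists fun g => (spr_measC g x i).and (spr_measC g _ j))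

theorem spr_mMt (p q : G × ℕ) : Measurable fun ξ : SX G => sxMt ξ p q := by
  unfold sxMt
  fun_prop

theorem spr_mCfg (p : G × ℕ) : Measurable fun ξ : SX G => sxCfg ξ p := by
  unfold sxCfg
  fun_prop

theorem spr_mD (p : G × ℕ) (y : G) : Measurable fun ξ : SX G => y ∈ cfD (sxCfg ξ p) := by
  change Measurable fun ξ : SX G => ξ p.1 (p.2, p.1⁻¹ * y, Sum.inl (Sum.inl true)) = true
  fun_prop

theorem spr_mStr [Countable G] : MeasurableSet {ξ : SX G | StrC ξ} := by
  have h : ∀ ξ : SX G, StrC ξ ↔ ((∀ p q, sxMt ξ p q → sxMt ξ q p) ∧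
      (∀ p q s, sxMt ξ p q → sxMt ξ q s → sxMt ξ p s) ∧
      ∀ p x j j', sxMt ξ p (x, j) → sxMt ξ p (x, j') → j = j') ∧
      ∀ p q, sxMt ξ p q → sxCfg ξ p = sxCfg ξ q ∧ q.1 ∈ cfD (sxCfg ξ p) := fun ξ =>
    and_congr_left fun _ => ⟨fun h => ⟨h.1, h.2, h.3⟩, fun h => ⟨h.1, h.2.1, h.2.2⟩⟩
  simp only [h]
  exact (((Measurable.forall fun p => .forall fun q => (spr_mMt p q).imp (spr_mMt q p)).and
    ((Measurable.forall fun p => .forall fun q => .forall fun s => (spr_mMt p q).imp
      ((spr_mMt q s).imp (spr_mMt p s))).and (.forall fun p => .forall fun x => .forall fun j =>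
        .forall fun j' => (spr_mMt _ _).imp ((spr_mMt _ _).imp measurable_const)))).and
    (.forall fun p => .forall fun q => (spr_mMt p q).imp
      (((spr_mCfg p).eq (spr_mCfg q)).and (spr_mD p q.1)))).setOf

theorem spr_int [Countable G] (he : Function.Injective e) (μ : Measure (G → Bool)) {f : Cf G → ℝ}
    (hf : Continuous f) (j : ℕ) :
    ∫⁻ ξ, (if sxMt ξ (1, j) (1, j) then ENNReal.ofReal (f (sxCfg ξ (1, j))) else 0)
      ∂μ.map (sprF e D ω) =
      ∑ d ∈ D, ENNReal.ofReal (f (cfSh d⁻¹ ω)) * μ {β | sprC e D β d⁻¹ 1 j} := by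
  have hm : Measurable fun ξ : SX G =>
      if sxMt ξ (1, j) (1, j) then ENNReal.ofReal (f (sxCfg ξ (1, j))) else 0 :=
    Measurable.ite (spr_mMt _ _).setOf (hf.measurable.comp (spr_mCfg _)).ennreal_ofReal
      measurable_const
  rw [lintegral_map hm spr_meas]
  simp only [← lintegral_indicator_const (spr_measC _ _ _).setOf]
  rw [← lintegral_finsetSum _ fun d _ => measurable_const.indicator (spr_measC _ _ _).setOf]
  refine lintegral_congr fun β => ?_
  split_ifs with h
  · obtain ⟨g, h1, -⟩ := spr_mt.1 h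
    have h2 : β ∈ {β | sprC e D β g⁻¹⁻¹ 1 j} := by rwa [inv_inv]
    rw [Finset.sum_eq_single_of_mem g⁻¹ (by simpa using h1.1) fun d _ hd =>
      indicator_of_notMem (fun h3 => hd (by rw [spr_uniq he h1 h3, inv_inv])) _,
      indicator_of_mem h2, spr_cfg he h1, inv_inv]
  · refine (Finset.sum_eq_zero fun d _ => ?_).symm
    have h3 : β ∉ {β | sprC e D β d⁻¹ 1 j} := fun h3 => h (spr_mt.2 ⟨_, h3, h3⟩)
    exact indicator_of_notMem h3 _

end spr

theorem spr_av (D : Finset G) (ω : Cf G) {f : Cf G → ℝ} (h : ∀ a, 0 ≤ f a) (c : ℝ) :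
    ∑ d ∈ D, ENNReal.ofReal (f (cfSh d⁻¹ ω)) * ENNReal.ofReal (1 / D.card / c) =
      ENNReal.ofReal (av D ω f / c) := by
  rw [← Finset.sum_mul, ← ENNReal.ofReal_sum_of_nonneg fun d _ => h _,
    ← ENNReal.ofReal_mul (Finset.sum_nonneg fun d _ => h _), av, ← mul_div_assoc, mul_one_div]

theorem exists_sprinkle [Countable G] (ω : Cf G) (D : Finset G) (hD : (D : Set G) = cfD ω)
    (hne : D.Nonempty) : ∃ P : Measure (SX G), IsProbabilityMeasure P ∧
      (∀ g, MeasurePreserving (sxSh g) P P) ∧ (∀ᵐ ξ ∂P, StrC ξ) ∧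
      (∀ (p : G × ℕ) (y : G) (m : ℕ),
        P {ξ | sxMt ξ p p ∧ y ∈ cfD (sxCfg ξ p) ∧ ∀ j < m, ¬ sxMt ξ p (y, j)} ≤ (m : ℝ≥0∞)⁻¹) ∧
      ∀ f : Cf G → ℝ, Continuous f → (∀ a, 0 ≤ f a) →
        ∑' j : ℕ, ∫⁻ ξ, (if sxMt ξ (1, j) (1, j) then ENNReal.ofReal (f (sxCfg ξ (1, j))) else 0) ∂P ≤
          ENNReal.ofReal (av D ω f) ∧
        ENNReal.ofReal (av D ω f / 4) ≤
          ∫⁻ ξ, (if sxMt ξ (1, 0) (1, 0) then ENNReal.ofReal (f (sxCfg ξ (1, 0))) else 0) ∂P := by
  obtain ⟨e, he⟩ := Countable.exists_injective_nat G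
  obtain ⟨μ, hμ, h1, h2, h3⟩ := spr_mu D hne
  have hF : Measurable (sprF e D ω) := spr_meas
  refine ⟨μ.map (sprF e D ω), Measure.isProbabilityMeasure_map hF.aemeasurable, fun g => ?_,
    (ae_map_iff hF.aemeasurable spr_mStr).2 (Eventually.of_forall (spr_str he hD)),
    fun p y m => ?_, fun f hf h0 => ⟨?_, ?_⟩⟩
  · have hs : Measurable (sxSh g : SX G → SX G) := by
      unfold sxSh
      fun_prop
    refine ⟨hs, ?_⟩
    conv_rhs => rw [← h1 g]
    rw [Measure.map_map hs hF, Measure.map_map hF (by fun_prop)]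
    exact congrArg μ.map (funext fun β => (spr_sh g β).symm)
  · rw [Measure.map_apply hF ((spr_mMt p p).and ((spr_mD p y).and
      (.forall fun j => measurable_const.imp (spr_mMt _ _).not))).setOf, ENNReal.le_inv_iff_mul_le,
      mul_comm]
    have hm : ∀ d : G, MeasurableSet {β : G → Bool | β (y * d⁻¹) = true} := fun d =>
      ((measurable_pi_apply _).eq_const _).setOf
    have h4 := mul_meas_ge_le_lintegral (μ := μ) (Finset.measurable_sum D fun d _ =>
      (measurable_const (a := (1 : ℝ≥0∞))).indicator (hm d)) m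
    rw [lintegral_finsetSum _ fun d _ => measurable_const.indicator (hm d)] at h4
    simp only [lintegral_indicator_const (hm _), one_mul] at h4
    refine (mul_le_mul_right (measure_mono fun β hβ => ?_) _).trans (h4.trans
      ((Finset.sum_le_card_nsmul _ _ _ fun d _ => h2 _).trans ?_))
    · obtain ⟨t1, t2, t3⟩ := hβ
      obtain ⟨g, t4, -⟩ := spr_mt.1 t1
      rw [spr_cfg he t4] at t2
      have t5 : m ≤ sprN e D β y (e (g⁻¹ * y)) := not_lt.1 fun t5 =>
        t3 _ t5 (spr_mt.2 ⟨g, t4, hD.superset t2, t4.2.1, rfl⟩)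
      have t6 : (m : ℝ≥0∞) ≤ (D.filter fun d => β (y * d⁻¹) = true).card := by
        exact_mod_cast t5.trans (Finset.card_le_card (Finset.monotone_filter_right _ fun _ _ h => h.1))
      simpa [indicator_apply] using t6
    · have hn : (0 : ℝ) < D.card := by exact_mod_cast hne.card_pos
      rw [nsmul_eq_mul, ← ENNReal.ofReal_natCast, ← ENNReal.ofReal_mul hn.le, mul_one_div,
        div_self hn.ne', ENNReal.ofReal_one]
  · simp only [spr_int he μ hf]
    rw [Summable.tsum_finsetSum fun _ _ => ENNReal.summable, ← div_one (av D ω f),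
      ← spr_av D ω h0, div_one]
    refine Finset.sum_le_sum fun d _ => ?_
    rw [ENNReal.tsum_mul_left]
    refine mul_le_mul_right ((tsum_meas_le_meas_iUnion_of_disjoint μ
      (fun j => (spr_measC _ _ j).setOf) fun i j hij => disjoint_left.2 fun β t1 t2 =>
        hij (t1.2.2.symm.trans t2.2.2)).trans ((measure_mono ?_).trans (h2 d⁻¹))) _
    exact iUnion_subset fun j β hβ => hβ.2.1
  · rw [spr_int he μ hf, ← spr_av D ω h0]
    refine Finset.sum_le_sum fun d hd => mul_le_mul_right ((h3 d hd).trans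
      (measure_mono fun β hβ => ?_)) _
    refine ⟨by simpa using hd, hβ.1,
      Finset.card_eq_zero.2 (Finset.filter_eq_empty_iff.2 fun d' hd' t => ?_)⟩
    by_cases t1 : d' = d
    · simp [t1] at t
    · simp [hβ.2 d' hd' t1] at t

end Vale.Agent.P239
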