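import Vale.Agent.P239.Full.FDef6

/-! Task FTrA: the action of `Γ` on the cores. `exists_pi`: choose a representative `rep x` of the orbit `Γ x` (with `rep x0 = x0`), `π x = x * (rep x)⁻¹`; `nbh r X ⊆ Γ F_r` with `F_r` finite, so `rep` takes finitely many values there.
An outer wall vertex of a core is in `X` (`sep`), and a point is within distance one of at most one core if `2 ≤ L`. `stab_cof`: wall vertices `x = γ f` with the same `f` and the same core `γ⁻¹ • K` differ by an element of the stabiliser.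
`stab_gen`: join `x` and `γ x` in the wall by steps of length `≤ 3 L` (`conn`), approximate the points by elements of the stabiliser; this shows `σ₀⁻¹ γ σ₀ ∈ closure` for a fixed `σ₀` in the stabiliser and all `γ`.
-/

noncomputable section

open Classical MeasureTheory Filter Topology Set
open scoped Pointwise ENNReal

namespace Vale.Agent.P239

universe u
variable {G : Type u} [Group G] {S : Finset G} {l L : ℕ} {B : Bdry S}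

namespace Cores
variable (Z : Cores B L)

theorem wall_ne (hS : Cay S) {K : Set G} (hK : K ∈ Z.𝒦) : ((wallV S K) \ K).Nonempty := by
  obtain ⟨h1, h2⟩ := Z.two K hK
  rw [← hatSet_compl] at h2
  obtain ⟨x, hx⟩ := Set.Infinite.nonempty fun h => h1 (B.null_hatSet_of_finite hS h)
  obtain ⟨y, hy⟩ := Set.Infinite.nonempty fun h => h2 (B.null_hatSet_of_finite hS h)
  obtain ⟨r, hr⟩ := hS.exists_ball (x⁻¹ * y)
  obtain ⟨z, hz, s, hs, h3, -⟩ := exists_wall_path hS hx hy hr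
  exact ⟨z * s, hS.mul_mem_wallV hs fun h => h3 (h.1 hz), h3⟩

theorem outer_X (hS : Cay S) (hL : 1 ≤ L) {K : Set G} (hK : K ∈ Z.𝒦) : wallV S K \ K ⊆ Z.X := by
  have _ := hS
  rintro x ⟨⟨s, hs, h⟩, hx⟩ K' hK' hx'
  have h1 : x * s ∈ K := by tauto
  exact hx (Z.sep K' hK' K hK x hx' _ h1
    (bl_mono x hL (mul_mem_bl (mem_bl_self x 0) hs)) ▸ hx')

theorem wall_X (hS : Cay S) (hL : 1 ≤ L) {K : Set G} (hK : K ∈ Z.𝒦) :
    wallV S K ⊆ nbh S 1 Z.X := by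
  rintro x ⟨s, hs, h⟩
  by_cases hx : x ∈ K
  · exact ⟨x * s, Z.outer_X hS hL hK ⟨hS.mul_mem_wallV hs h, by tauto⟩,
      mem_bl_symm hS (mul_mem_bl (mem_bl_self x 0) hs)⟩
  · exact subset_nbh 1 _ (Z.outer_X hS hL hK ⟨⟨s, hs, h⟩, hx⟩)

theorem smul_mem_X {γ : G} (hγ : γ ∈ Z.Γ) {x : G} : γ * x ∈ Z.X ↔ x ∈ Z.X := by
  have h : ∀ γ ∈ Z.Γ, ∀ x, γ * x ∈ Z.X → x ∈ Z.X := fun γ hγ x h K hK hx =>
    h _ (Z.inv γ hγ K hK).1 (smul_mem_smul_set hx)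
  exact ⟨h γ hγ x, fun hx => h γ⁻¹ (inv_mem hγ) _ (by rwa [inv_mul_cancel_left])⟩

theorem core_eq {K : Set G} (hK : K ∈ Z.𝒦) {x : G} (hx : x ∈ K) : Z.core x = K := by
  refine Subset.antisymm ?_ (subset_sUnion_of_mem ⟨hK, hx⟩)
  rintro y ⟨K', ⟨h1, h2⟩, hy⟩
  exact Z.sep K' h1 K hK x h2 x hx (mem_bl_self x L) ▸ hy

theorem ftra_cof (r : ℕ) : ∃ F : Set G, F.Finite ∧ ∀ x ∈ nbh S r Z.X, ∃ γ ∈ Z.Γ, γ⁻¹ * x ∈ F := by
  obtain ⟨F, hF, h⟩ := Z.cof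
  refine ⟨nbh S r F, nbh_finite r hF, ?_⟩
  rintro x ⟨a, ha, hx⟩
  obtain ⟨γ, hγ, h1⟩ := h a ha
  exact ⟨γ, hγ, _, h1, by simpa [mul_assoc] using hx⟩

theorem ftra_pt (hS : Cay S) (hL : 2 ≤ L) : ∃ F : Set G, F.Finite ∧ ∀ K ∈ Z.𝒦, ∀ x ∈ wallV S K,
    ∃ γ ∈ Z.Γ, ∃ p ∈ F, γ * p ∈ K ∧ x ∈ bl S (γ * p) 1 := by
  obtain ⟨F, hF, h⟩ := Z.ftra_cof 2
  refine ⟨F, hF, fun K hK x hx => ?_⟩
  obtain ⟨y, hy, h1⟩ : ∃ y ∈ K, y ∈ bl S x 1 := by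
    obtain ⟨s, hs, h1⟩ := hx
    by_cases h2 : x ∈ K
    · exact ⟨x, h2, mem_bl_self x 1⟩
    · exact ⟨x * s, by tauto, mul_mem_bl (mem_bl_self x 0) hs⟩
  obtain ⟨γ, hγ, h2⟩ := h y (nbh_nbh 1 1 _ ⟨x, Z.wall_X hS (by omega) hK hx, h1⟩)
  refine ⟨γ, hγ, _, h2, ?_⟩
  rw [mul_inv_cancel_left]
  exact ⟨hy, mem_bl_symm hS h1⟩

theorem exists_pi (hS : Cay S) (x0 : G) : ∃ π : G → Z.Γ,
    (∀ (γ : Z.Γ) (x : G), π ((γ : G) * x) = γ * π x) ∧ π x0 = 1 ∧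
      ∀ r, ∃ R, ∀ x ∈ nbh S r Z.X, x ∈ bl S (π x : G) R := by
  obtain ⟨ρ, h1, h2⟩ : ∃ ρ : G → G, (∀ x, x * (ρ x)⁻¹ ∈ Z.Γ) ∧
      ∀ γ ∈ Z.Γ, ∀ x, ρ (γ * x) = ρ x := by
    refine ⟨fun x => (Quotient.mk (QuotientGroup.rightRel Z.Γ) x).out, fun x =>
      QuotientGroup.rightRel_apply.1 (Quotient.mk_out (s := QuotientGroup.rightRel Z.Γ) x),
      fun γ hγ x => congrArg Quotient.out (Quotient.sound ?_)⟩
    exact QuotientGroup.rightRel_apply.2 (by simpa using hγ)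
  refine ⟨fun x => ⟨_, h1 x⟩ * (⟨_, h1 x0⟩ : Z.Γ)⁻¹, fun γ x => Subtype.ext ?_,
    mul_inv_cancel _, fun r => ?_⟩
  · simp [h2 γ γ.2, mul_assoc]
  · obtain ⟨F, hF, h3⟩ := Z.ftra_cof r
    obtain ⟨R, hR⟩ := hS.finite_subset_ball (hF.image fun x => x0 * (ρ x0)⁻¹ * ρ x)
    refine ⟨R, fun x hx => ?_⟩
    obtain ⟨γ, hγ, h4⟩ := h3 x hx
    have h5 := hR _ (mem_image_of_mem _ h4)
    rw [h2 _ (inv_mem hγ)] at h5
    simpa [bl, mul_assoc] using h5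

theorem exists_reps (hS : Cay S) (hL : 2 ≤ L) : ∃ (n : ℕ) (K : Fin n → Set G), (∀ i, K i ∈ Z.𝒦) ∧
    (∀ K' ∈ Z.𝒦, ∃ (i : Fin n) (γ : Z.Γ), K' = (γ : G) • K i) ∧
    ∀ (i j : Fin n) (γ γ' : Z.Γ), (γ : G) • K i = (γ' : G) • K j → i = j := by
  obtain ⟨F, hF, h1⟩ := Z.ftra_pt hS hL
  have hT : (Quotient.mk (MulAction.orbitRel Z.Γ (Set G)) '' Z.𝒦).Finite := by
    refine ((hF.image Z.core).image (Quotient.mk _)).subset ?_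
    rintro _ ⟨K, hK, rfl⟩
    obtain ⟨x, hx, -⟩ := Z.wall_ne hS hK
    obtain ⟨γ, hγ, p, hp, h2, -⟩ := h1 K hK x hx
    refine ⟨_, mem_image_of_mem _ hp, Quotient.sound ⟨(⟨γ, hγ⟩ : Z.Γ)⁻¹, ?_⟩⟩
    exact (Z.core_eq (Z.inv γ⁻¹ (inv_mem hγ) K hK).1 (mem_inv_smul_set_iff.2 h2)).symm
  obtain ⟨n, ⟨e⟩⟩ := Finite.exists_equiv_fin _ (h := hT)
  choose K hK he using fun i => (e.symm i).2
  refine ⟨n, K, hK, fun K' hK' => ⟨e ⟨_, mem_image_of_mem _ hK'⟩, ?_⟩, fun i j γ γ' h => ?_⟩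
  · have h2 := he (e ⟨_, mem_image_of_mem _ hK'⟩)
    rw [e.symm_apply_apply] at h2
    obtain ⟨γ, hγ⟩ := Quotient.exact h2.symm
    exact ⟨γ, hγ.symm⟩
  · refine e.symm.injective (Subtype.ext ?_)
    rw [← he, ← he]
    refine Quotient.sound ⟨γ⁻¹ * γ', ?_⟩
    change ((γ : G)⁻¹ * γ') • K j = K i
    rw [mul_smul, ← h, inv_smul_smul]

theorem stab_cof (hS : Cay S) (hL : 2 ≤ L) {K : Set G} (hK : K ∈ Z.𝒦) :
    ∃ R, ∀ x ∈ wallV S K, ∃ γ ∈ Z.Γ, γ • K = K ∧ x ∈ bl S γ R := by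
  obtain ⟨F, hF, h1⟩ := Z.ftra_pt hS hL
  have h2 : ∀ p : G, ∃ c ∈ Z.Γ, ∀ γ ∈ Z.Γ, γ * p ∈ K → c * p ∈ K := fun p => by
    by_cases h : ∃ γ ∈ Z.Γ, γ * p ∈ K
    · exact h.imp fun γ h => ⟨h.1, fun _ _ _ => h.2⟩
    · exact ⟨1, one_mem _, fun γ hγ h3 => absurd ⟨γ, hγ, h3⟩ h⟩
  choose c hc h3 using h2
  obtain ⟨R, hR⟩ := hS.finite_subset_ball (hF.image fun p => c p * p)
  refine ⟨R + 1, fun x hx => ?_⟩
  obtain ⟨γ, hγ, p, hp, h4, h5⟩ := h1 K hK x hx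
  refine ⟨γ * (c p)⁻¹, mul_mem hγ (inv_mem (hc p)), ?_, mem_bl_trans ?_ h5⟩
  · rw [mul_smul, smul_eq_iff_eq_inv_smul]
    exact Z.sep _ (Z.inv _ (inv_mem (hc p)) K hK).1 _ (Z.inv _ (inv_mem hγ) K hK).1 p
      (mem_inv_smul_set_iff.2 (h3 p γ hγ h4)) p (mem_inv_smul_set_iff.2 h4) (mem_bl_self p L)
  · simpa [bl, mul_assoc] using hR _ (mem_image_of_mem _ hp)

theorem stab_gen (hS : Cay S) (hL : 2 ≤ L) {K : Set G} (hK : K ∈ Z.𝒦) :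
    ∃ R, ∀ γ : Z.Γ, (γ : G) • K = K →
      γ ∈ Subgroup.closure {σ : Z.Γ | (σ : G) • K = K ∧ (σ : G) ∈ ball S R} := by
  obtain ⟨R₀, h0⟩ := Z.stab_cof hS hL hK
  obtain ⟨x, hx, -⟩ := Z.wall_ne hS hK
  obtain ⟨r, hr⟩ := hS.exists_ball x
  have h1 : x ∈ bl S 1 (R₀ + r) := bl_mono 1 (Nat.le_add_left r R₀) (by simpa [bl] using hr)
  refine ⟨R₀ + r + 3 * L + (R₀ + r), fun γ hγ => ?_⟩
  have h2 : (γ : G) * x ∈ wallV S K := by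
    rw [← hγ, wallV_smul]
    exact smul_mem_smul_set hx
  have h3 := (Z.conn K hK x hx h2).2
  have h4 : (γ : G) * x ∈ bl S γ (R₀ + r) := by simpa [bl] using h1
  generalize (γ : G) * x = y at h3 h4
  clear h2
  induction h3 generalizing γ with
  | refl =>
    refine Subgroup.subset_closure ⟨hγ, ball_mono (by omega : R₀ + r + (R₀ + r) ≤ _) ?_⟩
    simpa [bl] using mem_bl_trans h1 (mem_bl_symm hS h4)
  | @tail a b _ hab ih =>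
    obtain ⟨σ, hσ, h5, h6⟩ := h0 a hab.1
    have h7 := bl_mono σ (Nat.le_add_right R₀ r) h6
    have h8 : b ∈ bl S a (3 * L) := hab.2.2.elim id fun ⟨i, _⟩ => i.elim0
    rw [← mul_inv_cancel_left (⟨σ, hσ⟩ : Z.Γ) γ]
    refine mul_mem (ih ⟨σ, hσ⟩ h5 h7) (Subgroup.subset_closure
      ⟨?_, mem_bl_trans (mem_bl_trans h7 h8) (mem_bl_symm hS h4)⟩)
    change (σ⁻¹ * γ) • K = K
    rw [mul_smul, hγ, inv_smul_eq_iff, h5]

theorem stab_infinite (hS : Cay S) (h1 : OneEnded S) (hL : 2 ≤ L) {K : Set G} (hK : K ∈ Z.𝒦) :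
    {γ : Z.Γ | (γ : G) • K = K}.Infinite := by
  intro h
  obtain ⟨R, hR⟩ := Z.stab_cof hS hL hK
  refine (Z.two K hK).wallV_infinite hS h1 
    ((nbh_finite (S := S) R (h.image Subtype.val)).subset ?_)
  intro x hx
  obtain ⟨γ, hγ, h2, h3⟩ := hR x hx
  exact ⟨γ, ⟨⟨γ, hγ⟩, h2, rfl⟩, h3⟩

end Cores

end Vale.Agent.P239
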