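import Vale.Agent.P239.Full.FTrA
import Vale.Agent.P239.Full.FClB
import Vale.Agent.P239.Full.FAM

/-! Task FTrB: elementary properties of the transport data. `scale`: finitely many elements, `Y.cay.exists_ball`. `H_le`: `inv`, `IsCl.mem_of_cjg`. `nbh_trc`: for each `b ∈ ball R` choose `m_b ∈ t` with `m_b b ∈ Γ` if possible; `m b = (m m_b⁻¹) (m_b b)`.
-/

noncomputable section

open Classical MeasureTheory Filter Topology Set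
open scoped Pointwise ENNReal

namespace Vale.Agent.P239

universe u
variable {G : Type u} [Group G] {S : Finset G} {l L : ℕ} {B : Bdry S} {Z : Cores B L}
  (Y : Tr Z)

theorem tf_sub (h : TorsionFree G) (Γ : Subgroup G) : TorsionFree Γ := by
  exact fun g hg => Subtype.ext (h g (Γ.subtype.isOfFinOrder hg))

theorem mem_upF {Γ : Subgroup G} {T : Finset Γ} {x : G} : x ∈ upF T ↔ ∃ γ ∈ T, (γ : G) = x := by
  exact Finset.mem_map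

theorem closure_upF {Γ : Subgroup G} (T : Finset Γ) :
    Subgroup.closure (upF T : Set G) = (Subgroup.closure (T : Set Γ)).map Γ.subtype := by
  rw [MonoidHom.map_closure, upF, Finset.coe_map]
  rfl

namespace Tr

theorem ftrB_cls (hS : Cay S) {g : G} (hg : g ∈ Z.Γ) {K : Set G} (hK : K ∈ Z.𝒦) (h : g • K = K) :
    g ∈ Z.cls K :=
  (Z.cl K hK).1.mem_of_cjg hS (by rw [← (Z.inv g hg K hK).2, h])

theorem scale (R : ℕ) : ∃ m, ∀ γ : Z.Γ, (γ : G) ∈ ball S R → γ ∈ ball Y.S' m := by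
  exact Y.cay.finite_subset_ball
    ((ball S R).finite_toSet.preimage (f := Subtype.val) Subtype.val_injective.injOn)

theorem scaleT (R : ℕ) : ∃ m, ∀ i, ∀ h ∈ Y.Q.H i, (h : G) ∈ ball S R → h ∈ ball (Y.Q.T i) m := by
  have h1 : ∀ p : Fin Y.Q.n × Z.Γ, ∃ r, p.2 ∈ Y.Q.H p.1 → p.2 ∈ ball (Y.Q.T p.1) r := fun p => by
    by_cases h : p.2 ∈ Y.Q.H p.1
    · exact (mem_ball_of_closure (Y.Q.symm p.1) h).imp fun _ h _ => h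
    · exact ⟨0, fun h' => absurd h' h⟩
  choose r hr using h1
  obtain ⟨m, hm⟩ := ((finite_univ.prod ((ball S R).finite_toSet.preimage (f := Subtype.val)
    Subtype.val_injective.injOn)).image r).bddAbove
  exact ⟨m, fun i h hh hb => ball_mono (hm ⟨(i, h), ⟨trivial, hb⟩, rfl⟩) (hr (i, h) hh)⟩

theorem scale' (hS : Cay S) (m : ℕ) : ∃ R, ∀ γ ∈ ball Y.S' m, (γ : G) ∈ ball S R := by
  obtain ⟨R, hR⟩ := hS.finite_subset_ball ((ball Y.S' m).finite_toSet.image Subtype.val)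
  exact ⟨R, fun γ hγ => hR _ ⟨γ, hγ, rfl⟩⟩

theorem fib_finite {F : Set Z.Γ} (hF : F.Finite) : {x | x ∈ nbh S 1 Z.X ∧ Y.π x ∈ F}.Finite := by
  obtain ⟨R, hR⟩ := Y.near
  exact (hF.biUnion fun γ _ => bl_finite (S := S) (γ : G) R).subset fun x hx =>
    mem_biUnion hx.2 (hR x hx.1)

theorem smul_K_mem (i : Fin Y.Q.n) (γ : Z.Γ) : (γ : G) • Y.K i ∈ Z.𝒦 := by
  exact (Z.inv γ γ.2 _ (Y.K_mem i)).1

theorem mem_cone_iff (i : Fin Y.Q.n) (γ σ : Z.Γ) :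
    σ ∈ Y.Q.cone i γ ↔ (σ : G) • Y.K i = (γ : G) • Y.K i := by
  refine (Y.H_eq i (γ⁻¹ * σ)).trans ?_
  rw [Subgroup.coe_mul, Subgroup.coe_inv, mul_smul, inv_smul_eq_iff]

theorem wall_sub (hS : Cay S) (hL : 1 ≤ L) : ∃ R, ∀ i (γ : Z.Γ), ∀ x ∈ wallV S ((γ : G) • Y.K i),
    ∃ σ ∈ Y.Q.cone i γ, x ∈ bl S (σ : G) R := by
  obtain ⟨R, hR⟩ := Y.near
  obtain ⟨R', hR'⟩ := Y.scale' hS 1
  refine ⟨R' + R, fun i γ x hx => ?_⟩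
  have h1 := Z.wall_X hS hL (Y.smul_K_mem i γ) hx
  obtain ⟨σ, h2, h3⟩ := Y.cone i γ x h1 (subset_nbh _ _ hx)
  exact ⟨σ, h2, mem_bl_trans (hR' _ h3) (hR x h1)⟩

theorem H_le (hS : Cay S) {i : Fin Y.Q.n} {h : Z.Γ} (hh : h ∈ Y.Q.H i) :
    (h : G) ∈ Z.cls (Y.K i) := by
  exact ftrB_cls hS h.2 (Y.K_mem i) ((Y.H_eq i h).1 hh)

theorem cone_cls (hS : Cay S) {i : Fin Y.Q.n} {γ σ : Z.Γ} (h : σ ∈ Y.Q.cone i γ) :
    (σ : G) * (γ : G)⁻¹ ∈ Z.cls ((γ : G) • Y.K i) := by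
  refine ftrB_cls hS (mul_mem σ.2 (inv_mem γ.2)) (Y.smul_K_mem i γ) ?_
  rw [mul_smul, inv_smul_smul, (Y.mem_cone_iff i γ σ).1 h]

include Y in
theorem wall_cls (hS : Cay S) (hL : 1 ≤ L) {K : Set G} (hK : K ∈ Z.𝒦) :
    ∃ R, wallV S K ⊆ nbh S R (Z.cls K) := by
  obtain ⟨i, γ, rfl⟩ := Y.orbit K hK
  obtain ⟨R, hR⟩ := Y.wall_sub hS hL
  obtain ⟨r, hr⟩ := hS.exists_ball γ
  refine ⟨r + R, fun x hx => ?_⟩
  obtain ⟨σ, h1, h2⟩ := hR i γ x hx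
  exact ⟨_, Y.cone_cls hS h1, by simpa [mul_assoc] using mul_mem_ball hr h2⟩

theorem upF_sub (hS : Cay S) (i : Fin Y.Q.n) : (upF (Y.Q.T i) : Set G) ⊆ Z.cls (Y.K i) := by
  intro x hx
  obtain ⟨γ, h, rfl⟩ := mem_upF.1 hx
  exact Y.H_le hS (Subgroup.subset_closure h)

theorem wallOf (hS : Cay S) (hL : 1 ≤ L) (i : Fin Y.Q.n) :
    WallOf B (Subgroup.closure (upF (Y.Q.T i) : Set G)) (Y.K i) := by
  obtain ⟨R, hR⟩ := Y.wall_sub hS hL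
  refine ⟨Z.two _ (Y.K_mem i), R, fun x hx => ?_⟩
  obtain ⟨σ, h1, h2⟩ := hR i 1 x (by simpa using hx)
  refine ⟨σ, ?_, h2⟩
  rw [closure_upF]
  exact ⟨σ, by simpa [Cones.cone, Cones.H] using h1, rfl⟩

theorem outer (hS : Cay S) (hL : 1 ≤ L) (i : Fin Y.Q.n) (γ : Z.Γ) : ∃ (z : G) (d : Z.Γ),
    ∀ σ ∈ Y.Q.cone i γ, (σ : G) * z ∈ wallV S ((γ : G) • Y.K i) ∧ (σ : G) * z ∈ Z.X ∧
      Y.π ((σ : G) * z) = σ * d := by
  obtain ⟨z, hz⟩ := Z.wall_ne hS (Y.K_mem i)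
  refine ⟨z, Y.π z, fun σ hσ => ⟨?_, (Z.smul_mem_X σ.2).2 (Z.outer_X hS hL (Y.K_mem i) hz),
    Y.π_mul σ z⟩⟩
  rw [← (Y.mem_cone_iff i γ σ).1 hσ, wallV_smul]
  exact smul_mem_smul_set hz.1

theorem nbh_trc (t : Subgroup G) (R : ℕ) :
    ∃ r, ∀ γ : Z.Γ, (γ : G) ∈ nbh S R t → γ ∈ nbh Y.S' r (trc Z.Γ t) := by
  have h1 : ∀ b : G, ∃ e : Z.Γ, ∀ γ : Z.Γ, (γ : G) * b⁻¹ ∈ t → (e : G) * b⁻¹ ∈ t := fun b => by
    by_cases h : ∃ γ : Z.Γ, (γ : G) * b⁻¹ ∈ t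
    · exact h.imp fun _ h _ _ => h
    · exact ⟨1, fun γ h' => absurd ⟨γ, h'⟩ h⟩
  choose e he using h1
  obtain ⟨r, hr⟩ := Y.cay.finite_subset_ball ((ball S R).finite_toSet.image e)
  refine ⟨r, fun γ ⟨a, ha, hb⟩ => ⟨γ * (e (a⁻¹ * γ))⁻¹, ?_, by simpa using hr _ ⟨_, hb, rfl⟩⟩⟩
  have h2 : (γ : G) * (a⁻¹ * γ)⁻¹ ∈ t := by simpa using ha
  simpa [trc, mul_assoc] using mul_mem h2 (inv_mem (he _ γ h2))

theorem nbh_trc' (hS : Cay S) (t : Subgroup G) (r : ℕ) :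
    ∃ R, ∀ γ ∈ nbh Y.S' r (trc Z.Γ t), (γ : G) ∈ nbh S R t := by
  obtain ⟨R, hR⟩ := Y.scale' hS r
  exact ⟨R, fun γ ⟨a, ha, hb⟩ => ⟨a, ha, hR _ hb⟩⟩

/-- All cores with a given class lie in one neighbourhood. -/
theorem same_cls (hS : Cay S) {t : Subgroup G} (ht : IsCl S t) :
    ∃ r, ∀ i (γ : Z.Γ), Z.cls ((γ : G) • Y.K i) = t → γ ∈ nbh Y.S' r (trc Z.Γ t) := by
  have h1 : ∀ i, ∃ e : Z.Γ, ∀ γ : Z.Γ, Z.cls ((γ : G) • Y.K i) = t →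
      Z.cls ((e : G) • Y.K i) = t := fun i => by
    by_cases h : ∃ γ : Z.Γ, Z.cls ((γ : G) • Y.K i) = t
    · exact h.imp fun _ h _ _ => h
    · exact ⟨1, fun γ h' => absurd ⟨γ, h'⟩ h⟩
  choose e he using h1
  obtain ⟨r, hr⟩ := Y.cay.finite_subset_ball (finite_range e)
  refine ⟨r, fun i γ h => ⟨γ * (e i)⁻¹, ht.mem_of_cjg hS ?_, by simpa using hr _ ⟨i, rfl⟩⟩⟩
  have h2 := he i γ h
  rw [(Z.inv _ (Subtype.prop _) _ (Y.K_mem i)).2] at h h2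
  conv_lhs => rw [← h2]
  rw [← cjg_mul, ← h]
  simp

end Tr

end Vale.Agent.P239
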