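import Vale.Agent.P239.Full.FFrame

/-! Task FW1: in the limit all walls are wired. Fix `ρ`, `T = ball S ρ`, the frame `u s`. For `m` take `k m` from `w1_fin` with `ε = 2^(-m)`. For a finset `W`, `F m s W ω = ∑_{g ∈ W} ∑_{b ∈ T} (tE^[k m] (edR (cfD ω) (u s (g⁻¹ ·))) 1 b)²` is continuous in `ω`
(it is built from finitely many coordinates; induction on `k`), and `av (D n) (ω n) (F m s W) ≤ 2^(-m)` (`tE_translate`, `cfD_sh`, the finset `D n * W`). `Up`, monotone convergence in `W` and summation over `m` show that a.s. for all existing `(1, j)` the double series is finite, so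
each term tends to zero as `m → ∞`. By `ae_root` the same holds at every existing point; by `str` every `x ∈ cfD (cfg p)` is the vertex of an existing point with the same configuration. `pair_eq_zero` and totality of the frame.
-/

noncomputable section

open Classical MeasureTheory Filter Topology Set
open scoped Pointwise ENNReal

namespace Vale.Agent.P239

universe u
variable {G : Type u} [Group G] {S : Finset G} {l : ℕ} {Q : Cones S} {B : Bdry S}
  {X : Type u} [MeasurableSpace X]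

theorem fw1_edR (T : Finset G) {w : Cf G → G → ℝ} (hw : ∀ x, Continuous fun ω => w ω x)
    (x b : G) : Continuous fun ω => edR T (cfD ω) (w ω) x b := by
  have h1 : Continuous fun ω : Cf G => (ω x (Sum.inl true), ω (x * b) (Sum.inl true)) := by
    fun_prop
  have h2 := (continuous_of_discreteTopology (f := fun p : Bool × Bool =>
    if b ∈ T ∧ p.1 = true ∧ p.2 = true then (1 : ℝ) else 0)).comp h1
  refine (h2.mul ((hw (x * b)).sub (hw x))).congr fun ω => ?_
  simp only [edR, cfD, Function.comp, mem_ofPred_eq, Pi.mul_apply, Pi.sub_apply, ite_mul, one_mul,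
    zero_mul]
  by_cases h : b ∈ T ∧ ω x (Sum.inl true) = true ∧ ω (x * b) (Sum.inl true) = true
  · exact (if_pos h).trans (if_pos h).symm
  · exact (if_neg h).trans (if_neg h).symm

theorem fw1_cont (T : Finset G) (v : G → ℝ) (k : ℕ) : ∀ x b : G,
    Continuous fun ω : Cf G => (tE T (cfD ω))^[k] (edR T (cfD ω) v) x b := by
  induction k with
  | zero => exact fw1_edR T fun _ => continuous_const
  | succ k ih =>
    intro x b
    simp only [Function.iterate_succ_apply']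
    exact (ih x b).sub ((fw1_edR T (fun y => continuous_finsetSum T fun b _ =>
      (ih _ b).sub (ih y b)) x b).div_const _)

theorem fw1_av {T D : Finset G} {ω : Cf G} (hD : (D : Set G) = cfD ω) (hne : D.Nonempty)
    {u : G → ℝ} {k : ℕ} {ε : ℝ} (g : G)
    (h : ∀ W : Finset G, ∑ g ∈ W, ∑ x ∈ D, ∑ b ∈ T,
      ((tE T (D : Set G))^[k] (edR T (D : Set G) fun y => u (g⁻¹ * y)) x b) ^ 2 ≤ ε * D.card) :
    av D ω (fun a => ∑ b ∈ T,
      ((tE T (cfD a))^[k] (edR T (cfD a) fun y => u (g⁻¹ * y)) 1 b) ^ 2) ≤ ε := by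
  rw [av, div_le_iff₀ (Nat.cast_pos.2 hne.card_pos)]
  refine le_trans ?_ (h (D.image (· * g)))
  rw [Finset.sum_comm (s := D.image _)]
  refine Finset.sum_le_sum fun d hd => le_trans (le_of_eq ?_) (Finset.single_le_sum
    (f := fun g => ∑ b ∈ T,
      ((tE T (D : Set G))^[k] (edR T (D : Set G) fun y => u (g⁻¹ * y)) d b) ^ 2)
    (fun _ _ => Finset.sum_nonneg fun _ _ => sq_nonneg _) (Finset.mem_image_of_mem _ hd))
  refine Finset.sum_congr rfl fun b _ => ?_
  rw [← tE_translate _ _ _ d, cfD_sh, smul_inv_smul, hD]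
  simp only [mul_inv_rev, mul_assoc, mul_one]

theorem fw1_root [Countable G] (E : MEnv G X) {D : ℕ → Finset G} {ω : ℕ → Cf G}
    (hD : ∀ n, (D n : Set G) = cfD (ω n)) (hne : ∀ n, (D n).Nonempty) (hU : E.Up D ω)
    {T : Finset G} {k : ℕ → ℕ} (hk : ∀ m, ∀ (D W : Finset G) (u : G → ℝ), Bessel S u →
      ∑ g ∈ W, ∑ x ∈ D, ∑ b ∈ T, ((tE T (D : Set G))^[k m]
        (edR T (D : Set G) fun y => u (g⁻¹ * y)) x b) ^ 2 ≤ (1 / 2) ^ m * D.card)
    {u : G → ℝ} (hu : Bessel S u) (g : G) (j : ℕ) :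
    ∀ᵐ ξ ∂E.A.P, E.r ξ (1, j) (1, j) → ∀ b ∈ T, Tendsto (fun m => (tE T (cfD (E.cfg ξ (1, j))))^[k m]
      (edR T (cfD (E.cfg ξ (1, j))) fun y => u (g⁻¹ * y)) 1 b) atTop (𝓝 0) := by
  obtain ⟨F, hF⟩ : ∃ F : ℕ → Cf G → ℝ, F = fun m a => ∑ b ∈ T,
    ((tE T (cfD a))^[k m] (edR T (cfD a) fun y => u (g⁻¹ * y)) 1 b) ^ 2 := ⟨_, rfl⟩
  have hc : ∀ m, Continuous (F m) := fun m => hF ▸
    continuous_finsetSum T fun b _ => (fw1_cont T _ (k m) 1 b).pow 2
  have h0 : ∀ m a, 0 ≤ F m a := fun m a => hF ▸ Finset.sum_nonneg fun _ _ => sq_nonneg _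
  have hm : ∀ m, Measurable fun ξ =>
      if E.r ξ (1, j) (1, j) then ENNReal.ofReal (F m (E.cfg ξ (1, j))) else 0 := fun m =>
    Measurable.ite (E.meas _ _) ((hc m).measurable.comp (E.meas_cfg _)).ennreal_ofReal
      measurable_const
  have h1 : ∫⁻ ξ, ∑' m, (if E.r ξ (1, j) (1, j) then ENNReal.ofReal (F m (E.cfg ξ (1, j)))
      else 0) ∂E.A.P ≠ ⊤ := by
    rw [lintegral_tsum fun m => (hm m).aemeasurable]
    refine ne_top_of_le_ne_top (Summable.tsum_ofReal_ne_top summable_geometric_two)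
      (ENNReal.tsum_le_tsum fun m => (ENNReal.le_tsum j).trans
        (hU (F m) (hc m) (h0 m) _ (Eventually.of_forall fun n => ?_)))
    exact hF ▸ fw1_av (hD n) (hne n) g fun W => hk m (D n) W u hu
  filter_upwards [ae_lt_top (Measurable.tsum hm) h1] with ξ hξ hr b hb
  simp only [if_pos hr] at hξ
  have h2 := (ENNReal.tendsto_toReal ENNReal.zero_ne_top).comp
    (ENNReal.tendsto_atTop_zero_of_tsum_ne_top hξ.ne)
  have h3 := h2.sqrt
  rw [ENNReal.toReal_zero, Real.sqrt_zero] at h3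
  refine squeeze_zero_norm (fun m => Real.abs_le_sqrt ?_) h3
  rw [Function.comp, ENNReal.toReal_ofReal (h0 _ _), hF]
  exact Finset.single_le_sum (f := fun b => ((tE T (cfD (E.cfg ξ (1, j))))^[k m]
    (edR T (cfD (E.cfg ξ (1, j))) fun y => u (g⁻¹ * y)) 1 b) ^ 2) (fun _ _ => sq_nonneg _) hb

theorem MEnv.ae_wd (hS : Cay S) (E : MEnv G X) {D : ℕ → Finset G} {ω : ℕ → Cf G}
    (hD : ∀ n, (D n : Set G) = cfD (ω n)) (hne : ∀ n, (D n).Nonempty) (hU : E.Up D ω) :
    ∀ᵐ ξ ∂E.A.P, ∀ p, E.r ξ p p → ∀ ρ, WD S (ball S ρ) (cfD (E.cfg ξ p)) := by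
  have := hS.countable
  obtain ⟨u, hu, hfr⟩ := exists_frame hS
  have hT : ∀ ρ, (ball S ρ).Nonempty := fun ρ => ⟨1, one_mem_ball ρ⟩
  choose k hk using fun ρ (m : ℕ) => w1_fin hS (ball S ρ) (hT ρ)
    (show (0 : ℝ) < (1 / 2) ^ m by positivity)
  have h1 : ∀ ρ, ∀ᵐ ξ ∂E.A.P, ∀ p, E.r ξ p p → ∀ s g, ∀ b ∈ ball S ρ,
      Tendsto (fun m => (tE (ball S ρ) (cfD (E.cfg ξ p)))^[k ρ m]
        (edR (ball S ρ) (cfD (E.cfg ξ p)) fun y => u s (g⁻¹ * y)) p.1 b) atTop (𝓝 0) := fun ρ => by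
    refine E.toREnv.ae_root (fun h ξ p hp s g b hb => ?_) ?_
    · refine (hp s (h⁻¹ * g) b hb).congr fun m => ?_
      rw [E.cfg_sh, cfD_sh, ← tE_translate _ _ _ h]
      simp only [mul_inv_rev, inv_inv, mul_assoc, mul_inv_cancel_left]
    · have h2 := ae_all_iff.2 fun s => ae_all_iff.2 fun g => ae_all_iff.2 fun j =>
        fw1_root E hD hne hU (hk ρ) (hu s) g j
      filter_upwards [h2] with ξ hξ j hj s g using hξ s g j hj
  filter_upwards [ae_all_iff.2 h1, E.str, E.ok] with ξ k1 k2 k3 p hp ρ w hw f hf hs hd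
  refine hfr _ f hf (fun s _ g => pair_eq_zero hS _ (hT ρ) ((hu s).1.translate g⁻¹).1
    (k := k ρ) (fun x hx b hb => ?_) hf hs hd) w hw
  obtain ⟨j, hj⟩ : x ∈ fibR (E.r ξ) p := k2.2 p hp ▸ hx
  rw [k2.1 p _ hj]
  exact k1 ρ (x, j) (k3.trans _ _ _ (k3.symm _ _ hj) hj) s g b hb

end Vale.Agent.P239
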